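/-
Row 258 (S0498), Sec. 9 (counting.tex).  HOME ARCHITECT: helper41.      THE INTERFACE OF SEC. 9:  `S9Sys`, `S9Sys.Valid`, `S9ParOk`.

`S9Sys d` = what Sec. 9 CONSUMES about one leaf of one attempt and ONE core/side pattern (at most one side role), in abstract form:
no towers, no graphs, no catalogs.  The adapter `ModeSys → S9Sys` (Sec. 8, helper61) fills it as follows (`u = (G, I)` an actual live use,
`J = s8Pre K R I`, `U = s8Frz K R I`):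
  `cells`   the retained active cells;  `uses` the actual uses on them (non-live uses: all core arguments vanish, drop them or give them `md = ∅`);
  `sd l`    `true` iff `l` is the side role of the pattern;   `vth G = ϑ` (common to the four gauges of the group);
  `gau l G = (M.gauge l G).gau (s8c4 l)`;   `lam, gam` = `M.lam, M.gam`;   `md l u = M.coreL p l G J`;   `al l u = M.alpha l G U`;
  `cls l u m` = a name (e.g. the least element) of the minimal CURRENT component `cF p l G J 0 m`;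
  `good l u h D`, `rep l u h D` = `M.good p l G J h m`, `rep l G h J m` for the core modes `m` of the class `D` (Lemma 8.4 (c): independent of `m`, `h ∈ up`);
  `typ l u h a = M.typ p l G J h a`, `sg l u h a = √(M.sig2 p l G I h a)` for a LABEL `a` (= a representative);
  `Sd u` = physical component of the side state;   `gauS G ρ` = the gauge factor of the side role with the FRESH offsets `ρ` (finitely many).
Everything tiny is `≤ D_*^{-300}` (`D_*^{-200}` for the cross inner products); `U_0 = D_*^{250}`, `Δ = 10`, `ξ = ϑ / 6^{h-10}`, `B'_h = D_*^5 E_{h-10}`.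
The result of Sec. 9 is `s9_main` (S9/Main.lean).
-/
import Claimed.Agent.R258.Pack012
import Claimed.Agent.R258.Pack013

set_option autoImplicit false
open MeasureTheory

namespace Claimed.Agent.R258

open scoped BigOperators ComplexConjugate
open Classical

noncomputable section

/-- **(M1) the progression multiplier** (Sec. 8.3) for four gauge factors `g j`, anchor `l'`: a two-variable family on the `ϑ` torus, bounded by `2`,
which reproduces the product of the four gauge factors up to `tiny`, after taking out the moduli (`y = y_{l'}`, `y_j = y + (j - l') t`). -/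
def S9Mult {d : ℕ} (ϑ : Fin d → ℝ) (g : Fin 4 → ℝ → ℂ) (l' : Fin 4) (Bs : ℕ) (D tiny : ℝ) : Prop :=
  ∃ (ιR : Type) (_ : Fintype ιR) (nR mR : ιR → Fin d → ℤ) (cR : ιR → ℂ),
    (∀ i, S9Box Bs (nR i) ∧ S9Box Bs (mR i)) ∧ s9l1 cR ≤ D ∧ (∀ u v, ‖s9ev2 nR mR cR u v‖ ≤ 2) ∧
    ∀ y t : ℝ, ‖∏ j, g j (y + (s9al l' j : ℝ) * t)
        - (∑ i, cR i * ee (s9dot (nR i) ϑ * y + s9dot (mR i) ϑ * t)) * ∏ j, (‖g j (y + (s9al l' j : ℝ) * t)‖ : ℂ)‖ ≤ tiny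

/-- **(M2)** the modulus of a gauge factor (= the periodic cutoff) is a trigonometric family on the `ϑ` torus up to `tiny`. -/
def S9Cut {d : ℕ} (ϑ : Fin d → ℝ) (g : ℝ → ℂ) (Bs : ℕ) (D tiny : ℝ) : Prop :=
  ∃ (ιZ : Type) (_ : Fintype ιZ) (nZ : ιZ → Fin d → ℤ) (cZ : ιZ → ℂ),
    (∀ i, S9Box Bs (nZ i)) ∧ s9l1 cZ ≤ D ∧ ∀ y : ℝ, ‖(‖g y‖ : ℂ) - ∑ i, cZ i * ee (s9dot (nZ i) ϑ * y)‖ ≤ tiny

/-- **the tiny/huge dichotomy** of the frequencies `n · ζ`, `|n|_∞ ≤ B`, at the scale `r`, with its character quotient `κ`. -/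
def S9Dich {d : ℕ} (ζ : Fin d → ℝ) (B : ℕ) (r TT : ℝ) : Prop :=
  ∃ (d' : ℕ) (kap : (Fin d → ℤ) →+ (Fin d' → ℤ)), ∀ n, S9Box B n →
    (kap n = 0 → r * |s9dot n ζ| ≤ TT⁻¹) ∧ (kap n ≠ 0 → TT ≤ r * |s9dot n ζ|)

/-- the data of Sec. 9 (one leaf, one pattern) -/
structure S9Sys (d : ℕ) where
  root : Cell
  cells : Finset Cell
  w : Cell → ℝ × ℝ → ℂ
  uses : Finset (ℕ × Cell)
  /-- `true` = the side role -/
  sd : Fin 4 → Bool
  vth : ℕ → Fin d → ℝ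
  gau : Fin 4 → ℕ → ℝ → ℂ
  lam : ℕ → ℝ
  gam : ℕ → ℝ
  /-- the core modes of (role, use) and their frozen coefficients -/
  md : Fin 4 → ℕ × Cell → Finset ℕ
  al : Fin 4 → ℕ × Cell → ℕ → ℂ
  /-- name of the minimal CURRENT class of a mode -/
  cls : Fin 4 → ℕ × Cell → ℕ → ℕ
  /-- (role, use, height, class) -/
  good : Fin 4 → ℕ × Cell → ℕ → ℕ → Prop
  /-- (role, use, height, class) ↦ label -/
  rep : Fin 4 → ℕ × Cell → ℕ → ℕ → ℕ
  /-- (role, use, height, label) -/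
  typ : Fin 4 → ℕ × Cell → ℕ → ℕ → ℕ × ℕ
  sg : Fin 4 → ℕ × Cell → ℕ → ℕ → ℝ
  /-- the side function at the use -/
  Sd : ℕ × Cell → ℝ → ℂ
  /-- the fresh gauge factors of the side role -/
  nof : ℕ
  gauS : ℕ → Fin nof → ℝ → ℂ

namespace S9Sys
variable {d : ℕ} (S : S9Sys d)

/-- `ω_m(x) = 2 λ_m x + γ_m` -/
def om (m : ℕ) (x : ℝ) : ℝ := 2 * S.lam m * x + S.gam m
/-- the scalar mode atom (20) -/
def atom (j : Fin 4) (G m : ℕ) (y : ℝ) : ℂ := S.gau j G y * ee (S.lam m * y ^ 2 + S.gam m * y)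
/-- coefficient subtotal over the modes `Y` -/
def sub (j : Fin 4) (u : ℕ × Cell) (Y : Finset ℕ) (y : ℝ) : ℂ := ∑ m ∈ Y, S.al j u m * S.atom j u.1 m y
/-- the argument of the role `j` at the use `u` -/
def arg (u : ℕ × Cell) (j : Fin 4) : ℝ → ℂ := if S.sd j = true then S.Sd u else S.sub j u (S.md j u)
/-- **the quantity estimated in Sec. 9** -/
def tot (I : Cell) : ℝ := ∑ u ∈ S.uses.filter (fun u => u.2 = I), ‖form I (S.w I) (S.arg u)‖
/-- the classes of (role, use) -/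
def clsOf (j : Fin 4) (u : ℕ × Cell) : Finset ℕ := (S.md j u).image (S.cls j u)
/-- the modes of a class -/
def mdOf (j : Fin 4) (u : ℕ × Cell) (D : ℕ) : Finset ℕ := (S.md j u).filter fun m => S.cls j u m = D
/-- absolute coefficient sum of a class -/
def cD (j : Fin 4) (u : ℕ × Cell) (D : ℕ) : ℝ := ∑ m ∈ S.mdOf j u D, ‖S.al j u m‖
/-- the floored size of a class, summand of (26) (physical norm) -/
def sz (Ds : ℕ) (j : Fin 4) (u : ℕ × Cell) (D : ℕ) : ℝ :=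
  nnorm 2 u.2 (S.sub j u (S.mdOf j u D)) + ((Ds : ℝ) ^ 30)⁻¹ * S.cD j u D
/-- the labels of (role, use, height) -/
def lab (j : Fin 4) (u : ℕ × Cell) (h : ℕ) : Finset ℕ := ((S.clsOf j u).filter (S.good j u h)).image (S.rep j u h)
/-- the pairs (group, label) used in the amplitude bin `[σ, 2σ)` at a cell above `I₀` (fixed role, height, type) -/
def usedLab (j : Fin 4) (h : ℕ) (ty : ℕ × ℕ) (σ : ℝ) (I₀ : Cell) : Finset (ℕ × ℕ) :=
  (S.uses.filter fun u => I₀ ≤ u.2).biUnion fun u =>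
    ((S.lab j u h).filter fun a => S.typ j u h a = ty ∧ σ ≤ S.sg j u h a ∧ S.sg j u h a < 2 * σ).image fun a => (u.1, a)
/-- the four gauge factors with the fresh one in the side role -/
def gauF (G : ℕ) (ρ : Fin S.nof) (j : Fin 4) : ℝ → ℂ := if S.sd j = true then S.gauS G ρ else S.gau j G

/-- **the hypotheses of Sec. 9.**  `p` = the parameters of Sec. 8, `PC` = the path cap constant of (28) and of the side square budget,
`tys` = the possible types. -/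
structure Valid (c0 C0 : ℝ) (p : S8Par) (PC : ℝ) (tys : Finset (ℕ × ℕ)) : Prop where
  cells_le : ∀ I ∈ S.cells, I ≤ S.root
  adm : ∀ I ∈ S.cells, Admissible c0 C0 I (S.w I)
  uses_sub : ∀ u ∈ S.uses, u.2 ∈ S.cells
  sd_le : (Finset.univ.filter fun l => S.sd l = true).card ≤ 1
  PC_ge : 1 ≤ PC
  /-- total length of the uses (groups and scales together) -/
  use_len : ∑ u ∈ S.uses, u.2.len ≤ p.Ds * S.root.len
  gau_meas : ∀ j G, Measurable (S.gau j G)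
  gau_le : ∀ j G y, ‖S.gau j G y‖ ≤ 1
  md_card : ∀ j, ∀ u ∈ S.uses, (S.md j u).card ≤ p.Ds
  al_sum : ∀ j, ∀ u ∈ S.uses, ∑ m ∈ S.md j u, ‖S.al j u m‖ ≤ p.Ds
  good_ge : ∀ j u h D, S.good j u h D → 10 ≤ h
  /-- Lemma 8.4 (d) -/
  bad : ∀ j, S.sd j = false → ∀ u ∈ S.uses, ∀ D ∈ S.clsOf j u,
    ((p.up.filter fun h => ¬ S.good j u h D).card : ℝ) ≤ 2 * p.δs * (p.up.card : ℝ)
  /-- (26): the selected classes of one label -/
  sg_nonneg : ∀ j u h a, 0 ≤ S.sg j u h a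
  size : ∀ j, S.sd j = false → ∀ u ∈ S.uses, ∀ h ∈ p.up, ∀ a,
    ∑ D ∈ (S.clsOf j u).filter (fun D => S.good j u h D ∧ S.rep j u h D = a), S.sz p.Ds j u D ^ 2 ≤ S.sg j u h a ^ 2
  /-- the PRE path from a selected mode to its representative -/
  lin : ∀ j, S.sd j = false → ∀ u ∈ S.uses, ∀ h ∈ p.up, ∀ m ∈ S.md j u, S.good j u h (S.cls j u m) →
    ∃ n : Fin d → ℤ, S9Box (p.Ds * p.E (h - 10)) n ∧ ∀ x ∈ u.2.set,
      u.2.len * |S.om m x - S.om (S.rep j u h (S.cls j u m)) x - s9dot n (S.vth u.1) / 6 ^ (h - 10)| ≤ ((p.Ds : ℝ) ^ 300)⁻¹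
  curv : ∀ j, S.sd j = false → ∀ u ∈ S.uses, ∀ m ∈ S.md j u, |S.lam m| * u.2.len ^ 2 ≤ ((p.Ds : ℝ) ^ 300)⁻¹
  /-- almost orthogonality of distinct minimal CURRENT classes on the cell -/
  orth : ∀ j, S.sd j = false → ∀ u ∈ S.uses, ∀ m ∈ S.md j u, ∀ m' ∈ S.md j u, S.cls j u m ≠ S.cls j u m' →
    ‖((u.2.len)⁻¹ : ℝ) * ∫ y in u.2.set, S.atom j u.1 m y * conj (S.atom j u.1 m' y)‖ ≤ ((p.Ds : ℝ) ^ 200)⁻¹
  /-- (23) for a nonexceptional primary of a successful component: pure horizontal shifts -/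
  dich : ∀ u ∈ S.uses, ∀ h ∈ p.up, (∃ j, S.sd j = false ∧ ∃ D ∈ S.clsOf j u, S.good j u h D) →
    S9Dich (fun i => S.vth u.1 i / 6 ^ h) (p.E h) u.2.len p.TT
  /-- Sec. 8.3 -/
  mul4 : (∀ j, S.sd j = false) → ∀ u ∈ S.uses, S9Mult (S.vth u.1) (fun j => S.gau j u.1) 0 p.Bs p.Ds ((p.Ds : ℝ) ^ 300)⁻¹
  mul3 : ∀ l, S.sd l = true → ∀ u ∈ S.uses, ∀ ρ, S9Mult (S.vth u.1) (S.gauF u.1 ρ) l p.Bs p.Ds ((p.Ds : ℝ) ^ 300)⁻¹
  cut : ∀ j, S.sd j = false → ∀ u ∈ S.uses, S9Cut (S.vth u.1) (S.gau j u.1) p.Bs p.Ds ((p.Ds : ℝ) ^ 300)⁻¹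
  /-- the fresh offsets -/
  nof_pos : 0 < S.nof
  gauS_meas : ∀ G ρ, Measurable (S.gauS G ρ)
  gauS_le : ∀ G ρ y, ‖S.gauS G ρ y‖ ≤ 1
  gauS_avg : ∀ G y, (1 : ℝ) / 2 ≤ (S.nof : ℝ)⁻¹ * ∑ ρ, ‖S.gauS G ρ y‖ ^ 2
  /-- (25) -/
  sep : ∀ j, S.sd j = false → ∀ h ∈ p.up, ∀ u ∈ S.uses, ∀ u' ∈ S.uses, u.1 = u'.1 →
    ∀ a ∈ S.lab j u h, ∀ a' ∈ S.lab j u' h, S.typ j u h a = S.typ j u' h a' → a ≠ a' →
    ∀ x ∈ u.2.set ∩ u'.2.set, ∀ n : Fin d → ℤ, S9Box (p.E h) n →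
      p.Xi / 2 * max u.2.len⁻¹ u'.2.len⁻¹ < |S.om a x - S.om a' x + s9dot n (S.vth u.1) / 6 ^ h|
  typ_mem : ∀ j, S.sd j = false → ∀ u ∈ S.uses, ∀ h ∈ p.up, ∀ a ∈ S.lab j u h, S.typ j u h a ∈ tys
  /-- (28) -/
  caps : ∀ I₀ ∈ S.cells, ∀ j, S.sd j = false → ∀ h ∈ p.up, ∀ ty : ℕ × ℕ, ∀ σ : ℝ, 0 < σ →
    ((S.usedLab j h ty σ I₀).card : ℝ) ≤ min (p.Ds : ℝ) (PC * (σ ^ 2)⁻¹)
  /-- the side state -/
  Sd_meas : ∀ u, Measurable (S.Sd u)
  Sd_int : ∀ u ∈ S.uses, IntegrableOn (fun y => ‖S.Sd u y‖ ^ 2) u.2.set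
  Sd_cap : ∀ I₀ ∈ S.cells, ∑ u ∈ S.uses.filter (fun u => I₀ ≤ u.2), nnorm 2 u.2 (S.Sd u) ^ 2 ≤ PC

end S9Sys

/-- the inequalities between the parameters used in Sec. 9.  (Fields may be ADDED; satisfiability together with `S8Par.Ok`.) -/
structure S9ParOk (p : S8Par) (d : ℕ) : Prop where
  Ds_ge : 100 ≤ p.Ds
  d_le : d + 1 ≤ p.Ds
  δ_pos : 0 < p.δs
  δ_le : p.δs ≤ 1 / 128
  up_ne : p.up.Nonempty
  up_ge : ∀ h ∈ p.up, 10 ≤ h
  A0_ge : 6 ≤ p.A0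
  Bs_le : p.Bs ≤ p.A0
  /-- the height reserve: `C_res (d+1)² · 4 B'_h ≤ ⌊E_h / 6^8⌋` and all shift differences fit -/
  A0_big : 6 ^ 10 * 10 ^ 9 * (d + 1) ^ 2 * p.Ds ^ 5 ≤ p.A0 ^ 10
  TT_big : (p.Ds : ℝ) ^ 1001 ≤ p.TT

/-- **what Sec. 9 needs from layer (A) of Sec. 8 beyond `ModeSys.Valid`**: two more parameter inequalities, the total length of the uses, and the gauge kit of
Sec. 8.3 in the form (M1), (M2), with finitely many FRESH gauge factors `fr l G ρ` for a side role `l`.   (Hypothesis of `S9Goal`, conclusion of `S8AGoal`;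
for the gauges `s8GaugeOf` it is proved in S9/Gauge.lean.) -/
structure ModeSys.S9Kit {d : ℕ} (M : ModeSys d) (p : S8Par) : Prop where
  par : S9ParOk p d
  use_len : ∑ u ∈ M.uses, u.2.len ≤ p.Ds * M.root.len
  vth_eq : ∀ l G, (M.gauge l G).vth = (M.gauge 0 G).vth
  cutF : ∀ l G, S9Cut (M.gauge 0 G).vth ((M.gauge l G).gau (s8c4 l)) p.Bs p.Ds ((p.Ds : ℝ) ^ 300)⁻¹
  mul4 : ∀ G, S9Mult (M.gauge 0 G).vth (fun j => (M.gauge j G).gau (s8c4 j)) 0 p.Bs p.Ds ((p.Ds : ℝ) ^ 300)⁻¹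
  fresh : ∃ (nof : ℕ) (fr : Fin 4 → ℕ → Fin nof → ℝ → ℂ), 0 < nof ∧ (∀ l G ρ, Measurable (fr l G ρ)) ∧
    (∀ l G ρ y, ‖fr l G ρ y‖ ≤ 1) ∧ (∀ l G y, (1 : ℝ) / 2 ≤ (nof : ℝ)⁻¹ * ∑ ρ, ‖fr l G ρ y‖ ^ 2) ∧
    ∀ l G ρ, S9Mult (M.gauge 0 G).vth (fun j => if j = l then fr l G ρ else (M.gauge j G).gau (s8c4 j)) l p.Bs p.Ds
      ((p.Ds : ℝ) ^ 300)⁻¹

end

end Claimed.Agent.R258
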