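/-
Row 258 (S0498), Sec. 8.3 -> Sec. 9.  HOME ARCHITECT: helper41.      THE GAUGE KIT IN THE FORM USED BY SEC. 9  (`ModeSys.S9Kit` of S9/Sys.lean).
Black boxes: S8/AGauge.lean (done), S8/AMult.lean (`s8m_diag`, `s8m_per`, `s8m_G_gev`), S8/APar.lean (`s8_par_ok`), S4a/Qp.lean.   NO paper needed.

WHY.  Sec. 9 needs the product of the four gauge factors in the form   `∏_l g_l(y_l) = R(ϑ y, ϑ t) ∏_l |g_l(y_l)|`   with a multiplier `R` that is BOUNDED ON THE WHOLE TORUS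
(the moduli `|g_l| = ζ^{ρ_l}` stay with the four functions: the torus norm of `cutoff × trigonometric sum` is the physical norm of the class subtotal).
IDEA.  `ζ_{δ/2} = 1` on the support of `ζ_δ` and the phases do not depend on the width, so `g_l^δ = g_l^{δ/2} · |g_l^δ|`, and `∏_l g_l^{δ/2}(y + l s) = s8mG_{δ/2}(ϑ y, ϑ s)` (`s8m_diag`), `|s8mG| ≤ 1`.

LEAVES
  P-S9-GAUGE-A = `s9g_mult_abs`      (finite sums, `s8a_box_trunc`; 100-150 lines)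
  P-S9-GAUGE-B = `s9g_mul_num`       (numerics from `s8a_four_num` + S4a/Qp.lean)
  P-S9-GAUGE-C = `s9g_A0_big`, `s9g_par_of_ok`     (natural number arithmetic; `S8cTower.s8cUp`)
Everything else in this file is PROVED.
PLANS.
* `s9g_mult_abs`.  `B' = Bs / 4` (natural division: `4 B' ≤ Bs`, `Bs + 1 ≤ 4 (B' + 1)`), `box = Fintype.piFinset fun _ : Fin d ⊕ Fin d => Finset.Icc (-(B' : ℤ)) B'`, `ιR = {ℓ // ℓ ∈ box}`,
  `nR ℓ i = ℓ (inl i)`, `mR ℓ i = ℓ (inr i) - l' * ℓ (inl i)`, `cR ℓ = a ℓ`.  Boxes: `|nR| ≤ B'`, `|mR| ≤ B' + 3 B'`.  For `x : Fin d ⊕ Fin d → ℝ` put `T x = ∑_{ℓ ∈ box} a ℓ ee(ℓ·x)`;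
  `s8a_box_trunc a (fun ℓ => ee (ℓ·x)) _ Y B' hs hY (Gt x) (hsum x)`: `∑_box ‖a‖ ≤ Y` and `‖Gt x - T x‖ ≤ Y/(B'+1) ≤ 4Y/(Bs+1) ≤ tiny`.  Sums over the subtype: `Finset.sum_coe_sort` / `Finset.sum_attach`.
  `s9ev2 nR mR cR u v = T (Sum.elim (u - l' v) v)` (`Fintype.sum_sum_type`, `s9dot`, `ring`), so `‖·‖ ≤ 1 + tiny ≤ 2`.
  Last clause: `y₀ = y - l' t`; `y + (j - l') t = y₀ + j t` (`s9al`, push_cast, ring); `hprod y₀ t`; `∑ cR ee(nR·ϑ y + mR·ϑ t) = T (Sum.elim (ϑ y₀) (ϑ t))`; the difference is `(Gt x - T x) ∏ ‖g_j‖`, and `∏ ‖g_j‖ ≤ 1`.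
* `s9g_mul_num`.  Apply `s8a_four_num 48016 le_rfl (d + d) δ (H ^ 2) Q' A` with `Q' = 8 Q0 (1 + d H Q0)`:  `exp 2 ≤ H ≤ H²`; `(d + d : ℕ) ≤ log (H²) = 2 log H`;
  `A = 16 Q0 (d (12000/(δ/2)) + 2π (3 d² H (4 Q0 + 2))) ≤ 24000 (d + d) (1/δ) Q'`  (`12000/(δ/2) = 24000/δ`, `2π·3 ≤ 19`, `4 Q0 + 2 ≤ 6 Q0`, `114 ≤ 24000 ≤ 24000/δ`, `d² = d·d`);
  `Q' ≤ 16 d H Q0² ≤ H^(2 d² + 4) ≤ (H²)^((d+d)²) = H^(8 d²)`  (`16 ≤ H²`, `d ≤ log H ≤ H`, `1 ≤ d`).  This gives `Y ≤ qp 48016 (2 log H + log (1/δ))`; then `s4a_qp_comp` (`2L + M ≤ 2 (1 + x) ≤ pl 2 x`), and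
  `4 ≤ qp 4 x` (`s4a_qp_nat`), `s4a_qp_mul`.  (`2 * (d + d) + 1`, `4 ^ (d + d)` are exactly the expressions produced by `s8a_per_l1` after `Fintype.card_sum, Fintype.card_fin`.)
* `s9g_A0_big`: `X = 20 d Ds ≥ 4000`; `s8cCr (2 d) Ds = (10 (2 d) Ds)^(100 (2d)^4) ≥ X^12` (`Nat.pow_le_pow_right`); `s8pA0 ≥ 6 d Cr³ Ds ≥ Cr`; `A0^10 ≥ A0 ≥ X^12 = X^5 X^2 X^5 ≥ (6^10 10^9)(d+1)² Ds^5` (`4000^5 ≥ 6^10 10^9`).
* `s9g_par_of_ok`: `Ds_ge, δ_pos, Bs_le` fields of `hp`; `δ_le`: `1/1024 ≤ 1/128`; `A0_ge = hp.stab.A0_ge`; `TT_big`: `hp.TT_big` (`Ds * Xi = Ds^1001`);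
  `up = (range (Js+1)).filter (⌈4 δ Js⌉₊ ≤ ·)`: `Js ∈ up` because `4 δ Js ≤ Js` (`Nat.ceil_le`); `up_ge`: `hp.Js_big` gives `20/δ ≤ Js + 1` (all terms of the bracket are `≥ 0`, `10 (s8cLog Dm + 1) ≥ 10`), so `4 δ Js ≥ 80 - 4δ > 9`, hence `⌈4 δ Js⌉₊ ≥ 10` (`Nat.lt_ceil`).
-/
import Claimed.Agent.R258.S8.AMult
import Claimed.Agent.R258.S8.APar
import Claimed.Agent.R258.S9.Sys

set_option autoImplicit false
open MeasureTheory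

namespace Claimed.Agent.R258

open scoped BigOperators
open Classical

noncomputable section

/-- the gauge kit of one tag in the form used by Sec. 9 (all quadruples of offsets of the grid, all anchors) -/
structure S9TagKit (d : ℕ) (t : LocTag) (δ : ℝ) (N Bs Ds : ℕ) : Prop where
  mult : ∀ js : Fin 4 → ℕ, (∀ l, js l < N) → ∀ l' : Fin 4,
    S9Mult (s8GaugeOf d t δ N 0).vth (fun l => (s8GaugeOf d t δ N (js l)).gau (s8c4 l)) l' Bs Ds ((Ds : ℝ) ^ 300)⁻¹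
  cut : ∀ (j : ℕ) (c : ℝ), S9Cut (s8GaugeOf d t δ N 0).vth ((s8GaugeOf d t δ N j).gau c) Bs Ds ((Ds : ℝ) ^ 300)⁻¹
  avg : ∀ y, (N : ℝ) / 2 ≤ ∑ j ∈ Finset.range N, (s8GaugeOf d t δ N j).cut y ^ 2

/-! ## the factorization -/

theorem s9g_half_one {ι : Type} [Fintype ι] {δ : ℝ} (hδ : 0 < δ) {x : ι → ℝ} (hx : gevZetad δ x ≠ 0) : gevZetad (δ / 2) x = 1 := by
  refine gev_zetad_one (by positivity) fun i n => ?_
  by_contra hcon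
  exact hx (gev_zetad_zero hδ i n (by linarith [not_le.1 hcon]))

section
variable (d : ℕ) (t : LocTag) (δ : ℝ) (N j : ℕ)

theorem s9g_gau_norm (c y : ℝ) : ‖(s8GaugeOf d t δ N j).gau c y‖ = (s8GaugeOf d t δ N j).cut y := by
  unfold S8Gauge.gau
  rw [norm_mul, s4a_ee_norm, mul_one, Complex.norm_real, Real.norm_eq_abs, abs_of_nonneg (s8a_cut_range d t δ N j y).1]

theorem s9g_gau_le (c y : ℝ) : ‖(s8GaugeOf d t δ N j).gau c y‖ ≤ 1 := by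
  rw [s9g_gau_norm]
  exact (s8a_cut_range d t δ N j y).2

theorem s9g_gau_meas (hδ : 0 < δ) (c : ℝ) : Measurable ((s8GaugeOf d t δ N j).gau c) := by
  unfold S8Gauge.gau
  refine (Complex.measurable_ofReal.comp (s8a_cut_meas d t δ N j hδ)).mul ?_
  exact wy_ee_continuous.measurable.comp ((s8a_pph_meas d t δ N j).const_mul c)

/-- the phase does not depend on the width -/
theorem s9g_pph_width (δ' : ℝ) (y : ℝ) : (s8GaugeOf d t δ' N j).pph y = (s8GaugeOf d t δ N j).pph y := by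
  simp only [S8Gauge.pph, S8Gauge.dbr, s8GaugeOf]

/-- `ϑ` depends only on the tag -/
theorem s9g_vth_eq (δ' : ℝ) (N' j' : ℕ) : (s8GaugeOf d t δ' N' j').vth = (s8GaugeOf d t δ N j).vth := by
  funext i
  simp only [S8Gauge.vth, s8GaugeOf]

theorem s9g_cut_def (y : ℝ) :
    (s8GaugeOf d t δ N j).cut y = gevZetad δ (fun i => s8PadV d t.th i * y - s8Rho t.dim d N j i) := by
  simp only [S8Gauge.cut, s8GaugeOf]

theorem s9g_gau_split (hδ : 0 < δ) (c y : ℝ) :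
    (s8GaugeOf d t δ N j).gau c y = (s8GaugeOf d t (δ / 2) N j).gau c y * (‖(s8GaugeOf d t δ N j).gau c y‖ : ℂ) := by
  rw [s9g_gau_norm]
  unfold S8Gauge.gau
  rw [s9g_pph_width d t δ N j (δ / 2) y]
  by_cases h0 : (s8GaugeOf d t δ N j).cut y = 0
  · rw [h0]; simp
  · have h1 : (s8GaugeOf d t (δ / 2) N j).cut y = 1 := by
      rw [s9g_cut_def] at h0 ⊢
      exact s9g_half_one hδ h0
    rw [h1]
    push_cast
    ring

end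

theorem s9g_prod_split (d : ℕ) (t : LocTag) (δ : ℝ) (N : ℕ) (js : Fin 4 → ℕ) (hδ : 0 < δ) (y s : ℝ) :
    ∏ l : Fin 4, (s8GaugeOf d t δ N (js l)).gau (s8c4 l) (y + (l : ℝ) * s) =
      s8mG (fun l => s8GaugeOf d t (δ / 2) N (js l)) (s4a_den t.C)
          (Sum.elim (fun i => (s8GaugeOf d t δ N 0).vth i * y) fun i => (s8GaugeOf d t δ N 0).vth i * s) *
        ∏ l : Fin 4, (‖(s8GaugeOf d t δ N (js l)).gau (s8c4 l) (y + (l : ℝ) * s)‖ : ℂ) := by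
  have h := s8m_diag d t (δ / 2) N js y s
  rw [s9g_vth_eq d t δ N 0 (δ / 2) N 0] at h
  rw [← h, ← Finset.prod_mul_distrib]
  exact Finset.prod_congr rfl fun l _ => s9g_gau_split d t δ N (js l) hδ _ _

theorem s9g_mG_le (d : ℕ) (t : LocTag) (δ : ℝ) (N : ℕ) (js : Fin 4 → ℕ) (Q0 : ℕ) (x : Fin d ⊕ Fin d → ℝ) :
    ‖s8mG (fun l => s8GaugeOf d t δ N (js l)) Q0 x‖ ≤ 1 := by
  unfold s8mG
  rw [norm_prod]
  refine Finset.prod_le_one (fun l _ => norm_nonneg _) fun l _ => ?_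
  unfold s8mF
  rw [norm_mul, s4a_ee_norm, mul_one, Complex.norm_real, Real.norm_eq_abs]
  simp only [s8GaugeOf]
  rw [abs_of_nonneg (gev_zetad_nonneg _ _)]
  exact gev_zetad_le_one _ _

/-! ## from an absolutely convergent series on the torus to (M1), (M2) -/

/-- **(M1) from a bounded multiplier on the torus.**  LEAF P-S9-GAUGE-A -/
theorem s9g_mult_abs {d : ℕ} (ϑ : Fin d → ℝ) (g : Fin 4 → ℝ → ℂ) (Gt : (Fin d ⊕ Fin d → ℝ) → ℂ)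
    (a : (Fin d ⊕ Fin d → ℤ) → ℂ) (Y : ℝ) (Bs : ℕ) (D tiny : ℝ) (hg : ∀ j y, ‖g j y‖ ≤ 1) (hG1 : ∀ x, ‖Gt x‖ ≤ 1)
    (hs : Summable fun ℓ => ‖a ℓ‖ * (1 + ‖ℓ‖) ^ 1) (hY : ∑' ℓ, ‖a ℓ‖ * (1 + ‖ℓ‖) ^ 1 ≤ Y)
    (hsum : ∀ x, HasSum (fun ℓ => a ℓ * ee (∑ i, (ℓ i : ℝ) * x i)) (Gt x))
    (hprod : ∀ y s : ℝ, ∏ j : Fin 4, g j (y + (j : ℝ) * s)
      = Gt (Sum.elim (fun i => ϑ i * y) fun i => ϑ i * s) * ∏ j : Fin 4, (‖g j (y + (j : ℝ) * s)‖ : ℂ))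
    (hD : Y ≤ D) (ht : 4 * Y / ((Bs : ℝ) + 1) ≤ tiny) (ht1 : tiny ≤ 1) (l' : Fin 4) : S9Mult ϑ g l' Bs D tiny := by
  obtain ⟨B', hB'⟩ : ∃ B' : ℕ, B' = Bs / 4 := ⟨_, rfl⟩
  have hB1 : 4 * B' ≤ Bs := by omega
  have hB2 : Bs + 1 ≤ 4 * (B' + 1) := by omega
  obtain ⟨box, hbox⟩ : ∃ box : Finset (Fin d ⊕ Fin d → ℤ),
    box = Fintype.piFinset (fun _ : Fin d ⊕ Fin d => Finset.Icc (-(B' : ℤ)) B') := ⟨_, rfl⟩
  have hmem : ∀ ℓ ∈ box, ∀ i, |ℓ i| ≤ (B' : ℤ) := by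
    intro ℓ hℓ i
    rw [hbox] at hℓ
    have h := Fintype.mem_piFinset.1 hℓ i
    rw [Finset.mem_Icc] at h
    exact abs_le.2 h
  have hY0 : 0 ≤ Y := le_trans (tsum_nonneg fun ℓ => by positivity) hY
  have htr : ∀ x, ∑ ℓ ∈ box, ‖a ℓ‖ ≤ Y ∧ ‖Gt x - ∑ ℓ ∈ box, a ℓ * ee (∑ i, (ℓ i : ℝ) * x i)‖ ≤ tiny := by
    intro x
    have h := s8a_box_trunc a (fun ℓ => ee (∑ i, (ℓ i : ℝ) * x i)) (fun ℓ => (s4a_ee_norm _).le) Y B' hs hY _ (hsum x)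
    rw [← hbox] at h
    refine ⟨h.1, h.2.trans (le_trans ?_ ht)⟩
    have h1 : (0 : ℝ) < (B' : ℝ) + 1 := by positivity
    have h2 : (0 : ℝ) < (Bs : ℝ) + 1 := by positivity
    have h3 : (Bs : ℝ) + 1 ≤ 4 * ((B' : ℝ) + 1) := by exact_mod_cast hB2
    rw [div_le_div_iff₀ h1 h2]
    nlinarith
  have hl3 : ((l' : ℕ) : ℤ) ≤ 3 := by have := l'.2; omega
  have hl0 : (0 : ℤ) ≤ ((l' : ℕ) : ℤ) := by positivity
  -- the evaluation identity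
  have hev : ∀ u v : Fin d → ℝ,
      ∑ ℓ : {ℓ // ℓ ∈ box}, a ℓ.1 * ee (s9dot (fun i => ℓ.1 (Sum.inl i)) u
        + s9dot (fun i => ℓ.1 (Sum.inr i) - ((l' : ℕ) : ℤ) * ℓ.1 (Sum.inl i)) v)
      = ∑ ℓ ∈ box, a ℓ * ee (∑ i, (ℓ i : ℝ) * (Sum.elim (fun i => u i - ((l' : ℕ) : ℝ) * v i) v : Fin d ⊕ Fin d → ℝ) i) := by
    intro u v
    rw [Finset.sum_coe_sort box (fun ℓ => a ℓ * ee (s9dot (fun i => ℓ (Sum.inl i)) u
        + s9dot (fun i => ℓ (Sum.inr i) - ((l' : ℕ) : ℤ) * ℓ (Sum.inl i)) v))]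
    refine Finset.sum_congr rfl fun ℓ _ => ?_
    congr 2
    rw [Fintype.sum_sum_type]
    simp only [s9dot, Sum.elim_inl, Sum.elim_inr]
    rw [← Finset.sum_add_distrib, ← Finset.sum_add_distrib]
    refine Finset.sum_congr rfl fun i _ => ?_
    push_cast
    ring
  refine ⟨{ℓ // ℓ ∈ box}, inferInstance, fun ℓ i => ℓ.1 (Sum.inl i),
    fun ℓ i => ℓ.1 (Sum.inr i) - ((l' : ℕ) : ℤ) * ℓ.1 (Sum.inl i), fun ℓ => a ℓ.1, fun ℓ => ⟨fun i => ?_, fun i => ?_⟩, ?_,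
    fun u v => ?_, fun y t => ?_⟩
  · have := hmem ℓ.1 ℓ.2 (Sum.inl i)
    show |ℓ.1 (Sum.inl i)| ≤ (Bs : ℤ)
    omega
  · have h1 := abs_le.1 (hmem ℓ.1 ℓ.2 (Sum.inl i))
    have h2 := abs_le.1 (hmem ℓ.1 ℓ.2 (Sum.inr i))
    show |ℓ.1 (Sum.inr i) - ((l' : ℕ) : ℤ) * ℓ.1 (Sum.inl i)| ≤ (Bs : ℤ)
    have hB1' : 4 * (B' : ℤ) ≤ Bs := by exact_mod_cast hB1
    rw [abs_le]
    constructor <;> nlinarith
  · unfold s9l1
    rw [Finset.sum_coe_sort box (fun ℓ => ‖a ℓ‖)]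
    exact ((htr 0).1).trans hD
  · unfold s9ev2
    rw [hev u v]
    have h := (htr (Sum.elim (fun i => u i - ((l' : ℕ) : ℝ) * v i) v)).2
    have h2 := hG1 (Sum.elim (fun i => u i - ((l' : ℕ) : ℝ) * v i) v)
    have h3 := norm_sub_norm_le (∑ ℓ ∈ box, a ℓ * ee (∑ i, (ℓ i : ℝ) * (Sum.elim (fun i => u i - ((l' : ℕ) : ℝ) * v i) v : Fin d ⊕ Fin d → ℝ) i))
      (Gt (Sum.elim (fun i => u i - ((l' : ℕ) : ℝ) * v i) v))
    rw [norm_sub_rev] at h3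
    linarith
  · have e1 : ∀ j : Fin 4, y + (s9al l' j : ℝ) * t = (y - ((l' : ℕ) : ℝ) * t) + (j : ℝ) * t := by
      intro j
      unfold s9al
      push_cast
      ring
    simp only [e1]
    rw [hprod]
    have e2 : ∀ (n : Fin d → ℤ) (z : ℝ), s9dot n ϑ * z = s9dot n (fun i => ϑ i * z) := by
      intro n z
      unfold s9dot
      rw [Finset.sum_mul]
      exact Finset.sum_congr rfl fun i _ => by ring
    simp only [e2]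
    rw [hev]
    have e3 : (Sum.elim (fun i => ϑ i * y - ((l' : ℕ) : ℝ) * (ϑ i * t)) (fun i => ϑ i * t) : Fin d ⊕ Fin d → ℝ)
        = Sum.elim (fun i => ϑ i * (y - ((l' : ℕ) : ℝ) * t)) fun i => ϑ i * t := by
      congr 1
      funext i
      ring
    rw [e3, ← sub_mul, norm_mul]
    have h := (htr (Sum.elim (fun i => ϑ i * (y - ((l' : ℕ) : ℝ) * t)) fun i => ϑ i * t)).2
    have h5 : ‖∏ j : Fin 4, (‖g j (y - ((l' : ℕ) : ℝ) * t + (j : ℝ) * t)‖ : ℂ)‖ ≤ 1 := by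
      rw [norm_prod]
      refine Finset.prod_le_one (fun j _ => norm_nonneg _) fun j _ => ?_
      rw [Complex.norm_real, norm_norm]
      exact hg j _
    calc _ ≤ tiny * 1 := mul_le_mul h h5 (norm_nonneg _) (le_trans (norm_nonneg _) h)
      _ = tiny := mul_one _

/-- (M2) from an absolutely convergent series -/
theorem s9g_cut_abs {d : ℕ} (ϑ : Fin d → ℝ) (g : ℝ → ℂ) (a : (Fin d → ℤ) → ℂ) (Y : ℝ) (Bs : ℕ) (D tiny : ℝ)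
    (hs : Summable fun ℓ => ‖a ℓ‖ * (1 + ‖ℓ‖) ^ 1) (hY : ∑' ℓ, ‖a ℓ‖ * (1 + ‖ℓ‖) ^ 1 ≤ Y)
    (hsum : ∀ y, HasSum (fun ℓ => a ℓ * ee (s9dot ℓ ϑ * y)) ((‖g y‖ : ℝ) : ℂ))
    (hD : Y ≤ D) (ht : Y / ((Bs : ℝ) + 1) ≤ tiny) : S9Cut ϑ g Bs D tiny := by
  refine ⟨{ℓ // ℓ ∈ Fintype.piFinset (fun _ : Fin d => Finset.Icc (-(Bs : ℤ)) Bs)}, inferInstance, fun ℓ => ℓ.1,
    fun ℓ => a ℓ.1, fun ℓ i => ?_, ?_, fun y => ?_⟩
  · have h := Fintype.mem_piFinset.1 ℓ.2 i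
    rw [Finset.mem_Icc] at h
    exact abs_le.2 h
  · have h := (s8a_box_trunc a (fun ℓ => ee (s9dot ℓ ϑ * 0)) (fun ℓ => (s4a_ee_norm _).le) Y Bs hs hY _ (hsum 0)).1
    unfold s9l1
    rw [Finset.sum_coe_sort (Fintype.piFinset (fun _ : Fin d => Finset.Icc (-(Bs : ℤ)) Bs)) (fun ℓ => ‖a ℓ‖)]
    exact h.trans hD
  · have h := (s8a_box_trunc a (fun ℓ => ee (s9dot ℓ ϑ * y)) (fun ℓ => (s4a_ee_norm _).le) Y Bs hs hY _ (hsum y)).2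
    rw [Finset.sum_coe_sort (Fintype.piFinset (fun _ : Fin d => Finset.Icc (-(Bs : ℤ)) Bs))
      (fun ℓ => a ℓ * ee (s9dot ℓ ϑ * y))]
    exact h.trans ht

/-! ## numerics -/

/-- numerics of the multiplier (width `δ/2`, dimension `2 d`).  LEAF P-S9-GAUGE-B -/
theorem s9g_mul_num : ∃ Cq : ℕ, ∀ (d : ℕ) (δ H : ℝ) (Q0 : ℕ), 1 ≤ d → Real.exp 2 ≤ H → (d : ℝ) ≤ Real.log H → 1 ≤ Q0 →
    (Q0 : ℝ) ≤ H ^ (d ^ 2) → 0 < δ → δ ≤ 1 / 8 →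
    4 * (4 ^ (d + d) * (1 * max 1 (16 * (Q0 : ℝ) *
        ((d : ℝ) * (12000 / (δ / 2)) + 2 * Real.pi * (3 * (d : ℝ) ^ 2 * H * (4 * (Q0 : ℝ) + 2)))) ^ (2 * (d + d) + 1)
          * (((2 * (d + d) + 1).factorial : ℝ)) ^ 2))
      ≤ s4b_qp Cq (Real.log H + Real.log (1 / δ)) := by
  obtain ⟨C1, hC1⟩ : ∃ C1 : ℕ, ∀ x y : ℝ, 0 ≤ x → 0 ≤ y → y ≤ s4a_pl 2 x → s4b_qp 48016 y ≤ s4b_qp C1 x :=
    ⟨_, fun x y hx hy h => s4a_qp_comp 48016 2 hx hy h⟩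
  refine ⟨4 + C1, fun d δ H Q0 hd1 hH hd hQ1 hQle hδ hδ' => ?_⟩
  have he2 : (7 : ℝ) ≤ Real.exp 2 := by
    have h1 := Real.exp_one_gt_d9
    have h2 : Real.exp 2 = Real.exp 1 * Real.exp 1 := by rw [← Real.exp_add]; norm_num
    rw [h2]
    nlinarith
  have hH7 : (7 : ℝ) ≤ H := he2.trans hH
  have hH0 : (0 : ℝ) < H := by linarith
  have hH1 : (1 : ℝ) ≤ H := by linarith
  have hL0 : 0 ≤ Real.log H := Real.log_nonneg hH1
  have hM0 : 0 ≤ Real.log (1 / δ) := Real.log_nonneg (by rw [le_div_iff₀ hδ]; linarith)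
  have hx0 : 0 ≤ Real.log H + Real.log (1 / δ) := by linarith
  have hdR : (1 : ℝ) ≤ (d : ℝ) := by exact_mod_cast hd1
  have hqR : (1 : ℝ) ≤ (Q0 : ℝ) := by exact_mod_cast hQ1
  have hdH : (d : ℝ) ≤ H := hd.trans ((Real.log_le_sub_one_of_pos hH0).trans (by linarith))
  have he8 : (8 : ℝ) ≤ 1 / δ := by rw [le_div_iff₀ hδ]; linarith
  have hlog2 : Real.log (H ^ 2) = 2 * Real.log H := by rw [Real.log_pow]; norm_num
  have key := s8a_four_num 48016 le_rfl (d + d) δ (H ^ 2) (8 * (Q0 : ℝ) * (1 + (d : ℝ) * H * (Q0 : ℝ)))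
    (16 * (Q0 : ℝ) * ((d : ℝ) * (12000 / (δ / 2)) + 2 * Real.pi * (3 * (d : ℝ) ^ 2 * H * (4 * (Q0 : ℝ) + 2))))
    (by nlinarith) (by rw [hlog2]; push_cast; linarith) hδ hδ' (by positivity) ?_ ?_
  · have h1 : s4b_qp 48016 (Real.log (H ^ 2) + Real.log (1 / δ)) ≤ s4b_qp C1 (Real.log H + Real.log (1 / δ)) := by
      refine hC1 _ _ hx0 (by rw [hlog2]; linarith) ?_
      rw [hlog2]
      unfold s4a_pl
      push_cast
      nlinarith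
    have h2 : (4 : ℝ) ≤ s4b_qp 4 (Real.log H + Real.log (1 / δ)) := by
      have := s4a_qp_nat 4 hx0
      exact_mod_cast this
    have h3 := s4a_qp_mul 4 C1 hx0
    refine le_trans ?_ h3
    exact mul_le_mul h2 (key.trans h1) (by positivity) (by linarith)
  · -- Q' ≤ (H^2)^((d+d)^2)
    have h1 : 8 * (Q0 : ℝ) * (1 + (d : ℝ) * H * (Q0 : ℝ)) ≤ 16 * (d : ℝ) * H * ((Q0 : ℝ) * (Q0 : ℝ)) := by
      have : 1 ≤ (d : ℝ) * H * (Q0 : ℝ) := by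
        have : 1 ≤ (d : ℝ) * H := by nlinarith
        nlinarith
      nlinarith
    have h2 : (Q0 : ℝ) * (Q0 : ℝ) ≤ H ^ (d ^ 2) * H ^ (d ^ 2) := mul_le_mul hQle hQle (by positivity) (by positivity)
    have h3 : 16 * (d : ℝ) * H ≤ H ^ 4 := by
      have e : H ^ 4 = H ^ 2 * H * H := by ring
      rw [e]
      have : (16 : ℝ) ≤ H ^ 2 := by nlinarith
      have h5 : 16 * (d : ℝ) ≤ H ^ 2 * H := mul_le_mul this hdH (by positivity) (by positivity)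
      exact mul_le_mul_of_nonneg_right h5 hH0.le
    have h4 : 16 * (d : ℝ) * H * ((Q0 : ℝ) * (Q0 : ℝ)) ≤ H ^ 4 * (H ^ (d ^ 2) * H ^ (d ^ 2)) :=
      mul_le_mul h3 h2 (by positivity) (by positivity)
    refine (h1.trans h4).trans ?_
    rw [← pow_add, ← pow_add, ← pow_mul]
    refine pow_le_pow_right₀ hH1 ?_
    have : 1 ≤ d ^ 2 := Nat.one_le_pow _ _ hd1
    have e : (d + d) ^ 2 = 4 * d ^ 2 := by ring
    rw [e]
    omega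
  · -- A ≤ 24000 (d+d) (1/δ) Q'
    have e1 : (12000 : ℝ) / (δ / 2) = 24000 * (1 / δ) := by field_simp; norm_num
    rw [e1]
    push_cast
    obtain ⟨e, he⟩ : ∃ e : ℝ, e = 1 / δ := ⟨_, rfl⟩
    rw [← he] at he8 ⊢
    have hpi := Real.pi_le_four
    have hpi0 := Real.pi_pos
    have hP : 0 ≤ (d : ℝ) ^ 2 * H * ((Q0 : ℝ) * (Q0 : ℝ)) := by positivity
    have h1 : 2 * Real.pi * (3 * (d : ℝ) ^ 2 * H * (4 * (Q0 : ℝ) + 2)) ≤ 8 * (3 * (d : ℝ) ^ 2 * H * (6 * (Q0 : ℝ))) := by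
      refine mul_le_mul (by linarith) ?_ (by positivity) (by norm_num)
      refine mul_le_mul_of_nonneg_left (by linarith) (by positivity)
    have h2 : 16 * (Q0 : ℝ) * (2 * Real.pi * (3 * (d : ℝ) ^ 2 * H * (4 * (Q0 : ℝ) + 2)))
        ≤ 16 * (Q0 : ℝ) * (8 * (3 * (d : ℝ) ^ 2 * H * (6 * (Q0 : ℝ)))) := mul_le_mul_of_nonneg_left h1 (by positivity)
    have h3 : (d : ℝ) ^ 2 * H * ((Q0 : ℝ) * (Q0 : ℝ)) * 8 ≤ (d : ℝ) ^ 2 * H * ((Q0 : ℝ) * (Q0 : ℝ)) * e :=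
      mul_le_mul_of_nonneg_left he8 hP
    nlinarith

/-- **Fourier series of `ζ^ρ` (first power) on the `ϑ` torus**, uniformly in the offset (same proof as `s8a_cut_fourier`) -/
theorem s9g_cut_fourier : ∃ Cq : ℕ, ∀ (d : ℕ) (t : LocTag) (δ H : ℝ) (N j : ℕ), t.dim ≤ d → Real.exp 2 ≤ H →
    (d : ℝ) ≤ Real.log H → (∀ i k, (qHeight (t.C i k) : ℝ) ≤ H) → 0 < δ → δ ≤ 1 / 8 →
    ∃ c : (Fin d → ℤ) → ℂ, Summable (fun n => ‖c n‖ * (1 + ‖n‖) ^ 1) ∧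
      ∑' n, ‖c n‖ * (1 + ‖n‖) ^ 1 ≤ s4b_qp Cq (Real.log H + Real.log (1 / δ)) ∧
      ∀ y, HasSum (fun n => c n * ee ((s8GaugeOf d t δ N j).dotv n * y)) (((s8GaugeOf d t δ N j).cut y : ℝ) : ℂ) := by
  refine ⟨48016, fun d t δ H N j hdim hH hd hC hδ hδ' => ?_⟩
  have hH1 : (1 : ℝ) ≤ H := le_trans (Real.one_le_exp (by norm_num)) hH
  obtain ⟨Q, hQ⟩ : ∃ Q : ℕ, Q = s4a_den t.C := ⟨_, rfl⟩
  have hQ1 : 1 ≤ Q := by rw [hQ]; exact s4a_den_pos t.C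
  have hQ0 : (0 : ℝ) < (Q : ℝ) := by exact_mod_cast hQ1
  have hQle : (Q : ℝ) ≤ H ^ (d ^ 2) := by
    rw [hQ]
    refine le_trans (s4a_den_le t.C H hC) ?_
    rw [Fintype.card_fin]
    exact pow_le_pow_right₀ hH1 (Nat.pow_le_pow_left hdim 2)
  obtain ⟨ρ, hρ⟩ : ∃ ρ : Fin d → ℝ, ρ = s8Rho t.dim d N j := ⟨_, rfl⟩
  obtain ⟨f, hf⟩ : ∃ f : (Fin d → ℝ) → ℝ, ∀ x, f x = gevZetad δ (fun i => (Q : ℝ) * x i - ρ i) := ⟨_, fun _ => rfl⟩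
  have hA0 : (0 : ℝ) ≤ (Fintype.card (Fin d) : ℝ) * (12000 / δ) := by positivity
  have g1 : Gev 2 1 ((Fintype.card (Fin d) : ℝ) * (12000 / δ) * (Q : ℝ)) f := by
    have h1 := gev_zetad (ι := Fin d) hδ
    have h2 := gev_comp_affine hA0 h1 ((Q : ℝ) • ContinuousLinearMap.id ℝ (Fin d → ℝ)) (-ρ) (K := (Q : ℝ)) (by
      rw [norm_smul, Real.norm_eq_abs, abs_of_pos hQ0]
      exact mul_le_of_le_one_right hQ0.le ContinuousLinearMap.norm_id_le)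
    refine gev_congr (gev_mono_set h2 (fun x _ => Set.mem_univ _)) (fun x => ?_)
    rw [hf]
    congr 1
  have g2 := gev_ofReal g1
  have hper : s4a_Per (fun x => ((f x : ℝ) : ℂ)) := by
    intro x n
    show ((f (fun i => x i + (n i : ℝ)) : ℝ) : ℂ) = ((f x : ℝ) : ℂ)
    rw [hf, hf, ← gev_zetad_periodic δ (fun i => (Q : ℝ) * x i - ρ i) (fun i => (Q : ℤ) * n i)]
    congr 3
    funext i
    push_cast
    ring
  obtain ⟨s1, s2, s3⟩ := s8a_per_l1 g2 (by positivity) hper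
  refine ⟨s4a_fc (fun x => ((f x : ℝ) : ℂ)), s1, le_trans s2 ?_, fun y => ?_⟩
  · rw [Fintype.card_fin]
    refine s8a_four_num 48016 le_rfl d δ H (Q : ℝ) _ hH hd hδ hδ' hQ0.le hQle ?_
    have h5 : (0 : ℝ) ≤ (d : ℝ) * (1 / δ) * (Q : ℝ) := by positivity
    have e : (d : ℝ) * (12000 / δ) * (Q : ℝ) = 12000 * ((d : ℝ) * (1 / δ) * (Q : ℝ)) := by ring
    rw [e]
    nlinarith
  · have h := s3 (fun i => (s8GaugeOf d t δ N j).vth i * y)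
    have e1 : ∀ ℓ : Fin d → ℤ, ∑ i, (ℓ i : ℝ) * ((s8GaugeOf d t δ N j).vth i * y) = (s8GaugeOf d t δ N j).dotv ℓ * y := by
      intro ℓ
      unfold S8Gauge.dotv
      rw [Finset.sum_mul]
      exact Finset.sum_congr rfl fun i _ => by ring
    have e2 : f (fun i => (s8GaugeOf d t δ N j).vth i * y) = (s8GaugeOf d t δ N j).cut y := by
      rw [hf]
      show _ = gevZetad δ (fun i => (s8GaugeOf d t δ N j).th i * y - s8Rho t.dim d N j i)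
      congr 1
      funext i
      rw [hρ]
      congr 1
      show (Q : ℝ) * ((s8GaugeOf d t δ N j).th i / ((s4a_den t.C : ℕ) : ℝ) * y) = _
      rw [← hQ]
      field_simp
    simp only [e1, e2] at h
    exact h

/-- `E_ρ (ζ^ρ(y))² ≥ 1/2` -/
theorem s9g_avg (d : ℕ) (t : LocTag) (δ : ℝ) (N : ℕ) (h : t.dim ≤ d) (hδ : 0 < δ) (hδ' : δ ≤ 1 / 8) (hN : 1 ≤ δ * N)
    (hd : 40 * (t.dim : ℝ) * δ ≤ 1) (y : ℝ) : (N : ℝ) / 2 ≤ ∑ j ∈ Finset.range N, (s8GaugeOf d t δ N j).cut y ^ 2 := by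
  have h1 := s8a_avg_pt d t δ N h hδ hδ' hN y
  have h2 : ∑ j ∈ Finset.range N, ((3 : ℝ) / 4 - (1 - (s8GaugeOf d t δ N j).cut y ^ 2) ^ 2)
      ≤ ∑ j ∈ Finset.range N, (s8GaugeOf d t δ N j).cut y ^ 2 := by
    refine Finset.sum_le_sum fun j _ => ?_
    nlinarith [sq_nonneg (1 - (s8GaugeOf d t δ N j).cut y ^ 2 - 1 / 2)]
  rw [Finset.sum_sub_distrib, Finset.sum_const, Finset.card_range, nsmul_eq_mul] at h2
  have h3 : (0 : ℝ) ≤ (N : ℝ) := by positivity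
  have h4 : 10 * (t.dim : ℝ) * δ * N ≤ N / 4 := by nlinarith
  linarith

/-! ## the kit of one tag -/

/-- **the gauge kit of one tag.** -/
theorem s9g_kit : ∃ Cq : ℕ, ∀ (d : ℕ) (t : LocTag) (δ H : ℝ) (N Ds Bs : ℕ), 1 ≤ d → t.dim ≤ d → Real.exp 2 ≤ H →
    (d : ℝ) ≤ Real.log H → (∀ i k, (qHeight (t.C i k) : ℝ) ≤ H) → 0 < δ → δ ≤ 1 / 8 → 1 ≤ δ * N → 40 * (d : ℝ) * δ ≤ 1 → 1 ≤ Ds →
    s4b_qp Cq (Real.log H + Real.log (1 / δ)) ≤ Ds →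
    s4b_qp Cq (Real.log H + Real.log (1 / δ)) / ((Bs : ℝ) + 1) ≤ ((Ds : ℝ) ^ 300)⁻¹ → S9TagKit d t δ N Bs Ds := by
  obtain ⟨C1, h1⟩ := s9g_mul_num
  obtain ⟨C2, h2⟩ := s9g_cut_fourier
  refine ⟨C1 + C2, fun d t δ H N Ds Bs hd1 hdim hH hd hC hδ hδ' hN h40 hDs1 hDs hBs => ?_⟩
  have hH1 : (1 : ℝ) ≤ H := le_trans (Real.one_le_exp (by norm_num)) hH
  have hx0 : 0 ≤ Real.log H + Real.log (1 / δ) := by
    have := Real.log_nonneg hH1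
    have : 0 ≤ Real.log (1 / δ) := Real.log_nonneg (by rw [le_div_iff₀ hδ]; linarith)
    linarith
  have hq1 : s4b_qp C1 (Real.log H + Real.log (1 / δ)) ≤ s4b_qp (C1 + C2) (Real.log H + Real.log (1 / δ)) :=
    s4a_qp_mono (by omega) hx0 le_rfl
  have hq2 : s4b_qp C2 (Real.log H + Real.log (1 / δ)) ≤ s4b_qp (C1 + C2) (Real.log H + Real.log (1 / δ)) :=
    s4a_qp_mono (by omega) hx0 le_rfl
  have hB0 : (0 : ℝ) < (Bs : ℝ) + 1 := by positivity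
  have hN0 : 0 < N := by
    rcases Nat.eq_zero_or_pos N with h | h
    · rw [h] at hN; norm_num at hN
    · exact h
  have htiny1 : ((Ds : ℝ) ^ 300)⁻¹ ≤ 1 := inv_le_one_of_one_le₀ (one_le_pow₀ (by exact_mod_cast hDs1))
  refine ⟨fun js hjs l' => ?_, fun j c => ?_, fun y => ?_⟩
  · -- (M1)
    have hQ1 : 1 ≤ s4a_den t.C := s4a_den_pos t.C
    have hQle : ((s4a_den t.C : ℕ) : ℝ) ≤ H ^ (d ^ 2) := by
      refine le_trans (s4a_den_le t.C H hC) ?_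
      rw [Fintype.card_fin]
      exact pow_le_pow_right₀ hH1 (Nat.pow_le_pow_left hdim 2)
    have hgev := s8m_G_gev d t (δ / 2) N js H (by positivity) hN0 hjs hH1 hC
    obtain ⟨s1, s2, s3⟩ := s8a_per_l1 hgev (by positivity) (s8m_per d t (δ / 2) N js)
    rw [Fintype.card_sum, Fintype.card_fin] at s2
    have hnum := h1 d δ H (s4a_den t.C) hd1 hH hd hQ1 hQle hδ hδ'
    refine s9g_mult_abs _ _ _ _ _ Bs Ds _ (fun l y => s9g_gau_le d t δ N (js l) _ y)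
      (s9g_mG_le d t (δ / 2) N js (s4a_den t.C)) s1 s2 s3 (fun y s => s9g_prod_split d t δ N js hδ y s) ?_ ?_ htiny1 l'
    · refine le_trans ?_ ((hnum.trans hq1).trans hDs)
      have hY0 : 0 ≤ (4 : ℝ) ^ (d + d) * (1 * max 1 (16 * ((s4a_den t.C : ℕ) : ℝ) *
        ((d : ℝ) * (12000 / (δ / 2)) + 2 * Real.pi * (3 * (d : ℝ) ^ 2 * H * (4 * ((s4a_den t.C : ℕ) : ℝ) + 2)))) ^ (2 * (d + d) + 1)
          * (((2 * (d + d) + 1).factorial : ℝ)) ^ 2) := by positivity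
      linarith
    · exact le_trans (div_le_div_of_nonneg_right (hnum.trans hq1) hB0.le) hBs
  · -- (M2)
    obtain ⟨a, s1, s2, s3⟩ := h2 d t δ H N j hdim hH hd hC hδ hδ'
    refine s9g_cut_abs _ _ a _ Bs Ds _ s1 s2 (fun y => ?_) ((hq2).trans hDs)
      (le_trans (div_le_div_of_nonneg_right hq2 hB0.le) hBs)
    rw [s9g_gau_norm]
    exact s3 y
  · refine s9g_avg d t δ N hdim hδ hδ' hN ?_ y
    have : (t.dim : ℝ) ≤ d := by exact_mod_cast hdim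
    nlinarith

/-! ## the parameters -/

/-- LEAF P-S9-GAUGE-C -/
theorem s9g_A0_big (d Ds Bs : ℕ) (hd : 2 ≤ d) (hDs : 100 ≤ Ds) :
    6 ^ 10 * 10 ^ 9 * (d + 1) ^ 2 * Ds ^ 5 ≤ s8pA0 d Ds Bs ^ 10 := by
  obtain ⟨X, hX⟩ : ∃ X : ℕ, X = 10 * (2 * d) * Ds := ⟨_, rfl⟩
  have hdD : 2 * 100 ≤ d * Ds := Nat.mul_le_mul hd hDs
  have hX1 : 4000 ≤ X := by rw [hX]; nlinarith
  have hX2 : d + 1 ≤ X := by rw [hX]; nlinarith
  have hX3 : Ds ≤ X := by rw [hX]; nlinarith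
  have hCr : X ^ 12 ≤ s8cCr (2 * d) Ds := by
    unfold s8cCr
    rw [← hX]
    refine Nat.pow_le_pow_right (by omega) ?_
    have : 1 ≤ (2 * d) ^ 4 := Nat.one_le_pow _ _ (by omega)
    omega
  have hA : s8cCr (2 * d) Ds ≤ s8pA0 d Ds Bs := by
    unfold s8pA0
    have h1 : s8cCr (2 * d) Ds * 1 ≤ s8cCr (2 * d) Ds * (2 * d * Ds) := Nat.mul_le_mul_left _ (by nlinarith)
    have e : 2 * d * s8cCr (2 * d) Ds * Ds = s8cCr (2 * d) Ds * (2 * d * Ds) := by ring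
    rw [e]
    omega
  have hA1 : s8pA0 d Ds Bs ≤ s8pA0 d Ds Bs ^ 10 := Nat.le_self_pow (by norm_num) _
  refine le_trans ?_ ((hCr.trans hA).trans hA1)
  have e : X ^ 12 = X ^ 5 * X ^ 2 * X ^ 5 := by ring
  rw [e]
  refine Nat.mul_le_mul (Nat.mul_le_mul ?_ (Nat.pow_le_pow_left hX2 2)) (Nat.pow_le_pow_left hX3 5)
  exact le_trans (by norm_num) (Nat.pow_le_pow_left hX1 5)

/-- LEAF P-S9-GAUGE-C -/
theorem s9g_par_of_ok {p : S8Par} {d : ℕ} (hp : p.Ok d) (hd : d + 1 ≤ p.Ds)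
    (hA : 6 ^ 10 * 10 ^ 9 * (d + 1) ^ 2 * p.Ds ^ 5 ≤ p.A0 ^ 10) : S9ParOk p d := by
  have hδ := hp.δ_pos
  have hδ' := hp.δ_le
  have hJ0 : (0 : ℝ) ≤ (p.Js : ℝ) := by positivity
  refine ⟨hp.Ds_ge, hd, hδ, hδ'.trans (by norm_num), ⟨p.Js, ?_⟩, fun h hh => ?_, hp.stab.A0_ge, hp.Bs_le, hA, ?_⟩
  · unfold S8Par.up S8cTower.s8cUp
    rw [Finset.mem_filter, Finset.mem_range]
    refine ⟨by omega, Nat.ceil_le.2 ?_⟩
    nlinarith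
  · unfold S8Par.up S8cTower.s8cUp at hh
    rw [Finset.mem_filter] at hh
    refine le_trans ?_ hh.2
    have h9 : 9 < ⌈4 * p.δs * (p.Js : ℝ)⌉₊ := by
      rw [Nat.lt_ceil]
      have h1 := hp.Js_big
      have h2 : (0 : ℝ) ≤ (s8cLog p.Dm : ℝ) := by positivity
      have h3 : (0 : ℝ) ≤ (p.Aht d : ℝ) := by positivity
      have h4 : (0 : ℝ) ≤ (harmonic p.Dm : ℝ) := by
        have := (harmonic_pos (n := p.Dm) (by have := hp.Dm_pos; omega)).le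
        exact_mod_cast this
      have h5 : (0 : ℝ) ≤ 10 * (p.Aht d : ℝ) * (harmonic p.Dm : ℝ) := by positivity
      rw [div_le_iff₀ hδ] at h1
      push_cast
      nlinarith
    omega
  · have h := hp.TT_big
    unfold S8Par.Xi at h
    have e : (p.Ds : ℝ) ^ 1001 = (p.Ds : ℝ) * (p.Ds : ℝ) ^ 1000 := by rw [pow_succ]; ring
    rw [e]
    exact h.le

theorem s9g_par_ok (d Dm Ds Bs : ℕ) (hd : 2 ≤ d) (hDm : 1 ≤ Dm) (hle : Dm ≤ Ds) (hDs : 100 ≤ Ds) (hdD : d + 1 ≤ Ds) :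
    S9ParOk (s8ParOf d Dm Ds Bs) d :=
  s9g_par_of_ok (s8_par_ok d Dm Ds Bs hd hDm hle hDs) hdD (s9g_A0_big d Ds Bs hd hDs)

/-! ## the kit of a mode system -/

/-- **`ModeSys.S9Kit` for the gauges of layer (A).** -/
theorem s9g_modeKit {d : ℕ} (M : ModeSys d) (p : S8Par) (tg : ℕ → LocTag) (δ : ℝ) (N : ℕ) (jo : Fin 4 → ℕ → ℕ) (hδ : 0 < δ)
    (hN : 0 < N) (hg : ∀ l G, M.gauge l G = s8GaugeOf d (tg G) δ N (jo l G)) (hjo : ∀ l G, jo l G < N)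
    (hk : ∀ G, S9TagKit d (tg G) δ N p.Bs p.Ds) (par : S9ParOk p d)
    (hlen : ∑ u ∈ M.uses, u.2.len ≤ p.Ds * M.root.len) : M.S9Kit p := by
  have hv : ∀ l G, (M.gauge l G).vth = (s8GaugeOf d (tg G) δ N 0).vth := fun l G => by
    rw [hg]; exact s9g_vth_eq d (tg G) δ N 0 δ N _
  refine ⟨par, hlen, fun l G => by rw [hv, hv], fun l G => ?_, fun G => ?_, ?_⟩
  · rw [hv, hg]
    exact (hk G).cut _ _
  · rw [hv]
    simp only [hg]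
    exact (hk G).mult (fun l => jo l G) (fun l => hjo l G) 0
  · refine ⟨N, fun l G ρ => (s8GaugeOf d (tg G) δ N ρ.1).gau (s8c4 l), hN, fun l G ρ => s9g_gau_meas d _ δ N _ hδ _,
      fun l G ρ y => s9g_gau_le d _ δ N _ _ y, fun l G y => ?_, fun l G ρ => ?_⟩
    · simp only [s9g_gau_norm]
      rw [Fin.sum_univ_eq_sum_range (fun j => (s8GaugeOf d (tg G) δ N j).cut y ^ 2) N]
      have h := (hk G).avg y
      have hN' : (0 : ℝ) < (N : ℝ) := by exact_mod_cast hN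
      rw [le_inv_mul_iff₀ hN']
      linarith
    · rw [hv]
      have h := (hk G).mult (fun j => if j = l then ρ.1 else jo j G)
        (fun j => by by_cases hj : j = l <;> simp [hj, hjo, ρ.2]) l
      convert h using 2
      rename_i j
      by_cases hj : j = l
      · simp [hj]
      · simp [hj, hg]

end

end Claimed.Agent.R258
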