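/-
Row 258 (S0498), the adapter Sec. 8 -> Sec. 9.  HOME ARCHITECT: helper41.      FILE AdDich: the field `dich` of `S9Sys.Valid` for `A.sys` (the tiny/huge dichotomy (23) with its character quotient).
NO paper needed.  Black boxes: S9/AdDefs.lean, S8/Ht.lean (`s8tEmb`, `s8t_ev_emb`, `s8t_par_basic`), S8c/{Lin,Exc,Good}.lean (`s8cKrat`, `s8c_tiny_closed`, `s8c_ht_div`, `s8c_good_iff`).

LEAVES:  P-S9-AD-D1 = `s9a_kap` (pure linear algebra, Mathlib only);      P-S9-AD-D2 = `nonexc_exists`, `gap_dich`, `dich`.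
PLANS.
* `s9a_kap`.  `Q = (Fin d → ℚ) ⧸ W` is finite dimensional; `d' = Module.finrank ℚ Q`, `b = Module.finBasis ℚ Q`, `f = b.equivFun.toLinearMap ∘ₗ W.mkQ : (Fin d → ℚ) →ₗ[ℚ] (Fin d' → ℚ)`, `f x = 0 ↔ x ∈ W`
  (`LinearEquiv.map_eq_zero_iff`, `Submodule.Quotient.mk_eq_zero`).  `c i j = f (Pi.single i 1) j`, `Nn = ∏ i, ∏ j, (c i j).den ≥ 1`; `Nn * c i j` is an integer `z i j` (`(c i j).den ∣ Nn`: `Finset.dvd_prod_of_mem` twice; `Rat.mul_den_eq_num`;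
  compare `s4a_den_clears` of S4a/ExpAlg.lean for the same computation).  `kap n j = ∑ i, n i * z i j` (additive: `Finset.sum_add_distrib`, `add_mul`).
  `((kap n j : ℤ) : ℚ) = Nn * f (fun i => n i) j` since `(fun i => (n i : ℚ)) = ∑ i, (n i : ℚ) • Pi.single i 1` (`pi_eq_sum_univ'`-type lemma / `LinearMap.pi_apply_eq_sum_univ f x : f x = ∑ i, x i • f (fun j => if i = j then 1 else 0)`).
  So `kap n = 0 ↔ f n = 0` (`Nn ≠ 0`, `Int.cast_injective`, `funext_iff`).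
* `nonexc_exists`: `S8cTower.s8c_good_iff.1 hg = ⟨_, _, hbad⟩` with `hbad : |(exc ∪ hbad h) ∩ piF| ≤ |piF| / 10`; `pr m ∈ piF J h m` (`m ∈ F J h m`: `s8p_self_mem_cF`; `piF = F.image pr`), so `|piF| ≥ 1` and some `π ∈ piF` is not in `exc ∪ hbad`
  (otherwise `(exc ∪ hbad) ∩ piF = piF`).  `π ∈ (lstJ).image pr` (`F ⊆ lstJ`), `π ∉ exc J = ((lstJ).image pr).filter (¬ nonexc)` gives `nonexc π` (`Finset.mem_filter`, `not_not`).
* `gap_dich`: abstract step.  `Θ = M.Th l G π`, `lo = gapLo J`, `hi = gapHi J`, `emb n = s8tEmb d (fun i => (n i : ℚ) / 6^h)`.  `W = (s8cKrat Θ Hh lo).comap L` where `L : (Fin d → ℚ) →ₗ[ℚ] (Fin d ⊕ Fin d → ℚ) = s8tEmb d ∘ₗ ((6^h : ℚ)⁻¹ • LinearMap.id)`,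
  so that `L (fun i => (n i : ℚ)) = emb n` (`div_eq_inv_mul`).  `kap` from `s9a_kap W`.  For `|n|_∞ ≤ E h`: `emb n` has height `≤ Hh` (as in the proof of `ModeSys.horizontal_gap`: `s8c_ht_div`, `E h = A0^(h+1) ≤ Hh`, `6^h ≤ Hh` from `h.hp.Hh_big`, `h ≤ Js`).
  If `kap n = 0`: `emb n ∈ K_rat`, `s8c_tiny_closed Θ Hh _ lo hi (lo ≥ 0) hne hpar (emb n) _ _ : |ev| ≤ lo`; `hpar`: `card (Fin d ⊕ Fin d) = 2 d` (`Fintype.card_sum`, `two_mul`), `(2d) Cr lo < 𝒯 lo = 1/|J| ≤ hi` by `h.hp.TT_cr`, `𝒯 ≥ 1`.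
  If `kap n ≠ 0`: `emb n ∉ K_rat`; were `|ev| ≤ lo`, `emb n` would be a generator (`Submodule.subset_span`); so by `hne (emb n) _` (`s8cGap`) `hi ≤ |ev|`.   `ev = dotv n / 6^h` (`s8t_ev_emb`).
* `dich`: `j, D` given; `m = pick D ∈ coreL ⊆ lstJ`, good at `hh`; `π` from `nonexc_exists`; `gap_dich`; `s9dot n (fun i => ϑ i / 6^h) = dotv n / 6^h` (`Finset.sum_div`, `mul_div_assoc`; `h.vth_eq j G`).
  `|I| lo = 𝒯⁻¹ |I|/|J| ≤ 𝒯⁻¹` (`len_block`: `|I| ≤ 2^(2K) |I| ≤ |J|`);  `|I| hi = 𝒯 2^(3K) |I| / |J| ≥ 𝒯` (`len_block`.1).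
-/
import Claimed.Agent.R258.S9.AdDefs

set_option autoImplicit false
open MeasureTheory

namespace Claimed.Agent.R258

open scoped BigOperators ComplexConjugate
open Classical

noncomputable section

/-- an integral character quotient with prescribed rational kernel.  LEAF P-S9-AD-D1 -/
theorem s9a_kap {d : ℕ} (W : Submodule ℚ (Fin d → ℚ)) :
    ∃ (d' : ℕ) (kap : (Fin d → ℤ) →+ (Fin d' → ℤ)), ∀ n, kap n = 0 ↔ (fun i => (n i : ℚ)) ∈ W := by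
  obtain ⟨d', hd'⟩ : ∃ d' : ℕ, d' = Module.finrank ℚ ((Fin d → ℚ) ⧸ W) := ⟨_, rfl⟩
  have b : Module.Basis (Fin d') ℚ ((Fin d → ℚ) ⧸ W) := by
    rw [hd']
    exact Module.finBasis ℚ _
  obtain ⟨f, hf⟩ : ∃ f : (Fin d → ℚ) →ₗ[ℚ] (Fin d' → ℚ), ∀ x, f x = 0 ↔ x ∈ W := by
    refine ⟨b.equivFun.toLinearMap ∘ₗ W.mkQ, fun x => ?_⟩
    rw [LinearMap.comp_apply, LinearEquiv.coe_coe, LinearEquiv.map_eq_zero_iff, Submodule.mkQ_apply,
      Submodule.Quotient.mk_eq_zero]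
  obtain ⟨c, hc⟩ : ∃ c : Fin d → Fin d' → ℚ, ∀ i j, c i j = f (fun k => if i = k then 1 else 0) j := ⟨_, fun _ _ => rfl⟩
  obtain ⟨Nn, hNn⟩ : ∃ Nn : ℕ, Nn = ∏ i, ∏ j, (c i j).den := ⟨_, rfl⟩
  have hN0 : Nn ≠ 0 := by
    rw [hNn]
    exact Finset.prod_ne_zero_iff.2 fun i _ => Finset.prod_ne_zero_iff.2 fun j _ => (c i j).den_nz
  have hz : ∀ i j, ∃ z : ℤ, (z : ℚ) = (Nn : ℚ) * c i j := by
    intro i j
    have hdvd : (c i j).den ∣ Nn := by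
      rw [hNn]
      exact (Finset.dvd_prod_of_mem (fun j => (c i j).den) (Finset.mem_univ j)).trans
        (Finset.dvd_prod_of_mem (fun i => ∏ j, (c i j).den) (Finset.mem_univ i))
    obtain ⟨k, hk⟩ := hdvd
    refine ⟨(k : ℤ) * (c i j).num, ?_⟩
    rw [hk]
    push_cast
    have := Rat.mul_den_eq_num (c i j)
    calc (k : ℚ) * ((c i j).num : ℚ) = (k : ℚ) * (c i j * ((c i j).den : ℚ)) := by rw [this]
      _ = _ := by ring
  choose z hz using hz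
  have hfx : ∀ (n : Fin d → ℤ) (j : Fin d'), ((∑ i, n i * z i j : ℤ) : ℚ) = (Nn : ℚ) * f (fun i => (n i : ℚ)) j := by
    intro n j
    rw [LinearMap.pi_apply_eq_sum_univ f (fun i => (n i : ℚ))]
    rw [Finset.sum_apply, Finset.mul_sum]
    push_cast
    refine Finset.sum_congr rfl fun i _ => ?_
    rw [hz, Pi.smul_apply, smul_eq_mul, hc]
    ring
  refine ⟨d', { toFun := fun n j => ∑ i, n i * z i j, map_zero' := ?_, map_add' := ?_ }, fun n => ?_⟩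
  · funext j
    simp
  · intro n n'
    funext j
    simp only [Pi.add_apply, add_mul, Finset.sum_add_distrib]
  · rw [← hf]
    show (fun j => ∑ i, n i * z i j) = 0 ↔ _
    constructor
    · intro h0
      funext j
      have h1 := hfx n j
      have h2 : (∑ i, n i * z i j : ℤ) = 0 := congrFun h0 j
      rw [h2] at h1
      have h3 : (Nn : ℚ) ≠ 0 := by exact_mod_cast hN0
      have := mul_eq_zero.1 h1.symm
      simpa [h3] using this
    · intro h0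
      funext j
      have h1 := hfx n j
      rw [h0] at h1
      simp only [Pi.zero_apply, mul_zero] at h1
      exact_mod_cast h1

/-- a good mode sees a primary outside the exceptional set (abstract tower) -/
theorem s9a_tower_nonexc {Pos Md Pr : Type*} (T : S8cTower Pos Md Pr) {Δ : ℕ} {q : Pos} {h : ℕ} {m : Md}
    (hm : m ∈ T.F q h m) (hg : T.Good Δ q h m) : ∃ a ∈ T.F q h m, T.prim a ∉ T.exc q := by
  obtain ⟨-, -, hbad⟩ := S8cTower.s8c_good_iff.1 hg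
  have hmem : T.prim m ∈ T.piF q h m := Finset.mem_image_of_mem _ hm
  have hpos : 0 < (T.piF q h m).card := Finset.card_pos.2 ⟨_, hmem⟩
  have hex : ∃ π ∈ T.piF q h m, π ∉ T.exc q ∪ T.hbad q h := by
    by_contra hno
    push Not at hno
    have e : (T.exc q ∪ T.hbad q h) ∩ T.piF q h m = T.piF q h m := Finset.inter_eq_right.2 hno
    rw [e] at hbad
    have : (0 : ℝ) < ((T.piF q h m).card : ℝ) := by exact_mod_cast hpos
    linarith
  obtain ⟨π, h1, h2⟩ := hex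
  rw [Finset.mem_union, not_or] at h2
  obtain ⟨a, ha, rfl⟩ := Finset.mem_image.1 h1
  exact ⟨a, ha, h2.1⟩

namespace S9Ad
variable {d : ℕ} {A : S9Ad d} {c0 C0 G0 PC : ℝ}

/-- a good mode sees a nonexceptional primary -/
theorem nonexc_exists {l : Fin 4} {u : ℕ × Cell} {hh m : ℕ} (hm : m ∈ A.M.lstJ A.p l u.1 (A.J u))
    (hg : A.M.good A.p l u.1 (A.J u) hh m) : ∃ π, A.M.nonexc A.p l u.1 (A.J u) π := by
  obtain ⟨a, ha, h3⟩ := s9a_tower_nonexc (A.M.tower A.p l u.1) (ModeSys.s8p_self_mem_cF hm) hg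
  refine ⟨A.M.pr a, ?_⟩
  by_contra hcon
  exact h3 (Finset.mem_filter.2 ⟨Finset.mem_image.2 ⟨a, ModeSys.s8p_cF_sub_lst ha, rfl⟩, hcon⟩)

/-- (23) for the pure horizontal shifts, with the quotient -/
theorem gap_dich (h : A.Ok c0 C0 G0 PC) {l : Fin 4} {G : ℕ} {J : Cell} {π : ℕ} (hne : A.M.nonexc A.p l G J π) {hh : ℕ}
    (hh' : hh ≤ A.p.Js) :
    ∃ (d' : ℕ) (kap : (Fin d → ℤ) →+ (Fin d' → ℤ)), ∀ n, S9Box (A.p.E hh) n →
      (kap n = 0 → |(A.M.gauge l G).dotv n / 6 ^ hh| ≤ A.p.gapLo J) ∧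
      (kap n ≠ 0 → A.p.gapHi J ≤ |(A.M.gauge l G).dotv n / 6 ^ hh|) := by
  obtain ⟨hH1, hA0, hXi, hTT⟩ := ModeSys.s8t_par_basic h.hp
  obtain ⟨L, hL⟩ : ∃ L : (Fin d → ℚ) →ₗ[ℚ] (Fin d ⊕ Fin d → ℚ),
      ∀ n : Fin d → ℤ, L (fun i => (n i : ℚ)) = s8tEmb d fun i => (n i : ℚ) / (6 : ℚ) ^ hh := by
    refine ⟨s8tEmb d ∘ₗ (((6 : ℚ) ^ hh)⁻¹ • LinearMap.id), fun n => ?_⟩
    rw [LinearMap.comp_apply]
    congr 1
    funext i
    simp only [LinearMap.smul_apply, LinearMap.id_coe, id_eq, Pi.smul_apply, smul_eq_mul]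
    rw [div_eq_inv_mul]
  obtain ⟨d', kap, hkap⟩ := s9a_kap ((s8cKrat (A.M.Th l G π) A.p.Hh (A.p.gapLo J)).comap L)
  have hlen : 0 < J.len := cell_len_pos J
  have hTT0 : (0 : ℝ) < A.p.TT := by linarith
  have hlo : 0 ≤ A.p.gapLo J := by
    unfold S8Par.gapLo
    positivity
  have hDs1 : 1 ≤ A.p.Ds := le_trans (by norm_num) h.hp.Ds_ge
  have h6 : 6 ^ hh ≤ A.p.Hh := by
    calc 6 ^ hh ≤ 6 ^ A.p.Js := Nat.pow_le_pow_right (by norm_num) hh'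
      _ ≤ A.p.Ds * 6 ^ A.p.Js := Nat.le_mul_of_pos_left _ (by omega)
      _ ≤ A.p.Ds * 6 ^ A.p.Js + A.p.Ds ^ 2 * A.p.A0 ^ (A.p.Js + 1) := Nat.le_add_right _ _
      _ ≤ A.p.Hh := h.hp.Hh_big
  have hE : A.p.E hh ≤ A.p.Hh := by
    unfold S8Par.E
    calc A.p.A0 ^ (hh + 1) ≤ A.p.A0 ^ (A.p.Js + 1) := Nat.pow_le_pow_right (by omega) (by omega)
      _ ≤ A.p.Ds ^ 2 * A.p.A0 ^ (A.p.Js + 1) := Nat.le_mul_of_pos_left _ (by positivity)
      _ ≤ A.p.Ds * 6 ^ A.p.Js + A.p.Ds ^ 2 * A.p.A0 ^ (A.p.Js + 1) := Nat.le_add_left _ _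
      _ ≤ A.p.Hh := h.hp.Hh_big
  have hpar : (Fintype.card (Fin d ⊕ Fin d) : ℝ) * (s8cCr (Fintype.card (Fin d ⊕ Fin d)) A.p.Hh : ℝ) * A.p.gapLo J
      < A.p.gapHi J := by
    have e : Fintype.card (Fin d ⊕ Fin d) = 2 * d := by rw [Fintype.card_sum, Fintype.card_fin, two_mul]
    rw [e]
    have h1 := h.hp.TT_cr
    unfold S8Par.gapLo S8Par.gapHi
    have h2 : (1 : ℝ) ≤ (2 : ℝ) ^ (3 * A.p.K) := one_le_pow₀ (by norm_num)
    have h3 : ((2 * d : ℕ) : ℝ) * (s8cCr (2 * d) A.p.Hh : ℝ) * (A.p.TT⁻¹ / J.len) < A.p.TT * (A.p.TT⁻¹ / J.len) :=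
      mul_lt_mul_of_pos_right h1 (by positivity)
    have h4 : A.p.TT * (A.p.TT⁻¹ / J.len) = 1 / J.len := by field_simp
    have h5 : 1 / J.len ≤ A.p.TT * 2 ^ (3 * A.p.K) / J.len := by
      refine div_le_div_of_nonneg_right ?_ hlen.le
      nlinarith
    linarith
  refine ⟨d', kap, fun n hn => ?_⟩
  have hht : s8cHtLe A.p.Hh (s8tEmb d fun i => (n i : ℚ) / (6 : ℚ) ^ hh) := by
    intro i
    cases i with
    | inl i =>
      show s8cHt 0 ≤ A.p.Hh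
      simpa [s8cHt] using hH1
    | inr i =>
      show s8cHt ((n i : ℚ) / (6 : ℚ) ^ hh) ≤ A.p.Hh
      have h1 : (n i).natAbs ≤ A.p.Hh := by
        have : (((n i).natAbs : ℕ) : ℤ) ≤ (A.p.Hh : ℤ) := by
          rw [← Int.abs_eq_natAbs]
          exact (hn i).trans (by exact_mod_cast hE)
        exact_mod_cast this
      have := s8c_ht_div (n i) (6 ^ hh) A.p.Hh (by positivity) h1 h6
      simpa using this
  have hk : kap n = 0 ↔ (s8tEmb d fun i => (n i : ℚ) / (6 : ℚ) ^ hh) ∈ s8cKrat (A.M.Th l G π) A.p.Hh (A.p.gapLo J) := by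
    rw [hkap, Submodule.mem_comap, hL]
  rw [← ModeSys.s8t_ev_emb l G π n hh]
  constructor
  · intro h0
    exact s8c_tiny_closed _ _ hH1 _ _ hlo hne hpar _ hht (hk.1 h0)
  · intro h0
    rcases hne _ hht with h1 | h1
    · exact absurd (hk.2 (Submodule.subset_span ⟨hht, h1⟩)) h0
    · exact h1

theorem dich (h : A.Ok c0 C0 G0 PC) : ∀ u ∈ A.sys.uses, ∀ hh ∈ A.p.up,
    (∃ j, A.sys.sd j = false ∧ ∃ D ∈ A.sys.clsOf j u, A.sys.good j u hh D) →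
    S9Dich (fun i => A.sys.vth u.1 i / 6 ^ hh) (A.p.E hh) u.2.len A.p.TT := by
  rintro u hu hh hh' ⟨j, -, D, hD, hg⟩
  obtain ⟨hH1, hA0, hXi, hTT⟩ := ModeSys.s8t_par_basic h.hp
  have hle : hh ≤ A.p.Js := by
    have := (Finset.mem_filter.1 hh').1
    rw [Finset.mem_range] at this
    omega
  obtain ⟨hp1, -⟩ := pick_spec hD
  obtain ⟨π, hπ⟩ := nonexc_exists (core_sub j u hp1) hg
  obtain ⟨d', kap, hk⟩ := gap_dich h hπ hle
  obtain ⟨b1, b2, -, -⟩ := len_block h hu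
  have hI : 0 < u.2.len := cell_len_pos u.2
  have hJ : 0 < (A.J u).len := cell_len_pos _
  have hTT0 : (0 : ℝ) < A.p.TT := by linarith
  refine ⟨d', kap, fun n hn => ?_⟩
  have e : s9dot n (fun i => A.sys.vth u.1 i / 6 ^ hh) = (A.M.gauge j u.1).dotv n / 6 ^ hh := by
    unfold s9dot S8Gauge.dotv
    rw [Finset.sum_div, h.vth_eq j u.1]
    exact Finset.sum_congr rfl fun i _ => (mul_div_assoc _ _ _).symm
  rw [e]
  obtain ⟨k1, k2⟩ := hk n hn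
  constructor
  · intro h0
    have h1 := k1 h0
    unfold S8Par.gapLo at h1
    have h2 : (1 : ℝ) ≤ (2 : ℝ) ^ (2 * A.p.K) := one_le_pow₀ (by norm_num)
    have h3 : u.2.len ≤ (A.J u).len := by nlinarith
    calc u.2.len * |(A.M.gauge j u.1).dotv n / 6 ^ hh| ≤ u.2.len * (A.p.TT⁻¹ / (A.J u).len) :=
          mul_le_mul_of_nonneg_left h1 hI.le
      _ = A.p.TT⁻¹ * (u.2.len / (A.J u).len) := by ring
      _ ≤ A.p.TT⁻¹ * 1 := by
          refine mul_le_mul_of_nonneg_left ?_ (by positivity)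
          rw [div_le_one hJ]
          exact h3
      _ = A.p.TT⁻¹ := mul_one _
  · intro h0
    have h1 := k2 h0
    unfold S8Par.gapHi at h1
    calc A.p.TT = A.p.TT * 1 := (mul_one _).symm
      _ ≤ A.p.TT * (2 ^ (3 * A.p.K) * u.2.len / (A.J u).len) := by
          refine mul_le_mul_of_nonneg_left ?_ hTT0.le
          rw [le_div_iff₀ hJ]
          linarith
      _ = u.2.len * (A.p.TT * 2 ^ (3 * A.p.K) / (A.J u).len) := by ring
      _ ≤ u.2.len * |(A.M.gauge j u.1).dotv n / 6 ^ hh| := mul_le_mul_of_nonneg_left h1 hI.le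

end S9Ad

end

end Claimed.Agent.R258
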