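/-
Row 258 (S0498), the adapter Sec. 8 -> Sec. 9.  HOME ARCHITECT: helper41.      FILE AdNum: THE NUMERICS of `s9_goal`.
NO paper needed; real analysis only.  Definitions: `s9X`, `s9PL` (S9/Main, S9/Count), `s9Wd` (S9/CountAbs), `S8Par.Bx` (S9/Test), `S8Par.X28, nCh, up, E` (S8/Iface = Pack013), `s8cCr`, `s8cLog`, `S8Par.Bd`, `pbase`, `g0fun` (S10/Att, S10/Final), `s9tys` (AdDefs).

LEAVES:  P-S9-AD-G1 = `s9n_Wd`, `s9n_PL`, `s9n_small`;      P-S9-AD-G2 = `s9n_PC`, `s9n_X`;      P-S9-AD-G3 = `s9a_num`.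
NOTATION.  `T = 1 + k + P ≥ 3`, `X = T^Cp ≥ 3` (real power, `Cp ≥ 1`), `g = g0fun Cp k ≥ 1`.  From `p.Bd d G0 CR k P Cp`: `K, d, log Ds, Js log A0 ≤ X`, `G0, X17 ≤ g`, `exp k ≤ Ds`.  From `p.Ok d`: `Ds ≥ 100`, `A0 ≥ 6` (`hp.stab.A0_ge`), `δs > 0`.
PLANS.
* `s9n_small`: `Ds^200 ≥ exp (200 k)`; `C ≤ exp (199 k)` as soon as `k ≥ log C` (`Real.exp_log`, `C ≥ 1`).
* `s9n_Wd`: `Bn = 4 Bx Js = 4 Ds^5 A0^(Js - 10 + 1)`; `log Bn ≤ 2 + 5 log Ds + (Js + 1) log A0 ≤ 2 + 7 X` (`Js - 10 + 1 ≤ Js + 1`, `log A0 ≤ Js log A0` since `Js ≥ 1` by `hp.Js_big'`).  `(d+1) Cr + 1 ≤ 2 (d+1) Cr`, `Cr = (10 (d+1) Bn)^(100 (d+1)^4)`: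
  `log ((d+1) Cr + 1) ≤ log 2 + log (d+1) + 100 (d+1)^4 (log 10 + log (d+1) + log Bn)`; `log (d+1) ≤ d ≤ X`; `logb 2 x = log x / log 2 ≤ 2 log x`.  Result `≤ 10^5 X^5` (generous).
* `s9n_PL`: `((d+1)(Wd + 5))^30 ≤ (2 X · 2·10^5 X^5)^30`.
* `s9n_PC`: `nCh = 4 (Js+1)(s8cLog Ds + 1)² (2 clog₂ Ds + 6)`: `Js ≤ X` (`log A0 ≥ log 6 ≥ 1`), `s8cLog Ds ≤ logb 1.1 Ds ≤ 11 log Ds` (`Nat.floor_le`; `log 1.1 ≥ 1/11`: `Real.add_one_le_exp`-type bound or `Real.log_le_sub_one_of_pos` applied to `1/1.1`),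
  `clog₂ Ds ≤ log₂ Ds + 1 ≤ 2 log Ds + 1` (`Nat.clog` vs `Real.logb`: `Nat.pow_pred_clog_lt_self`/`Nat.lt_pow_succ_log_self`).  `X28 = 160 (G0 + K X17 + 1) nCh ≤ 160 · 3 X g · nCh`.  `Pi ≤ (T g)^Cp = X g^Cp` (`Real.mul_rpow`).
* `s9n_X`: multiply; `logb 2 (2 PC) ≤ 2 PC`, `logb 2 Ds ≤ 2 X`; `up.card ≤ Js + 1`; `(s9tys p).card = (s8cLog Ds + 1)²` (`Finset.card_product`, `Finset.card_range`).
* `s9a_num`: `C9 = max` of the exponents: `c X^a g^(b) / ε^3 ≤ (T g0fun(C9,k) / ε)^C9` when `C9 ≥ a Cp + log c`, `C9 ≥ 3`, `C9 ≥ b Cp`-type bounds: `c ≤ T^(log c)` (`T ≥ e`), `g0fun Cp k ≤ g0fun C9 k` (monotone in `C` because `1 + log (2k) ≥ 1`),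
  `g^b ≤ g0fun(C9,k)^C9`, `ε^(-3) ≤ ε^(-C9)` (`Real.rpow_le_rpow_of_exponent_ge`).   Intermediate statements may be CHANGED freely (only `s9a_num` is used outside): tell helper41 if `s9a_num` itself needs a change.
-/
import Claimed.Agent.R258.S9.AdDefs
import Claimed.Agent.R258.S10.Att

set_option autoImplicit false
open MeasureTheory

namespace Claimed.Agent.R258

open scoped BigOperators
open Classical

noncomputable section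

/-- the path cap constant used in `s9_goal` -/
def s9PC (p : S8Par) (d : ℕ) (G0 Pi ε : ℝ) : ℝ := 1 + 2 * (p.X28 d G0 + Pi) / ε

theorem s9n_small (C : ℝ) (hC : 1 ≤ C) (k : ℝ) (hk : Real.log C ≤ k) (hk1 : 1 ≤ k) (Ds : ℕ) (hDs : Real.exp k ≤ Ds) :
    C * ((Ds : ℝ) ^ 200)⁻¹ ≤ Real.exp (-k) := by
  have hC0 : 0 < C := by linarith
  have h1 : C ≤ Real.exp k := by
    rw [← Real.exp_log hC0]
    exact Real.exp_le_exp.2 hk
  have h2 : Real.exp (200 * k) ≤ (Ds : ℝ) ^ 200 := by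
    have : Real.exp (200 * k) = Real.exp k ^ 200 := by
      rw [← Real.exp_nat_mul]
      norm_num
    rw [this]
    exact pow_le_pow_left₀ (Real.exp_pos k).le hDs 200
  have h3 : ((Ds : ℝ) ^ 200)⁻¹ ≤ Real.exp (-(200 * k)) := by
    rw [Real.exp_neg]
    exact inv_anti₀ (Real.exp_pos _) h2
  calc C * ((Ds : ℝ) ^ 200)⁻¹ ≤ Real.exp k * Real.exp (-(200 * k)) :=
        mul_le_mul h1 h3 (by positivity) (Real.exp_pos k).le
    _ = Real.exp (k + -(200 * k)) := (Real.exp_add _ _).symm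
    _ ≤ Real.exp (-k) := Real.exp_le_exp.2 (by linarith)

theorem s9n_log2 : 1 / 2 ≤ Real.log 2 ∧ Real.log 2 ≤ 7 / 10 := by
  constructor
  · have := Real.log_two_gt_d9
    linarith
  · have := Real.log_two_lt_d9
    linarith

theorem s9n_log10 : Real.log 10 ≤ 3 := by
  have h1 : Real.log 10 ≤ Real.log (2 ^ 4) := Real.log_le_log (by norm_num) (by norm_num)
  rw [Real.log_pow] at h1
  have := s9n_log2.2
  push_cast at h1
  linarith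

theorem s9n_logb2_le {x : ℝ} (hx : 0 ≤ Real.log x) : Real.logb 2 x ≤ 2 * Real.log x := by
  have h := s9n_log2.1
  unfold Real.logb
  rw [div_le_iff₀ (by linarith)]
  nlinarith

theorem s9n_basic {p : S8Par} {d : ℕ} {X : ℝ} (hp : p.Ok d) (hJs : (p.Js : ℝ) * Real.log p.A0 ≤ X) :
    1 ≤ Real.log p.A0 ∧ (1 : ℝ) ≤ p.Js ∧ (p.Js : ℝ) ≤ X ∧ Real.log p.A0 ≤ X := by
  have hA : (6 : ℝ) ≤ p.A0 := by exact_mod_cast hp.stab.A0_ge
  have h1 : 1 ≤ Real.log p.A0 := by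
    rw [Real.le_log_iff_exp_le (by linarith)]
    have := Real.exp_one_lt_d9
    linarith
  have h2 : (1 : ℝ) ≤ p.Js := by
    refine le_trans ?_ hp.Js_big'
    rw [le_div_iff₀ hp.δ_pos]
    have := hp.δ_le
    linarith
  refine ⟨h1, h2, ?_, ?_⟩
  · nlinarith
  · nlinarith

theorem s9n_logB {p : S8Par} {d : ℕ} {X : ℝ} (hp : p.Ok d) (hX : 3 ≤ X) (hDs : Real.log p.Ds ≤ X)
    (hJs : (p.Js : ℝ) * Real.log p.A0 ≤ X) :
    (1 : ℝ) ≤ ((4 * p.Bx p.Js : ℕ) : ℝ) ∧ Real.log ((4 * p.Bx p.Js : ℕ) : ℝ) ≤ 2 + 7 * X := by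
  obtain ⟨hA1, hJ1, hJX, hAX⟩ := s9n_basic hp hJs
  have hDs0 : (0 : ℝ) < p.Ds := by
    have : (100 : ℝ) ≤ p.Ds := by exact_mod_cast hp.Ds_ge
    linarith
  have hA0 : (0 : ℝ) < p.A0 := by
    have : (6 : ℝ) ≤ p.A0 := by exact_mod_cast hp.stab.A0_ge
    linarith
  have e : ((4 * p.Bx p.Js : ℕ) : ℝ) = 4 * ((p.Ds : ℝ) ^ 5 * (p.A0 : ℝ) ^ (p.Js - 10 + 1)) := by
    unfold S8Par.Bx S8Par.E
    push_cast
    ring
  constructor
  · have h1 : 1 ≤ 4 * p.Bx p.Js := by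
      have : 0 < p.Bx p.Js := by
        unfold S8Par.Bx S8Par.E
        have h1 : 0 < p.Ds := by exact_mod_cast hDs0
        have h2 : 0 < p.A0 := by exact_mod_cast hA0
        positivity
      omega
    exact_mod_cast h1
  · rw [e, Real.log_mul (by norm_num) (by positivity), Real.log_mul (by positivity) (by positivity),
      Real.log_pow, Real.log_pow]
    have h4 : Real.log 4 ≤ 2 := by
      have : Real.log 4 = Real.log (2 ^ 2) := by norm_num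
      rw [this, Real.log_pow]
      have := s9n_log2.2
      push_cast
      linarith
    have h5 : ((p.Js - 10 + 1 : ℕ) : ℝ) ≤ (p.Js : ℝ) + 1 := by
      have : p.Js - 10 + 1 ≤ p.Js + 1 := by omega
      exact_mod_cast this
    have h6 : ((p.Js - 10 + 1 : ℕ) : ℝ) * Real.log p.A0 ≤ ((p.Js : ℝ) + 1) * Real.log p.A0 :=
      mul_le_mul_of_nonneg_right h5 (by linarith)
    push_cast at h6 ⊢
    nlinarith

theorem s9n_Wd {p : S8Par} {d : ℕ} {X : ℝ} (hp : p.Ok d) (hX : 3 ≤ X) (hd : (d : ℝ) ≤ X) (hDs : Real.log p.Ds ≤ X)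
    (hJs : (p.Js : ℝ) * Real.log p.A0 ≤ X) : 0 ≤ s9Wd d (4 * p.Bx p.Js) ∧ s9Wd d (4 * p.Bx p.Js) ≤ 10 ^ 5 * X ^ 5 := by
  obtain ⟨hB1, hBlog⟩ := s9n_logB hp hX hDs hJs
  set B : ℝ := ((4 * p.Bx p.Js : ℕ) : ℝ) with hB
  set D : ℝ := (d : ℝ) + 1 with hD
  have hD1 : 1 ≤ D := by
    have : (0 : ℝ) ≤ d := Nat.cast_nonneg d
    linarith
  have hDX : D ≤ 4 / 3 * X := by linarith
  have hlogD : Real.log D ≤ X := by
    have := Real.log_le_sub_one_of_pos (by linarith : 0 < D)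
    linarith
  have hlogD0 : 0 ≤ Real.log D := Real.log_nonneg hD1
  set Y : ℝ := 10 * D * B with hY
  have hY1 : 1 ≤ Y := by
    have : 1 ≤ D * B := by nlinarith
    rw [hY, mul_assoc]
    linarith
  have hlogY : Real.log Y ≤ 10 * X := by
    rw [hY, Real.log_mul (by positivity) (by positivity), Real.log_mul (by norm_num) (by positivity)]
    have := s9n_log10
    linarith
  have hlogY0 : 0 ≤ Real.log Y := Real.log_nonneg hY1
  obtain ⟨n, hn, hnR⟩ : ∃ n : ℕ, n = 100 * (d + 1) ^ 4 ∧ (n : ℝ) = 100 * D ^ 4 :=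
    ⟨_, rfl, by rw [hD]; push_cast; ring⟩
  have harg : ((d + 1 : ℕ) : ℝ) * (s8cCr (d + 1) (4 * p.Bx p.Js) : ℝ) + 1 = D * Y ^ n + 1 := by
    unfold s8cCr
    rw [← hn, hD, hY, hB, hD]
    push_cast
    ring
  have hY0 : 0 < Y := by linarith
  have hD0 : 0 < D := by linarith
  have hCr1 : 1 ≤ Y ^ n := one_le_pow₀ hY1
  have hCr0 : 0 < Y ^ n := by linarith
  have hDCr : 1 ≤ D * Y ^ n := by nlinarith
  unfold s9Wd
  rw [harg]
  refine ⟨Real.logb_nonneg one_lt_two (by linarith), ?_⟩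
  have h0 : 0 ≤ Real.log (D * Y ^ n + 1) := Real.log_nonneg (by linarith)
  refine (s9n_logb2_le h0).trans ?_
  have h1 : Real.log (D * Y ^ n + 1) ≤ Real.log (2 * (D * Y ^ n)) :=
    Real.log_le_log (by linarith) (by linarith)
  have h2 : Real.log (2 * (D * Y ^ n)) = Real.log 2 + (Real.log D + (100 * D ^ 4) * Real.log Y) := by
    rw [Real.log_mul (by norm_num) (mul_pos hD0 hCr0).ne', Real.log_mul hD0.ne' hCr0.ne',
      Real.log_pow, hnR]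
  have h3 : D ^ 4 ≤ (4 / 3 * X) ^ 4 := pow_le_pow_left₀ (by linarith) hDX 4
  have h4 : (100 * D ^ 4) * Real.log Y ≤ (100 * (4 / 3 * X) ^ 4) * (10 * X) :=
    mul_le_mul (by linarith) hlogY hlogY0 (by positivity)
  have h5 : (243 : ℝ) ≤ X ^ 5 := by
    have := pow_le_pow_left₀ (by norm_num : (0 : ℝ) ≤ 3) hX 5
    norm_num at this
    exact this
  have h6 : X ≤ X ^ 5 := by
    have : X ^ 1 ≤ X ^ 5 := pow_le_pow_right₀ (by linarith) (by norm_num)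
    simpa using this
  have h7 : (100 * (4 / 3 * X) ^ 4) * (10 * X) = 256000 / 81 * X ^ 5 := by ring
  have := s9n_log2.2
  rw [h7] at h4
  linarith

theorem s9n_PL {p : S8Par} {d : ℕ} {X : ℝ} (hp : p.Ok d) (hX : 3 ≤ X) (hd : (d : ℝ) ≤ X) (hDs : Real.log p.Ds ≤ X)
    (hJs : (p.Js : ℝ) * Real.log p.A0 ≤ X) : 1 ≤ s9PL p d ∧ s9PL p d ≤ (10 ^ 6 * X ^ 6) ^ 30 := by
  obtain ⟨hW0, hW⟩ := s9n_Wd hp hX hd hDs hJs
  have hd0 : (0 : ℝ) ≤ d := Nat.cast_nonneg d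
  unfold s9PL
  set W : ℝ := s9Wd d (4 * p.Bx p.Js) with hWdef
  have h1 : 1 ≤ ((d : ℝ) + 1) * (W + 5) := by nlinarith
  refine ⟨one_le_pow₀ h1, pow_le_pow_left₀ (by linarith) ?_ 30⟩
  have h5 : (243 : ℝ) ≤ X ^ 5 := by
    have := pow_le_pow_left₀ (by norm_num : (0 : ℝ) ≤ 3) hX 5
    norm_num at this
    exact this
  have h2 : W + 5 ≤ 2 * 10 ^ 5 * X ^ 5 := by linarith
  have h3 : (d : ℝ) + 1 ≤ 2 * X := by linarith
  calc ((d : ℝ) + 1) * (W + 5) ≤ (2 * X) * (2 * 10 ^ 5 * X ^ 5) :=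
        mul_le_mul h3 h2 (by linarith) (by linarith)
    _ = 4 * 10 ^ 5 * X ^ 6 := by ring
    _ ≤ 10 ^ 6 * X ^ 6 := by
        have : 0 ≤ X ^ 6 := by positivity
        nlinarith

theorem s9n_log2_ge : (1 : ℝ) / 2 ≤ Real.log 2 := by
  have := Real.log_two_gt_d9
  linarith

/-- `s8cLog n ≤ 11 log n` -/
theorem s9n_s8cLog_le (n : ℕ) (hn : 1 ≤ n) : (s8cLog n : ℝ) ≤ 11 * Real.log n := by
  have hnR : (1 : ℝ) ≤ n := by exact_mod_cast hn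
  have hl11 : (1 : ℝ) / 11 ≤ Real.log 1.1 := by
    have := Real.one_sub_inv_le_log_of_pos (show (0 : ℝ) < 1.1 by norm_num)
    norm_num at this ⊢
    linarith
  have h0 : 0 ≤ Real.logb 1.1 (n : ℝ) := Real.logb_nonneg (by norm_num) hnR
  have h1 : (s8cLog n : ℝ) ≤ Real.logb 1.1 (n : ℝ) := Nat.floor_le h0
  have h2 : 0 ≤ Real.log n := Real.log_nonneg hnR
  refine h1.trans ?_
  unfold Real.logb
  rw [div_le_iff₀ (by linarith)]
  nlinarith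

/-- `clog₂ n ≤ 2 log n + 1` -/
theorem s9n_clog_le (n : ℕ) (hn : 2 ≤ n) : (Nat.clog 2 n : ℝ) ≤ 2 * Real.log n + 1 := by
  have h1 : 2 ^ (Nat.clog 2 n).pred < n := Nat.pow_pred_clog_lt_self (by norm_num) (by omega)
  have h2 : ((2 : ℝ) ^ (Nat.clog 2 n).pred) < n := by exact_mod_cast h1
  have h3 : Real.log ((2 : ℝ) ^ (Nat.clog 2 n).pred) < Real.log n := Real.log_lt_log (by positivity) h2
  rw [Real.log_pow] at h3
  have h4 : 0 < Nat.clog 2 n := Nat.clog_pos (by norm_num) hn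
  have h5 : ((Nat.clog 2 n).pred : ℝ) = (Nat.clog 2 n : ℝ) - 1 := by
    have : (Nat.clog 2 n).pred + 1 = Nat.clog 2 n := Nat.succ_pred_eq_of_pos h4
    have h6 : (((Nat.clog 2 n).pred + 1 : ℕ) : ℝ) = (Nat.clog 2 n : ℝ) := by rw [this]
    push_cast at h6
    linarith
  rw [h5] at h3
  have h7 := s9n_log2_ge
  have h8 : (0 : ℝ) ≤ (Nat.clog 2 n : ℝ) - 1 := by
    have : (1 : ℝ) ≤ (Nat.clog 2 n : ℝ) := by exact_mod_cast h4
    linarith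
  nlinarith

theorem s9n_Js_le {p : S8Par} {d : ℕ} {X : ℝ} (hp : p.Ok d) (hJs : (p.Js : ℝ) * Real.log p.A0 ≤ X) :
    (p.Js : ℝ) ≤ X := by
  have h6 : (6 : ℝ) ≤ p.A0 := by exact_mod_cast hp.stab.A0_ge
  have h1 : 1 ≤ Real.log p.A0 := by
    rw [Real.le_log_iff_exp_le (by linarith)]
    have := Real.exp_one_lt_d9
    linarith
  have h2 : (0 : ℝ) ≤ p.Js := Nat.cast_nonneg _
  nlinarith

theorem s9n_nCh {p : S8Par} {d : ℕ} {X : ℝ} (hp : p.Ok d) (hX : 3 ≤ X) (hDs : Real.log p.Ds ≤ X)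
    (hJs : (p.Js : ℝ) * Real.log p.A0 ≤ X) : (p.nCh : ℝ) ≤ 8064 * X ^ 4 := by
  have h1 := s9n_Js_le hp hJs
  have h2 := s9n_s8cLog_le p.Ds (by have := hp.Ds_ge; omega)
  have h3 := s9n_clog_le p.Ds (by have := hp.Ds_ge; omega)
  unfold S8Par.nCh
  push_cast
  have a1 : (p.Js : ℝ) + 1 ≤ 2 * X := by linarith
  have a2 : (s8cLog p.Ds : ℝ) + 1 ≤ 12 * X := by linarith
  have a3 : 2 * (Nat.clog 2 p.Ds : ℝ) + 6 ≤ 7 * X := by linarith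
  calc 4 * ((p.Js : ℝ) + 1) * ((s8cLog p.Ds : ℝ) + 1) ^ 2 * (2 * (Nat.clog 2 p.Ds : ℝ) + 6)
      ≤ 4 * (2 * X) * (12 * X) ^ 2 * (7 * X) := by gcongr
    _ = 8064 * X ^ 4 := by ring

theorem s9n_N0_nonneg {p : S8Par} {d : ℕ} (hp : p.Ok d) : 0 ≤ p.N0 d := by
  unfold S8Par.N0
  have h1 := hp.δ_pos
  have hhar0 : 0 ≤ ((harmonic p.Dm : ℚ) : ℝ) := by
    have : (0 : ℚ) ≤ harmonic p.Dm := by
      unfold harmonic
      exact Finset.sum_nonneg fun i _ => by positivity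
    exact_mod_cast this
  positivity

theorem s9n_PC {p : S8Par} {d : ℕ} {X g G0 Pi ε : ℝ} (hp : p.Ok d) (hX : 3 ≤ X) (hg : 1 ≤ g) (hDs : Real.log p.Ds ≤ X)
    (hJs : (p.Js : ℝ) * Real.log p.A0 ≤ X) (hK : (p.K : ℝ) ≤ X) (hG0 : 0 ≤ G0) (hG : G0 ≤ g) (h17 : p.X17 d G0 ≤ g)
    (hPi0 : 0 ≤ Pi) (hε : 0 < ε) (hε1 : ε < 1) :
    0 ≤ p.X28 d G0 ∧ 1 ≤ s9PC p d G0 Pi ε ∧ s9PC p d G0 Pi ε ≤ (10 ^ 7 * X ^ 5 * g + 3 * Pi) / ε := by
  have hN0 := s9n_N0_nonneg hp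
  have h170 : 0 ≤ p.X17 d G0 := by
    unfold S8Par.X17
    positivity
  have hK0 : (0 : ℝ) ≤ p.K := Nat.cast_nonneg _
  have h280 : 0 ≤ p.X28 d G0 := by
    unfold S8Par.X28
    positivity
  have hnCh := s9n_nCh hp hX hDs hJs
  have h28 : p.X28 d G0 ≤ 2580480 * (X ^ 5 * g) := by
    unfold S8Par.X28
    have a1 : G0 + (p.K : ℝ) * p.X17 d G0 + 1 ≤ 2 * X * g := by
      have : (p.K : ℝ) * p.X17 d G0 ≤ X * g := mul_le_mul hK h17 h170 (by linarith)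
      nlinarith
    have a0 : 0 ≤ G0 + (p.K : ℝ) * p.X17 d G0 + 1 := by positivity
    calc 160 * (G0 + (p.K : ℝ) * p.X17 d G0 + 1) * (p.nCh : ℝ) ≤ 160 * (2 * X * g) * (8064 * X ^ 4) := by gcongr
      _ = 2580480 * (X ^ 5 * g) := by ring
  refine ⟨h280, ?_, ?_⟩
  · unfold s9PC
    have : 0 ≤ 2 * (p.X28 d G0 + Pi) / ε := by positivity
    linarith
  · unfold s9PC
    rw [le_div_iff₀ hε, add_mul, div_mul_cancel₀ _ hε.ne']
    have hXg : 1 ≤ X ^ 5 * g := by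
      have : (1 : ℝ) ≤ X ^ 5 := one_le_pow₀ (by linarith)
      nlinarith
    nlinarith

theorem s9n_logb_PC {PC : ℝ} (hPC : 1 ≤ PC) : Real.logb 2 (2 * PC) ≤ 2 * PC - 1 := by
  unfold Real.logb
  have h2 := s9n_log2_ge
  rw [div_le_iff₀ (by linarith), Real.log_mul (by norm_num) (by linarith)]
  have h1 : Real.log PC ≤ PC - 1 := Real.log_le_sub_one_of_pos (by linarith)
  nlinarith

theorem s9n_X {p : S8Par} {d : ℕ} {X PC : ℝ} (hp : p.Ok d) (hX : 3 ≤ X) (hd : (d : ℝ) ≤ X) (hDs : Real.log p.Ds ≤ X)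
    (hJs : (p.Js : ℝ) * Real.log p.A0 ≤ X) (hPC : 1 ≤ PC) :
    s9X p d PC (s9tys p) ≤ (10 ^ 7 * X ^ 7) ^ 32 * PC ^ 3 := by
  obtain ⟨hPL1, hPL⟩ := s9n_PL hp hX hd hDs hJs
  have h1 := s9n_Js_le hp hJs
  have h2 := s9n_s8cLog_le p.Ds (by have := hp.Ds_ge; omega)
  have hup : (p.up.card : ℝ) ≤ 2 * X := by
    have a1 : p.up.card ≤ p.Js + 1 := by
      unfold S8Par.up S8cTower.s8cUp
      exact (Finset.card_filter_le _ _).trans (by rw [Finset.card_range])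
    have a2 : (p.up.card : ℝ) ≤ (p.Js : ℝ) + 1 := by exact_mod_cast a1
    linarith
  have hty : ((s9tys p).card : ℝ) + 1 ≤ 145 * X ^ 2 := by
    unfold s9tys
    rw [Finset.card_product, Finset.card_range]
    push_cast
    have a2 : (s8cLog p.Ds : ℝ) + 1 ≤ 12 * X := by linarith
    have a3 : (0 : ℝ) ≤ (s8cLog p.Ds : ℝ) + 1 := by positivity
    have a4 : ((s8cLog p.Ds : ℝ) + 1) * ((s8cLog p.Ds : ℝ) + 1) ≤ (12 * X) * (12 * X) := mul_le_mul a2 a2 a3 (by linarith)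
    nlinarith
  have hDsR : (100 : ℝ) ≤ p.Ds := by exact_mod_cast hp.Ds_ge
  have hlDs : Real.logb 2 p.Ds ≤ 2 * X := by
    unfold Real.logb
    have h2 := s9n_log2_ge
    rw [div_le_iff₀ (by linarith)]
    nlinarith
  have hlDs0 : 0 ≤ Real.logb 2 p.Ds := Real.logb_nonneg (by norm_num) (by linarith)
  have hlPC := s9n_logb_PC hPC
  have hlPC0 : 0 ≤ Real.logb 2 (2 * PC) := Real.logb_nonneg (by norm_num) (by linarith)
  have hlast : 3 + Real.logb 2 (2 * PC) + Real.logb 2 p.Ds ≤ 4 * X * PC := by nlinarith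
  unfold s9X
  have hX1 : (1 : ℝ) ≤ X := by linarith
  calc (p.up.card : ℝ) * (((s9tys p).card : ℝ) + 1) ^ 4 * s9PL p d * PC ^ 2 *
        (3 + Real.logb 2 (2 * PC) + Real.logb 2 p.Ds)
      ≤ (2 * X) * (145 * X ^ 2) ^ 4 * (10 ^ 6 * X ^ 6) ^ 30 * PC ^ 2 * (4 * X * PC) := by gcongr
    _ = (8 * 145 ^ 4 * 10 ^ 180) * X ^ 190 * PC ^ 3 := by ring
    _ ≤ (10 ^ 224) * X ^ 224 * PC ^ 3 := by
        have e1 : (8 * 145 ^ 4 * 10 ^ 180 : ℝ) ≤ 10 ^ 224 := by norm_num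
        have e2 : X ^ 190 ≤ X ^ 224 := pow_le_pow_right₀ hX1 (by norm_num)
        gcongr
    _ = (10 ^ 7 * X ^ 7) ^ 32 * PC ^ 3 := by ring

/-- **the numerics of `s9_goal`.**  LEAF P-S9-AD-G3 -/
theorem s9a_num (C : ℝ) (hC : 1 ≤ C) (Cp : ℝ) (hCp : 1 ≤ Cp) : ∃ C9 kmin : ℝ, 1 ≤ C9 ∧ 1 ≤ kmin ∧
    ∀ (k : ℝ) (P : ℕ), kmin ≤ k → 1 ≤ P → ∀ (d : ℕ) (p : S8Par) (G0 CR Pi ε : ℝ), p.Ok d → p.Bd d G0 CR k P Cp → 0 ≤ G0 →
      0 ≤ Pi → Pi ≤ pbase Cp k P ^ Cp → 0 < ε → ε < 1 →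
      0 ≤ p.X28 d G0 ∧ 1 ≤ s9PC p d G0 Pi ε ∧ C * ((p.Ds : ℝ) ^ 200)⁻¹ ≤ Real.exp (-k) ∧
        C * s9X p d (s9PC p d G0 Pi ε) (s9tys p) ≤ (pbase C9 k P / ε) ^ C9 := by
  obtain ⟨a, ha⟩ : ∃ a : ℝ, a = Real.log (C * 10 ^ 248) := ⟨_, rfl⟩
  have hc1 : (1 : ℝ) ≤ C * 10 ^ 248 := by
    have : (1 : ℝ) ≤ 10 ^ 248 := one_le_pow₀ (by norm_num)
    nlinarith
  have ha0 : 0 ≤ a := by rw [ha]; exact Real.log_nonneg hc1
  obtain ⟨C9, hC9⟩ : ∃ C9 : ℝ, C9 = 239 * Cp + a + 3 * Cp + 3 := ⟨_, rfl⟩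
  refine ⟨C9, max 1 (Real.log C), by rw [hC9]; linarith, le_max_left _ _, ?_⟩
  intro k P hk hP d p G0 CR Pi ε hp hBd hG0 hPi0 hPi hε hε1
  have hk1 : 1 ≤ k := le_trans (le_max_left _ _) hk
  have hkC : Real.log C ≤ k := le_trans (le_max_right _ _) hk
  have hP1 : (1 : ℝ) ≤ (P : ℝ) := by exact_mod_cast hP
  obtain ⟨T, hT⟩ : ∃ T : ℝ, T = 1 + k + (P : ℝ) := ⟨_, rfl⟩
  have hT3 : 3 ≤ T := by rw [hT]; linarith
  have hT0 : 0 < T := by linarith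
  have hT1 : 1 ≤ T := by linarith
  obtain ⟨X, hX⟩ : ∃ X : ℝ, X = T ^ Cp := ⟨_, rfl⟩
  have hXT : T ≤ X := by rw [hX]; exact Real.self_le_rpow_of_one_le hT1 hCp
  have hX3 : 3 ≤ X := hT3.trans hXT
  have hX1 : 1 ≤ X := by linarith
  have hb1 : 1 ≤ 1 + Real.log (2 * k) := by
    have : 0 ≤ Real.log (2 * k) := Real.log_nonneg (by linarith)
    linarith
  obtain ⟨g, hg⟩ : ∃ g : ℝ, g = g0fun Cp k := ⟨_, rfl⟩
  have hg1 : 1 ≤ g := by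
    rw [hg]
    unfold g0fun
    exact Real.one_le_exp (mul_nonneg (by linarith) (Real.rpow_nonneg (by linarith) _))
  obtain ⟨g9, hg9⟩ : ∃ g9 : ℝ, g9 = g0fun C9 k := ⟨_, rfl⟩
  have hCp9 : Cp ≤ C9 := by rw [hC9]; linarith
  have hgg9 : g ≤ g9 := by
    rw [hg, hg9]
    unfold g0fun
    apply Real.exp_le_exp.2
    have h1 : (1 + Real.log (2 * k)) ^ Cp ≤ (1 + Real.log (2 * k)) ^ C9 := Real.rpow_le_rpow_of_exponent_le hb1 hCp9
    exact mul_le_mul hCp9 h1 (Real.rpow_nonneg (by linarith) _) (by linarith)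
  have hg91 : 1 ≤ g9 := hg1.trans hgg9
  obtain ⟨h28, hPC1, hPCle⟩ := s9n_PC (X := X) (g := g) (Pi := Pi) (ε := ε) hp hX3 hg1 (by rw [hX, hT]; exact hBd.logDs_le)
    (by rw [hX, hT]; exact hBd.Js_le) (by rw [hX, hT]; exact hBd.K_le) hG0 (by rw [hg]; exact hBd.G0_le) (by rw [hg]; exact hBd.X17_le)
    hPi0 hε hε1
  have hXle := s9n_X (X := X) (PC := s9PC p d G0 Pi ε) hp hX3 (by rw [hX, hT]; exact hBd.d_le) (by rw [hX, hT]; exact hBd.logDs_le)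
    (by rw [hX, hT]; exact hBd.Js_le) hPC1
  refine ⟨h28, hPC1, s9n_small C hC k hkC hk1 p.Ds hBd.Ds_ge, ?_⟩
  -- the bound for `Pi`
  obtain ⟨gC, hgC⟩ : ∃ gC : ℝ, gC = g ^ Cp := ⟨_, rfl⟩
  have hggC : g ≤ gC := by rw [hgC]; exact Real.self_le_rpow_of_one_le hg1 hCp
  have hgC1 : 1 ≤ gC := hg1.trans hggC
  have hPi' : Pi ≤ X * gC := by
    refine hPi.trans (le_of_eq ?_)
    unfold pbase
    rw [← hT, ← hg, Real.mul_rpow hT0.le (by linarith), ← hX, ← hgC]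
  have hX5 : X ≤ X ^ 5 := by
    calc X = X ^ 1 := (pow_one X).symm
      _ ≤ X ^ 5 := pow_le_pow_right₀ hX1 (by norm_num)
  have hX50 : 0 < X ^ 5 := by positivity
  have hPC2 : s9PC p d G0 Pi ε ≤ 10 ^ 8 * X ^ 5 * gC / ε := by
    refine hPCle.trans (div_le_div_of_nonneg_right ?_ hε.le)
    have h1 : 10 ^ 7 * X ^ 5 * g ≤ 10 ^ 7 * X ^ 5 * gC := mul_le_mul_of_nonneg_left hggC (by positivity)
    have h2 : X * gC ≤ X ^ 5 * gC := mul_le_mul_of_nonneg_right hX5 (by linarith)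
    have h3 : 0 ≤ X ^ 5 * gC := by positivity
    nlinarith
  have hPC3 : s9PC p d G0 Pi ε ^ 3 ≤ (10 ^ 8 * X ^ 5 * gC / ε) ^ 3 := pow_le_pow_left₀ (by linarith) hPC2 3
  have hstep : C * s9X p d (s9PC p d G0 Pi ε) (s9tys p) ≤ (C * 10 ^ 248 * X ^ 239) * gC ^ 3 * (1 / ε) ^ 3 := by
    calc C * s9X p d (s9PC p d G0 Pi ε) (s9tys p) ≤ C * ((10 ^ 7 * X ^ 7) ^ 32 * (10 ^ 8 * X ^ 5 * gC / ε) ^ 3) := by
          refine mul_le_mul_of_nonneg_left (hXle.trans ?_) (by linarith)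
          exact mul_le_mul_of_nonneg_left hPC3 (by positivity)
      _ = (C * 10 ^ 248 * X ^ 239) * gC ^ 3 * (1 / ε) ^ 3 := by
          field_simp
  refine hstep.trans ?_
  -- the three factors
  have hlogT : 1 ≤ Real.log T := by
    rw [Real.le_log_iff_exp_le hT0]
    have := Real.exp_one_lt_d9
    linarith
  have c1 : C * 10 ^ 248 * X ^ 239 ≤ T ^ C9 := by
    have e1 : C * 10 ^ 248 ≤ T ^ a := by
      rw [Real.rpow_def_of_pos hT0, ← Real.exp_log (by linarith : (0 : ℝ) < C * 10 ^ 248), ← ha]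
      apply Real.exp_le_exp.2
      nlinarith
    have e2 : X ^ 239 = T ^ (Cp * 239) := by
      rw [hX, Real.rpow_mul hT0.le, ← Real.rpow_natCast]
      norm_num
    rw [e2]
    calc C * 10 ^ 248 * T ^ (Cp * 239) ≤ T ^ a * T ^ (Cp * 239) :=
          mul_le_mul_of_nonneg_right e1 (Real.rpow_nonneg hT0.le _)
      _ = T ^ (a + Cp * 239) := (Real.rpow_add hT0 _ _).symm
      _ ≤ T ^ C9 := Real.rpow_le_rpow_of_exponent_le hT1 (by rw [hC9]; linarith)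
  have c2 : gC ^ 3 ≤ g9 ^ C9 := by
    have e2 : gC ^ 3 = g ^ (Cp * 3) := by
      rw [hgC, Real.rpow_mul (by linarith), ← Real.rpow_natCast]
      norm_num
    rw [e2]
    calc g ^ (Cp * 3) ≤ g9 ^ (Cp * 3) := Real.rpow_le_rpow (by linarith) hgg9 (by linarith)
      _ ≤ g9 ^ C9 := Real.rpow_le_rpow_of_exponent_le hg91 (by rw [hC9]; linarith)
  have hie : 1 ≤ 1 / ε := by rw [le_div_iff₀ hε]; linarith
  have c3 : (1 / ε) ^ 3 ≤ (1 / ε) ^ C9 := by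
    rw [← Real.rpow_natCast]
    exact Real.rpow_le_rpow_of_exponent_le hie (by rw [hC9]; push_cast; linarith)
  have efin : (pbase C9 k P / ε) ^ C9 = T ^ C9 * g9 ^ C9 * (1 / ε) ^ C9 := by
    unfold pbase
    rw [← hT, ← hg9, div_eq_mul_one_div, Real.mul_rpow (by positivity) (by positivity), Real.mul_rpow hT0.le (by linarith)]
  rw [efin]
  have p1 : 0 ≤ T ^ C9 := Real.rpow_nonneg hT0.le _
  have p2 : 0 ≤ g9 ^ C9 := Real.rpow_nonneg (by linarith) _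
  exact mul_le_mul (mul_le_mul c1 c2 (by positivity) p1) c3 (by positivity) (mul_nonneg p1 p2)

end

end Claimed.Agent.R258
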