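/-
Row 258 (S0498), the adapter Sec. 8 -> Sec. 9.  HOME ARCHITECT: helper41.      FILE AdSize: the fields `gau_meas, gau_le, md_card, al_sum, good_ge, bad, size, typ_mem` of `S9Sys.Valid` for `A.sys`.
NO paper needed.  Black boxes: S9/AdDefs.lean (shared lemmas), S8/{Graph,Rep}.lean, S8c/Good.lean.   Notation of AdDefs: `u = (G, I)`, `J = A.J u`, `U = A.U u`.

LEAVES:  P-S9-AD-B1 = `gau_meas, gau_le, md_card, al_sum, good_ge, bad, typ_mem`;      P-S9-AD-B2 = `size`.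
PLANS.  (All projections of `A.sys` reduce by `rfl`/`show`:  `A.sys.md l u = A.M.coreL A.p l u.1 (A.J u)`, `A.sys.al l u = A.M.alpha l u.1 (A.U u)`, …)
* `gau_meas`: `S8Gauge.gau c y = (cut y : ℂ) * ee (c * pph y)`; `h.hV.cut_meas`, `h.hV.pph_meas`, `wy_ee_continuous.measurable`, `Complex.measurable_ofReal`.      `gau_le`: `‖ee‖ = 1` (`s4a_ee_norm`/`s8o_norm_ee`), `h.hV.cut_range`.
* `md_card`: `coreL ⊆ lstJ` (`core_sub`), `ModeSys.lstJ_card h.hV h.hp.K_pos l (pre_mem hu)`.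
* `al_sum`: `Finset.sum_le_sum_of_subset_of_nonneg` (`core_sub`, `lstJ_eq`), `h.hV.alpha_sum l G U (frz_cert h hu)`.
* `good_ge`: `S8cTower.s8c_good_iff.1 _ |>.1` (`M.good = (M.tower p l G).Good 10 …`).
* `bad`: `D ∈ clsOf`; `pick D` is a core mode (`pick_spec`, membership in `coreL` = `Finset.mem_filter`, second component `M.core …`); `S8cTower.core_up_density p.δs h.hp.δ_pos (δs ≤ 1/16) (2 ≤ Js) J (pick D) hcore` for the tower `M.tower p l G`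
  (this lemma needs no validity); `p.up = S8cTower.s8cUp p.Js p.δs` by `rfl`.
* `typ_mem`: `a ∈ lab`: `a = rep D`, `D` good.  `typ J h a = (s8cLog |piE|, s8cLog |E|)` with `E ⊆ lstJ` (filter) and `piE = E.image pr`, so both cardinalities are `≤ |lstJ| ≤ Ds` (`lstJ_card`, `Finset.card_image_le`); `s8c_log_mono`; `Finset.mem_product`, `Finset.mem_range`, `Nat.lt_succ_of_le`.
* `size`: fix `a`.  `F = (clsOf).filter (good ∧ rep = a)`.  For `D ∈ F` put `𝒟_D = cF J 0 (pick D)`.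
   (i) `𝒟_D ∈ minC J h a = (cF J h a).image (cF J 0 ·)`: by `rep_spec`, `cF J h a = cF J h (pick D) ∋ pick D` (`s8p_self_mem_cF`, `core_sub`).
   (ii) `D ↦ 𝒟_D` is injective on `F`: `D = cls (pick D)` (`pick_spec`), and `𝒟_D = 𝒟_D'` gives `pick D' ∈ cF J 0 (pick D)`, so `cls (pick D) = cls (pick D')` (`cls_iff`, `s8p_mem_cF`).
   (iii) `sz D ≤ n2 I (M.sub l G U I (𝒟_D ∩ coreL)) + (Ds^30)⁻¹ ∑_{𝒟_D ∩ coreL} ‖α‖`: `mdOf_eq`, `nn_sub_le`; `cD` is literally the second sum after `mdOf_eq`.   Both sides are `≥ 0`, so the squares compare (`pow_le_pow_left₀`; `nnorm_nonneg`).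
   (iv) `∑_{D ∈ F} t(𝒟_D) = ∑_{𝒟 ∈ F.image} t(𝒟) ≤ ∑_{𝒟 ∈ minC} t(𝒟) = sig2` (`Finset.sum_image`, `Finset.sum_le_sum_of_subset_of_nonneg`);  `sg² = sig2` (`Real.sq_sqrt`, `sig2 ≥ 0` as a sum of squares).
-/
import Claimed.Agent.R258.S9.AdDefs

set_option autoImplicit false
open MeasureTheory

namespace Claimed.Agent.R258

open scoped BigOperators ComplexConjugate
open Classical

noncomputable section

namespace S9Ad
variable {d : ℕ} {A : S9Ad d} {c0 C0 G0 PC : ℝ}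

theorem gau_meas (h : A.Ok c0 C0 G0 PC) : ∀ j G, Measurable (A.sys.gau j G) := by
  intro j G
  show Measurable fun y => (((A.M.gauge j G).cut y : ℝ) : ℂ) * ee (s8c4 j * (A.M.gauge j G).pph y)
  exact (Complex.measurable_ofReal.comp (h.hV.cut_meas j G)).mul
    (s8o_continuous_ee.measurable.comp ((h.hV.pph_meas j G).const_mul _))

theorem gau_le (h : A.Ok c0 C0 G0 PC) : ∀ j G y, ‖A.sys.gau j G y‖ ≤ 1 := by
  intro j G y
  show ‖(((A.M.gauge j G).cut y : ℝ) : ℂ) * ee (s8c4 j * (A.M.gauge j G).pph y)‖ ≤ 1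
  rw [norm_mul, s8o_norm_ee, mul_one, Complex.norm_real,
    Real.norm_of_nonneg (h.hV.cut_range j G y).1]
  exact (h.hV.cut_range j G y).2

theorem md_card (h : A.Ok c0 C0 G0 PC) : ∀ j, ∀ u ∈ A.sys.uses, (A.sys.md j u).card ≤ A.p.Ds := by
  intro j u hu
  exact (Finset.card_le_card (core_sub j u)).trans
    (ModeSys.lstJ_card h.hV h.hp.K_pos j (pre_mem hu))

theorem al_sum (h : A.Ok c0 C0 G0 PC) : ∀ j, ∀ u ∈ A.sys.uses, ∑ m ∈ A.sys.md j u, ‖A.sys.al j u m‖ ≤ A.p.Ds := by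
  intro j u hu
  have h1 : A.sys.md j u ⊆ A.M.lst j u.1 (A.U u) := by
    rw [← lstJ_eq]
    exact core_sub j u
  exact (Finset.sum_le_sum_of_subset_of_nonneg h1 fun _ _ _ => norm_nonneg _).trans
    (h.hV.alpha_sum j u.1 (A.U u) (frz_cert h hu))

theorem good_ge : ∀ j u h D, A.sys.good j u h D → 10 ≤ h := by
  intro j u h D hg
  exact (S8cTower.s8c_good_iff.1 hg).1

theorem bad (h : A.Ok c0 C0 G0 PC) : ∀ j, A.sys.sd j = false → ∀ u ∈ A.sys.uses, ∀ D ∈ A.sys.clsOf j u,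
    ((A.p.up.filter fun h => ¬ A.sys.good j u h D).card : ℝ) ≤ 2 * A.p.δs * (A.p.up.card : ℝ) := by
  intro j _ u hu D hD
  have hc : A.M.core A.p j u.1 (A.J u) (A.pick j u D) := (Finset.mem_filter.1 (pick_spec hD).1).2
  have hJs : 2 ≤ A.p.Js := by
    have h1 := h.hp.Js_big'
    have h2 : (2 : ℝ) ≤ 2 / A.p.δs := by
      rw [le_div_iff₀ h.hp.δ_pos]
      nlinarith [h.hp.δ_le, h.hp.δ_pos]
    exact_mod_cast h2.trans h1
  exact S8cTower.core_up_density (T := A.M.tower A.p j u.1) A.p.δs h.hp.δ_pos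
    (h.hp.δ_le.trans (by norm_num)) hJs (A.J u) (A.pick j u D) hc

theorem sg_nonneg : ∀ j u h a, 0 ≤ A.sys.sg j u h a := fun _ _ _ _ => Real.sqrt_nonneg _

theorem typ_mem (h : A.Ok c0 C0 G0 PC) : ∀ j, A.sys.sd j = false → ∀ u ∈ A.sys.uses, ∀ hh ∈ A.p.up, ∀ a ∈ A.sys.lab j u hh,
    A.sys.typ j u hh a ∈ s9tys A.p := by
  intro j _ u hu hh _ a _
  have hcard := ModeSys.lstJ_card h.hV h.hp.K_pos j (pre_mem hu)
  have hE : ((A.M.tower A.p j u.1).E (A.J u) (hh - 10) a).card ≤ A.p.Ds :=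
    (Finset.card_le_card (Finset.filter_subset _ _)).trans hcard
  have hpi : ((A.M.tower A.p j u.1).piE (A.J u) (hh - 10) a).card ≤ A.p.Ds := by
    refine le_trans ?_ hE
    unfold S8cTower.piE
    exact @Finset.card_image_le _ _ _ _ (fun a b => Classical.propDecidable (a = b))
  exact Finset.mem_product.2 ⟨Finset.mem_range.2 (Nat.lt_succ_of_le (s8c_log_mono hpi)),
    Finset.mem_range.2 (Nat.lt_succ_of_le (s8c_log_mono hE))⟩

/-- (26) -/
theorem size (h : A.Ok c0 C0 G0 PC) : ∀ j, A.sys.sd j = false → ∀ u ∈ A.sys.uses, ∀ hh ∈ A.p.up, ∀ a,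
    ∑ D ∈ (A.sys.clsOf j u).filter (fun D => A.sys.good j u hh D ∧ A.sys.rep j u hh D = a), A.sys.sz A.p.Ds j u D ^ 2
      ≤ A.sys.sg j u hh a ^ 2 := by
  intro j _ u hu hh hhu a
  set F := (A.sys.clsOf j u).filter (fun D => A.sys.good j u hh D ∧ A.sys.rep j u hh D = a) with hF
  set cl : Finset ℕ := A.M.coreL A.p j u.1 (A.J u) with hcl
  set t : Finset ℕ → ℝ := fun 𝒟 => (n2 u.2 (A.M.sub j u.1 (A.U u) u.2 (𝒟 ∩ cl))
    + ((A.p.Ds : ℝ) ^ 30)⁻¹ * ∑ b ∈ 𝒟 ∩ cl, ‖A.M.alpha j u.1 (A.U u) b‖) ^ 2 with ht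
  set Df : ℕ → Finset ℕ := fun D => A.M.cF A.p j u.1 (A.J u) 0 (A.pick j u D) with hDf
  have hsig : A.M.sig2 A.p j u.1 u.2 hh a = ∑ 𝒟 ∈ A.M.minC A.p j u.1 (A.J u) hh a, t 𝒟 := rfl
  have hsg : A.sys.sg j u hh a ^ 2 = A.M.sig2 A.p j u.1 u.2 hh a := by
    show Real.sqrt (A.M.sig2 A.p j u.1 u.2 hh a) ^ 2 = _
    refine Real.sq_sqrt ?_
    rw [hsig]
    exact Finset.sum_nonneg fun _ _ => sq_nonneg _
  rw [hsg, hsig]
  have h1 : ∀ D ∈ F, A.sys.sz A.p.Ds j u D ^ 2 ≤ t (Df D) := by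
    intro D hD
    have hDc : D ∈ A.sys.clsOf j u := (Finset.mem_filter.1 hD).1
    have e := mdOf_eq hDc
    unfold S9Sys.sz S9Sys.cD
    rw [e]
    refine pow_le_pow_left₀ (add_nonneg (nnorm_nonneg _ _ _)
      (mul_nonneg (by positivity) (Finset.sum_nonneg fun _ _ => norm_nonneg _))) ?_ 2
    exact add_le_add (nn_sub_le h j u _) le_rfl
  have hinj : Set.InjOn Df F := by
    intro D hD D' hD' hEq
    have hDc : D ∈ A.sys.clsOf j u := (Finset.mem_filter.1 hD).1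
    have hDc' : D' ∈ A.sys.clsOf j u := (Finset.mem_filter.1 hD').1
    obtain ⟨p1, p2⟩ := pick_spec hDc
    obtain ⟨p1', p2'⟩ := pick_spec hDc'
    have hm : A.pick j u D' ∈ A.M.cF A.p j u.1 (A.J u) 0 (A.pick j u D) := by
      have : A.pick j u D' ∈ Df D' := ModeSys.s8p_self_mem_cF (core_sub j u p1')
      rw [← hEq] at this
      exact this
    have hc := (ModeSys.s8p_mem_cF.1 hm).2
    have := (cls_iff (core_sub j u p1) (core_sub j u p1')).2 hc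
    rw [p2, p2'] at this
    exact this
  have hsub : F.image Df ⊆ A.M.minC A.p j u.1 (A.J u) hh a := by
    intro 𝒟 h𝒟
    obtain ⟨D, hD, rfl⟩ := Finset.mem_image.1 h𝒟
    obtain ⟨hDc, hg, hr⟩ := Finset.mem_filter.1 hD
    obtain ⟨-, -, -, hcF, -⟩ := rep_spec h hu hDc hhu hg
    rw [hr] at hcF
    refine Finset.mem_image.2 ⟨A.pick j u D, ?_, rfl⟩
    rw [hcF]
    exact ModeSys.s8p_self_mem_cF (core_sub j u (pick_spec hDc).1)
  calc ∑ D ∈ F, A.sys.sz A.p.Ds j u D ^ 2 ≤ ∑ D ∈ F, t (Df D) := Finset.sum_le_sum h1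
    _ = ∑ 𝒟 ∈ F.image Df, t 𝒟 := (Finset.sum_image hinj).symm
    _ ≤ ∑ 𝒟 ∈ A.M.minC A.p j u.1 (A.J u) hh a, t 𝒟 :=
      Finset.sum_le_sum_of_subset_of_nonneg hsub fun _ _ _ => sq_nonneg _

end S9Ad

end

end Claimed.Agent.R258
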