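/-
Row 258 (S0498), the adapter Sec. 8 -> Sec. 9.  HOME ARCHITECT: helper41.      FILE AdMain: `S9Ad.valid` and **`s9_goal`** = `S9Goal` of S10/Att.lean.   PURE GLUE, PROVED.
-/
import Claimed.Agent.R258.S9.AdSize
import Claimed.Agent.R258.S9.AdLin
import Claimed.Agent.R258.S9.AdDich
import Claimed.Agent.R258.S9.AdSep
import Claimed.Agent.R258.S9.AdSide
import Claimed.Agent.R258.S9.AdNum

set_option autoImplicit false
open MeasureTheory

namespace Claimed.Agent.R258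

open scoped BigOperators ComplexConjugate
open Classical

noncomputable section

/-- **the system of the adapter is valid** -/
theorem S9Ad.valid {d : ℕ} {A : S9Ad d} {c0 C0 G0 PC : ℝ} (h : A.Ok c0 C0 G0 PC) :
    A.sys.Valid c0 C0 A.p PC (s9tys A.p) where
  cells_le := S9Ad.cells_le h
  adm := S9Ad.adm h
  uses_sub := S9Ad.uses_sub' h
  sd_le := h.c_le
  PC_ge := h.PC_ge
  use_len := S9Ad.use_len' h
  gau_meas := S9Ad.gau_meas h
  gau_le := S9Ad.gau_le h
  md_card := S9Ad.md_card h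
  al_sum := S9Ad.al_sum h
  good_ge := S9Ad.good_ge
  bad := S9Ad.bad h
  sg_nonneg := S9Ad.sg_nonneg
  size := S9Ad.size h
  lin := S9Ad.lin h
  curv := S9Ad.curv h
  orth := S9Ad.orth h
  dich := S9Ad.dich h
  mul4 := fun _ u _ => h.mul4 u.1
  mul3 := S9Ad.mul3 h
  cut := fun j _ u _ => h.cutF j u.1
  nof_pos := h.nof_pos
  gauS_meas := fun G ρ => h.fr_meas _ G ρ
  gauS_le := fun G ρ y => h.fr_le _ G ρ y
  gauS_avg := fun G y => h.fr_avg _ G y
  sep := S9Ad.sep h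
  typ_mem := S9Ad.typ_mem h
  caps := S9Ad.caps h
  Sd_meas := S9Ad.Sd_meas
  Sd_int := S9Ad.Sd_int
  Sd_cap := S9Ad.Sd_cap h

/-- **Prop. 9.3 in the form consumed by Sec. 10.** -/
theorem s9_goal (c0 C0 : ℝ) (hc0 : 0 < c0) (hC0 : 1 ≤ C0) : S9Goal (fun _ M p => M.S9Kit p) c0 C0 := by
  obtain ⟨C, hC, hmain⟩ := s9_main c0 C0 hc0 hC0
  refine ⟨s9pw, by linarith [s9pw_bounds.1], s9pw_bounds.2, fun Cp hCp => ?_⟩
  obtain ⟨C9, kmin, hC9, hkmin, hnum⟩ := s9a_num C hC Cp hCp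
  refine ⟨C9, kmin, hC9, hkmin, ?_⟩
  intro k P hk hP _ d p M G0 CR small Pi Z cells w hp hBd hV _ hKit _ hPi hcells huses _ hSc ε hε hε1 c hc
  have hR : 0 < M.root.len := cell_len_pos _
  have hPi0 : 0 ≤ Pi := by
    have h1 := hSc 0
    have h0 : 0 ≤ ∑ u ∈ M.uses, ‖restr u.2.set (M.Sc p Z 0 u.1 u.2)‖ ^ 2 :=
      Finset.sum_nonneg fun _ _ => by positivity
    by_contra hneg
    have : Pi * M.root.len < 0 := mul_neg_of_neg_of_pos (not_le.1 hneg) hR
    linarith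
  obtain ⟨hX28, hPC1, hsm, hXb⟩ := hnum k P hk hP d p G0 CR Pi ε hp hBd hV.G0_nonneg hPi0 hPi hε hε1
  obtain ⟨rep, h25⟩ := ModeSys.exists_rep hV hp
  obtain ⟨st1, hst1, hcap1⟩ := ModeSys.g28 hV hp h25 (ε / 2) (by linarith) (by linarith)
  obtain ⟨st2, hst2, hcap2⟩ := s9a_stops M.root M.uses (fun u => n2 u.2 (M.Sc p Z (s9side c) u.1 u.2) ^ 2)
    (fun _ => by positivity) (fun u hu => (hV.uses_le u hu).2) hPi0 (half_pos hε) (by linarith)
    (by simpa only [s5f_len_n2_sq] using hSc (s9side c))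
  obtain ⟨nof, fr, hnof, hfm, hfl, hfa, hfmul⟩ := hKit.fresh
  have hb1 : p.X28 d G0 / (ε / 2) ≤ s9PC p d G0 Pi ε := by
    unfold s9PC
    have e : p.X28 d G0 / (ε / 2) = 2 * p.X28 d G0 / ε := by field_simp
    have e2 : 2 * (p.X28 d G0 + Pi) / ε = 2 * p.X28 d G0 / ε + 2 * Pi / ε := by ring
    have : 0 ≤ 2 * Pi / ε := by positivity
    rw [e, e2]
    linarith
  have hb2 : Pi / (ε / 2) ≤ s9PC p d G0 Pi ε := by
    unfold s9PC
    have e : Pi / (ε / 2) = 2 * Pi / ε := by field_simp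
    have e2 : 2 * (p.X28 d G0 + Pi) / ε = 2 * p.X28 d G0 / ε + 2 * Pi / ε := by ring
    have : 0 ≤ 2 * p.X28 d G0 / ε := by positivity
    rw [e, e2]
    linarith
  have hOk : S9Ad.Ok (⟨M, p, rep, Z, cells, w, c, st1 ∪ st2, nof, fr⟩ : S9Ad d) c0 C0 G0 (s9PC p d G0 Pi ε) :=
    { hV := hV
      hp := hp
      par := hKit.par
      h25 := h25
      use_len := hKit.use_len
      vth_eq := hKit.vth_eq
      cutF := hKit.cutF
      mul4 := hKit.mul4
      nof_pos := hnof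
      fr_meas := hfm
      fr_le := hfl
      fr_avg := hfa
      fr_mul := hfmul
      cells_ok := hcells
      uses_sub := huses
      c_le := hc
      PC_ge := hPC1
      caps28 := by
        intro I₀ hI₀ hret l hl h hh ty σ hσ
        obtain ⟨hf, hn⟩ := hcap1 I₀ hI₀ (ctrl_retained_union.mp hret).1 l hl h hh ty σ hσ
        refine ⟨hf, hn.trans (min_le_min le_rfl ?_)⟩
        exact mul_le_mul_of_nonneg_right hb1 (by positivity)
      capS := by
        intro I₀ hret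
        exact (hcap2 I₀ (ctrl_retained_union.mp hret).2).trans hb2 }
  obtain ⟨uu, vv, huu, hvv, htot, hsu, hsv⟩ := hmain d _ p _ _ (S9Ad.valid hOk) hKit.par
  refine ⟨st1 ∪ st2, uu, vv, ?_, huu, hvv, ?_, ?_, ?_⟩
  · have := ctrl_stopSet_union hst1 hst2
    rwa [add_halves] at this
  · intro I hI hret
    have hI' : I ∈ (S9Ad.sys (⟨M, p, rep, Z, cells, w, c, st1 ∪ st2, nof, fr⟩ : S9Ad d)).cells :=
      Finset.mem_filter.2 ⟨hI, hret⟩
    exact (S9Ad.tot_ge hOk hc0 I hI').trans (htot I hI')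
  · exact hsu.trans (mul_le_mul_of_nonneg_right hsm hR.le)
  · exact hsv.trans (mul_le_mul_of_nonneg_right hXb hR.le)

end

end Claimed.Agent.R258
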