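/-
Row 258 (S0498), Sec. 9.2.  AUXILIARY FILE OF S9/Kernel.lean (helper247): integration by parts against exponentials of affine phases,
the support rectangle of an admissible kernel, decay of the transform (`s9kr_decay`) and of differences of transforms (`s9kr_diff_decay`).
-/
import Claimed.Agent.R258.Pack012
import Claimed.Agent.R258.Pack004
import Claimed.Agent.R258.S5.Form

set_option autoImplicit false
open MeasureTheory

namespace Claimed.Agent.R258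

open scoped BigOperators ContDiff
open Classical

/-! ### exponentials of affine phases -/

/-- the exponential of an affine phase -/
noncomputable def s9krE (α β γ : ℝ) (p : ℝ × ℝ) : ℂ := ee (α * p.1 + β * p.2 + γ)

theorem s9kr_E_norm (α β γ : ℝ) (p : ℝ × ℝ) : ‖s9krE α β γ p‖ = 1 := wy_ee_norm _

theorem s9kr_E_continuous (α β γ : ℝ) : Continuous (s9krE α β γ) :=
  wy_ee_continuous.comp (by fun_prop)

theorem s9kr_ee_hasDerivAt (t : ℝ) : HasDerivAt ee (2 * Real.pi * Complex.I * ee t) t := by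
  have h0 : HasDerivAt (fun t : ℝ => (t : ℂ)) 1 t := Complex.ofRealCLM.hasDerivAt
  have h1 : HasDerivAt (fun t : ℝ => (2 * Real.pi * t * Complex.I : ℂ)) (2 * Real.pi * Complex.I) t := by
    simpa using ((h0.const_mul (2 * Real.pi : ℂ)).mul_const Complex.I)
  have h2 := h1.cexp
  unfold ee
  convert h2 using 1
  ring

theorem s9kr_E_lineDeriv (α β γ : ℝ) (p v : ℝ × ℝ) :
    HasLineDerivAt ℝ (s9krE α β γ)
      (2 * Real.pi * Complex.I * ((α * v.1 + β * v.2 : ℝ) : ℂ) * s9krE α β γ p) p v := by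
  unfold HasLineDerivAt
  have h1 : HasDerivAt (fun s : ℝ => α * p.1 + β * p.2 + γ + s * (α * v.1 + β * v.2))
      (α * v.1 + β * v.2) 0 := by
    simpa using ((hasDerivAt_id (0 : ℝ)).mul_const (α * v.1 + β * v.2)).const_add
      (α * p.1 + β * p.2 + γ)
  have h2 := (s9kr_ee_hasDerivAt (α * p.1 + β * p.2 + γ + 0 * (α * v.1 + β * v.2))).scomp 0 h1
  have e : (fun s : ℝ => s9krE α β γ (p + s • v))
      = ee ∘ (fun s : ℝ => α * p.1 + β * p.2 + γ + s * (α * v.1 + β * v.2)) := by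
    funext s
    simp only [s9krE, Function.comp, Prod.fst_add, Prod.snd_add, Prod.smul_fst, Prod.smul_snd,
      smul_eq_mul]
    congr 1
    ring
  rw [e]
  convert h2 using 1
  simp only [s9krE, zero_mul, add_zero, Complex.real_smul]
  ring

/-- one integration by parts against the exponential of an affine phase -/
theorem s9kr_ibp_step {f f' : ℝ × ℝ → ℂ} (v : ℝ × ℝ) (hf : Continuous f) (hf' : Continuous f')
    (hc : HasCompactSupport f) (hc' : HasCompactSupport f')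
    (hd : ∀ p, HasLineDerivAt ℝ f (f' p) p v) (α β γ : ℝ) :
    ∫ p, f' p * s9krE α β γ p
      = -(2 * Real.pi * Complex.I * ((α * v.1 + β * v.2 : ℝ) : ℂ)) * ∫ p, f p * s9krE α β γ p := by
  have hE := s9kr_E_continuous α β γ
  have key := integral_bilinear_hasLineDerivAt_right_eq_neg_left_of_integrable
    (μ := (volume : Measure (ℝ × ℝ))) (B := ContinuousLinearMap.mul ℝ ℂ) (f := f) (f' := f')
    (g := s9krE α β γ)
    (g' := fun p => 2 * Real.pi * Complex.I * ((α * v.1 + β * v.2 : ℝ) : ℂ) * s9krE α β γ p) (v := v)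
    ((hf'.mul hE).integrable_of_hasCompactSupport hc'.mul_right)
    ((hf.mul (continuous_const.mul hE)).integrable_of_hasCompactSupport hc.mul_right)
    ((hf.mul hE).integrable_of_hasCompactSupport hc.mul_right)
    (fun p _ => hd p) (fun p _ => s9kr_E_lineDeriv α β γ p v)
  simp only [ContinuousLinearMap.mul_apply'] at key
  have e : ∫ p, f p * (2 * Real.pi * Complex.I * ((α * v.1 + β * v.2 : ℝ) : ℂ) * s9krE α β γ p)
      = (2 * Real.pi * Complex.I * ((α * v.1 + β * v.2 : ℝ) : ℂ)) * ∫ p, f p * s9krE α β γ p := by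
    rw [← integral_const_mul]
    congr 1
    funext p
    ring
  rw [e] at key
  rw [neg_mul, key, neg_neg]

theorem s9kr_iter_continuous {u : ℝ × ℝ → ℂ} (hu : ContDiff ℝ ∞ u) (v : ℝ × ℝ) (n : ℕ) :
    Continuous (fun p => iteratedFDeriv ℝ n u p (fun _ => v)) :=
  (continuous_eval_const (fun _ : Fin n => v)).comp
    (hu.continuous_iteratedFDeriv (by exact_mod_cast le_top))

theorem s9kr_iter_compact {u : ℝ × ℝ → ℂ} (hc : HasCompactSupport u) (v : ℝ × ℝ) (n : ℕ) :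
    HasCompactSupport (fun p => iteratedFDeriv ℝ n u p (fun _ => v)) :=
  (hc.iteratedFDeriv (𝕜 := ℝ) n).comp_left
    (g := fun T : ContinuousMultilinearMap ℝ (fun _ : Fin n => ℝ × ℝ) ℂ => T (fun _ => v)) (by simp)

theorem s9kr_iter_lineDeriv {u : ℝ × ℝ → ℂ} (hu : ContDiff ℝ ∞ u) (v : ℝ × ℝ) (n : ℕ) (p : ℝ × ℝ) :
    HasLineDerivAt ℝ (fun p => iteratedFDeriv ℝ n u p (fun _ => v))
      (iteratedFDeriv ℝ (n + 1) u p (fun _ => v)) p v := by
  have hd : HasFDerivAt (iteratedFDeriv ℝ n u) (fderiv ℝ (iteratedFDeriv ℝ n u) p) p :=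
    ((hu.differentiable_iteratedFDeriv (by exact_mod_cast WithTop.coe_lt_top _)) p).hasFDerivAt
  have h2 := ((ContinuousMultilinearMap.apply ℝ (fun _ : Fin n => ℝ × ℝ) ℂ
    (fun _ => v)).hasFDerivAt).comp p hd
  have h3 := h2.hasLineDerivAt v
  have e : iteratedFDeriv ℝ (n + 1) u p (fun _ => v)
      = ((ContinuousMultilinearMap.apply ℝ (fun _ : Fin n => ℝ × ℝ) ℂ (fun _ => v)).comp
        (fderiv ℝ (iteratedFDeriv ℝ n u) p)) v := by
    rw [iteratedFDeriv_succ_apply_left]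
    rfl
  rw [e]
  exact h3

/-- `n` integrations by parts in the direction `v` -/
theorem s9kr_ibp {u : ℝ × ℝ → ℂ} (hu : ContDiff ℝ ∞ u) (hc : HasCompactSupport u) (v : ℝ × ℝ)
    (α β γ : ℝ) (n : ℕ) :
    ∫ p, iteratedFDeriv ℝ n u p (fun _ => v) * s9krE α β γ p
      = (-(2 * Real.pi * Complex.I * ((α * v.1 + β * v.2 : ℝ) : ℂ))) ^ n
        * ∫ p, u p * s9krE α β γ p := by
  induction n with
  | zero => simp
  | succ n ih =>
    rw [s9kr_ibp_step v (s9kr_iter_continuous hu v n) (s9kr_iter_continuous hu v (n + 1))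
      (s9kr_iter_compact hc v n) (s9kr_iter_compact hc v (n + 1)) (s9kr_iter_lineDeriv hu v n), ih,
      pow_succ]
    ring

/-- the integral of a function which vanishes off `R` and is bounded on `R` -/
theorem s9kr_int_le {F : ℝ × ℝ → ℂ} {R : Set (ℝ × ℝ)} (hR : volume R < ⊤) (h0 : ∀ p, p ∉ R → F p = 0)
    {M : ℝ} (hM : ∀ p ∈ R, ‖F p‖ ≤ M) : ‖∫ p, F p‖ ≤ M * volume.real R := by
  rw [← setIntegral_eq_integral_of_forall_compl_eq_zero h0]
  exact norm_setIntegral_le_of_norm_le_const hR hM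


/-! ### the support rectangle of an admissible kernel -/

/-- the support rectangle -/
def s9krR (I : Cell) : Set (ℝ × ℝ) := Set.Icc I.left I.right ×ˢ Set.Icc (-I.len) I.len

theorem s9kr_R_compact (I : Cell) : IsCompact (s9krR I) := isCompact_Icc.prod isCompact_Icc

theorem s9kr_R_lt_top (I : Cell) : volume (s9krR I) < ⊤ := (s9kr_R_compact I).measure_lt_top

theorem s9kr_R_vol (I : Cell) : volume.real (s9krR I) = 2 * I.len ^ 2 := by
  have hl := cell_len_pos I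
  unfold s9krR
  rw [Measure.real, Measure.volume_eq_prod, Measure.prod_prod, Real.volume_Icc, Real.volume_Icc,
    ENNReal.toReal_mul, ENNReal.toReal_ofReal (by rw [cell_right_eq]; linarith),
    ENNReal.toReal_ofReal (by linarith), cell_right_eq]
  ring

theorem s9kr_mem_R {c0 C0 : ℝ} (hc0 : 0 < c0) {I : Cell} {w : ℝ × ℝ → ℂ} (hw : Admissible c0 C0 I w)
    {p : ℝ × ℝ} (hp : w p ≠ 0) : p ∈ s9krR I := by
  obtain ⟨h1, h2⟩ := s2_adm_supp hw hc0 hp
  have h0 := h1 0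
  simp only [Fin.val_zero, Nat.cast_zero, zero_mul, add_zero] at h0
  exact ⟨⟨h0.1, h0.2.le⟩, abs_le.1 h2⟩

theorem s9kr_compactSupport {c0 C0 : ℝ} (hc0 : 0 < c0) {I : Cell} {w : ℝ × ℝ → ℂ}
    (hw : Admissible c0 C0 I w) : HasCompactSupport w :=
  HasCompactSupport.intro (s9kr_R_compact I) fun p hp => by
    by_contra h
    exact hp (s9kr_mem_R hc0 hw h)

theorem s9kr_iter_zero {c0 C0 : ℝ} (hc0 : 0 < c0) {I : Cell} {w : ℝ × ℝ → ℂ}
    (hw : Admissible c0 C0 I w) (n : ℕ) {p : ℝ × ℝ} (hp : p ∉ s9krR I) :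
    iteratedFDeriv ℝ n w p = 0 := by
  by_contra h
  have h1 : p ∈ tsupport w := support_iteratedFDeriv_subset (𝕜 := ℝ) n h
  have h2 : tsupport w ⊆ s9krR I :=
    closure_minimal (fun q hq => s9kr_mem_R hc0 hw hq) (s9kr_R_compact I).isClosed
  exact hp (h2 h1)

/-- the constants `c_n` of the derivative bounds -/
noncomputable def s9krc (C0 : ℝ) (n : ℕ) : ℝ := (C0 * ((n : ℝ) + 2)) ^ (C0 * ((n : ℝ) + 2))

theorem s9krc_nonneg {C0 : ℝ} (hC0 : 1 ≤ C0) (n : ℕ) : 0 ≤ s9krc C0 n :=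
  Real.rpow_nonneg (by positivity) _

/-- normalized integral of the `n`-th derivative in the direction `v` against a weight `G` -/
noncomputable def s9krT (I : Cell) (w : ℝ × ℝ → ℂ) (v : ℝ × ℝ) (n : ℕ) (G : ℝ × ℝ → ℂ) : ℂ :=
  ((I.len ^ n * (I.len ^ 2)⁻¹ : ℝ) : ℂ) * ∫ p, iteratedFDeriv ℝ n w p (fun _ => v) * G p

theorem s9kr_T_le {c0 C0 : ℝ} (hc0 : 0 < c0) (hC0 : 1 ≤ C0) {I : Cell} {w : ℝ × ℝ → ℂ}
    (hw : Admissible c0 C0 I w) {v : ℝ × ℝ} (hv : ‖v‖ ≤ 1) (n : ℕ) (G : ℝ × ℝ → ℂ) {B : ℝ}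
    (hG : ∀ p ∈ s9krR I, ‖G p‖ ≤ B) : ‖s9krT I w v n G‖ ≤ 2 * s9krc C0 n * B := by
  have hl := cell_len_pos I
  have h1 : ‖∫ p, iteratedFDeriv ℝ n w p (fun _ => v) * G p‖
      ≤ ((I.len ^ n)⁻¹ * s9krc C0 n * B) * volume.real (s9krR I) := by
    refine s9kr_int_le (s9kr_R_lt_top I) (fun p hp => by rw [s9kr_iter_zero hc0 hw n hp]; simp) ?_
    intro p hp
    rw [norm_mul]
    have h2 : ‖iteratedFDeriv ℝ n w p (fun _ => v)‖ ≤ (I.len ^ n)⁻¹ * s9krc C0 n := by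
      refine le_trans ((iteratedFDeriv ℝ n w p).unit_le_opNorm (m := fun _ => v) ?_) (hw.deriv n p)
      exact (pi_norm_le_iff_of_nonneg zero_le_one).2 fun _ => hv
    exact mul_le_mul h2 (hG p hp) (norm_nonneg _)
      (mul_nonneg (by positivity) (s9krc_nonneg hC0 n))
  unfold s9krT
  rw [norm_mul, Complex.norm_real, Real.norm_of_nonneg (by positivity)]
  rw [s9kr_R_vol] at h1
  calc I.len ^ n * (I.len ^ 2)⁻¹ * ‖∫ p, iteratedFDeriv ℝ n w p (fun _ => v) * G p‖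
      ≤ I.len ^ n * (I.len ^ 2)⁻¹ * (((I.len ^ n)⁻¹ * s9krc C0 n * B) * (2 * I.len ^ 2)) :=
        mul_le_mul_of_nonneg_left h1 (by positivity)
    _ = 2 * s9krc C0 n * B := by field_simp

theorem s9kr_T_ibp {c0 C0 : ℝ} (hc0 : 0 < c0) {I : Cell} {w : ℝ × ℝ → ℂ}
    (hw : Admissible c0 C0 I w) (v : ℝ × ℝ) (α β γ : ℝ) (n : ℕ) :
    s9krT I w v n (s9krE α β γ)
      = (-(2 * Real.pi * Complex.I * ((I.len * (α * v.1 + β * v.2) : ℝ) : ℂ))) ^ n
        * s9krT I w v 0 (s9krE α β γ) := by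
  unfold s9krT
  rw [s9kr_ibp hw.smooth (s9kr_compactSupport hc0 hw) v α β γ n]
  simp only [iteratedFDeriv_zero_apply, pow_zero, one_mul]
  push_cast
  rw [neg_pow, neg_pow (2 * (Real.pi : ℂ) * Complex.I * ((I.len : ℂ) * _)), mul_pow, mul_pow _ ((I.len : ℂ) * _),
    mul_pow (I.len : ℂ)]
  ring

theorem s9kr_T_sub {c0 C0 : ℝ} (hc0 : 0 < c0) {I : Cell} {w : ℝ × ℝ → ℂ}
    (hw : Admissible c0 C0 I w) (v : ℝ × ℝ) (n : ℕ) {G G' : ℝ × ℝ → ℂ} (hG : Continuous G)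
    (hG' : Continuous G') :
    s9krT I w v n G' - s9krT I w v n G = s9krT I w v n (fun p => G' p - G p) := by
  unfold s9krT
  have hc := s9kr_iter_compact (s9kr_compactSupport hc0 hw) v n
  have hcont := s9kr_iter_continuous hw.smooth v n
  have i1 : Integrable (fun p => iteratedFDeriv ℝ n w p (fun _ => v) * G' p) :=
    (hcont.mul hG').integrable_of_hasCompactSupport hc.mul_right
  have i2 : Integrable (fun p => iteratedFDeriv ℝ n w p (fun _ => v) * G p) :=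
    (hcont.mul hG).integrable_of_hasCompactSupport hc.mul_right
  rw [← mul_sub, ← integral_sub i1 i2]
  congr 2
  funext p
  ring

theorem s9kr_K_eq (I : Cell) (w : ℝ × ℝ → ℂ) (xs : ℝ) (l' : Fin 4) (a b : ℝ) (v : ℝ × ℝ) :
    s9K I w xs l' a b = s9krT I w v 0
      (s9krE (a / I.len) ((a * ((l' : ℕ) : ℝ) + b) / I.len) (-(a * xs) / I.len)) := by
  have hl := cell_len_pos I
  unfold s9K s9krT s9krE
  simp only [iteratedFDeriv_zero_apply, pow_zero, one_mul]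
  congr 2
  funext p
  congr 2
  field_simp
  ring

theorem s9kr_ee_sub_le (s t : ℝ) : ‖ee s - ee t‖ ≤ 2 * Real.pi * |s - t| := by
  have h : ee s - ee t = ee t * (ee (s - t) - 1) := by
    rw [mul_sub, ← wy_ee_add, mul_one]
    congr 2
    ring
  rw [h, norm_mul, wy_ee_norm, one_mul]
  exact wy_ee_sub_one _


/-! ### decay -/

theorem s9kr_one_add_pow_le {x : ℝ} (hx : 0 ≤ x) (L : ℕ) : (1 + x) ^ L ≤ 2 ^ L * (1 + x ^ L) := by
  have h2 : (0 : ℝ) < 2 ^ L := by positivity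
  have hxL : 0 ≤ x ^ L := pow_nonneg hx L
  rcases le_total x 1 with h | h
  · calc (1 + x) ^ L ≤ 2 ^ L := pow_le_pow_left₀ (by linarith) (by linarith) L
      _ ≤ 2 ^ L * (1 + x ^ L) := by nlinarith
  · calc (1 + x) ^ L ≤ (2 * x) ^ L := pow_le_pow_left₀ (by linarith) (by linarith) L
      _ = 2 ^ L * x ^ L := mul_pow _ _ _
      _ ≤ 2 ^ L * (1 + x ^ L) := by nlinarith

theorem s9kr_norm_Z (A : ℝ) : ‖-(2 * Real.pi * Complex.I * ((A : ℝ) : ℂ))‖ = 2 * Real.pi * |A| := by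
  rw [norm_neg, norm_mul, norm_mul, norm_mul, Complex.norm_I, Complex.norm_real, Complex.norm_real,
    Real.norm_of_nonneg Real.pi_pos.le, Real.norm_eq_abs]
  simp

theorem s9kr_two_pi_ge : (1 : ℝ) ≤ 2 * Real.pi := by linarith [Real.pi_gt_three]

/-- plain decay, power form -/
theorem s9kr_decay_pow {c0 C0 : ℝ} (hc0 : 0 < c0) (hC0 : 1 ≤ C0) {I : Cell} {w : ℝ × ℝ → ℂ}
    (hw : Admissible c0 C0 I w) {v : ℝ × ℝ} (hv : ‖v‖ ≤ 1) (α β γ : ℝ) (n : ℕ) :
    |I.len * (α * v.1 + β * v.2)| ^ n * ‖s9krT I w v 0 (s9krE α β γ)‖ ≤ 2 * s9krc C0 n := by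
  have h1 := s9kr_T_le hc0 hC0 hw hv n (s9krE α β γ) (B := 1) (fun p _ => (s9kr_E_norm α β γ p).le)
  rw [s9kr_T_ibp hc0 hw, norm_mul, norm_pow, s9kr_norm_Z, mul_one] at h1
  refine le_trans (mul_le_mul_of_nonneg_right ?_ (norm_nonneg _)) h1
  refine pow_le_pow_left₀ (abs_nonneg _) ?_ n
  nlinarith [s9kr_two_pi_ge, abs_nonneg (I.len * (α * v.1 + β * v.2))]

/-- plain decay -/
theorem s9kr_decay {c0 C0 : ℝ} (hc0 : 0 < c0) (hC0 : 1 ≤ C0) {I : Cell} {w : ℝ × ℝ → ℂ}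
    (hw : Admissible c0 C0 I w) {v : ℝ × ℝ} (hv : ‖v‖ ≤ 1) (α β γ : ℝ) (L : ℕ) :
    (1 + |I.len * (α * v.1 + β * v.2)|) ^ L * ‖s9krT I w v 0 (s9krE α β γ)‖
      ≤ 2 ^ L * (2 * s9krc C0 0 + 2 * s9krc C0 L) := by
  have h0 := s9kr_decay_pow hc0 hC0 hw hv α β γ 0
  have hL := s9kr_decay_pow hc0 hC0 hw hv α β γ L
  rw [pow_zero, one_mul] at h0
  have h1 := s9kr_one_add_pow_le (abs_nonneg (I.len * (α * v.1 + β * v.2))) L
  calc (1 + |I.len * (α * v.1 + β * v.2)|) ^ L * ‖s9krT I w v 0 (s9krE α β γ)‖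
      ≤ 2 ^ L * (1 + |I.len * (α * v.1 + β * v.2)| ^ L) * ‖s9krT I w v 0 (s9krE α β γ)‖ :=
        mul_le_mul_of_nonneg_right h1 (norm_nonneg _)
    _ = 2 ^ L * (‖s9krT I w v 0 (s9krE α β γ)‖
          + |I.len * (α * v.1 + β * v.2)| ^ L * ‖s9krT I w v 0 (s9krE α β γ)‖) := by ring
    _ ≤ _ := mul_le_mul_of_nonneg_left (add_le_add h0 hL) (by positivity)

/-- the constants of the difference estimate -/
noncomputable def s9krG (C0 : ℝ) (n : ℕ) : ℝ :=
  ∑ k ∈ Finset.range (n + 1), (n.choose k : ℝ) * (2 * Real.pi) ^ (n + 1) * (8 * s9krc C0 k)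

theorem s9krG_nonneg {C0 : ℝ} (hC0 : 1 ≤ C0) (n : ℕ) : 0 ≤ s9krG C0 n :=
  Finset.sum_nonneg fun k _ => mul_nonneg (mul_nonneg (Nat.cast_nonneg _)
    (pow_nonneg (by linarith [Real.pi_pos]) _)) (mul_nonneg (by norm_num) (s9krc_nonneg hC0 k))

/-- decay of a difference of two transforms, power form -/
theorem s9kr_diff_pow {c0 C0 : ℝ} (hc0 : 0 < c0) (hC0 : 1 ≤ C0) {I : Cell} {w : ℝ × ℝ → ℂ}
    (hw : Admissible c0 C0 I w) {v : ℝ × ℝ} (hv : ‖v‖ ≤ 1) (α β γ α' β' γ' : ℝ) {η : ℝ}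
    (hA1 : |I.len * (α * v.1 + β * v.2) - I.len * (α' * v.1 + β' * v.2)| ≤ 1)
    (hAη : |I.len * (α * v.1 + β * v.2) - I.len * (α' * v.1 + β' * v.2)| ≤ η)
    (hE : ∀ p ∈ s9krR I, ‖s9krE α' β' γ' p - s9krE α β γ p‖ ≤ 8 * Real.pi * η) (n : ℕ) :
    |I.len * (α * v.1 + β * v.2)| ^ n
        * ‖s9krT I w v 0 (s9krE α' β' γ') - s9krT I w v 0 (s9krE α β γ)‖ ≤ s9krG C0 n * η := by
  set A := I.len * (α * v.1 + β * v.2) with hA
  set A' := I.len * (α' * v.1 + β' * v.2) with hA'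
  set Z : ℂ := -(2 * Real.pi * Complex.I * ((A : ℝ) : ℂ)) with hZ
  set Z' : ℂ := -(2 * Real.pi * Complex.I * ((A' : ℝ) : ℂ)) with hZ'
  set T : ℕ → ℂ := fun n => s9krT I w v n (s9krE α β γ) with hT
  set T' : ℕ → ℂ := fun n => s9krT I w v n (s9krE α' β' γ') with hT'
  have hη : 0 ≤ η := (abs_nonneg _).trans hAη
  have h2π := s9kr_two_pi_ge
  have eT : ∀ n, T n = Z ^ n * T 0 := fun n => s9kr_T_ibp hc0 hw v α β γ n
  have eT' : ∀ n, T' n = Z' ^ n * T' 0 := fun n => s9kr_T_ibp hc0 hw v α' β' γ' n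
  have key : Z ^ n * (T' 0 - T 0)
      = ∑ k ∈ Finset.range n, (Z - Z') ^ (n - k) * (n.choose k : ℂ) * T' k + (T' n - T n) := by
    have hadd : Z ^ n = ∑ m ∈ Finset.range (n + 1), Z' ^ m * (Z - Z') ^ (n - m) * (n.choose m : ℂ) := by
      rw [← add_pow]
      congr 1
      ring
    calc Z ^ n * (T' 0 - T 0) = Z ^ n * T' 0 - T n := by rw [eT n]; ring
      _ = (∑ m ∈ Finset.range (n + 1), Z' ^ m * (Z - Z') ^ (n - m) * (n.choose m : ℂ)) * T' 0
            - T n := by rw [← hadd]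
      _ = _ := by
          rw [Finset.sum_range_succ, add_mul, Finset.sum_mul, eT' n]
          simp only [Nat.sub_self, pow_zero, Nat.choose_self, Nat.cast_one, mul_one]
          rw [add_sub_assoc]
          congr 1
          refine Finset.sum_congr rfl fun k _ => ?_
          rw [eT' k]
          ring
  have hZZ : ‖Z - Z'‖ = 2 * Real.pi * |A - A'| := by
    have : Z - Z' = -(2 * Real.pi * Complex.I * (((A - A' : ℝ)) : ℂ)) := by
      rw [hZ, hZ']; push_cast; ring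
    rw [this, s9kr_norm_Z]
  have hlast : ‖T' n - T n‖ ≤ 2 * s9krc C0 n * (8 * Real.pi * η) := by
    rw [hT, hT']
    simp only
    rw [s9kr_T_sub hc0 hw v n (s9kr_E_continuous α β γ) (s9kr_E_continuous α' β' γ')]
    exact s9kr_T_le hc0 hC0 hw hv n _ hE
  have hterm : ∀ k ∈ Finset.range n, ‖(Z - Z') ^ (n - k) * (n.choose k : ℂ) * T' k‖
      ≤ (n.choose k : ℝ) * (2 * Real.pi) ^ (n + 1) * (8 * s9krc C0 k) * η := by
    intro k hk
    have hk' : n - k ≠ 0 := by have := Finset.mem_range.1 hk; omega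
    have hTk : ‖T' k‖ ≤ 2 * s9krc C0 k := by
      have := s9kr_T_le hc0 hC0 hw hv k (s9krE α' β' γ') (B := 1)
        (fun p _ => (s9kr_E_norm α' β' γ' p).le)
      simpa using this
    have hck := s9krc_nonneg hC0 k
    have hp1 : (2 * Real.pi) ^ (n - k) ≤ (2 * Real.pi) ^ (n + 1) :=
      pow_le_pow_right₀ h2π (by omega)
    have hp2 : |A - A'| ^ (n - k) ≤ η := (pow_le_of_le_one (abs_nonneg _) hA1 hk').trans hAη
    have hp3 : ‖Z - Z'‖ ^ (n - k) ≤ (2 * Real.pi) ^ (n + 1) * η := by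
      rw [hZZ, mul_pow]
      exact mul_le_mul hp1 hp2 (by positivity) (by positivity)
    rw [norm_mul, norm_mul, norm_pow, Complex.norm_natCast]
    calc ‖Z - Z'‖ ^ (n - k) * (n.choose k : ℝ) * ‖T' k‖
        ≤ ((2 * Real.pi) ^ (n + 1) * η) * (n.choose k : ℝ) * (2 * s9krc C0 k) := by
          gcongr
      _ ≤ (n.choose k : ℝ) * (2 * Real.pi) ^ (n + 1) * (8 * s9krc C0 k) * η := by
          have : 0 ≤ (2 * Real.pi) ^ (n + 1) * η * (n.choose k : ℝ) * s9krc C0 k := by positivity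
          nlinarith
  have hmain : ‖Z‖ ^ n * ‖T' 0 - T 0‖ ≤ s9krG C0 n * η := by
    rw [← norm_pow, ← norm_mul, key]
    refine (norm_add_le _ _).trans ?_
    unfold s9krG
    rw [Finset.sum_range_succ, add_mul, Finset.sum_mul]
    refine add_le_add ((norm_sum_le _ _).trans (Finset.sum_le_sum hterm)) (hlast.trans ?_)
    rw [Nat.choose_self, Nat.cast_one, one_mul]
    have hck := s9krc_nonneg hC0 n
    have hp : 2 * Real.pi ≤ (2 * Real.pi) ^ (n + 1) := by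
      calc 2 * Real.pi = (2 * Real.pi) ^ 1 := (pow_one _).symm
        _ ≤ _ := pow_le_pow_right₀ h2π (by omega)
    have : 0 ≤ s9krc C0 n * η := mul_nonneg hck hη
    nlinarith
  refine le_trans (mul_le_mul_of_nonneg_right ?_ (norm_nonneg _)) hmain
  rw [hZ, s9kr_norm_Z]
  refine pow_le_pow_left₀ (abs_nonneg _) ?_ n
  nlinarith [abs_nonneg A]

/-- decay of a difference of two transforms -/
theorem s9kr_diff_decay {c0 C0 : ℝ} (hc0 : 0 < c0) (hC0 : 1 ≤ C0) {I : Cell} {w : ℝ × ℝ → ℂ}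
    (hw : Admissible c0 C0 I w) {v : ℝ × ℝ} (hv : ‖v‖ ≤ 1) (α β γ α' β' γ' : ℝ) {η : ℝ}
    (hA1 : |I.len * (α * v.1 + β * v.2) - I.len * (α' * v.1 + β' * v.2)| ≤ 1)
    (hAη : |I.len * (α * v.1 + β * v.2) - I.len * (α' * v.1 + β' * v.2)| ≤ η)
    (hE : ∀ p ∈ s9krR I, ‖s9krE α' β' γ' p - s9krE α β γ p‖ ≤ 8 * Real.pi * η) (L : ℕ) :
    (1 + |I.len * (α * v.1 + β * v.2)|) ^ L
        * ‖s9krT I w v 0 (s9krE α' β' γ') - s9krT I w v 0 (s9krE α β γ)‖
      ≤ 2 ^ L * (s9krG C0 0 + s9krG C0 L) * η := by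
  have h0 := s9kr_diff_pow hc0 hC0 hw hv α β γ α' β' γ' hA1 hAη hE 0
  have hL := s9kr_diff_pow hc0 hC0 hw hv α β γ α' β' γ' hA1 hAη hE L
  rw [pow_zero, one_mul] at h0
  have h1 := s9kr_one_add_pow_le (abs_nonneg (I.len * (α * v.1 + β * v.2))) L
  set N := ‖s9krT I w v 0 (s9krE α' β' γ') - s9krT I w v 0 (s9krE α β γ)‖ with hN
  calc (1 + |I.len * (α * v.1 + β * v.2)|) ^ L * N
      ≤ 2 ^ L * (1 + |I.len * (α * v.1 + β * v.2)| ^ L) * N :=
        mul_le_mul_of_nonneg_right h1 (norm_nonneg _)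
    _ = 2 ^ L * (N + |I.len * (α * v.1 + β * v.2)| ^ L * N) := by ring
    _ ≤ 2 ^ L * (s9krG C0 0 * η + s9krG C0 L * η) :=
        mul_le_mul_of_nonneg_left (add_le_add h0 hL) (by positivity)
    _ = _ := by ring

end Claimed.Agent.R258
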