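/-
Row 258 (S0498), Sec. 9.2 (counting.tex).  HOME ARCHITECT: helper41.      FOURIER TRANSFORM OF AN ADMISSIBLE KERNEL.
Mathlib + Defs.lean (`Cell`, `Admissible`, `nnorm`) + S9/Basic.lean (`s9K`, `s9KS`, `s9al`), NO paper needed.

FACTS ABOUT `Admissible c0 C0 I w` (`r = I.len > 0`): `w` is smooth; `w p ≠ 0` forces `p.1 + j p.2 ∈ [I.left + c0 r, I.right - c0 r] ⊆ I.set` for `j = 0..3`, so
`p.1 ∈ I.set`, `|p.2| ≤ r`: the support lies in a rectangle of area `2 r²` (compact support); `‖D^n w‖ ≤ r^{-n} c_n`, `c_n = (C0 (n+2))^(C0 (n+2))`;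
`∫ w(u - j t, t) dt = 0` for all `u`, `j`.   (Similar basic lemmas exist in S2/Form.lean, S4b/Abs.lean, S7nb/Form.lean: reuse them if they are proved.)
The phase of `s9K I w xs l' a b` is `(a x + (a l' + b) t - a xs)/r`: `s9K` is `e(-a xs/r) r⁻²` times the Fourier transform of `w` at the dual vector `-(a, a l' + b)/r`.

PLANS.
* `s9_K_decay` (in KER-B): `|(a, a l' + b)|^n ‖s9K‖ ≤ C_n`: integrate by parts `n` times (`VectorFourier.pow_mul_norm_iteratedFDeriv_fourierIntegral_le` /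
  `VectorFourier.fourierIntegral_iteratedFDeriv` on `V = W = ℝ × ℝ` with the bilinear form `L v w = v.1 w.1 + v.2 w.2`, or one variable at a time), and
  `1 + |a| + |b| ≤ 4 (1 + |a| + |a l' + b|)`.  The same for the kernels `(p.2 / r) w p` and `((p.1 + l' p.2 - xs)/r) w p` (`xs ∈ I.set`), whose derivatives obey the
  same bounds with `c_n' = 2 (n+1) c_n` (Leibniz; the factor is affine and bounded by `1` on the support... use a bound on the support rectangle only).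
* `s9_K_line`: if `b = (j - l') a` the phase is `a (p.1 + j p.2 - xs)/r`; substitute `x = u - j t` (measure preserving shear), Fubini, `marg`.
* `s9_K_bound`: `δ = |b - (j-l') a|`.  `δ ≥ 1`: decay.  `δ < 1`: `s9K a b = s9K a b - s9K a b*`, mean value inequality in `b` on the segment, derivative
  `= 2π i ·` transform of `(p.2/r) w`, and `1 + |a| + |s| ≥ (1 + |a| + |b|)/2` on the segment.
* `s9_K_lip`: mean value inequality along the segment from `(a,b)` to `(a',b')`; `1 + |a''| ≥ (1 + |a|)/2` when `|a'' - a| ≤ 1`.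
-/
import Claimed.Agent.R258.Pack012
import Claimed.Agent.R258.S9.KernelAux

set_option autoImplicit false
open MeasureTheory

namespace Claimed.Agent.R258

open scoped BigOperators
open Classical

theorem s9kr_w_integrable {c0 C0 : ℝ} (hc0 : 0 < c0) {I : Cell} {w : ℝ × ℝ → ℂ}
    (hw : Admissible c0 C0 I w) : Integrable w :=
  hw.smooth.continuous.integrable_of_hasCompactSupport (s9kr_compactSupport hc0 hw)

theorem s9kr_w_le {c0 C0 : ℝ} {I : Cell} {w : ℝ × ℝ → ℂ} (hw : Admissible c0 C0 I w) (p : ℝ × ℝ) :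
    ‖w p‖ ≤ s9krc C0 0 := by
  have := s2_adm_bound hw p
  unfold s9krc
  simpa using this

/-- `w` is integrable and `|I|⁻² ∫ ‖w‖ ≤ C`.  LEAF P-S9-KER-A -/
theorem s9_K_l1 (c0 C0 : ℝ) (hc0 : 0 < c0) (hC0 : 1 ≤ C0) : ∃ C : ℝ, 1 ≤ C ∧ ∀ (I : Cell) (w : ℝ × ℝ → ℂ),
    Admissible c0 C0 I w → Integrable w ∧ (I.len ^ 2)⁻¹ * ∫ p, ‖w p‖ ≤ C := by
  refine ⟨max 1 (2 * s9krc C0 0), le_max_left _ _, fun I w hw => ⟨s9kr_w_integrable hc0 hw, ?_⟩⟩
  have hl := cell_len_pos I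
  have h0 : ∀ p, p ∉ s9krR I → ‖w p‖ = 0 := fun p hp => by
    by_contra h
    exact hp (s9kr_mem_R hc0 hw (by simpa using h))
  have h1 : ‖∫ p, ‖w p‖‖ ≤ s9krc C0 0 * volume.real (s9krR I) := by
    rw [← setIntegral_eq_integral_of_forall_compl_eq_zero h0]
    exact norm_setIntegral_le_of_norm_le_const (s9kr_R_lt_top I)
      (fun p _ => by rw [norm_norm]; exact s9kr_w_le hw p)
  rw [s9kr_R_vol] at h1
  have h2 : ∫ p, ‖w p‖ ≤ s9krc C0 0 * (2 * I.len ^ 2) := (le_abs_self _).trans h1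
  refine le_trans ?_ (le_max_right _ _)
  calc (I.len ^ 2)⁻¹ * ∫ p, ‖w p‖ ≤ (I.len ^ 2)⁻¹ * (s9krc C0 0 * (2 * I.len ^ 2)) :=
        mul_le_mul_of_nonneg_left h2 (by positivity)
    _ = 2 * s9krc C0 0 := by field_simp

/-- all four points of the progression lie in the cell on the support.  LEAF P-S9-KER-A -/
theorem s9_K_supp {c0 C0 : ℝ} (hc0 : 0 < c0) {I : Cell} {w : ℝ × ℝ → ℂ} (hw : Admissible c0 C0 I w) (p : ℝ × ℝ)
    (hp : w p ≠ 0) (l' j : Fin 4) : p.1 + ((l' : ℕ) : ℝ) * p.2 + (s9al l' j : ℝ) * p.2 ∈ I.set := by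
  have h := (s2_adm_supp hw hc0 hp).1 j
  have e : p.1 + ((l' : ℕ) : ℝ) * p.2 + (s9al l' j : ℝ) * p.2 = p.1 + ((j : ℕ) : ℝ) * p.2 := by
    unfold s9al
    push_cast
    ring
  rw [e]
  exact h

/-- bound of a weighted integral by the supremum of the weight on the support (no measurability needed).  LEAF P-S9-KER-A -/
theorem s9_K_int_le (c0 C0 : ℝ) (hc0 : 0 < c0) (hC0 : 1 ≤ C0) : ∃ C : ℝ, 1 ≤ C ∧ ∀ (I : Cell) (w : ℝ × ℝ → ℂ),
    Admissible c0 C0 I w → ∀ (F : ℝ × ℝ → ℂ) (B : ℝ), 0 ≤ B → (∀ p, w p ≠ 0 → ‖F p‖ ≤ B) →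
      ‖(((I.len ^ 2)⁻¹ : ℝ) : ℂ) * ∫ p, w p * F p‖ ≤ C * B := by
  refine ⟨max 1 (2 * s9krc C0 0), le_max_left _ _, fun I w hw F B hB hF => ?_⟩
  have hl := cell_len_pos I
  have hc := s9krc_nonneg hC0 0
  have h1 : ‖∫ p, w p * F p‖ ≤ (s9krc C0 0 * B) * volume.real (s9krR I) := by
    refine s9kr_int_le (s9kr_R_lt_top I) (fun p hp => ?_) (fun p _ => ?_)
    · have : w p = 0 := by
        by_contra h
        exact hp (s9kr_mem_R hc0 hw h)
      rw [this, zero_mul]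
    · by_cases h : w p = 0
      · rw [h, zero_mul, norm_zero]
        positivity
      · rw [norm_mul]
        exact mul_le_mul (s9kr_w_le hw p) (hF p h) (norm_nonneg _) hc
  rw [s9kr_R_vol] at h1
  rw [norm_mul, Complex.norm_real, Real.norm_of_nonneg (by positivity)]
  calc (I.len ^ 2)⁻¹ * ‖∫ p, w p * F p‖ ≤ (I.len ^ 2)⁻¹ * ((s9krc C0 0 * B) * (2 * I.len ^ 2)) :=
        mul_le_mul_of_nonneg_left h1 (by positivity)
    _ = 2 * s9krc C0 0 * B := by field_simp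
    _ ≤ _ := mul_le_mul_of_nonneg_right (le_max_right _ _) hB

/-- the inputs `1, …, S, …, 1` -/
noncomputable def s9krg (l : Fin 4) (S : ℝ → ℂ) : Fin 4 → ℝ → ℂ := Function.update (fun _ _ => 1) l S

theorem s9krg_ok {I : Cell} (l : Fin 4) {S : ℝ → ℂ} (hS : Measurable S)
    (hS2 : IntegrableOn (fun y => ‖S y‖ ^ 2) I.set) : ∀ j, S5fOk I (s9krg l S j) :=
  s5f_ok_update' l (fun _ _ => s5f_ok_of_bdd I measurable_const (B := 1) (fun _ => by simp)) ⟨hS, hS2⟩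

theorem s9krg_prod (l : Fin 4) (S : ℝ → ℂ) (y : Fin 4 → ℝ) : ∏ j, s9krg l S j (y j) = S (y l) := by
  unfold s9krg
  rw [s5f_prod_update]
  simp

theorem s9kr_wS_integrable {c0 C0 : ℝ} (hc0 : 0 < c0) {I : Cell} {w : ℝ × ℝ → ℂ}
    (hw : Admissible c0 C0 I w) (l : Fin 4) {S : ℝ → ℂ} (hS : Measurable S)
    (hS2 : IntegrableOn (fun y => ‖S y‖ ^ 2) I.set) :
    Integrable (fun p : ℝ × ℝ => w p * S (p.1 + ((l : ℕ) : ℝ) * p.2)) := by
  have h := s5f_integrable hc0 hw (s9krg_ok l hS hS2)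
  simpa only [s9krg_prod l S (fun j : Fin 4 => _ + ((j : ℕ) : ℝ) * _)] using h

theorem s9kr_leS {c0 C0 : ℝ} (hc0 : 0 < c0) {I : Cell} {w : ℝ × ℝ → ℂ}
    (hw : Admissible c0 C0 I w) (l : Fin 4) {S : ℝ → ℂ} (hS : Measurable S)
    (hS2 : IntegrableOn (fun y => ‖S y‖ ^ 2) I.set) :
    (I.len ^ 2)⁻¹ * ∫ p : ℝ × ℝ, ‖w p‖ * ‖S (p.1 + ((l : ℕ) : ℝ) * p.2)‖
      ≤ (C0 * 2) ^ (C0 * 2) * nnorm 2 I S := by
  have hK0 : 0 ≤ (C0 * 2) ^ (C0 * 2) := (norm_nonneg _).trans (s2_adm_bound hw 0)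
  have hlen : 0 < I.len := cell_len_pos I
  have hR0 : 0 ≤ (C0 * 2) ^ (C0 * 2) * nnorm 2 I S := mul_nonneg hK0 (nnorm_nonneg _ _ _)
  have hi := s9kr_wS_integrable hc0 hw l hS hS2
  have e0 : ∫ p : ℝ × ℝ, ‖w p‖ * ‖S (p.1 + ((l : ℕ) : ℝ) * p.2)‖
      = (∫⁻ p : ℝ × ℝ, ‖w p * S (p.1 + ((l : ℕ) : ℝ) * p.2)‖ₑ).toReal := by
    rw [← integral_norm_eq_lintegral_enorm hi.aestronglyMeasurable]
    simp only [norm_mul]
  have hfin : ∫⁻ p : ℝ × ℝ, ‖w p * S (p.1 + ((l : ℕ) : ℝ) * p.2)‖ₑ ≠ ⊤ := hi.2.ne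
  have h1 := s2_local_abs_enn hw hc0 (fun j y => ‖s9krg l S j y‖ₑ) (fun j => (s9krg_ok l hS hS2 j).1.enorm)
  have e1 : ∀ p : ℝ × ℝ, ‖w p‖ₑ * ∏ j : Fin 4, ‖s9krg l S j (p.1 + ((j : ℕ) : ℝ) * p.2)‖ₑ
      = ‖w p * S (p.1 + ((l : ℕ) : ℝ) * p.2)‖ₑ := by
    intro p
    rw [enorm_mul, ← s9krg_prod l S (fun j : Fin 4 => p.1 + ((j : ℕ) : ℝ) * p.2), Fin.prod_univ_four,
      Fin.prod_univ_four, enorm_mul, enorm_mul, enorm_mul]
  simp only [e1] at h1
  rw [← ENNReal.ofReal_le_ofReal_iff hR0, e0, ENNReal.ofReal_mul (by positivity),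
    ENNReal.ofReal_toReal hfin, ENNReal.ofReal_inv_of_pos (by positivity)]
  refine h1.trans ?_
  rw [ENNReal.ofReal_mul hK0]
  gcongr
  have e2 : ∀ j, ((ENNReal.ofReal I.len)⁻¹ * ∫⁻ y in I.set, ‖s9krg l S j y‖ₑ ^ (2 : ℝ)) ^ (1 / 2 : ℝ)
      = ENNReal.ofReal (nnorm 2 I (s9krg l S j)) := fun j =>
    (ofReal_nnorm_eq (by norm_num) I (s9krg l S j)
      (by simpa only [Real.rpow_two] using (s9krg_ok l hS hS2 j).2)).symm
  simp only [e2]
  rw [← ENNReal.ofReal_prod_of_nonneg (fun j _ => nnorm_nonneg _ _ _)]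
  refine ENNReal.ofReal_le_ofReal ?_
  rw [← Finset.mul_prod_erase Finset.univ _ (Finset.mem_univ l)]
  have h2 : ∏ j ∈ Finset.univ.erase l, nnorm 2 I (s9krg l S j) ≤ 1 := by
    refine Finset.prod_le_one (fun j _ => nnorm_nonneg _ _ _) fun j hj => ?_
    have hj' := Finset.ne_of_mem_erase hj
    unfold s9krg
    rw [Function.update_of_ne hj']
    exact nnorm_le_of_supLe (by norm_num) zero_le_one fun y _ => by simp
  have e3 : s9krg l S l = S := by unfold s9krg; rw [Function.update_self]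
  rw [e3]
  calc nnorm 2 I S * ∏ j ∈ Finset.univ.erase l, nnorm 2 I (s9krg l S j)
      ≤ nnorm 2 I S * 1 := mul_le_mul_of_nonneg_left h2 (nnorm_nonneg _ _ _)
    _ = nnorm 2 I S := mul_one _

/-- the same with an `L²` factor in the role `l`.  LEAF P-S9-KER-A -/
theorem s9_K_int_leS (c0 C0 : ℝ) (hc0 : 0 < c0) (hC0 : 1 ≤ C0) : ∃ C : ℝ, 1 ≤ C ∧ ∀ (I : Cell) (w : ℝ × ℝ → ℂ),
    Admissible c0 C0 I w → ∀ (l : Fin 4) (S : ℝ → ℂ), Measurable S → IntegrableOn (fun y => ‖S y‖ ^ 2) I.set →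
      Integrable (fun p : ℝ × ℝ => ‖w p‖ * ‖S (p.1 + ((l : ℕ) : ℝ) * p.2)‖) ∧
      ∀ (F : ℝ × ℝ → ℂ) (B : ℝ), 0 ≤ B → (∀ p, w p ≠ 0 → ‖F p‖ ≤ B * ‖S (p.1 + ((l : ℕ) : ℝ) * p.2)‖) →
        ‖(((I.len ^ 2)⁻¹ : ℝ) : ℂ) * ∫ p, w p * F p‖ ≤ C * B * nnorm 2 I S := by
  refine ⟨max 1 ((C0 * 2) ^ (C0 * 2)), le_max_left _ _, fun I w hw l S hS hS2 => ?_⟩
  have hl := cell_len_pos I
  have hi : Integrable (fun p : ℝ × ℝ => ‖w p‖ * ‖S (p.1 + ((l : ℕ) : ℝ) * p.2)‖) := by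
    have := (s9kr_wS_integrable hc0 hw l hS hS2).norm
    simpa only [norm_mul] using this
  refine ⟨hi, fun F B hB hF => ?_⟩
  have h1 : ‖∫ p, w p * F p‖ ≤ ∫ p : ℝ × ℝ, B * (‖w p‖ * ‖S (p.1 + ((l : ℕ) : ℝ) * p.2)‖) := by
    refine norm_integral_le_of_norm_le (hi.const_mul B) (Filter.Eventually.of_forall fun p => ?_)
    by_cases h : w p = 0
    · rw [h, zero_mul, norm_zero]
      positivity
    · rw [norm_mul]
      calc ‖w p‖ * ‖F p‖ ≤ ‖w p‖ * (B * ‖S (p.1 + ((l : ℕ) : ℝ) * p.2)‖) :=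
            mul_le_mul_of_nonneg_left (hF p h) (norm_nonneg _)
        _ = _ := by ring
  rw [integral_const_mul] at h1
  have h2 := s9kr_leS hc0 hw l hS hS2
  rw [norm_mul, Complex.norm_real, Real.norm_of_nonneg (by positivity)]
  calc (I.len ^ 2)⁻¹ * ‖∫ p, w p * F p‖
      ≤ (I.len ^ 2)⁻¹ * (B * ∫ p : ℝ × ℝ, ‖w p‖ * ‖S (p.1 + ((l : ℕ) : ℝ) * p.2)‖) :=
        mul_le_mul_of_nonneg_left h1 (by positivity)
    _ = B * ((I.len ^ 2)⁻¹ * ∫ p : ℝ × ℝ, ‖w p‖ * ‖S (p.1 + ((l : ℕ) : ℝ) * p.2)‖) := by ring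
    _ ≤ B * ((C0 * 2) ^ (C0 * 2) * nnorm 2 I S) := mul_le_mul_of_nonneg_left h2 hB
    _ = (C0 * 2) ^ (C0 * 2) * (B * nnorm 2 I S) := by ring
    _ ≤ max 1 ((C0 * 2) ^ (C0 * 2)) * (B * nnorm 2 I S) :=
        mul_le_mul_of_nonneg_right (le_max_right _ _) (mul_nonneg hB (nnorm_nonneg _ _ _))
    _ = _ := by ring

/-- the integral of the kernel against a finite exponential sum.  LEAF P-S9-KER-A -/
theorem s9_K_sum {c0 C0 : ℝ} (hc0 : 0 < c0) {I : Cell} {w : ℝ × ℝ → ℂ} (hw : Admissible c0 C0 I w) (xs : ℝ) (l' : Fin 4)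
    {X : Type} [Fintype X] (co : X → ℂ) (φ ψ : X → ℝ) :
    (((I.len ^ 2)⁻¹ : ℝ) : ℂ) * ∫ p : ℝ × ℝ, w p * ∑ x, co x * ee (φ x * (p.1 + ((l' : ℕ) : ℝ) * p.2 - xs) + ψ x * p.2)
      = ∑ x, co x * s9K I w xs l' (I.len * φ x) (I.len * ψ x) := by
  have hl := cell_len_pos I
  have hint : ∀ x, Integrable (fun p : ℝ × ℝ =>
      w p * (co x * ee (φ x * (p.1 + ((l' : ℕ) : ℝ) * p.2 - xs) + ψ x * p.2))) := fun x =>
    (hw.smooth.continuous.mul (continuous_const.mul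
      (wy_ee_continuous.comp (by fun_prop)))).integrable_of_hasCompactSupport
      (s9kr_compactSupport hc0 hw).mul_right
  simp only [Finset.mul_sum]
  rw [integral_finsetSum _ (fun x _ => hint x), Finset.mul_sum]
  refine Finset.sum_congr rfl fun x _ => ?_
  unfold s9K
  have e : ∫ p : ℝ × ℝ, w p * (co x * ee (φ x * (p.1 + ((l' : ℕ) : ℝ) * p.2 - xs) + ψ x * p.2))
      = co x * ∫ p : ℝ × ℝ, w p * ee ((I.len * φ x * (p.1 + ((l' : ℕ) : ℝ) * p.2 - xs)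
          + I.len * ψ x * p.2) / I.len) := by
    rw [← integral_const_mul]
    congr 1
    funext p
    have : (I.len * φ x * (p.1 + ((l' : ℕ) : ℝ) * p.2 - xs) + I.len * ψ x * p.2) / I.len
        = φ x * (p.1 + ((l' : ℕ) : ℝ) * p.2 - xs) + ψ x * p.2 := by field_simp
    rw [this]
    ring
  rw [e]
  ring

/-- the same with a factor `S(y_l)`.  LEAF P-S9-KER-A -/
theorem s9_KS_sum {c0 C0 : ℝ} (hc0 : 0 < c0) (hC0 : 1 ≤ C0) {I : Cell} {w : ℝ × ℝ → ℂ} (hw : Admissible c0 C0 I w) (xs : ℝ)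
    (l : Fin 4) (S : ℝ → ℂ) (hS : Measurable S) (hS2 : IntegrableOn (fun y => ‖S y‖ ^ 2) I.set)
    {X : Type} [Fintype X] (co : X → ℂ) (φ ψ : X → ℝ) :
    (((I.len ^ 2)⁻¹ : ℝ) : ℂ) * ∫ p : ℝ × ℝ, w p * (S (p.1 + ((l : ℕ) : ℝ) * p.2) *
        ∑ x, co x * ee (φ x * (p.1 + ((l : ℕ) : ℝ) * p.2 - xs) + ψ x * p.2))
      = ∑ x, co x * s9KS I w xs l S (I.len * φ x) (I.len * ψ x) := by
  have hl := cell_len_pos I
  have hi := s9kr_wS_integrable hc0 hw l hS hS2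
  have hint : ∀ x, Integrable (fun p : ℝ × ℝ => w p * S (p.1 + ((l : ℕ) : ℝ) * p.2) *
      (co x * ee (φ x * (p.1 + ((l : ℕ) : ℝ) * p.2 - xs) + ψ x * p.2))) := fun x => by
    refine hi.mul_bdd (c := ‖co x‖) ?_ (Filter.Eventually.of_forall fun p => ?_)
    · exact (continuous_const.mul (wy_ee_continuous.comp (by fun_prop))).aestronglyMeasurable
    · rw [norm_mul, wy_ee_norm, mul_one]
  have e0 : ∀ p : ℝ × ℝ, w p * (S (p.1 + ((l : ℕ) : ℝ) * p.2) *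
        ∑ x, co x * ee (φ x * (p.1 + ((l : ℕ) : ℝ) * p.2 - xs) + ψ x * p.2))
      = ∑ x, w p * S (p.1 + ((l : ℕ) : ℝ) * p.2) *
      (co x * ee (φ x * (p.1 + ((l : ℕ) : ℝ) * p.2 - xs) + ψ x * p.2)) := fun p => by
    rw [← mul_assoc, Finset.mul_sum]
  simp only [e0]
  rw [integral_finsetSum _ (fun x _ => hint x), Finset.mul_sum]
  refine Finset.sum_congr rfl fun x _ => ?_
  unfold s9KS
  have e : ∫ p : ℝ × ℝ, w p * S (p.1 + ((l : ℕ) : ℝ) * p.2) *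
        (co x * ee (φ x * (p.1 + ((l : ℕ) : ℝ) * p.2 - xs) + ψ x * p.2))
      = co x * ∫ p : ℝ × ℝ, w p * S (p.1 + ((l : ℕ) : ℝ) * p.2) *
          ee ((I.len * φ x * (p.1 + ((l : ℕ) : ℝ) * p.2 - xs) + I.len * ψ x * p.2) / I.len) := by
    rw [← integral_const_mul]
    congr 1
    funext p
    have : (I.len * φ x * (p.1 + ((l : ℕ) : ℝ) * p.2 - xs) + I.len * ψ x * p.2) / I.len
        = φ x * (p.1 + ((l : ℕ) : ℝ) * p.2 - xs) + ψ x * p.2 := by field_simp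
    rw [this]
    ring
  rw [e]
  ring

/-- the shear `(u,t) ↦ (u - a t, t)` preserves Lebesgue measure -/
theorem s9kr_shear_mp (a : ℝ) :
    MeasurePreserving (fun p : ℝ × ℝ => (p.1 - a * p.2, p.2)) (volume : Measure (ℝ × ℝ)) volume := by
  have h1 : MeasurePreserving (fun p : ℝ × ℝ => (p.1, p.2 + (-a) * p.1))
      ((volume : Measure ℝ).prod volume) (volume.prod volume) :=
    (MeasurePreserving.id volume).skew_product (g := fun t x => x + (-a) * t) (by fun_prop)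
      (Filter.Eventually.of_forall fun t => map_add_right_eq_self volume ((-a) * t))
  have h3 : MeasurePreserving Prod.swap ((volume : Measure ℝ).prod (volume : Measure ℝ))
      (volume.prod volume) := Measure.measurePreserving_swap
  have h := h3.comp (h1.comp h3)
  have e : (fun p : ℝ × ℝ => (p.1 - a * p.2, p.2))
      = Prod.swap ∘ (fun p : ℝ × ℝ => (p.1, p.2 + (-a) * p.1)) ∘ Prod.swap := by
    funext p
    simp only [Function.comp, Prod.swap, Prod.mk.injEq, and_true]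
    ring
  rw [e]
  exact h

/-- the transform vanishes on the four lines `b = (j - l') a`.  LEAF P-S9-KER-B -/
theorem s9_K_line {c0 C0 : ℝ} (hc0 : 0 < c0) {I : Cell} {w : ℝ × ℝ → ℂ} (hw : Admissible c0 C0 I w) (xs : ℝ) (l' j : Fin 4)
    (a : ℝ) : s9K I w xs l' a ((s9al l' j : ℝ) * a) = 0 := by
  unfold s9K
  set f : ℝ × ℝ → ℂ := fun p => w p * ee (a * (p.1 + ((j : ℕ) : ℝ) * p.2 - xs) / I.len) with hf
  have e1 : (fun p : ℝ × ℝ => w p * ee ((a * (p.1 + ((l' : ℕ) : ℝ) * p.2 - xs)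
      + (s9al l' j : ℝ) * a * p.2) / I.len)) = f := by
    funext p
    rw [hf]
    simp only
    congr 3
    unfold s9al
    push_cast
    ring
  rw [e1]
  have hfc : Continuous f := hw.smooth.continuous.mul (wy_ee_continuous.comp (by fun_prop))
  have hfi : Integrable f :=
    hfc.integrable_of_hasCompactSupport (s9kr_compactSupport hc0 hw).mul_right
  have hmp := s9kr_shear_mp ((j : ℕ) : ℝ)
  have e2 : ∫ p, f p = ∫ q : ℝ × ℝ, f (q.1 - ((j : ℕ) : ℝ) * q.2, q.2) := by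
    conv_lhs => rw [← hmp.map_eq]
    exact integral_map hmp.measurable.aemeasurable (by rw [hmp.map_eq]; exact hfc.aestronglyMeasurable)
  have hfi2 : Integrable (fun q : ℝ × ℝ => f (q.1 - ((j : ℕ) : ℝ) * q.2, q.2))
      ((volume : Measure ℝ).prod volume) := hmp.integrable_comp_of_integrable hfi
  have e3 : ∫ q : ℝ × ℝ, f (q.1 - ((j : ℕ) : ℝ) * q.2, q.2)
      = ∫ u : ℝ, ∫ t : ℝ, f (u - ((j : ℕ) : ℝ) * t, t) := integral_prod _ hfi2
  rw [e2, e3]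
  have e4 : ∀ u : ℝ, ∫ t : ℝ, f (u - ((j : ℕ) : ℝ) * t, t) = 0 := by
    intro u
    have : ∀ t : ℝ, f (u - ((j : ℕ) : ℝ) * t, t)
        = w (u - ((j : ℕ) : ℝ) * t, t) * ee (a * (u - xs) / I.len) := by
      intro t
      rw [hf]
      simp only
      congr 3
      ring
    simp only [this]
    rw [integral_mul_const, hw.marg u j, zero_mul]
  simp only [e4]
  simp

theorem s9kr_norm_v1 : ‖((1 : ℝ), (0 : ℝ))‖ ≤ 1 := by simp [Prod.norm_def]

theorem s9kr_norm_v2 : ‖((0 : ℝ), (1 : ℝ))‖ ≤ 1 := by simp [Prod.norm_def]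

theorem s9kr_l_le (l' : Fin 4) : ((l' : ℕ) : ℝ) ≤ 3 := by
  have : (l' : ℕ) ≤ 3 := by omega
  exact_mod_cast this

/-- comparison of two phases on the support rectangle -/
theorem s9kr_phase_le (I : Cell) {xs : ℝ} (l' : Fin 4) (a b a' b' : ℝ) {p : ℝ × ℝ} (hp : p ∈ s9krR I)
    (hxs : a = a' ∨ xs ∈ I.set) :
    ‖s9krE (a' / I.len) ((a' * ((l' : ℕ) : ℝ) + b') / I.len) (-(a' * xs) / I.len) p
        - s9krE (a / I.len) ((a * ((l' : ℕ) : ℝ) + b) / I.len) (-(a * xs) / I.len) p‖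
      ≤ 8 * Real.pi * (|a - a'| + |b - b'|) := by
  have hl := cell_len_pos I
  have hl3 := s9kr_l_le l'
  have hl0 : (0 : ℝ) ≤ ((l' : ℕ) : ℝ) := Nat.cast_nonneg _
  obtain ⟨⟨hp1, hp2⟩, hp3, hp4⟩ := hp
  have hp5 : |p.2| ≤ I.len := abs_le.2 ⟨hp3, hp4⟩
  unfold s9krE
  refine (s9kr_ee_sub_le _ _).trans ?_
  have e : a' / I.len * p.1 + (a' * ((l' : ℕ) : ℝ) + b') / I.len * p.2 + -(a' * xs) / I.len
      - (a / I.len * p.1 + (a * ((l' : ℕ) : ℝ) + b) / I.len * p.2 + -(a * xs) / I.len)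
      = ((a' - a) * (p.1 - xs + ((l' : ℕ) : ℝ) * p.2) + (b' - b) * p.2) / I.len := by
    field_simp
    ring
  rw [e, abs_div, abs_of_pos hl]
  have h1 : |(a' - a) * (p.1 - xs + ((l' : ℕ) : ℝ) * p.2)| ≤ |a - a'| * (4 * I.len) := by
    rcases hxs with rfl | hxs
    · simp
    · rw [abs_mul, abs_sub_comm a' a]
      refine mul_le_mul_of_nonneg_left ?_ (abs_nonneg _)
      have hr := cell_right_eq I
      have h2 : |p.1 - xs| ≤ I.len := by
        rw [abs_le]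
        constructor <;> linarith [hxs.1, hxs.2]
      have h3 : |((l' : ℕ) : ℝ) * p.2| ≤ 3 * I.len := by
        rw [abs_mul, abs_of_nonneg hl0]
        exact mul_le_mul hl3 hp5 (abs_nonneg _) (by norm_num)
      calc |p.1 - xs + ((l' : ℕ) : ℝ) * p.2| ≤ |p.1 - xs| + |((l' : ℕ) : ℝ) * p.2| := abs_add_le _ _
        _ ≤ 4 * I.len := by linarith
  have h4 : |(b' - b) * p.2| ≤ |b - b'| * I.len := by
    rw [abs_mul, abs_sub_comm b' b]
    exact mul_le_mul_of_nonneg_left hp5 (abs_nonneg _)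
  have h5 : |(a' - a) * (p.1 - xs + ((l' : ℕ) : ℝ) * p.2) + (b' - b) * p.2| / I.len
      ≤ 4 * (|a - a'| + |b - b'|) := by
    rw [div_le_iff₀ hl]
    have := abs_add_le ((a' - a) * (p.1 - xs + ((l' : ℕ) : ℝ) * p.2)) ((b' - b) * p.2)
    have h6 : 0 ≤ |b - b'| * I.len := by positivity
    nlinarith
  have hpi := Real.pi_pos
  nlinarith

theorem s9kr_scale {X Y N D : ℝ} (L : ℕ) (hX : 0 ≤ X) (hXY : X ≤ 5 * Y) (hN : 0 ≤ N)
    (h : Y ^ L * N ≤ D) : X ^ L * N ≤ 5 ^ L * D := by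
  calc X ^ L * N ≤ (5 * Y) ^ L * N := mul_le_mul_of_nonneg_right (pow_le_pow_left₀ hX hXY L) hN
    _ = 5 ^ L * (Y ^ L * N) := by rw [mul_pow]; ring
    _ ≤ 5 ^ L * D := mul_le_mul_of_nonneg_left h (by positivity)

theorem s9kr_al_le (l' j : Fin 4) : |(s9al l' j : ℝ)| ≤ 3 := by
  have h1 : (l' : ℕ) ≤ 3 := by omega
  have h2 : (j : ℕ) ≤ 3 := by omega
  have h3 : |s9al l' j| ≤ 3 := by
    unfold s9al
    rw [abs_le]
    constructor <;> omega
  exact_mod_cast h3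

/-- **(K1)** vanishing lines + rapid decay: `‖K̂(a,b)‖ ≤ C_L min(1, |b - (j-l') a|) (1 + |a| + |b|)^{-L}` for every `j`.  LEAF P-S9-KER-B -/
theorem s9_K_bound (c0 C0 : ℝ) (hc0 : 0 < c0) (hC0 : 1 ≤ C0) (L : ℕ) : ∃ C : ℝ, 1 ≤ C ∧
    ∀ (I : Cell) (w : ℝ × ℝ → ℂ), Admissible c0 C0 I w → ∀ (xs : ℝ) (l' j : Fin 4) (a b : ℝ),
      ‖s9K I w xs l' a b‖ ≤ C * min 1 |b - (s9al l' j : ℝ) * a| * ((1 + |a| + |b|) ^ L)⁻¹ := by
  set D1 : ℝ := 5 ^ L * (2 ^ L * (s9krG C0 0 + s9krG C0 L)) with hD1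
  set D2 : ℝ := 5 ^ L * (2 ^ L * (2 * s9krc C0 0 + 2 * s9krc C0 L)) with hD2
  have hD1n : 0 ≤ D1 := by
    have := s9krG_nonneg hC0 0
    have := s9krG_nonneg hC0 L
    positivity
  have hD2n : 0 ≤ D2 := by
    have := s9krc_nonneg hC0 0
    have := s9krc_nonneg hC0 L
    positivity
  refine ⟨1 + D1 + D2, by linarith, fun I w hw xs l' j a b => ?_⟩
  have hl := cell_len_pos I
  have hpos : 0 < (1 + |a| + |b|) ^ L := by positivity
  rw [le_mul_inv_iff₀ hpos, mul_comm]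
  set s : ℝ := (s9al l' j : ℝ) with hs
  have hs3 : |s| ≤ 3 := s9kr_al_le l' j
  have hl3 := s9kr_l_le l'
  have hl0 : (0 : ℝ) ≤ ((l' : ℕ) : ℝ) := Nat.cast_nonneg _
  have hX : 0 ≤ 1 + |a| + |b| := by positivity
  rcases le_or_gt |b - s * a| 1 with hδ | hδ
  · -- close to the line
    rw [min_eq_right hδ]
    have hline : s9K I w xs l' a b = s9K I w xs l' a b - s9K I w xs l' a (s * a) := by
      rw [s9_K_line hc0 hw xs l' j a, sub_zero]
    rw [hline, s9kr_K_eq I w xs l' a b (1, 0), s9kr_K_eq I w xs l' a (s * a) (1, 0)]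
    have h1 := s9kr_diff_decay hc0 hC0 hw s9kr_norm_v1 (a / I.len)
      ((a * ((l' : ℕ) : ℝ) + s * a) / I.len) (-(a * xs) / I.len) (a / I.len)
      ((a * ((l' : ℕ) : ℝ) + b) / I.len) (-(a * xs) / I.len) (η := |b - s * a|)
      (by simp) (by simp)
      (fun p hp => by
        have := s9kr_phase_le I (xs := xs) l' a (s * a) a b hp (Or.inl rfl)
        rw [sub_self, abs_zero, zero_add, abs_sub_comm] at this
        exact this) L
    have eA : I.len * (a / I.len * (1, (0 : ℝ)).1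
        + (a * ((l' : ℕ) : ℝ) + s * a) / I.len * ((1 : ℝ), (0 : ℝ)).2) = a := by
      simp only [mul_one, mul_zero, add_zero]
      field_simp
    rw [eA] at h1
    have hXY : 1 + |a| + |b| ≤ 5 * (1 + |a|) := by
      have h2 : |b| ≤ |b - s * a| + |s * a| := by
        have := abs_add_le (b - s * a) (s * a)
        simpa using this
      have h3 : |s * a| ≤ 3 * |a| := by
        rw [abs_mul]
        exact mul_le_mul_of_nonneg_right hs3 (abs_nonneg _)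
      linarith [abs_nonneg a]
    have h4 := s9kr_scale L hX hXY (norm_nonneg _) h1
    refine h4.trans ?_
    have h5 : 0 ≤ |b - s * a| := abs_nonneg _
    calc 5 ^ L * (2 ^ L * (s9krG C0 0 + s9krG C0 L) * |b - s * a|) = D1 * |b - s * a| := by
          rw [hD1]; ring
      _ ≤ (1 + D1 + D2) * |b - s * a| := mul_le_mul_of_nonneg_right (by linarith) h5
  · -- far from the line
    rw [min_eq_left hδ.le, mul_one]
    have h1 := s9kr_decay hc0 hC0 hw s9kr_norm_v1 (a / I.len)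
      ((a * ((l' : ℕ) : ℝ) + b) / I.len) (-(a * xs) / I.len) L
    have h2 := s9kr_decay hc0 hC0 hw s9kr_norm_v2 (a / I.len)
      ((a * ((l' : ℕ) : ℝ) + b) / I.len) (-(a * xs) / I.len) L
    have eA1 : I.len * (a / I.len * (1, (0 : ℝ)).1
        + (a * ((l' : ℕ) : ℝ) + b) / I.len * ((1 : ℝ), (0 : ℝ)).2) = a := by
      simp only [mul_one, mul_zero, add_zero]
      field_simp
    have eA2 : I.len * (a / I.len * ((0 : ℝ), (1 : ℝ)).1
        + (a * ((l' : ℕ) : ℝ) + b) / I.len * ((0 : ℝ), (1 : ℝ)).2) = a * ((l' : ℕ) : ℝ) + b := by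
      simp only [mul_one, mul_zero, zero_add]
      field_simp
    rw [eA1, ← s9kr_K_eq I w xs l' a b (1, 0)] at h1
    rw [eA2, ← s9kr_K_eq I w xs l' a b (0, 1)] at h2
    have hb : |b| ≤ |a * ((l' : ℕ) : ℝ) + b| + 3 * |a| := by
      have h3 := abs_add_le (a * ((l' : ℕ) : ℝ) + b) (-(a * ((l' : ℕ) : ℝ)))
      have h4 : |-(a * ((l' : ℕ) : ℝ))| ≤ 3 * |a| := by
        rw [abs_neg, abs_mul, abs_of_nonneg hl0, mul_comm]
        exact mul_le_mul_of_nonneg_right hl3 (abs_nonneg _)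
      have e : a * ((l' : ℕ) : ℝ) + b + -(a * ((l' : ℕ) : ℝ)) = b := by ring
      rw [e] at h3
      linarith
    have h5 : (1 + |a| + |b|) ^ L * ‖s9K I w xs l' a b‖ ≤ D2 := by
      rcases le_total |a| |a * ((l' : ℕ) : ℝ) + b| with h | h
      · exact s9kr_scale L hX (by linarith [abs_nonneg a]) (norm_nonneg _) h2
      · exact s9kr_scale L hX (by linarith [abs_nonneg a, abs_nonneg (a * ((l' : ℕ) : ℝ) + b)])
          (norm_nonneg _) h1
    linarith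

/-- **(K2)** Lipschitz bound with decay in `a`.  LEAF P-S9-KER-C -/
theorem s9_K_lip (c0 C0 : ℝ) (hc0 : 0 < c0) (hC0 : 1 ≤ C0) (L : ℕ) : ∃ C : ℝ, 1 ≤ C ∧
    ∀ (I : Cell) (w : ℝ × ℝ → ℂ), Admissible c0 C0 I w → ∀ xs ∈ I.set, ∀ (l' : Fin 4) (a b a' b' : ℝ), |a - a'| ≤ 1 →
      ‖s9K I w xs l' a b - s9K I w xs l' a' b'‖ ≤ C * (|a - a'| + |b - b'|) * ((1 + |a|) ^ L)⁻¹ := by
  set D1 : ℝ := 2 ^ L * (s9krG C0 0 + s9krG C0 L) with hD1
  have hD1n : 0 ≤ D1 := by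
    have := s9krG_nonneg hC0 0
    have := s9krG_nonneg hC0 L
    positivity
  refine ⟨1 + D1, by linarith, fun I w hw xs hxs l' a b a' b' haa => ?_⟩
  have hl := cell_len_pos I
  have hpos : 0 < (1 + |a|) ^ L := by positivity
  rw [le_mul_inv_iff₀ hpos, mul_comm, norm_sub_rev, s9kr_K_eq I w xs l' a b (1, 0),
    s9kr_K_eq I w xs l' a' b' (1, 0)]
  have eA : ∀ a b : ℝ, I.len * (a / I.len * (1, (0 : ℝ)).1
      + (a * ((l' : ℕ) : ℝ) + b) / I.len * ((1 : ℝ), (0 : ℝ)).2) = a := by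
    intro a b
    simp only [mul_one, mul_zero, add_zero]
    field_simp
  have h1 := s9kr_diff_decay hc0 hC0 hw s9kr_norm_v1 (a / I.len)
    ((a * ((l' : ℕ) : ℝ) + b) / I.len) (-(a * xs) / I.len) (a' / I.len)
    ((a' * ((l' : ℕ) : ℝ) + b') / I.len) (-(a' * xs) / I.len) (η := |a - a'| + |b - b'|)
    (by rw [eA, eA]; exact haa) (by rw [eA, eA]; linarith [abs_nonneg (b - b')])
    (fun p hp => s9kr_phase_le I (xs := xs) l' a b a' b' hp (Or.inr hxs)) L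
  rw [eA] at h1
  refine h1.trans ?_
  exact mul_le_mul_of_nonneg_right (by linarith) (by positivity)

end Claimed.Agent.R258
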