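/-
Row 258 (S0498), Sec. 9.2 (counting.tex, "Expand S' in normalized Fourier coefficients on I").  HOME ARCHITECT: helper41.      FOURIER SERIES ON A CELL.
Mathlib + Defs + S9/{Basic,Kernel}.lean, NO paper needed.

`s9fc I xs S k = |I|⁻¹ ∫_I S(y) e(-k (y - xs)/|I|) dy`.   The functions `e_k(y) = e(k (y - xs)/r)`, `k ∈ ℤ`, are orthonormal in `L²(I, dy/r)`.
* `s9_fc_bessel`: elementary: `0 ≤ ⨍_I |S - ∑_{k ∈ K} c_k e_k|² = ⨍|S|² - ∑ |c_k|²` (or `Orthonormal.sum_inner_products_le`); `nnorm 2 I S ^ 2 = r⁻¹ ∫_I ‖S‖²`.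
* `s9_KS_series`: put `V(y) = r⁻¹ ∫ w(y - l t, t) e((a (y - xs) + b t)/r) dt` (continuous, vanishing off `[I.left + c0 r, I.right - c0 r]`).  Then (shear + Fubini)
  `s9KS I w xs l S a b = r⁻¹ ∫_I S V` and `r⁻¹ ∫_I V(y) e(k (y - xs)/r) dy = s9K I w xs l (a + k) b`.  These coefficients are summable (`s9_K_bound`, `L = 2`), hence
  `V(y) = ∑_k s9K(a + k, b) e(-k (y - xs)/r)` uniformly on `I` (`has_pointwise_sum_fourier_series_of_summable` on `AddCircle r` for the periodisation of `V`, e.g.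
  `AddCircle.liftIco`; or Parseval in `L²(AddCircle r)`: `fourierBasis`, `HilbertBasis.hasSum_inner_mul_inner`); integrate against `S ∈ L¹(I)` term by term
  (`hasSum_integral_of_summable_norm`).
* `s9_sum_shift`: the points `a + k` are `1`-separated: compare with `2 ∑_{m ≥ 0} (1+m)^{-2} ≤ 4`.
-/
import Claimed.Agent.R258.S9.Kernel
import Claimed.Agent.R258.Pack005
import Claimed.Agent.R258.Pack004

set_option autoImplicit false
open MeasureTheory

namespace Claimed.Agent.R258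

open scoped BigOperators
open Classical

/-- the cell coefficient is a unimodular multiple of Mathlib's `fourierCoeffOn` -/
theorem s9_fc_eq (I : Cell) (xs : ℝ) (S : ℝ → ℂ) (k : ℤ) :
    s9fc I xs S k = ee ((k : ℝ) * xs / I.len) * fourierCoeffOn (cell_left_lt_right I) S k := by
  have hlen : I.right - I.left = I.len := by rw [cell_right_eq]; ring
  rw [fourierCoeffOn_eq_integral, intervalIntegral.integral_of_le (cell_left_lt_right I).le,
    ← integral_Ico_eq_integral_Ioc]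
  simp only [fourier_coe_apply, hlen]
  unfold s9fc
  rw [Complex.real_smul, ← mul_assoc, mul_comm (ee _), mul_assoc,
    ← integral_const_mul (ee ((k : ℝ) * xs / I.len))]
  have e1 : (((I.len)⁻¹ : ℝ) : ℂ) = ((1 / I.len : ℝ) : ℂ) := by rw [one_div]
  rw [e1]
  congr 1
  refine setIntegral_congr_fun measurableSet_Ico fun y _ => ?_
  simp only [smul_eq_mul]
  have h1 : -((k : ℝ) * (y - xs) / I.len) = (k : ℝ) * xs / I.len + -((k : ℝ) * y / I.len) := by ring
  rw [h1, wy_ee_add, mul_comm (S y), mul_assoc]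
  congr 2
  unfold ee
  congr 1
  push_cast
  ring

theorem s9_fc_norm (I : Cell) (xs : ℝ) (S : ℝ → ℂ) (k : ℤ) :
    ‖s9fc I xs S k‖ = ‖fourierCoeffOn (cell_left_lt_right I) S k‖ := by
  rw [s9_fc_eq, norm_mul, wy_ee_norm, one_mul]

theorem s9_nnorm_sq (I : Cell) (S : ℝ → ℂ) : nnorm 2 I S ^ 2 = I.len⁻¹ * ∫ y in I.set, ‖S y‖ ^ 2 := by
  have h := nnorm_rpow (p := 2) (by norm_num) I S
  simp only [Real.rpow_two] at h
  exact h

theorem s9_memLp (I : Cell) (S : ℝ → ℂ) (hS : Measurable S)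
    (hS2 : IntegrableOn (fun y => ‖S y‖ ^ 2) I.set) : MemLp S 2 (volume.restrict I.set) := by
  rw [memLp_two_iff_integrable_sq_norm hS.aestronglyMeasurable]
  exact hS2

/-- **Bessel's inequality** on the cell.  LEAF P-S9-FSER-A -/
theorem s9_fc_bessel (I : Cell) (xs : ℝ) (S : ℝ → ℂ) (hS : Measurable S)
    (hS2 : IntegrableOn (fun y => ‖S y‖ ^ 2) I.set) (K : Finset ℤ) :
    ∑ k ∈ K, ‖s9fc I xs S k‖ ^ 2 ≤ nnorm 2 I S ^ 2 := by
  have hlen : I.right - I.left = I.len := by rw [cell_right_eq]; ring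
  have hL2 : MemLp S 2 (volume.restrict (Set.Ioc I.left I.right)) := by
    have := s9_memLp I S hS hS2
    rwa [Cell.set, restrict_Ico_eq_restrict_Ioc] at this
  have h := hasSum_sq_fourierCoeffOn (cell_left_lt_right I) hL2
  have h2 := sum_le_hasSum K (fun i _ => by positivity) h
  simp only [s9_fc_norm]
  refine h2.trans (le_of_eq ?_)
  rw [s9_nnorm_sq, intervalIntegral.integral_of_le (cell_left_lt_right I).le,
    ← integral_Ico_eq_integral_Ioc, hlen, smul_eq_mul]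
  rfl

/-- one coefficient.  LEAF P-S9-FSER-A -/
theorem s9_fc_le (I : Cell) (xs : ℝ) (S : ℝ → ℂ) (hS : Measurable S)
    (hS2 : IntegrableOn (fun y => ‖S y‖ ^ 2) I.set) (k : ℤ) : ‖s9fc I xs S k‖ ≤ nnorm 2 I S := by
  have h := s9_fc_bessel I xs S hS hS2 {k}
  rw [Finset.sum_singleton] at h
  exact le_of_sq_le_sq h (nnorm_nonneg _ _ _) |> fun h => h

/-- monotonicity of the normalized norm under a pointwise bound.  LEAF P-S9-FSER-A -/
theorem s9_nnorm_mono (I : Cell) (S S' : ℝ → ℂ) (B : ℝ) (hB : 0 ≤ B) (hS' : Measurable S')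
    (hS2 : IntegrableOn (fun y => ‖S y‖ ^ 2) I.set) (h : ∀ y ∈ I.set, ‖S' y‖ ≤ B * ‖S y‖) :
    IntegrableOn (fun y => ‖S' y‖ ^ 2) I.set ∧ nnorm 2 I S' ≤ B * nnorm 2 I S := by
  constructor
  · have h1 : IntegrableOn (fun y => B ^ 2 * ‖S y‖ ^ 2) I.set := hS2.const_mul _
    refine Integrable.mono' h1 (hS'.norm.pow_const 2).aestronglyMeasurable ?_
    filter_upwards [ae_restrict_mem (cell_measurableSet I)] with y hy
    rw [Real.norm_of_nonneg (by positivity), ← mul_pow]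
    exact pow_le_pow_left₀ (norm_nonneg _) (h y hy) 2
  · have h1 : nnorm 2 I (fun y => (B : ℂ) • S y) = ‖(B : ℂ)‖ * nnorm 2 I S :=
      nnorm_const_smul (by norm_num) I (B : ℂ) S
    rw [Complex.norm_real, Real.norm_of_nonneg hB] at h1
    rw [← h1]
    refine nnorm_mono (by norm_num) ?_ fun y hy => ?_
    · have h2 : IntegrableOn (fun y => B ^ 2 * ‖S y‖ ^ 2) I.set := hS2.const_mul _
      refine h2.congr (Filter.Eventually.of_forall fun y => ?_)
      simp only [norm_smul, Complex.norm_real, Real.norm_of_nonneg hB, Real.rpow_two, mul_pow]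
    · rw [norm_smul, Complex.norm_real, Real.norm_of_nonneg hB]
      exact h y hy

/-- `∑_{j < n+1} (1+j)^{-2} ≤ 2 - 1/(n+1)` -/
theorem s9_sum_inv_sq_range (n : ℕ) :
    ∑ j ∈ Finset.range (n + 1), ((1 + (j : ℝ)) ^ 2)⁻¹ ≤ 2 - ((n : ℝ) + 1)⁻¹ := by
  induction n with
  | zero => norm_num
  | succ n ih =>
    rw [Finset.sum_range_succ]
    have h1 : ((1 + ((n + 1 : ℕ) : ℝ)) ^ 2)⁻¹ ≤ ((n : ℝ) + 1)⁻¹ - (((n + 1 : ℕ) : ℝ) + 1)⁻¹ := by
      have hn : (0 : ℝ) ≤ n := Nat.cast_nonneg _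
      push_cast
      rw [inv_sub_inv (by positivity) (by positivity), inv_eq_one_div, div_le_div_iff₀ (by positivity) (by positivity)]
      nlinarith
    linarith

theorem s9_sum_inv_sq (F : Finset ℕ) : ∑ j ∈ F, ((1 + (j : ℝ)) ^ 2)⁻¹ ≤ 2 := by
  have hsub : F ⊆ Finset.range (F.sup id + 1) := fun j hj =>
    Finset.mem_range.2 (Nat.lt_succ_of_le (Finset.le_sup (f := id) hj))
  have h1 := Finset.sum_le_sum_of_subset_of_nonneg (f := fun j : ℕ => ((1 + (j : ℝ)) ^ 2)⁻¹) hsub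
    (fun j _ _ => by positivity)
  have h2 := s9_sum_inv_sq_range (F.sup id)
  have h3 : (0 : ℝ) ≤ (((F.sup id : ℕ) : ℝ) + 1)⁻¹ := by positivity
  linarith

/-- one-sided sums -/
theorem s9_sum_shift_half (a : ℝ) (K : Finset ℤ) (φ : ℤ → ℕ) (hinj : Set.InjOn φ (K : Set ℤ))
    (h : ∀ k ∈ K, (φ k : ℝ) ≤ |a + (k : ℝ)|) : ∑ k ∈ K, ((1 + |a + (k : ℝ)|) ^ 2)⁻¹ ≤ 2 := by
  calc ∑ k ∈ K, ((1 + |a + (k : ℝ)|) ^ 2)⁻¹ ≤ ∑ k ∈ K, ((1 + (φ k : ℝ)) ^ 2)⁻¹ := by
        refine Finset.sum_le_sum fun k hk => ?_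
        apply inv_anti₀ (by positivity)
        have := h k hk
        have h0 : (0 : ℝ) ≤ φ k := Nat.cast_nonneg _
        exact pow_le_pow_left₀ (by positivity) (by linarith) 2
    _ = ∑ j ∈ K.image φ, ((1 + (j : ℝ)) ^ 2)⁻¹ :=
        (Finset.sum_image (f := fun j : ℕ => ((1 + (j : ℝ)) ^ 2)⁻¹) hinj).symm
    _ ≤ 2 := s9_sum_inv_sq _

/-- `∑_k (1 + |a + k|)^{-2} ≤ 4`, finite form.  LEAF P-S9-FSER-A -/
theorem s9_sum_shift (a : ℝ) (K : Finset ℤ) : ∑ k ∈ K, ((1 + |a + (k : ℝ)|) ^ 2)⁻¹ ≤ 4 := by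
  set m0 : ℤ := ⌈-a⌉ with hm0
  have h1 : -a ≤ (m0 : ℝ) := Int.le_ceil _
  have h2 : (m0 : ℝ) < -a + 1 := Int.ceil_lt_add_one _
  rw [← Finset.sum_filter_add_sum_filter_not K (fun k => m0 ≤ k)]
  have hp := s9_sum_shift_half a (K.filter fun k => m0 ≤ k) (fun k => (k - m0).toNat)
    (by
      intro k hk k' hk' he
      have e1 := (Finset.mem_filter.1 (Finset.mem_coe.1 hk)).2
      have e2 := (Finset.mem_filter.1 (Finset.mem_coe.1 hk')).2
      simp only at he
      omega)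
    (by
      intro k hk
      have e1 := (Finset.mem_filter.1 hk).2
      have e2 : (((k - m0).toNat : ℕ) : ℝ) = (k : ℝ) - m0 := by
        have h3 : (((k - m0).toNat : ℕ) : ℤ) = k - m0 := Int.toNat_of_nonneg (by omega)
        have h4 : ((((k - m0).toNat : ℕ) : ℤ) : ℝ) = ((k - m0 : ℤ) : ℝ) := by rw [h3]
        push_cast at h4
        exact h4
      rw [e2]
      refine le_trans ?_ (le_abs_self _)
      linarith)
  have hn := s9_sum_shift_half a (K.filter fun k => ¬ m0 ≤ k) (fun k => (m0 - 1 - k).toNat)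
    (by
      intro k hk k' hk' he
      have e1 := (Finset.mem_filter.1 (Finset.mem_coe.1 hk)).2
      have e2 := (Finset.mem_filter.1 (Finset.mem_coe.1 hk')).2
      simp only at he
      omega)
    (by
      intro k hk
      have e1 := (Finset.mem_filter.1 hk).2
      have e2 : (((m0 - 1 - k).toNat : ℕ) : ℝ) = (m0 : ℝ) - 1 - k := by
        have h3 : (((m0 - 1 - k).toNat : ℕ) : ℤ) = m0 - 1 - k := Int.toNat_of_nonneg (by omega)
        have h4 : ((((m0 - 1 - k).toNat : ℕ) : ℤ) : ℝ) = ((m0 - 1 - k : ℤ) : ℝ) := by rw [h3]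
        push_cast at h4
        exact h4
      rw [e2]
      refine le_trans ?_ (neg_le_abs _)
      linarith)
  linarith

/-! ### Parseval on the cell (polarisation of `hasSum_sq_fourierCoeffOn`), shear + Fubini.  LEAF P-S9-FSER-B -/

theorem s9_polar (x y : ℂ) : (starRingEnd ℂ) x * y = (1 / 4 : ℂ) * (((‖x + 1 * y‖ ^ 2 : ℝ) : ℂ) - ((‖x + (-1) * y‖ ^ 2 : ℝ) : ℂ)
    + Complex.I * (((‖x + (-Complex.I) * y‖ ^ 2 : ℝ) : ℂ) - ((‖x + Complex.I * y‖ ^ 2 : ℝ) : ℂ))) := by
  simp only [Complex.ofReal_pow, ← Complex.mul_conj', map_add, map_neg, map_mul, map_one, Complex.conj_I]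
  ring_nf
  rw [Complex.I_sq]
  ring

/-- Parseval, quadratic form -/
theorem s9_fc_parseval_sq (I : Cell) (xs : ℝ) {S : ℝ → ℂ} (hS : MemLp S 2 (volume.restrict I.set)) :
    HasSum (fun k : ℤ => ‖s9fc I xs S k‖ ^ 2) (I.len⁻¹ * ∫ y in I.set, ‖S y‖ ^ 2) := by
  have hlen : I.right - I.left = I.len := by rw [cell_right_eq]; ring
  have hL2 : MemLp S 2 (volume.restrict (Set.Ioc I.left I.right)) := by
    rwa [Cell.set, restrict_Ico_eq_restrict_Ioc] at hS
  have h := hasSum_sq_fourierCoeffOn (cell_left_lt_right I) hL2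
  simp only [s9_fc_norm]
  convert h using 1
  rw [intervalIntegral.integral_of_le (cell_left_lt_right I).le,
    ← integral_Ico_eq_integral_Ioc, hlen, smul_eq_mul]
  rfl

theorem s9_fc_integrable (I : Cell) (xs : ℝ) {S : ℝ → ℂ} (hS : MemLp S 2 (volume.restrict I.set)) (k : ℤ) :
    IntegrableOn (fun y => S y * ee (-((k : ℝ) * (y - xs) / I.len))) I.set := by
  have : IsFiniteMeasure (volume.restrict I.set) := ⟨by
    rw [Measure.restrict_apply_univ, Cell.set, Real.volume_Ico]; exact ENNReal.ofReal_lt_top⟩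
  have h1 : Integrable S (volume.restrict I.set) := memLp_one_iff_integrable.1 (hS.mono_exponent (by norm_num))
  exact h1.mul_bdd (c := 1) (wy_ee_continuous.comp (by fun_prop)).aestronglyMeasurable
    (Filter.Eventually.of_forall fun y => (wy_ee_norm _).le)

theorem s9_fc_add_mul (I : Cell) (xs : ℝ) {F G : ℝ → ℂ} (hF : MemLp F 2 (volume.restrict I.set))
    (hG : MemLp G 2 (volume.restrict I.set)) (c : ℂ) (k : ℤ) :
    s9fc I xs (fun y => F y + c * G y) k = s9fc I xs F k + c * s9fc I xs G k := by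
  unfold s9fc
  have e : ∀ y, (F y + c * G y) * ee (-((k : ℝ) * (y - xs) / I.len))
      = F y * ee (-((k : ℝ) * (y - xs) / I.len)) + c * (G y * ee (-((k : ℝ) * (y - xs) / I.len))) := fun y => by ring
  simp only [e]
  rw [integral_add (s9_fc_integrable I xs hF k) ((s9_fc_integrable I xs hG k).const_mul c), integral_const_mul]
  ring

/-- Parseval, bilinear form -/
theorem s9_fc_parseval (I : Cell) (xs : ℝ) {F G : ℝ → ℂ} (hF : MemLp F 2 (volume.restrict I.set))
    (hG : MemLp G 2 (volume.restrict I.set)) :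
    HasSum (fun k : ℤ => (starRingEnd ℂ) (s9fc I xs F k) * s9fc I xs G k)
      (((I.len⁻¹ : ℝ) : ℂ) * ∫ y in I.set, (starRingEnd ℂ) (F y) * G y) := by
  have hm : ∀ c : ℂ, MemLp (fun y => F y + c * G y) 2 (volume.restrict I.set) := fun c => hF.add (hG.const_mul c)
  have hq : ∀ c : ℂ, HasSum (fun k : ℤ => ((‖s9fc I xs F k + c * s9fc I xs G k‖ ^ 2 : ℝ) : ℂ))
      (((I.len⁻¹ * ∫ y in I.set, ‖F y + c * G y‖ ^ 2 : ℝ)) : ℂ) := by
    intro c
    have := s9_fc_parseval_sq I xs (hm c)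
    simp only [s9_fc_add_mul I xs hF hG] at this
    exact_mod_cast Complex.hasSum_ofReal.2 this
  have hi : ∀ c : ℂ, Integrable (fun y => ((‖F y + c * G y‖ ^ 2 : ℝ) : ℂ)) (volume.restrict I.set) := fun c =>
    ((memLp_two_iff_integrable_sq_norm (hm c).1).1 (hm c)).ofReal
  have hsum := (((hq 1).sub (hq (-1))).add (((hq (-Complex.I)).sub (hq Complex.I)).mul_left Complex.I)).mul_left (1 / 4 : ℂ)
  have e1 : (fun k : ℤ => (starRingEnd ℂ) (s9fc I xs F k) * s9fc I xs G k) = fun k : ℤ => (1 / 4 : ℂ) *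
      (((‖s9fc I xs F k + 1 * s9fc I xs G k‖ ^ 2 : ℝ) : ℂ) - ((‖s9fc I xs F k + (-1) * s9fc I xs G k‖ ^ 2 : ℝ) : ℂ)
      + Complex.I * (((‖s9fc I xs F k + (-Complex.I) * s9fc I xs G k‖ ^ 2 : ℝ) : ℂ)
        - ((‖s9fc I xs F k + Complex.I * s9fc I xs G k‖ ^ 2 : ℝ) : ℂ))) := funext fun k => s9_polar _ _
  have e2 : ((I.len⁻¹ : ℝ) : ℂ) * ∫ y in I.set, (starRingEnd ℂ) (F y) * G y = (1 / 4 : ℂ) *
      (((I.len⁻¹ * ∫ y in I.set, ‖F y + 1 * G y‖ ^ 2 : ℝ) : ℂ) - ((I.len⁻¹ * ∫ y in I.set, ‖F y + (-1) * G y‖ ^ 2 : ℝ) : ℂ)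
      + Complex.I * (((I.len⁻¹ * ∫ y in I.set, ‖F y + (-Complex.I) * G y‖ ^ 2 : ℝ) : ℂ)
        - ((I.len⁻¹ * ∫ y in I.set, ‖F y + Complex.I * G y‖ ^ 2 : ℝ) : ℂ))) := by
    simp only [s9_polar]
    have hs1 : Integrable (fun y => ((‖F y + 1 * G y‖ ^ 2 : ℝ) : ℂ) - ((‖F y + (-1) * G y‖ ^ 2 : ℝ) : ℂ))
        (volume.restrict I.set) := (hi 1).sub (hi (-1))
    have hs2 : Integrable (fun y => ((‖F y + (-Complex.I) * G y‖ ^ 2 : ℝ) : ℂ) - ((‖F y + Complex.I * G y‖ ^ 2 : ℝ) : ℂ))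
        (volume.restrict I.set) := (hi (-Complex.I)).sub (hi Complex.I)
    rw [integral_const_mul, integral_add hs1 (hs2.const_mul _),
      integral_sub (hi 1) (hi (-1)), integral_const_mul, integral_sub (hi (-Complex.I)) (hi Complex.I)]
    simp only [integral_complex_ofReal]
    push_cast
    ring
  rw [e1, e2]
  exact hsum


theorem s9_shear (c : ℝ) (F : ℝ × ℝ → ℂ) : ∫ p : ℝ × ℝ, F (p.1 + c * p.2, p.2) = ∫ p : ℝ × ℝ, F p := by
  set L : ℝ × ℝ →ₗ[ℝ] ℝ × ℝ :=
    Matrix.toLin (Module.Basis.finTwoProd ℝ) (Module.Basis.finTwoProd ℝ) !![1, c; 0, 1] with hL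
  have hLa : ∀ p, L p = (p.1 + c * p.2, p.2) := by
    intro p
    rw [hL, Matrix.toLin_finTwoProd_apply]
    simp
  have hdet : LinearMap.det L = 1 := by
    rw [hL, LinearMap.det_toLin, Matrix.det_fin_two_of]
    ring
  have hdet0 : LinearMap.det L ≠ 0 := by
    rw [hdet]
    exact one_ne_zero
  have hmap := Measure.map_linearMap_addHaar_eq_smul_addHaar (volume : Measure (ℝ × ℝ)) hdet0
  have hemb : MeasurableEmbedding L :=
    (LinearMap.equivOfDetNeZero L hdet0).toContinuousLinearEquiv.toHomeomorph.measurableEmbedding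
  calc ∫ p : ℝ × ℝ, F (p.1 + c * p.2, p.2) = ∫ p, F (L p) := by simp only [hLa]
    _ = ∫ q, F q ∂(Measure.map L volume) := (hemb.integral_map F).symm
    _ = ∫ p : ℝ × ℝ, F p := by
      rw [hmap, hdet]
      simp

/-- the partial transform in `t` -/
noncomputable def s9V (I : Cell) (w : ℝ × ℝ → ℂ) (xs : ℝ) (l : Fin 4) (a b y : ℝ) : ℂ :=
  ((I.len⁻¹ : ℝ) : ℂ) * ∫ t, w (y - ((l : ℕ) : ℝ) * t, t) * ee ((a * (y - xs) + b * t) / I.len)

section
variable {c0 C0 : ℝ} {I : Cell} {w : ℝ × ℝ → ℂ}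

theorem s9_w_shear_supp (hc0 : 0 < c0) (hw : Admissible c0 C0 I w) (l : Fin 4) {y t : ℝ}
    (h : w (y - ((l : ℕ) : ℝ) * t, t) ≠ 0) : y ∈ I.set ∧ t ∈ Set.Icc (-I.len) I.len := by
  obtain ⟨h1, h2⟩ := s2_adm_supp hw hc0 h
  have h3 := h1 l
  simp only [sub_add_cancel] at h3
  exact ⟨h3, abs_le.1 h2⟩

theorem s9_w_shear_le (hc0 : 0 < c0) (hw : Admissible c0 C0 I w) (l : Fin 4) (y t : ℝ) :
    ‖w (y - ((l : ℕ) : ℝ) * t, t)‖ ≤ (Set.Icc (-I.len) I.len).indicator (fun _ => (C0 * 2) ^ (C0 * 2)) t := by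
  by_cases h : w (y - ((l : ℕ) : ℝ) * t, t) = 0
  · rw [h, norm_zero]
    exact Set.indicator_nonneg (fun _ _ => (norm_nonneg _).trans (s2_adm_bound hw (0, 0))) _
  · rw [Set.indicator_of_mem (s9_w_shear_supp hc0 hw l h).2]
    exact s2_adm_bound hw _

theorem s9_ind_integrable (I : Cell) (B : ℝ) : Integrable ((Set.Icc (-I.len) I.len).indicator fun _ : ℝ => B) :=
  (integrable_indicator_iff measurableSet_Icc).2 (integrableOn_const (by simp))

theorem s9V_continuous (hc0 : 0 < c0) (hw : Admissible c0 C0 I w) (xs : ℝ) (l : Fin 4) (a b : ℝ) :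
    Continuous (s9V I w xs l a b) := by
  unfold s9V
  refine continuous_const.mul ?_
  have hwc := hw.smooth.continuous
  refine continuous_of_dominated (bound := (Set.Icc (-I.len) I.len).indicator fun _ => (C0 * 2) ^ (C0 * 2))
    (fun y => ?_) (fun y => ?_) (s9_ind_integrable I _) ?_
  · exact ((hwc.comp (by fun_prop : Continuous fun t : ℝ => (y - ((l : ℕ) : ℝ) * t, t))).mul
      (wy_ee_continuous.comp (by fun_prop))).aestronglyMeasurable
  · refine Filter.Eventually.of_forall fun t => ?_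
    rw [norm_mul, wy_ee_norm, mul_one]
    exact s9_w_shear_le hc0 hw l y t
  · refine Filter.Eventually.of_forall fun t => ?_
    exact (hwc.comp (by fun_prop : Continuous fun y : ℝ => (y - ((l : ℕ) : ℝ) * t, t))).mul
      (wy_ee_continuous.comp (by fun_prop))

theorem s9V_zero (hc0 : 0 < c0) (hw : Admissible c0 C0 I w) (xs : ℝ) (l : Fin 4) (a b : ℝ) {y : ℝ} (hy : y ∉ I.set) :
    s9V I w xs l a b y = 0 := by
  unfold s9V
  have : ∀ t, w (y - ((l : ℕ) : ℝ) * t, t) * ee ((a * (y - xs) + b * t) / I.len) = 0 := by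
    intro t
    have : w (y - ((l : ℕ) : ℝ) * t, t) = 0 := by
      by_contra h
      exact hy (s9_w_shear_supp hc0 hw l h).1
    rw [this, zero_mul]
  simp only [this, integral_zero, mul_zero]

theorem s9V_memLp (hc0 : 0 < c0) (hw : Admissible c0 C0 I w) (xs : ℝ) (l : Fin 4) (a b : ℝ) :
    MemLp (s9V I w xs l a b) 2 (volume.restrict I.set) := by
  have hs : HasCompactSupport (s9V I w xs l a b) :=
    HasCompactSupport.of_support_subset_isCompact (isCompact_Icc (a := I.left) (b := I.right)) fun y hy => by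
      by_contra hcon
      exact hy (s9V_zero hc0 hw xs l a b fun hmem => hcon (Set.Ico_subset_Icc_self hmem))
  exact ((s9V_continuous hc0 hw xs l a b).memLp_of_hasCompactSupport hs).restrict _

/-- shear + Fubini -/
theorem s9_KS_eq (hc0 : 0 < c0) (hw : Admissible c0 C0 I w) (xs : ℝ) (l : Fin 4) (S : ℝ → ℂ) (hS : Measurable S)
    (hS2 : IntegrableOn (fun y => ‖S y‖ ^ 2) I.set) (a b : ℝ) :
    s9KS I w xs l S a b = ((I.len⁻¹ : ℝ) : ℂ) * ∫ y in I.set, s9V I w xs l a b y * S y := by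
  have hr : 0 < I.len := cell_len_pos I
  have hwc := hw.smooth.continuous
  have hfin : IsFiniteMeasure (volume.restrict I.set) := ⟨by
    rw [Measure.restrict_apply_univ, Cell.set, Real.volume_Ico]; exact ENNReal.ofReal_lt_top⟩
  have hS1 : Integrable (I.set.indicator fun y => ‖S y‖) :=
    (integrable_indicator_iff (cell_measurableSet I)).2
      (memLp_one_iff_integrable.1 ((s9_memLp I S hS hS2).mono_exponent (by norm_num))).norm
  set G : ℝ × ℝ → ℂ := fun p => w (p.1 - ((l : ℕ) : ℝ) * p.2, p.2) * S p.1 * ee ((a * (p.1 - xs) + b * p.2) / I.len)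
    with hG
  have hGi : Integrable G volume := by
    have hb : Integrable (fun p : ℝ × ℝ => (I.set.indicator fun y => ‖S y‖) p.1 *
        ((Set.Icc (-I.len) I.len).indicator fun _ => (C0 * 2) ^ (C0 * 2)) p.2) volume :=
      hS1.mul_prod (s9_ind_integrable I _)
    refine hb.mono' ?_ (Filter.Eventually.of_forall fun p => ?_)
    · exact (((hwc.comp (by fun_prop : Continuous fun p : ℝ × ℝ => (p.1 - ((l : ℕ) : ℝ) * p.2, p.2))).aestronglyMeasurable.mul
        (hS.comp measurable_fst).aestronglyMeasurable).mul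
        (wy_ee_continuous.comp (by fun_prop)).aestronglyMeasurable)
    · rw [hG]
      simp only
      rw [norm_mul, norm_mul, wy_ee_norm, mul_one, mul_comm]
      by_cases h : w (p.1 - ((l : ℕ) : ℝ) * p.2, p.2) = 0
      · rw [h, norm_zero, mul_zero]
        exact mul_nonneg (Set.indicator_nonneg (fun _ _ => norm_nonneg _) _)
          (Set.indicator_nonneg (fun _ _ => (norm_nonneg _).trans (s2_adm_bound hw (0, 0))) _)
      · rw [Set.indicator_of_mem (s9_w_shear_supp hc0 hw l h).1]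
        exact mul_le_mul_of_nonneg_left (s9_w_shear_le hc0 hw l p.1 p.2) (norm_nonneg _)
  have e1 : ∫ p : ℝ × ℝ, w p * S (p.1 + ((l : ℕ) : ℝ) * p.2) *
      ee ((a * (p.1 + ((l : ℕ) : ℝ) * p.2 - xs) + b * p.2) / I.len) = ∫ p, G p := by
    rw [← s9_shear (-((l : ℕ) : ℝ))]
    refine integral_congr_ae (Filter.Eventually.of_forall fun p => ?_)
    simp only [hG]
    have h1 : p.1 + -((l : ℕ) : ℝ) * p.2 + ((l : ℕ) : ℝ) * p.2 = p.1 := by ring
    have h2 : p.1 + -((l : ℕ) : ℝ) * p.2 = p.1 - ((l : ℕ) : ℝ) * p.2 := by ring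
    rw [h1, h2]
  have e2 : ∫ p, G p = ∫ y, ∫ t, G (y, t) := integral_prod _ hGi
  have e3 : ∀ y, ∫ t, G (y, t) = (I.len : ℂ) * (s9V I w xs l a b y * S y) := by
    intro y
    unfold s9V
    simp only [hG]
    have : ∀ t, w (y - ((l : ℕ) : ℝ) * t, t) * S y * ee ((a * (y - xs) + b * t) / I.len)
        = S y * (w (y - ((l : ℕ) : ℝ) * t, t) * ee ((a * (y - xs) + b * t) / I.len)) := fun t => by ring
    simp only [this]
    rw [integral_const_mul]
    have hr' : (I.len : ℂ) ≠ 0 := by exact_mod_cast hr.ne'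
    generalize (∫ t, w (y - ((l : ℕ) : ℝ) * t, t) * ee ((a * (y - xs) + b * t) / I.len)) = J
    push_cast
    field_simp
  unfold s9KS
  rw [e1, e2]
  simp only [e3]
  rw [integral_const_mul, ← setIntegral_eq_integral_of_forall_compl_eq_zero (s := I.set) fun y hy => by
    rw [s9V_zero hc0 hw xs l a b hy, zero_mul]]
  have hr' : (I.len : ℂ) ≠ 0 := by exact_mod_cast hr.ne'
  push_cast
  field_simp

end


theorem s9_K_eq_KS (I : Cell) (w : ℝ × ℝ → ℂ) (xs : ℝ) (l : Fin 4) (a b : ℝ) (k : ℤ) :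
    s9K I w xs l (a + (k : ℝ)) b = s9KS I w xs l (fun y => ee ((k : ℝ) * (y - xs) / I.len)) a b := by
  unfold s9K s9KS
  congr 1
  refine integral_congr_ae (Filter.Eventually.of_forall fun p => ?_)
  simp only
  rw [mul_assoc, ← wy_ee_add]
  congr 2
  ring

/-- **the Fourier expansion of the side factor**: `KS(a,b) = ∑_k K̂(a + k, b) Ŝ(k)`.  LEAF P-S9-FSER-B -/
theorem s9_KS_series {c0 C0 : ℝ} (hc0 : 0 < c0) (hC0 : 1 ≤ C0) {I : Cell} {w : ℝ × ℝ → ℂ} (hw : Admissible c0 C0 I w)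
    (xs : ℝ) (l : Fin 4) (S : ℝ → ℂ) (hS : Measurable S) (hS2 : IntegrableOn (fun y => ‖S y‖ ^ 2) I.set) (a b : ℝ) :
    HasSum (fun k : ℤ => s9K I w xs l (a + (k : ℝ)) b * s9fc I xs S k) (s9KS I w xs l S a b) := by
  have hV := s9V_memLp hc0 hw xs l a b
  have hVc : MemLp (fun y => (starRingEnd ℂ) (s9V I w xs l a b y)) 2 (volume.restrict I.set) :=
    hV.of_le (Complex.continuous_conj.comp (s9V_continuous hc0 hw xs l a b)).aestronglyMeasurable
      (Filter.Eventually.of_forall fun y => by rw [RCLike.norm_conj])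
  have hP := s9_fc_parseval I xs hVc (s9_memLp I S hS hS2)
  simp only [Complex.conj_conj] at hP
  rw [← s9_KS_eq hc0 hw xs l S hS hS2 a b] at hP
  have hk : ∀ k : ℤ, (starRingEnd ℂ) (s9fc I xs (fun y => (starRingEnd ℂ) (s9V I w xs l a b y)) k)
      = s9K I w xs l (a + (k : ℝ)) b := by
    intro k
    have hm : Measurable fun y : ℝ => ee ((k : ℝ) * (y - xs) / I.len) :=
      (wy_ee_continuous.comp (by fun_prop)).measurable
    have hi : IntegrableOn (fun y : ℝ => ‖ee ((k : ℝ) * (y - xs) / I.len)‖ ^ 2) I.set := by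
      simp only [wy_ee_norm, one_pow]
      exact integrableOn_const (by rw [Cell.set, Real.volume_Ico]; exact ENNReal.ofReal_ne_top)
    rw [s9_K_eq_KS, s9_KS_eq hc0 hw xs l _ hm hi a b]
    unfold s9fc
    rw [map_mul, Complex.conj_ofReal, ← integral_conj]
    congr 1
    refine integral_congr_ae (Filter.Eventually.of_forall fun y => ?_)
    simp only
    rw [map_mul, Complex.conj_conj, wy_ee_neg_conj, Complex.conj_conj]
  simpa only [hk] using hP

end Claimed.Agent.R258
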