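/-
Row 258 (S0498), Sec. 9.2 (counting.tex, "Torus norms").  HOME ARCHITECT: helper41.      THE HAAR ESTIMATE IN FINITE FORM.
Mathlib + S9/Basic.lean only (definitions `s9dot, s9ev, s9ev2, s9l1, s9nsq, s9al, s9N, s9M, s9co`), NO paper needed.

STATEMENTS.  Four families `(n j, c j)`, a multiplier family `(nR, mR, cR)` with `sup |R| ≤ CR`.  For fixed `k0, k1 ∈ ℤ^d` the sum of the coefficients of
the tuples with total frequencies `(k0, k1)` is `∫∫ R(u,v) ∏_j h_j(u + (j-l') v) e(-k0·u - k1·v) du dv`, `h_j = s9ev (n j) (c j)`, hence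
`≤ CR ∏_j ‖h_j‖_{L²}` (`s9_torus4`);  `ℓ²` summation in `k0` when one role has zero frequencies (`s9_torus3`).

PROOF OF `s9_torus4` WITHOUT MEASURE THEORY: average over the finite group `A = (ZMod N)^d` (or `Fin d → ZMod N`), `N` larger than `2 (1 + all |frequencies|
occurring, including `k0, k1` and the totals)`; for `a ∈ A` evaluate at the point `u = a/N ∈ ℝ^d` (`val`).
 (1) orthogonality: `E_{a ∈ A} e(k · a/N) = 1` if `k = 0`, `= 0` if `0 < |k|_∞ < N` (product of geometric sums / `ZMod` characters).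
 (2) `E_a |h(a/N)|² = s9nsq n c` (expand, (1));   (3) coefficient extraction: the LHS sum equals
     `E_{a,b} R(a/N, b/N) ∏_j h_j((a + (j-l') b)/N) e(-(k0·a + k1·b)/N)` (expand everything, (1) in both variables; `e` is 1-periodic so `a + (j-l') b` may
     be reduced mod `N`).
 (4) `|…| ≤ CR E_{a,b} ∏_j |h_j(a + (j-l') b)|`, Cauchy-Schwarz with the pairs `(0,1)`, `(2,3)`:
     `E_{a,b} |h_0(a + α b)|² |h_1(a + (α+1) b)|² = (E|h_0|²)(E|h_1|²)`: substitute `a ↦ a - α b` (bijection of `A` for fixed `b`), then `b ↦ b - a`.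
An integral over `[0,1]^d` or `AddCircle` is equally fine if you prefer.
PROOF OF `s9_torus3` from `s9_torus4` by duality: let `D k0` be the inner sum, `φ k0 = conj (D k0)`;  `∑_{k0 ∈ K0} |D k0|² = ∑ φ(k0) D(k0)` is the coefficient sum with
totals `(0, k1)` of the system in which the family of the role `l` is replaced by `ι_l × K0`, frequencies `-k0`, coefficients `c_l(i) φ(k0)` (anchor `l`: the
`v`-frequency is not affected);  its `s9nsq` is `|∑_i c_l i|² ∑ |φ|²`.  So `X² ≤ CR ∏_{j} √nsq_j · X`.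
-/
import Claimed.Agent.R258.Pack012

set_option autoImplicit false

namespace Claimed.Agent.R258

open scoped BigOperators
open Classical

theorem s9t_nsq_def {d : ℕ} {ι : Type} [Fintype ι] (n : ι → Fin d → ℤ) (c : ι → ℂ) :
    s9nsq n c = ∑ k ∈ Finset.univ.image n, ‖∑ i with n i = k, c i‖ ^ 2 := rfl

theorem s9t_dot_def {d : ℕ} (n : Fin d → ℤ) (ζ : Fin d → ℝ) : s9dot n ζ = ∑ i, (n i : ℝ) * ζ i := rfl

theorem s9t_ev_def {d : ℕ} {ι : Type} [Fintype ι] (n : ι → Fin d → ℤ) (c : ι → ℂ) (u : Fin d → ℝ) :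
    s9ev n c u = ∑ i, c i * ee (s9dot (n i) u) := rfl

theorem s9t_ev2_def {d : ℕ} {ι : Type} [Fintype ι] (n m : ι → Fin d → ℤ) (c : ι → ℂ) (u v : Fin d → ℝ) :
    s9ev2 n m c u v = ∑ i, c i * ee (s9dot (n i) u + s9dot (m i) v) := rfl

theorem s9t_l1_def {ι : Type} [Fintype ι] (c : ι → ℂ) : s9l1 c = ∑ i, ‖c i‖ := rfl

theorem s9t_al_def (l' j : Fin 4) : s9al l' j = ((j : ℕ) : ℤ) - ((l' : ℕ) : ℤ) := rfl

theorem s9t_N_def {d : ℕ} {ιR : Type} {ι : Fin 4 → Type} (nR : ιR → Fin d → ℤ) (n : ∀ j, ι j → Fin d → ℤ)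
    (x : ιR × (∀ j, ι j)) : s9N nR n x = nR x.1 + ∑ j, n j (x.2 j) := rfl

theorem s9t_M_def {d : ℕ} {ιR : Type} {ι : Fin 4 → Type} (l' : Fin 4) (mR : ιR → Fin d → ℤ)
    (n : ∀ j, ι j → Fin d → ℤ) (x : ιR × (∀ j, ι j)) :
    s9M l' mR n x = mR x.1 + ∑ j, s9al l' j • n j (x.2 j) := rfl

theorem s9t_co_def {ιR : Type} {ι : Fin 4 → Type} (cR : ιR → ℂ) (c : ∀ j, ι j → ℂ)
    (x : ιR × (∀ j, ι j)) : s9co cR c x = cR x.1 * ∏ j, c j (x.2 j) := rfl

/-- `s9nsq ≥ 0`.  LEAF P-S9-TORUS-A -/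
theorem s9_nsq_nonneg {d : ℕ} {ι : Type} [Fintype ι] (n : ι → Fin d → ℤ) (c : ι → ℂ) : 0 ≤ s9nsq n c := by
  rw [s9t_nsq_def]
  exact Finset.sum_nonneg fun k _ => by positivity

/-- `‖h‖_{L²} ≤ ℓ¹`.  LEAF P-S9-TORUS-A -/
theorem s9_nsq_le_l1 {d : ℕ} {ι : Type} [Fintype ι] (n : ι → Fin d → ℤ) (c : ι → ℂ) :
    Real.sqrt (s9nsq n c) ≤ s9l1 c := by
  have h0 : 0 ≤ s9l1 c := by
    rw [s9t_l1_def]
    exact Finset.sum_nonneg fun i _ => norm_nonneg _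
  rw [Real.sqrt_le_left h0, s9t_nsq_def]
  calc ∑ k ∈ Finset.univ.image n, ‖∑ i with n i = k, c i‖ ^ 2
      ≤ ∑ k ∈ Finset.univ.image n, (∑ i with n i = k, ‖c i‖) ^ 2 :=
        Finset.sum_le_sum fun k _ => pow_le_pow_left₀ (norm_nonneg _) (norm_sum_le _ _) 2
    _ ≤ (∑ k ∈ Finset.univ.image n, ∑ i with n i = k, ‖c i‖) ^ 2 :=
        Finset.sum_sq_le_sq_sum_of_nonneg fun k _ => Finset.sum_nonneg fun i _ => norm_nonneg _
    _ = s9l1 c ^ 2 := by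
        rw [Finset.sum_fiberwise_of_maps_to (fun i _ => Finset.mem_image_of_mem n (Finset.mem_univ i)),
          s9t_l1_def]

/-- expansion of `s9nsq` as a double sum.  LEAF P-S9-TORUS-A -/
theorem s9_nsq_eq {d : ℕ} {ι : Type} [Fintype ι] (n : ι → Fin d → ℤ) (c : ι → ℂ) :
    ((s9nsq n c : ℝ) : ℂ) = ∑ i, ∑ i', if n i = n i' then c i * (starRingEnd ℂ) (c i') else 0 := by
  rw [s9t_nsq_def]
  push_cast
  have h1 : ∀ k ∈ Finset.univ.image n, ((‖∑ i with n i = k, c i‖ : ℝ) : ℂ) ^ 2 =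
      ∑ i with n i = k, ∑ i', if n i = n i' then c i * (starRingEnd ℂ) (c i') else 0 := by
    intro k _
    rw [← Complex.mul_conj', map_sum, Finset.sum_mul]
    refine Finset.sum_congr rfl fun i hi => ?_
    have hik : n i = k := (Finset.mem_filter.1 hi).2
    rw [Finset.mul_sum, Finset.sum_filter]
    refine Finset.sum_congr rfl fun i' _ => ?_
    rw [hik]
    by_cases h : n i' = k
    · rw [if_pos h, if_pos h.symm]
    · rw [if_neg h, if_neg (fun h' => h h'.symm)]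
  rw [Finset.sum_congr rfl h1,
    Finset.sum_fiberwise_of_maps_to (fun i _ => Finset.mem_image_of_mem n (Finset.mem_univ i))]

theorem s9t_dot_add {d : ℕ} (n m : Fin d → ℤ) (u : Fin d → ℝ) :
    s9dot (n + m) u = s9dot n u + s9dot m u := by
  simp only [s9t_dot_def, Pi.add_apply, Int.cast_add, add_mul, Finset.sum_add_distrib]

theorem s9t_dot_zero {d : ℕ} (u : Fin d → ℝ) : s9dot (0 : Fin d → ℤ) u = 0 := by
  simp [s9t_dot_def]

/-- an additive map `κ : ℤ^d → ℤ^d'` is dual to a linear map of the real points: `κ n · u = n · κᵀ u`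
(`κᵀ u = (κ e_i · u)_i`).  LEAF P-S9-TORUS-A -/
theorem s9_dot_kap {d d' : ℕ} (kap : (Fin d → ℤ) →+ (Fin d' → ℤ)) (u : Fin d' → ℝ) :
    ∃ u' : Fin d → ℝ, ∀ n, s9dot (kap n) u = s9dot n u' := by
  let φ : (Fin d' → ℤ) →+ ℝ :=
    { toFun := fun m => s9dot m u
      map_zero' := s9t_dot_zero u
      map_add' := fun a b => s9t_dot_add a b u }
  refine ⟨fun i => s9dot (kap (Pi.single i 1)) u, fun n => ?_⟩
  have hn : n = ∑ i, n i • (Pi.single i 1 : Fin d → ℤ) := by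
    funext j
    simp [Finset.sum_apply, Pi.single_apply]
  have h1 : (φ.comp kap) n = ∑ i, n i • (φ.comp kap) (Pi.single i 1) := by
    conv_lhs => rw [hn]
    rw [map_sum]
    exact Finset.sum_congr rfl fun i _ => map_zsmul _ _ _
  change (φ.comp kap) n = _
  rw [h1, s9t_dot_def]
  refine Finset.sum_congr rfl fun i _ => ?_
  rw [zsmul_eq_mul]
  rfl

/-- the supremum bound of a multiplier passes to the subtorus.  LEAF P-S9-TORUS-A -/
theorem s9_sup_kap {d d' : ℕ} (kap : (Fin d → ℤ) →+ (Fin d' → ℤ)) {ιR : Type} [Fintype ιR]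
    (nR mR : ιR → Fin d → ℤ) (cR : ιR → ℂ) (CR : ℝ) (hR : ∀ u v, ‖s9ev2 nR mR cR u v‖ ≤ CR) :
    ∀ u v, ‖s9ev2 (fun i => kap (nR i)) (fun i => kap (mR i)) cR u v‖ ≤ CR := by
  intro u v
  obtain ⟨u', hu'⟩ := s9_dot_kap kap u
  obtain ⟨v', hv'⟩ := s9_dot_kap kap v
  have : s9ev2 (fun i => kap (nR i)) (fun i => kap (mR i)) cR u v = s9ev2 nR mR cR u' v' := by
    rw [s9t_ev2_def, s9t_ev2_def]
    exact Finset.sum_congr rfl fun i _ => by rw [hu', hv']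
  rw [this]
  exact hR u' v'

section haar
variable {A : Type*} [AddCommGroup A] [Fintype A]

theorem s9t_pair (g g' : A → ℝ) (α : ℤ) :
    ∑ a, ∑ b, g (a + α • b) * g' (a + (α + 1) • b) = (∑ a, g a) * ∑ a, g' a := by
  rw [Finset.sum_comm]
  have h1 : ∀ b : A, ∑ a, g (a + α • b) * g' (a + (α + 1) • b) = ∑ a, g a * g' (a + b) := by
    intro b
    rw [← Equiv.sum_comp (Equiv.addRight (α • b)) (fun a => g a * g' (a + b))]
    refine Finset.sum_congr rfl fun a _ => ?_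
    simp only [Equiv.coe_addRight]
    rw [add_smul, one_smul, add_assoc]
  rw [Finset.sum_congr rfl fun b _ => h1 b, Finset.sum_comm, Finset.sum_mul]
  refine Finset.sum_congr rfl fun a _ => ?_
  rw [← Finset.mul_sum]
  congr 1
  exact Equiv.sum_comp (Equiv.addLeft a) g'

/-- the functional form of the Haar estimate on a finite abelian group -/
theorem s9t_haar (f : Fin 4 → A → ℂ) (Rh : A → A → ℂ) (CR : ℝ) (hR : ∀ a b, ‖Rh a b‖ ≤ CR) (l' : Fin 4) :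
    ‖∑ a, ∑ b, Rh a b * ∏ j, f j (a + s9al l' j • b)‖ ≤ CR * ∏ j, Real.sqrt (∑ a, ‖f j a‖ ^ 2) := by
  have hCR : 0 ≤ CR := (norm_nonneg _).trans (hR 0 0)
  have a1 : s9al l' 1 = s9al l' 0 + 1 := by simp [s9t_al_def]; ring
  have a3 : s9al l' 3 = s9al l' 2 + 1 := by simp [s9t_al_def]; ring
  have hs : ∀ j, 0 ≤ ∑ a, ‖f j a‖ ^ 2 := fun j => Finset.sum_nonneg fun a _ => by positivity
  -- Cauchy-Schwarz
  have cs : ∑ x : A × A, (‖f 0 (x.1 + s9al l' 0 • x.2)‖ * ‖f 1 (x.1 + s9al l' 1 • x.2)‖) *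
      (‖f 2 (x.1 + s9al l' 2 • x.2)‖ * ‖f 3 (x.1 + s9al l' 3 • x.2)‖) ≤
      Real.sqrt (∑ x : A × A, (‖f 0 (x.1 + s9al l' 0 • x.2)‖ * ‖f 1 (x.1 + s9al l' 1 • x.2)‖) ^ 2) *
      Real.sqrt (∑ x : A × A, (‖f 2 (x.1 + s9al l' 2 • x.2)‖ * ‖f 3 (x.1 + s9al l' 3 • x.2)‖) ^ 2) :=
    Real.sum_mul_le_sqrt_mul_sqrt _ _ _
  have p01 : ∑ x : A × A, (‖f 0 (x.1 + s9al l' 0 • x.2)‖ * ‖f 1 (x.1 + s9al l' 1 • x.2)‖) ^ 2 =
      (∑ a, ‖f 0 a‖ ^ 2) * ∑ a, ‖f 1 a‖ ^ 2 := by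
    rw [Fintype.sum_prod_type, ← s9t_pair (fun a => ‖f 0 a‖ ^ 2) (fun a => ‖f 1 a‖ ^ 2) (s9al l' 0), a1]
    exact Finset.sum_congr rfl fun a _ => Finset.sum_congr rfl fun b _ => mul_pow _ _ _
  have p23 : ∑ x : A × A, (‖f 2 (x.1 + s9al l' 2 • x.2)‖ * ‖f 3 (x.1 + s9al l' 3 • x.2)‖) ^ 2 =
      (∑ a, ‖f 2 a‖ ^ 2) * ∑ a, ‖f 3 a‖ ^ 2 := by
    rw [Fintype.sum_prod_type, ← s9t_pair (fun a => ‖f 2 a‖ ^ 2) (fun a => ‖f 3 a‖ ^ 2) (s9al l' 2), a3]
    exact Finset.sum_congr rfl fun a _ => Finset.sum_congr rfl fun b _ => mul_pow _ _ _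
  rw [p01, p23, Real.sqrt_mul (hs 0), Real.sqrt_mul (hs 2)] at cs
  calc ‖∑ a, ∑ b, Rh a b * ∏ j, f j (a + s9al l' j • b)‖
      ≤ ∑ a, ∑ b, ‖Rh a b * ∏ j, f j (a + s9al l' j • b)‖ :=
        (norm_sum_le _ _).trans (Finset.sum_le_sum fun a _ => norm_sum_le _ _)
    _ ≤ ∑ a, ∑ b, CR * ((‖f 0 (a + s9al l' 0 • b)‖ * ‖f 1 (a + s9al l' 1 • b)‖) *
          (‖f 2 (a + s9al l' 2 • b)‖ * ‖f 3 (a + s9al l' 3 • b)‖)) := by
        refine Finset.sum_le_sum fun a _ => Finset.sum_le_sum fun b _ => ?_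
        rw [norm_mul, Fin.prod_univ_four, norm_mul, norm_mul, norm_mul, mul_assoc (‖f 0 _‖ * ‖f 1 _‖)]
        exact mul_le_mul_of_nonneg_right (hR a b) (by positivity)
    _ = CR * ∑ x : A × A, (‖f 0 (x.1 + s9al l' 0 • x.2)‖ * ‖f 1 (x.1 + s9al l' 1 • x.2)‖) *
          (‖f 2 (x.1 + s9al l' 2 • x.2)‖ * ‖f 3 (x.1 + s9al l' 3 • x.2)‖) := by
        rw [Fintype.sum_prod_type, Finset.mul_sum]
        exact Finset.sum_congr rfl fun a _ => (Finset.mul_sum _ _ _).symm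
    _ ≤ CR * (Real.sqrt (∑ a, ‖f 0 a‖ ^ 2) * Real.sqrt (∑ a, ‖f 1 a‖ ^ 2) *
          (Real.sqrt (∑ a, ‖f 2 a‖ ^ 2) * Real.sqrt (∑ a, ‖f 3 a‖ ^ 2))) :=
        mul_le_mul_of_nonneg_left cs hCR
    _ = CR * ∏ j, Real.sqrt (∑ a, ‖f j a‖ ^ 2) := by
        rw [Fin.prod_univ_four]; ring

end haar

theorem s9t_ee_def (t : ℝ) : ee t = Complex.exp (2 * Real.pi * t * Complex.I) := rfl

theorem s9t_ee_add (s t : ℝ) : ee (s + t) = ee s * ee t := by
  rw [s9t_ee_def, s9t_ee_def, s9t_ee_def, ← Complex.exp_add]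
  congr 1
  push_cast
  ring

section chars
variable {d : ℕ} {N : ℕ} [NeZero N]

/-- the point `a / N` of `ℝ^d` -/
noncomputable def s9tPt (a : Fin d → ZMod N) : Fin d → ℝ := fun i => ((a i).val : ℝ) / N

/-- the character `a ↦ e(k · a / N)` of `(ℤ/N)^d` -/
noncomputable def s9tChi (k : Fin d → ℤ) (a : Fin d → ZMod N) : ℂ :=
  ZMod.stdAddChar (∑ i, (k i : ZMod N) * a i)

omit [NeZero N] in
theorem s9t_pt_def (a : Fin d → ZMod N) : s9tPt a = fun i => ((a i).val : ℝ) / N := rfl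

theorem s9t_chi_def (k : Fin d → ℤ) (a : Fin d → ZMod N) :
    s9tChi k a = ZMod.stdAddChar (∑ i, (k i : ZMod N) * a i) := rfl

theorem s9t_ee_pt (k : Fin d → ℤ) (a : Fin d → ZMod N) : ee (s9dot k (s9tPt a)) = s9tChi k a := by
  have h1 : (∑ i, (k i : ZMod N) * a i) = ((∑ i, k i * ((a i).val : ℤ) : ℤ) : ZMod N) := by
    push_cast
    refine Finset.sum_congr rfl fun i _ => ?_
    rw [ZMod.natCast_zmod_val]
  rw [s9t_chi_def, h1, ZMod.stdAddChar_coe, s9t_ee_def, s9t_dot_def, s9t_pt_def]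
  congr 1
  push_cast
  rw [Finset.mul_sum, Finset.sum_mul, Finset.mul_sum, Finset.sum_div]
  refine Finset.sum_congr rfl fun i _ => ?_
  ring

theorem s9t_chi_add_left (k k' : Fin d → ℤ) (a : Fin d → ZMod N) :
    s9tChi (k + k') a = s9tChi k a * s9tChi k' a := by
  rw [s9t_chi_def, s9t_chi_def, s9t_chi_def, ← AddChar.map_add_eq_mul, ← Finset.sum_add_distrib]
  congr 1
  refine Finset.sum_congr rfl fun i _ => ?_
  rw [Pi.add_apply, Int.cast_add, add_mul]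

theorem s9t_chi_add_right (k : Fin d → ℤ) (a b : Fin d → ZMod N) :
    s9tChi k (a + b) = s9tChi k a * s9tChi k b := by
  rw [s9t_chi_def, s9t_chi_def, s9t_chi_def, ← AddChar.map_add_eq_mul, ← Finset.sum_add_distrib]
  congr 1
  refine Finset.sum_congr rfl fun i _ => ?_
  rw [Pi.add_apply, mul_add]

theorem s9t_chi_zsmul (k : Fin d → ℤ) (m : ℤ) (b : Fin d → ZMod N) :
    s9tChi k (m • b) = s9tChi (m • k) b := by
  rw [s9t_chi_def, s9t_chi_def]
  congr 1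
  refine Finset.sum_congr rfl fun i _ => ?_
  rw [Pi.smul_apply, Pi.smul_apply, zsmul_eq_mul, smul_eq_mul, Int.cast_mul]
  ring

theorem s9t_chi_zero (a : Fin d → ZMod N) : s9tChi (0 : Fin d → ℤ) a = 1 := by
  rw [s9t_chi_def]
  simp

theorem s9t_chi_sum {κ : Type*} (s : Finset κ) (k : κ → Fin d → ℤ) (a : Fin d → ZMod N) :
    s9tChi (∑ j ∈ s, k j) a = ∏ j ∈ s, s9tChi (k j) a := by
  induction s using Finset.induction_on with
  | empty => simp [s9t_chi_zero]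
  | insert j s hj ih => rw [Finset.sum_insert hj, Finset.prod_insert hj, s9t_chi_add_left, ih]

theorem s9t_chi_norm (k : Fin d → ℤ) (a : Fin d → ZMod N) : ‖s9tChi k a‖ = 1 := by
  rw [s9t_chi_def]
  exact AddChar.norm_apply _ _

theorem s9t_chi_neg (k : Fin d → ℤ) (a : Fin d → ZMod N) :
    s9tChi (-k) a = (starRingEnd ℂ) (s9tChi k a) := by
  rw [s9t_chi_def, s9t_chi_def, ← AddChar.map_neg_eq_conj, ← Finset.sum_neg_distrib]
  congr 1
  refine Finset.sum_congr rfl fun i _ => ?_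
  rw [Pi.neg_apply, Int.cast_neg, neg_mul]

theorem s9t_chi_sum_univ (k : Fin d → ℤ) :
    ∑ a : Fin d → ZMod N, s9tChi k a =
      if (∀ i, (k i : ZMod N) = 0) then (Fintype.card (Fin d → ZMod N) : ℂ) else 0 := by
  split_ifs with h
  · have : ∀ a : Fin d → ZMod N, s9tChi k a = 1 := by
      intro a
      rw [s9t_chi_def]
      simp [h]
    simp [this]
  · push Not at h
    obtain ⟨i, hi⟩ := h
    have hb : s9tChi k (Pi.single i 1 : Fin d → ZMod N) ≠ 1 := by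
      rw [s9t_chi_def]
      have : (∑ t, (k t : ZMod N) * (Pi.single i 1 : Fin d → ZMod N) t) = (k i : ZMod N) := by
        simp [Pi.single_apply]
      rw [this]
      intro h1
      rw [← AddChar.map_zero_eq_one (ZMod.stdAddChar (N := N))] at h1
      exact hi (ZMod.injective_stdAddChar h1)
    have hS : s9tChi k (Pi.single i 1 : Fin d → ZMod N) * ∑ a : Fin d → ZMod N, s9tChi k a =
        ∑ a : Fin d → ZMod N, s9tChi k a := by
      rw [Finset.mul_sum, ← Equiv.sum_comp (Equiv.addLeft (Pi.single i 1 : Fin d → ZMod N))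
        (fun a => s9tChi k a)]
      exact Finset.sum_congr rfl fun a _ => (s9t_chi_add_right k _ a).symm
    by_contra hne
    exact hb (mul_right_cancel₀ hne (by rw [hS, one_mul]))

end chars

theorem s9t_exists_N {d : ℕ} (K : Finset (Fin d → ℤ)) :
    ∃ N : ℕ, 0 < N ∧ ∀ k ∈ K, (∀ i, ((k i : ℤ) : ZMod N) = 0) → k = 0 := by
  refine ⟨1 + ∑ k ∈ K, ∑ i, (k i).natAbs, by omega, fun k hk h => ?_⟩
  funext i
  have h1 := (ZMod.intCast_zmod_eq_zero_iff_dvd _ _).1 (h i)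
  refine Int.eq_zero_of_abs_lt_dvd h1 ?_
  have h2 : (k i).natAbs ≤ ∑ k ∈ K, ∑ i, (k i).natAbs :=
    (Finset.single_le_sum (f := fun i => (k i).natAbs) (fun _ _ => Nat.zero_le _)
      (Finset.mem_univ i)).trans
      (Finset.single_le_sum (f := fun k : Fin d → ℤ => ∑ i, (k i).natAbs) (fun _ _ => Nat.zero_le _) hk)
  rw [Int.abs_eq_natAbs]
  exact_mod_cast Nat.lt_of_le_of_lt h2 (by omega)

section fourier
variable {d : ℕ} {N : ℕ} [NeZero N]

theorem s9t_ev_pt {ι : Type} [Fintype ι] (n : ι → Fin d → ℤ) (c : ι → ℂ) (a : Fin d → ZMod N) :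
    s9ev n c (s9tPt a) = ∑ i, c i * s9tChi (n i) a := by
  rw [s9t_ev_def]
  exact Finset.sum_congr rfl fun i _ => by rw [s9t_ee_pt]

theorem s9t_ev2_pt {ι : Type} [Fintype ι] (n m : ι → Fin d → ℤ) (c : ι → ℂ) (a b : Fin d → ZMod N) :
    s9ev2 n m c (s9tPt a) (s9tPt b) = ∑ i, c i * (s9tChi (n i) a * s9tChi (m i) b) := by
  rw [s9t_ev2_def]
  exact Finset.sum_congr rfl fun i _ => by rw [s9t_ee_add, s9t_ee_pt, s9t_ee_pt]

theorem s9t_chi_sum_sep (k k' : Fin d → ℤ)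
    (h : (∀ t, (((k - k') t : ℤ) : ZMod N) = 0) → k - k' = 0) :
    ∑ a : Fin d → ZMod N, s9tChi (k - k') a =
      if k = k' then (Fintype.card (Fin d → ZMod N) : ℂ) else 0 := by
  rw [s9t_chi_sum_univ]
  by_cases hk : k = k'
  · rw [if_pos hk, if_pos (by intro t; simp [hk])]
  · rw [if_neg hk, if_neg (fun h' => hk (sub_eq_zero.1 (h h')))]

/-- Parseval on `(ℤ/N)^d` -/
theorem s9t_parseval {ι : Type} [Fintype ι] (n : ι → Fin d → ℤ) (c : ι → ℂ)
    (hsep : ∀ i i', (∀ t, (((n i - n i') t : ℤ) : ZMod N) = 0) → n i - n i' = 0) :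
    ∑ a : Fin d → ZMod N, ‖s9ev n c (s9tPt a)‖ ^ 2 = (Fintype.card (Fin d → ZMod N) : ℝ) * s9nsq n c := by
  have h : ((∑ a : Fin d → ZMod N, ‖s9ev n c (s9tPt a)‖ ^ 2 : ℝ) : ℂ) =
      (((Fintype.card (Fin d → ZMod N) : ℝ) * s9nsq n c : ℝ) : ℂ) := by
    push_cast
    rw [s9_nsq_eq]
    have h1 : ∀ a : Fin d → ZMod N, ((‖s9ev n c (s9tPt a)‖ : ℝ) : ℂ) ^ 2 =
        ∑ i, ∑ i', c i * (starRingEnd ℂ) (c i') * s9tChi (n i - n i') a := by
      intro a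
      rw [← Complex.mul_conj', s9t_ev_pt, map_sum, Finset.sum_mul]
      refine Finset.sum_congr rfl fun i _ => ?_
      rw [Finset.mul_sum]
      refine Finset.sum_congr rfl fun i' _ => ?_
      rw [map_mul, ← s9t_chi_neg, sub_eq_add_neg, s9t_chi_add_left]
      ring
    rw [Finset.sum_congr rfl fun a _ => h1 a, Finset.sum_comm, Finset.mul_sum]
    refine Finset.sum_congr rfl fun i _ => ?_
    rw [Finset.sum_comm, Finset.mul_sum]
    refine Finset.sum_congr rfl fun i' _ => ?_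
    rw [← Finset.mul_sum, s9t_chi_sum_sep _ _ (hsep i i')]
    by_cases hii : n i = n i'
    · rw [if_pos hii, if_pos hii]
      ring
    · rw [if_neg hii, if_neg hii]
      ring
  exact_mod_cast h

/-- expansion of the product into tuples -/
theorem s9t_expand {ιR : Type} [Fintype ιR] {ι : Fin 4 → Type} [∀ j, Fintype (ι j)]
    (nR mR : ιR → Fin d → ℤ) (cR : ιR → ℂ) (n : ∀ j, ι j → Fin d → ℤ) (c : ∀ j, ι j → ℂ) (l' : Fin 4)
    (a b : Fin d → ZMod N) :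
    s9ev2 nR mR cR (s9tPt a) (s9tPt b) * ∏ j, s9ev (n j) (c j) (s9tPt (a + s9al l' j • b)) =
      ∑ x : ιR × (∀ j, ι j), s9co cR c x * (s9tChi (s9N nR n x) a * s9tChi (s9M l' mR n x) b) := by
  have h1 : ∀ j, s9ev (n j) (c j) (s9tPt (a + s9al l' j • b)) =
      ∑ i, c j i * (s9tChi (n j i) a * s9tChi (s9al l' j • n j i) b) := by
    intro j
    rw [s9t_ev_pt]
    exact Finset.sum_congr rfl fun i _ => by rw [s9t_chi_add_right, s9t_chi_zsmul]
  rw [Finset.prod_congr rfl fun j _ => h1 j, Fintype.prod_sum, s9t_ev2_pt, Fintype.sum_prod_type,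
    Finset.sum_mul]
  refine Finset.sum_congr rfl fun r _ => ?_
  rw [Finset.mul_sum]
  refine Finset.sum_congr rfl fun p _ => ?_
  rw [s9t_co_def, s9t_N_def, s9t_M_def, s9t_chi_add_left, s9t_chi_add_left, s9t_chi_sum, s9t_chi_sum,
    Finset.prod_mul_distrib, Finset.prod_mul_distrib]
  ring

/-- coefficient extraction -/
theorem s9t_extract {ιR : Type} [Fintype ιR] {ι : Fin 4 → Type} [∀ j, Fintype (ι j)]
    (nR mR : ιR → Fin d → ℤ) (cR : ιR → ℂ) (n : ∀ j, ι j → Fin d → ℤ) (c : ∀ j, ι j → ℂ) (l' : Fin 4)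
    (k0 k1 : Fin d → ℤ)
    (h0 : ∀ x, (∀ t, (((s9N nR n x - k0) t : ℤ) : ZMod N) = 0) → s9N nR n x - k0 = 0)
    (h1 : ∀ x, (∀ t, (((s9M l' mR n x - k1) t : ℤ) : ZMod N) = 0) → s9M l' mR n x - k1 = 0) :
    ∑ a : Fin d → ZMod N, ∑ b : Fin d → ZMod N,
      (s9ev2 nR mR cR (s9tPt a) (s9tPt b) * (s9tChi (-k0) a * s9tChi (-k1) b)) *
        ∏ j, s9ev (n j) (c j) (s9tPt (a + s9al l' j • b)) =
      (Fintype.card (Fin d → ZMod N) : ℂ) ^ 2 *
        ∑ x : ιR × (∀ j, ι j), if s9N nR n x = k0 ∧ s9M l' mR n x = k1 then s9co cR c x else 0 := by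
  have e1 : ∀ a b : Fin d → ZMod N,
      (s9ev2 nR mR cR (s9tPt a) (s9tPt b) * (s9tChi (-k0) a * s9tChi (-k1) b)) *
        ∏ j, s9ev (n j) (c j) (s9tPt (a + s9al l' j • b)) =
      ∑ x : ιR × (∀ j, ι j), s9co cR c x *
        (s9tChi (s9N nR n x - k0) a * s9tChi (s9M l' mR n x - k1) b) := by
    intro a b
    rw [mul_right_comm, s9t_expand, Finset.sum_mul]
    refine Finset.sum_congr rfl fun x _ => ?_
    rw [sub_eq_add_neg, sub_eq_add_neg, s9t_chi_add_left, s9t_chi_add_left]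
    ring
  rw [Finset.sum_congr rfl fun a _ => Finset.sum_congr rfl fun b _ => e1 a b]
  rw [Finset.sum_congr rfl fun a _ => Finset.sum_comm, Finset.sum_comm, Finset.mul_sum]
  refine Finset.sum_congr rfl fun x _ => ?_
  have e2 : ∑ a : Fin d → ZMod N, ∑ b : Fin d → ZMod N, s9co cR c x *
      (s9tChi (s9N nR n x - k0) a * s9tChi (s9M l' mR n x - k1) b) =
      s9co cR c x * ((∑ a : Fin d → ZMod N, s9tChi (s9N nR n x - k0) a) *
        ∑ b : Fin d → ZMod N, s9tChi (s9M l' mR n x - k1) b) := by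
    rw [Finset.sum_mul_sum, Finset.mul_sum]
    exact Finset.sum_congr rfl fun a _ => (Finset.mul_sum _ _ _).symm
  rw [e2, s9t_chi_sum_sep _ _ (h0 x), s9t_chi_sum_sep _ _ (h1 x)]
  by_cases c0 : s9N nR n x = k0
  · by_cases c1 : s9M l' mR n x = k1
    · rw [if_pos c0, if_pos c1, if_pos ⟨c0, c1⟩]
      ring
    · rw [if_pos c0, if_neg c1, if_neg (fun h => c1 h.2)]
      ring
  · have c2 : ¬ (s9N nR n x = k0 ∧ s9M l' mR n x = k1) := fun h => c0 h.1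
    rw [if_neg c0, if_neg c2]
    ring

end fourier

theorem s9t_prod_sqrt (C : ℝ) (hC : 0 ≤ C) (x : Fin 4 → ℝ) :
    ∏ j, Real.sqrt (C * x j) = C ^ 2 * ∏ j, Real.sqrt (x j) := by
  have h : ∀ j, Real.sqrt (C * x j) = Real.sqrt C * Real.sqrt (x j) := fun j => Real.sqrt_mul hC _
  rw [Finset.prod_congr rfl fun j _ => h j, Finset.prod_mul_distrib, Finset.prod_const,
    Finset.card_univ, Fintype.card_fin]
  congr 1
  calc Real.sqrt C ^ 4 = (Real.sqrt C ^ 2) ^ 2 := by ring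
    _ = C ^ 2 := by rw [Real.sq_sqrt hC]

/-- **the four-factor Haar estimate**, coefficient form.  LEAF P-S9-TORUS-B -/
theorem s9_torus4 {d : ℕ} {ιR : Type} [Fintype ιR] {ι : Fin 4 → Type} [∀ j, Fintype (ι j)]
    (nR mR : ιR → Fin d → ℤ) (cR : ιR → ℂ) (CR : ℝ) (hR : ∀ u v, ‖s9ev2 nR mR cR u v‖ ≤ CR)
    (n : ∀ j, ι j → Fin d → ℤ) (c : ∀ j, ι j → ℂ) (l' : Fin 4) (k0 k1 : Fin d → ℤ) :
    ‖∑ x : ιR × (∀ j, ι j), if s9N nR n x = k0 ∧ s9M l' mR n x = k1 then s9co cR c x else 0‖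
      ≤ CR * ∏ j, Real.sqrt (s9nsq (n j) (c j)) := by
  obtain ⟨N, hN0, hN⟩ := s9t_exists_N
    ((Finset.univ.image fun x : ιR × (∀ j, ι j) => s9N nR n x - k0) ∪
      (Finset.univ.image fun x : ιR × (∀ j, ι j) => s9M l' mR n x - k1) ∪
      (Finset.univ.biUnion fun j => Finset.univ.image fun p : ι j × ι j => n j p.1 - n j p.2))
  have : NeZero N := ⟨hN0.ne'⟩
  have h0 : ∀ x, (∀ t, (((s9N nR n x - k0) t : ℤ) : ZMod N) = 0) → s9N nR n x - k0 = 0 := fun x =>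
    hN _ (Finset.mem_union_left _ (Finset.mem_union_left _
      (Finset.mem_image_of_mem (fun x : ιR × (∀ j, ι j) => s9N nR n x - k0) (Finset.mem_univ x))))
  have h1 : ∀ x, (∀ t, (((s9M l' mR n x - k1) t : ℤ) : ZMod N) = 0) → s9M l' mR n x - k1 = 0 := fun x =>
    hN _ (Finset.mem_union_left _ (Finset.mem_union_right _
      (Finset.mem_image_of_mem (fun x : ιR × (∀ j, ι j) => s9M l' mR n x - k1) (Finset.mem_univ x))))
  have h2 : ∀ j i i', (∀ t, (((n j i - n j i') t : ℤ) : ZMod N) = 0) → n j i - n j i' = 0 :=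
    fun j i i' => hN _ (Finset.mem_union_right _ (Finset.mem_biUnion.2 ⟨j, Finset.mem_univ j,
      Finset.mem_image_of_mem (fun p : ι j × ι j => n j p.1 - n j p.2) (Finset.mem_univ (i, i'))⟩))
  have hcard : (0 : ℝ) < (Fintype.card (Fin d → ZMod N) : ℝ) := by
    exact_mod_cast Fintype.card_pos
  have hx := s9t_extract (N := N) nR mR cR n c l' k0 k1 h0 h1
  have hh := s9t_haar (A := Fin d → ZMod N) (fun j a => s9ev (n j) (c j) (s9tPt a))
    (fun a b => s9ev2 nR mR cR (s9tPt a) (s9tPt b) * (s9tChi (-k0) a * s9tChi (-k1) b)) CR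
    (fun a b => by
      rw [norm_mul, norm_mul, s9t_chi_norm, s9t_chi_norm, mul_one, mul_one]
      exact hR _ _) l'
  rw [hx, Finset.prod_congr rfl fun j _ => by rw [s9t_parseval (n j) (c j) (h2 j)],
    s9t_prod_sqrt _ hcard.le, norm_mul, norm_pow, Complex.norm_natCast] at hh
  have hh' : (Fintype.card (Fin d → ZMod N) : ℝ) ^ 2 *
      ‖∑ x : ιR × (∀ j, ι j), if s9N nR n x = k0 ∧ s9M l' mR n x = k1 then s9co cR c x else 0‖ ≤
      (Fintype.card (Fin d → ZMod N) : ℝ) ^ 2 * (CR * ∏ j, Real.sqrt (s9nsq (n j) (c j))) := by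
    refine hh.trans (le_of_eq ?_)
    ring
  exact le_of_mul_le_mul_left hh' (by positivity)

theorem s9t_nsq_inj {d : ℕ} {ι : Type} [Fintype ι] (n : ι → Fin d → ℤ) (hn : Function.Injective n)
    (c : ι → ℂ) : s9nsq n c = ∑ i, ‖c i‖ ^ 2 := by
  have h : ((s9nsq n c : ℝ) : ℂ) = ((∑ i, ‖c i‖ ^ 2 : ℝ) : ℂ) := by
    rw [s9_nsq_eq]
    push_cast
    refine Finset.sum_congr rfl fun i _ => ?_
    rw [← Complex.mul_conj']
    simp only [hn.eq_iff]
    rw [Finset.sum_ite_eq]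
    simp
  exact_mod_cast h

theorem s9t_nsq_zero {d : ℕ} {ι : Type} [Fintype ι] (n : ι → Fin d → ℤ) (hn : ∀ i, n i = 0)
    (c : ι → ℂ) : s9nsq n c = ‖∑ i, c i‖ ^ 2 := by
  have h : ((s9nsq n c : ℝ) : ℂ) = ((‖∑ i, c i‖ ^ 2 : ℝ) : ℂ) := by
    rw [s9_nsq_eq]
    push_cast
    rw [← Complex.mul_conj', map_sum, Finset.sum_mul_sum]
    simp [hn]
  exact_mod_cast h

theorem s9t_sq_le_of_le_mul_sqrt {X B : ℝ} (hX : 0 ≤ X) (h : X ≤ B * Real.sqrt X) :
    X ≤ B ^ 2 := by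
  rcases hX.eq_or_lt with h0 | h0
  · rw [← h0]; positivity
  · have hs : 0 < Real.sqrt X := Real.sqrt_pos.2 h0
    have h1 : Real.sqrt X * Real.sqrt X ≤ B * Real.sqrt X := by
      rw [Real.mul_self_sqrt hX]; exact h
    have h2 : Real.sqrt X ≤ B := le_of_mul_le_mul_right h1 hs
    calc X = Real.sqrt X ^ 2 := (Real.sq_sqrt hX).symm
      _ ≤ B ^ 2 := pow_le_pow_left₀ hs.le h2 2

/-- **the three-factor estimate** (`‖D_m‖_{L²(ℍ)} ≤ C ∏ a'_j`): the role `l` = anchor has zero frequencies.  LEAF P-S9-TORUS-C -/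
theorem s9_torus3 {d : ℕ} {ιR : Type} [Fintype ιR] {ι : Fin 4 → Type} [∀ j, Fintype (ι j)]
    (nR mR : ιR → Fin d → ℤ) (cR : ιR → ℂ) (CR : ℝ) (hCR : 0 ≤ CR) (hR : ∀ u v, ‖s9ev2 nR mR cR u v‖ ≤ CR)
    (n : ∀ j, ι j → Fin d → ℤ) (c : ∀ j, ι j → ℂ) (l : Fin 4) (hl : ∀ i, n l i = 0) (K0 : Finset (Fin d → ℤ))
    (k1 : Fin d → ℤ) :
    ∑ k0 ∈ K0, ‖∑ x : ιR × (∀ j, ι j), if s9N nR n x = k0 ∧ s9M l mR n x = k1 then s9co cR c x else 0‖ ^ 2
      ≤ CR ^ 2 * ∏ j, s9nsq (n j) (c j) := by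
  obtain ⟨D, hD⟩ : ∃ D : (Fin d → ℤ) → ℂ, ∀ k0, D k0 =
      ∑ x : ιR × (∀ j, ι j), if s9N nR n x = k0 ∧ s9M l mR n x = k1 then s9co cR c x else 0 :=
    ⟨_, fun _ => rfl⟩
  simp only [← hD]
  obtain ⟨X, hX⟩ : ∃ X : ℝ, X = ∑ k0 ∈ K0, ‖D k0‖ ^ 2 := ⟨_, rfl⟩
  rw [← hX]
  have hX0 : 0 ≤ X := hX ▸ Finset.sum_nonneg fun k _ => by positivity
  obtain ⟨N, hN0, hN⟩ := s9t_exists_N
    ((K0.biUnion fun k0 => Finset.univ.image fun x : ιR × (∀ j, ι j) => s9N nR n x - k0) ∪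
      (Finset.univ.image fun x : ιR × (∀ j, ι j) => s9M l mR n x - k1) ∪
      (Finset.univ.biUnion fun j => Finset.univ.image fun p : ι j × ι j => n j p.1 - n j p.2) ∪
      (K0.biUnion fun k0 => K0.image fun k0' => -k0 - -k0'))
  have : NeZero N := ⟨hN0.ne'⟩
  have h0 : ∀ k0 ∈ K0, ∀ x, (∀ t, (((s9N nR n x - k0) t : ℤ) : ZMod N) = 0) → s9N nR n x - k0 = 0 :=
    fun k0 hk0 x => hN _ (Finset.mem_union_left _ (Finset.mem_union_left _ (Finset.mem_union_left _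
      (Finset.mem_biUnion.2 ⟨k0, hk0, Finset.mem_image_of_mem
        (fun x : ιR × (∀ j, ι j) => s9N nR n x - k0) (Finset.mem_univ x)⟩))))
  have h1 : ∀ x, (∀ t, (((s9M l mR n x - k1) t : ℤ) : ZMod N) = 0) → s9M l mR n x - k1 = 0 := fun x =>
    hN _ (Finset.mem_union_left _ (Finset.mem_union_left _ (Finset.mem_union_right _
      (Finset.mem_image_of_mem (fun x : ιR × (∀ j, ι j) => s9M l mR n x - k1) (Finset.mem_univ x)))))
  have h2 : ∀ j i i', (∀ t, (((n j i - n j i') t : ℤ) : ZMod N) = 0) → n j i - n j i' = 0 :=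
    fun j i i' => hN _ (Finset.mem_union_left _ (Finset.mem_union_right _ (Finset.mem_biUnion.2
      ⟨j, Finset.mem_univ j,
      Finset.mem_image_of_mem (fun p : ι j × ι j => n j p.1 - n j p.2) (Finset.mem_univ (i, i'))⟩)))
  have h3 : ∀ k k' : K0, (∀ t, (((-(k : Fin d → ℤ) - -(k' : Fin d → ℤ)) t : ℤ) : ZMod N) = 0) →
      -(k : Fin d → ℤ) - -(k' : Fin d → ℤ) = 0 :=
    fun k k' => hN _ (Finset.mem_union_right _ (Finset.mem_biUnion.2 ⟨k, k.2,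
      Finset.mem_image_of_mem (fun k0' : Fin d → ℤ => -(k : Fin d → ℤ) - -k0') k'.2⟩))
  have hcard : (0 : ℝ) < (Fintype.card (Fin d → ZMod N) : ℝ) := by
    exact_mod_cast Fintype.card_pos
  -- the dual family
  obtain ⟨nK, hnK⟩ : ∃ nK : K0 → Fin d → ℤ, nK = fun k : K0 => -(k : Fin d → ℤ) := ⟨_, rfl⟩
  obtain ⟨cK, hcK⟩ : ∃ cK : K0 → ℂ, cK = fun k : K0 => (starRingEnd ℂ) (D k) := ⟨_, rfl⟩
  have hnKa : ∀ k, nK k = -(k : Fin d → ℤ) := fun k => by rw [hnK]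
  have hcKa : ∀ k, cK k = (starRingEnd ℂ) (D k) := fun k => by rw [hcK]
  have hnKinj : Function.Injective nK := by
    intro k k' h
    rw [hnKa, hnKa, neg_inj] at h
    exact Subtype.ext h
  have hnsqK : s9nsq nK cK = X := by
    rw [s9t_nsq_inj nK hnKinj, hX, ← Finset.sum_coe_sort K0 (fun k => ‖D k‖ ^ 2)]
    exact Finset.sum_congr rfl fun k _ => by rw [hcKa, RCLike.norm_conj]
  have hparK : ∑ a : Fin d → ZMod N, ‖s9ev nK cK (s9tPt a)‖ ^ 2 =
      (Fintype.card (Fin d → ZMod N) : ℝ) * X := by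
    rw [s9t_parseval nK cK (fun k k' => by rw [hnKa, hnKa]; exact h3 k k'), hnsqK]
  -- the four functions
  obtain ⟨f, hf⟩ : ∃ f : Fin 4 → (Fin d → ZMod N) → ℂ, f = fun j a =>
      s9ev (n j) (c j) (s9tPt a) * (if j = l then s9ev nK cK (s9tPt a) else 1) := ⟨_, rfl⟩
  have hfa : ∀ j a, f j a =
      s9ev (n j) (c j) (s9tPt a) * (if j = l then s9ev nK cK (s9tPt a) else 1) := fun j a => by rw [hf]
  have hfn : ∀ j, ∑ a, ‖f j a‖ ^ 2 = (Fintype.card (Fin d → ZMod N) : ℝ) *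
      (s9nsq (n j) (c j) * (if j = l then X else 1)) := by
    intro j
    by_cases hj : j = l
    · subst hj
      have hc : ∀ a : Fin d → ZMod N, s9ev (n j) (c j) (s9tPt a) = ∑ i, c j i := by
        intro a
        rw [s9t_ev_pt]
        exact Finset.sum_congr rfl fun i _ => by rw [hl i, s9t_chi_zero, mul_one]
      have e : ∀ a, ‖f j a‖ ^ 2 = ‖∑ i, c j i‖ ^ 2 * ‖s9ev nK cK (s9tPt a)‖ ^ 2 := by
        intro a
        rw [hfa, if_pos rfl, hc, norm_mul, mul_pow]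
      rw [Finset.sum_congr rfl fun a _ => e a, ← Finset.mul_sum, hparK, if_pos rfl,
        s9t_nsq_zero (n j) hl]
      ring
    · have e : ∀ a, ‖f j a‖ ^ 2 = ‖s9ev (n j) (c j) (s9tPt a)‖ ^ 2 := by
        intro a
        rw [hfa, if_neg hj, mul_one]
      rw [Finset.sum_congr rfl fun a _ => e a, s9t_parseval (n j) (c j) (h2 j), if_neg hj, mul_one]
  have hh := s9t_haar (A := Fin d → ZMod N) f
    (fun a b => s9ev2 nR mR cR (s9tPt a) (s9tPt b) * s9tChi (-k1) b) CR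
    (fun a b => by
      rw [norm_mul, s9t_chi_norm, mul_one]
      exact hR _ _) l
  -- the left side
  have hal : s9al l l = 0 := by rw [s9t_al_def, sub_self]
  have hpt : ∀ a b : Fin d → ZMod N,
      (s9ev2 nR mR cR (s9tPt a) (s9tPt b) * s9tChi (-k1) b) * ∏ j, f j (a + s9al l j • b) =
      ∑ k : K0, cK k * ((s9ev2 nR mR cR (s9tPt a) (s9tPt b) *
        (s9tChi (-(k : Fin d → ℤ)) a * s9tChi (-k1) b)) *
        ∏ j, s9ev (n j) (c j) (s9tPt (a + s9al l j • b))) := by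
    intro a b
    rw [Finset.prod_congr rfl fun j _ => hfa j _, Finset.prod_mul_distrib,
      Finset.prod_ite_eq' Finset.univ l (fun j => s9ev nK cK (s9tPt (a + s9al l j • b))),
      if_pos (Finset.mem_univ l), hal, zero_smul, add_zero, s9t_ev_pt nK cK a, Finset.mul_sum,
      Finset.mul_sum]
    refine Finset.sum_congr rfl fun k _ => ?_
    rw [hnKa]
    ring
  have hL : ∑ a : Fin d → ZMod N, ∑ b : Fin d → ZMod N,
      (s9ev2 nR mR cR (s9tPt a) (s9tPt b) * s9tChi (-k1) b) * ∏ j, f j (a + s9al l j • b) =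
      (Fintype.card (Fin d → ZMod N) : ℂ) ^ 2 * (X : ℂ) := by
    rw [Finset.sum_congr rfl fun a _ => Finset.sum_congr rfl fun b _ => hpt a b,
      Finset.sum_congr rfl fun a _ => Finset.sum_comm, Finset.sum_comm]
    have e : ∀ k : K0, ∑ a : Fin d → ZMod N, ∑ b : Fin d → ZMod N,
        cK k * ((s9ev2 nR mR cR (s9tPt a) (s9tPt b) *
        (s9tChi (-(k : Fin d → ℤ)) a * s9tChi (-k1) b)) *
        ∏ j, s9ev (n j) (c j) (s9tPt (a + s9al l j • b))) =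
        (Fintype.card (Fin d → ZMod N) : ℂ) ^ 2 * ((‖D k‖ ^ 2 : ℝ) : ℂ) := by
      intro k
      rw [Finset.sum_congr rfl fun a _ => (Finset.mul_sum _ _ _).symm, ← Finset.mul_sum,
        s9t_extract (N := N) nR mR cR n c l k k1 (h0 k k.2) h1, ← hD, hcKa]
      push_cast
      rw [← Complex.conj_mul']
      ring
    rw [Finset.sum_congr rfl fun k _ => e k, ← Finset.mul_sum, hX,
      ← Finset.sum_coe_sort K0 (fun k => ‖D k‖ ^ 2)]
    push_cast
    rfl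
  rw [hL, Finset.prod_congr rfl fun j _ => by rw [hfn j], s9t_prod_sqrt _ hcard.le, norm_mul, norm_pow,
    Complex.norm_natCast, Complex.norm_real, Real.norm_of_nonneg hX0] at hh
  have hsq : ∏ j, Real.sqrt (s9nsq (n j) (c j) * (if j = l then X else 1)) =
      (∏ j, Real.sqrt (s9nsq (n j) (c j))) * Real.sqrt X := by
    have e : ∀ j, Real.sqrt (s9nsq (n j) (c j) * (if j = l then X else 1)) =
        Real.sqrt (s9nsq (n j) (c j)) * (if j = l then Real.sqrt X else 1) := by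
      intro j
      rw [Real.sqrt_mul (s9_nsq_nonneg _ _)]
      by_cases hj : j = l
      · rw [if_pos hj, if_pos hj]
      · rw [if_neg hj, if_neg hj, Real.sqrt_one]
    rw [Finset.prod_congr rfl fun j _ => e j, Finset.prod_mul_distrib,
      Finset.prod_ite_eq' Finset.univ l (fun _ => Real.sqrt X), if_pos (Finset.mem_univ l)]
  rw [hsq] at hh
  have hh' : (Fintype.card (Fin d → ZMod N) : ℝ) ^ 2 * X ≤ (Fintype.card (Fin d → ZMod N) : ℝ) ^ 2 *
      ((CR * ∏ j, Real.sqrt (s9nsq (n j) (c j))) * Real.sqrt X) := by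
    refine hh.trans (le_of_eq ?_)
    ring
  have hfin := s9t_sq_le_of_le_mul_sqrt hX0 (le_of_mul_le_mul_left hh' (by positivity))
  rw [mul_pow, ← Finset.prod_pow] at hfin
  rwa [Finset.prod_congr rfl fun j _ => Real.sq_sqrt (s9_nsq_nonneg (n j) (c j))] at hfin

theorem s9t_kap_N {d d' : ℕ} (kap : (Fin d → ℤ) →+ (Fin d' → ℤ)) {ιR : Type} {ι : Fin 4 → Type}
    (nR : ιR → Fin d → ℤ) (n : ∀ j, ι j → Fin d → ℤ) (x : ιR × (∀ j, ι j)) :
    kap (s9N nR n x) = s9N (fun i => kap (nR i)) (fun j i => kap (n j i)) x := by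
  rw [s9t_N_def, s9t_N_def, map_add, map_sum]

theorem s9t_kap_M {d d' : ℕ} (kap : (Fin d → ℤ) →+ (Fin d' → ℤ)) {ιR : Type} {ι : Fin 4 → Type}
    (l' : Fin 4) (mR : ιR → Fin d → ℤ) (n : ∀ j, ι j → Fin d → ℤ) (x : ιR × (∀ j, ι j)) :
    kap (s9M l' mR n x) = s9M l' (fun i => kap (mR i)) (fun j i => kap (n j i)) x := by
  rw [s9t_M_def, s9t_M_def, map_add, map_sum]
  congr 1
  exact Finset.sum_congr rfl fun j _ => map_zsmul _ _ _

/-- the two estimates after the quotient `κ` (this is the form used in Model4/Model3; glue from the above, `s9_sup_kap`, additivity of `κ`: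
`κ (s9N nR n x) = s9N (κ ∘ nR) (κ ∘ n) x`).  LEAF P-S9-TORUS-A -/
theorem s9_torus4_kap {d d' : ℕ} (kap : (Fin d → ℤ) →+ (Fin d' → ℤ)) {ιR : Type} [Fintype ιR] {ι : Fin 4 → Type}
    [∀ j, Fintype (ι j)] (nR mR : ιR → Fin d → ℤ) (cR : ιR → ℂ) (CR : ℝ) (hR : ∀ u v, ‖s9ev2 nR mR cR u v‖ ≤ CR)
    (n : ∀ j, ι j → Fin d → ℤ) (c : ∀ j, ι j → ℂ) (l' : Fin 4) (k0 k1 : Fin d' → ℤ) :
    ‖∑ x : ιR × (∀ j, ι j), if kap (s9N nR n x) = k0 ∧ kap (s9M l' mR n x) = k1 then s9co cR c x else 0‖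
      ≤ CR * ∏ j, Real.sqrt (s9nsq (fun i => kap (n j i)) (c j)) := by
  simp only [s9t_kap_N, s9t_kap_M]
  exact s9_torus4 _ _ cR CR (s9_sup_kap kap nR mR cR CR hR) (fun j i => kap (n j i)) c l' k0 k1

theorem s9_torus3_kap {d d' : ℕ} (kap : (Fin d → ℤ) →+ (Fin d' → ℤ)) {ιR : Type} [Fintype ιR] {ι : Fin 4 → Type}
    [∀ j, Fintype (ι j)] (nR mR : ιR → Fin d → ℤ) (cR : ιR → ℂ) (CR : ℝ) (hCR : 0 ≤ CR)
    (hR : ∀ u v, ‖s9ev2 nR mR cR u v‖ ≤ CR) (n : ∀ j, ι j → Fin d → ℤ) (c : ∀ j, ι j → ℂ) (l : Fin 4)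
    (hl : ∀ i, n l i = 0) (K0 : Finset (Fin d' → ℤ)) (k1 : Fin d' → ℤ) :
    ∑ k0 ∈ K0, ‖∑ x : ιR × (∀ j, ι j), if kap (s9N nR n x) = k0 ∧ kap (s9M l mR n x) = k1 then s9co cR c x else 0‖ ^ 2
      ≤ CR ^ 2 * ∏ j, s9nsq (fun i => kap (n j i)) (c j) := by
  simp only [s9t_kap_N, s9t_kap_M]
  exact s9_torus3 _ _ cR CR hCR (s9_sup_kap kap nR mR cR CR hR) (fun j i => kap (n j i)) c l
    (fun i => by rw [hl i, map_zero]) K0 k1

end Claimed.Agent.R258
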