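/-
Row 258 (S0498), Sec. 9.2 (counting.tex, "the Fourier estimate behind this assertion").  HOME ARCHITECT: helper41.      THE FOUR-CORE MODEL FORM.
S9/{Basic,Torus,Kernel}.lean as black boxes, NO paper needed.

SETTING.  `r = I.len`, `ξ ∈ ℝ^d`; four families `(n j, c j)`, a multiplier family `(nR, mR, cR)` with `sup ≤ CR`; all total frequencies of the tuples lie in the box `Bx`;
`κ` with the tiny/huge dichotomy `S9DichK` on the box `2 Bx`;  the model form `s9MF` samples the kernel transform at `r (Q + N_x·ξ, T + M_x·ξ)`.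
CLAIM.  (a) for every moderate reference `(n0, m0)` in the box: `‖MF‖ ≤ ‖K̂(ref)‖ CR ∏ ‖g_j‖_{L²(ℍ)} + C (τ + 1/𝒯) ℓ¹`;   (b) without a moderate reference `‖MF‖ ≤ C ℓ¹ / U0`.

PROOF.  `C1` from `s9_K_bound` (`L = 1`, any `j`, `min ≤ 1`), `C2` from `s9_K_lip` (`L = 0`), `C = 2 C1 + 2 C2`.  `a_x = r (Q + N_x·ξ)`, `b_x = r (T + M_x·ξ)`, `(a0, b0)` = reference.
 `s9dot` is additive, `N_x - n0`, `M_x - m0` lie in the box `2 Bx`, `κ` is additive.
 (a) GOOD tuples: `κ N_x = κ n0 ∧ κ M_x = κ m0`: `|a_x - a0|, |b_x - b0| ≤ τ ≤ 1`, so `‖K̂(a_x,b_x) - K̂(a0,b0)‖ ≤ 2 C2 τ`; the sum of their coefficients is bounded by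
     `s9_torus4_kap` (`k0 = κ n0`, `k1 = κ m0`).   Other tuples: `|a_x - a0| ≥ 𝒯` or `|b_x - b0| ≥ 𝒯`, so `1 + |a_x| + |b_x| ≥ 𝒯 - U0 ≥ 𝒯/2`: `‖K̂‖ ≤ 2 C1/𝒯`.
     `∑_x ‖co x‖ = s9l1 cR ∏_j s9l1 (c j)` (`Finset.prod_univ_sum`, `Fintype.sum_prod_type`).
 (b) `(N_x, M_x)` is in the box and not moderate: `1 + |a_x| + |b_x| > U0`.
-/
import Claimed.Agent.R258.S9.Torus
import Claimed.Agent.R258.S9.Kernel

set_option autoImplicit false

namespace Claimed.Agent.R258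

open scoped BigOperators
open Classical

/-- the tiny/huge dichotomy for a given quotient map `κ` -/
def S9DichK {d d' : ℕ} (kap : (Fin d → ℤ) →+ (Fin d' → ℤ)) (ξ : Fin d → ℝ) (B : ℕ) (r τ TT : ℝ) : Prop :=
  ∀ n, S9Box B n → (kap n = 0 → r * |s9dot n ξ| ≤ τ) ∧ (kap n ≠ 0 → TT ≤ r * |s9dot n ξ|)

/-- the model form: the kernel transform sampled at the frequencies of the tuples -/
noncomputable def s9MF {d : ℕ} (I : Cell) (w : ℝ × ℝ → ℂ) (xs : ℝ) (l' : Fin 4) (ξ : Fin d → ℝ) (Q T : ℝ)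
    {ιR : Type} [Fintype ιR] {ι : Fin 4 → Type} [∀ j, Fintype (ι j)]
    (nR mR : ιR → Fin d → ℤ) (cR : ιR → ℂ) (n : ∀ j, ι j → Fin d → ℤ) (c : ∀ j, ι j → ℂ) : ℂ :=
  ∑ x : ιR × (∀ j, ι j), s9co cR c x *
    s9K I w xs l' (I.len * (Q + s9dot (s9N nR n x) ξ)) (I.len * (T + s9dot (s9M l' mR n x) ξ))

/-- total absolute coefficient sum of the tuples.  LEAF P-S9-MODEL4 -/
theorem s9_co_l1 {ιR : Type} [Fintype ιR] {ι : Fin 4 → Type} [∀ j, Fintype (ι j)] (cR : ιR → ℂ) (c : ∀ j, ι j → ℂ) :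
    ∑ x : ιR × (∀ j, ι j), ‖s9co cR c x‖ = s9l1 cR * ∏ j, s9l1 (c j) := by
  unfold s9l1 s9co
  rw [Finset.prod_univ_sum, Fintype.piFinset_univ, Finset.sum_mul_sum, Fintype.sum_prod_type]
  refine Finset.sum_congr rfl fun i _ => Finset.sum_congr rfl fun y _ => ?_
  rw [norm_mul, norm_prod]

theorem s9m4_dot_sub {d : ℕ} (n m : Fin d → ℤ) (ξ : Fin d → ℝ) :
    s9dot (n - m) ξ = s9dot n ξ - s9dot m ξ := by
  unfold s9dot
  rw [← Finset.sum_sub_distrib]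
  refine Finset.sum_congr rfl fun i _ => ?_
  rw [Pi.sub_apply]
  push_cast
  ring

theorem s9m4_box_sub {d : ℕ} {B : ℕ} {n m : Fin d → ℤ} (hn : S9Box B n) (hm : S9Box B m) :
    S9Box (2 * B) (n - m) := by
  intro i
  have h1 := hn i
  have h2 := hm i
  rw [Pi.sub_apply]
  have h3 := abs_sub (n i) (m i)
  push_cast
  linarith

/-- the dichotomy for the difference of two frequencies of the box -/
theorem s9m4_dich {d d' : ℕ} {kap : (Fin d → ℤ) →+ (Fin d' → ℤ)} {ξ : Fin d → ℝ} {Bx : ℕ} {r τ TT : ℝ}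
    (hr : 0 < r) (hD : S9DichK kap ξ (2 * Bx) r τ TT) {n n0 : Fin d → ℤ} (hn : S9Box Bx n)
    (hn0 : S9Box Bx n0) (Q : ℝ) :
    (kap n = kap n0 → |r * (Q + s9dot n ξ) - r * (Q + s9dot n0 ξ)| ≤ τ) ∧
      (kap n ≠ kap n0 → TT ≤ |r * (Q + s9dot n ξ) - r * (Q + s9dot n0 ξ)|) := by
  have e : |r * (Q + s9dot n ξ) - r * (Q + s9dot n0 ξ)| = r * |s9dot (n - n0) ξ| := by
    rw [s9m4_dot_sub, ← abs_of_pos hr, ← abs_mul, abs_of_pos hr]
    congr 1
    ring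
  rw [e]
  obtain ⟨h1, h2⟩ := hD (n - n0) (s9m4_box_sub hn hn0)
  refine ⟨fun h => h1 (by rw [map_sub, h, sub_self]), fun h => h2 fun h' => h ?_⟩
  rw [map_sub, sub_eq_zero] at h'
  exact h'

/-- weighted sums of the tuple coefficients -/
theorem s9m4_sum_le {ιR : Type} [Fintype ιR] {ι : Fin 4 → Type} [∀ j, Fintype (ι j)] (cR : ιR → ℂ)
    (c : ∀ j, ι j → ℂ) (E : ιR × (∀ j, ι j) → ℂ) {M : ℝ} (hE : ∀ x, ‖E x‖ ≤ M) :
    ‖∑ x : ιR × (∀ j, ι j), s9co cR c x * E x‖ ≤ M * (s9l1 cR * ∏ j, s9l1 (c j)) := by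
  rw [← s9_co_l1, Finset.mul_sum]
  refine (norm_sum_le _ _).trans (Finset.sum_le_sum fun x _ => ?_)
  rw [norm_mul, mul_comm]
  exact mul_le_mul_of_nonneg_right (hE x) (norm_nonneg _)

/-- **(FT4)** the four-core model estimate.  LEAF P-S9-MODEL4 -/
theorem s9_ft4 (c0 C0 : ℝ) (hc0 : 0 < c0) (hC0 : 1 ≤ C0) : ∃ C : ℝ, 1 ≤ C ∧
    ∀ (d d' : ℕ) (I : Cell) (w : ℝ × ℝ → ℂ), Admissible c0 C0 I w → ∀ xs ∈ I.set, ∀ (l' : Fin 4) (ξ : Fin d → ℝ)
      (kap : (Fin d → ℤ) →+ (Fin d' → ℤ)) (Bx : ℕ) (τ TT U0 CR : ℝ), 0 ≤ τ → τ ≤ 1 → 1 ≤ U0 → 2 * U0 ≤ TT →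
      S9DichK kap ξ (2 * Bx) I.len τ TT →
    ∀ (ιR : Type) [Fintype ιR] (ι : Fin 4 → Type) [∀ j, Fintype (ι j)]
      (nR mR : ιR → Fin d → ℤ) (cR : ιR → ℂ) (n : ∀ j, ι j → Fin d → ℤ) (c : ∀ j, ι j → ℂ),
      (∀ u v, ‖s9ev2 nR mR cR u v‖ ≤ CR) →
      (∀ x : ιR × (∀ j, ι j), S9Box Bx (s9N nR n x) ∧ S9Box Bx (s9M l' mR n x)) →
    ∀ Q T : ℝ,
      (∀ n0 m0 : Fin d → ℤ, S9Box Bx n0 → S9Box Bx m0 →
        I.len * |Q + s9dot n0 ξ| ≤ U0 → I.len * |T + s9dot m0 ξ| ≤ U0 →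
        ‖s9MF I w xs l' ξ Q T nR mR cR n c‖
          ≤ ‖s9K I w xs l' (I.len * (Q + s9dot n0 ξ)) (I.len * (T + s9dot m0 ξ))‖ * CR *
              ∏ j, Real.sqrt (s9nsq (fun i => kap (n j i)) (c j))
            + C * (τ + TT⁻¹) * (s9l1 cR * ∏ j, s9l1 (c j))) ∧
      ((¬ ∃ n0 m0 : Fin d → ℤ, S9Box Bx n0 ∧ S9Box Bx m0 ∧
          I.len * |Q + s9dot n0 ξ| ≤ U0 ∧ I.len * |T + s9dot m0 ξ| ≤ U0) →
        ‖s9MF I w xs l' ξ Q T nR mR cR n c‖ ≤ C * U0⁻¹ * (s9l1 cR * ∏ j, s9l1 (c j))) := by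
  obtain ⟨C1, hC1, hK1⟩ := s9_K_bound c0 C0 hc0 hC0 1
  obtain ⟨C2, hC2, hK2⟩ := s9_K_lip c0 C0 hc0 hC0 0
  refine ⟨2 * C1 + 2 * C2, by linarith, ?_⟩
  intro d d' I w hw xs hxs l' ξ kap Bx τ TT U0 CR hτ0 hτ1 hU0 hTT hD ιR _ ι _ nR mR cR n c hR hbox Q T
  have hr := cell_len_pos I
  have hTTpos : 0 < TT := by linarith
  -- the plain decay bound
  have hdec : ∀ a b : ℝ, ‖s9K I w xs l' a b‖ ≤ C1 * (1 + |a| + |b|)⁻¹ := by
    intro a b
    have h := hK1 I w hw xs l' 0 a b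
    rw [pow_one] at h
    refine h.trans (mul_le_mul_of_nonneg_right ?_ (by positivity))
    calc C1 * min 1 |b - (s9al l' 0 : ℝ) * a| ≤ C1 * 1 :=
          mul_le_mul_of_nonneg_left (min_le_left _ _) (by linarith)
      _ = C1 := mul_one _
  have hdec' : ∀ (a b V : ℝ), 0 < V → V ≤ 1 + |a| + |b| → ‖s9K I w xs l' a b‖ ≤ C1 * V⁻¹ := by
    intro a b V hV hVab
    refine (hdec a b).trans (mul_le_mul_of_nonneg_left ?_ (by linarith))
    exact inv_anti₀ hV hVab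
  have hl1 : 0 ≤ s9l1 cR * ∏ j, s9l1 (c j) := by
    rw [← s9_co_l1]
    exact Finset.sum_nonneg fun _ _ => norm_nonneg _
  constructor
  · intro n0 m0 hn0 hm0 ha0 hb0
    set a0 := I.len * (Q + s9dot n0 ξ) with ha0d
    set b0 := I.len * (T + s9dot m0 ξ) with hb0d
    have ha0' : |a0| ≤ U0 := by rw [ha0d, abs_mul, abs_of_pos hr]; exact ha0
    have hb0' : |b0| ≤ U0 := by rw [hb0d, abs_mul, abs_of_pos hr]; exact hb0
    set K0 := s9K I w xs l' a0 b0 with hK0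
    set good : ιR × (∀ j, ι j) → Prop :=
      fun x => kap (s9N nR n x) = kap n0 ∧ kap (s9M l' mR n x) = kap m0 with hgood
    set E : ιR × (∀ j, ι j) → ℂ := fun x =>
      s9K I w xs l' (I.len * (Q + s9dot (s9N nR n x) ξ)) (I.len * (T + s9dot (s9M l' mR n x) ξ))
        - (if good x then K0 else 0) with hE
    have hsplit : s9MF I w xs l' ξ Q T nR mR cR n c
        = K0 * (∑ x : ιR × (∀ j, ι j), if good x then s9co cR c x else 0)
          + ∑ x : ιR × (∀ j, ι j), s9co cR c x * E x := by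
      unfold s9MF
      rw [Finset.mul_sum, ← Finset.sum_add_distrib]
      refine Finset.sum_congr rfl fun x _ => ?_
      rw [hE]
      by_cases hg : good x
      · simp only [if_pos hg]
        ring
      · simp only [if_neg hg]
        ring
    have hEle : ∀ x, ‖E x‖ ≤ (2 * C1 + 2 * C2) * (τ + TT⁻¹) := by
      intro x
      obtain ⟨hbN, hbM⟩ := hbox x
      obtain ⟨hN1, hN2⟩ := s9m4_dich hr hD hbN hn0 Q
      obtain ⟨hM1, hM2⟩ := s9m4_dich hr hD hbM hm0 T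
      have hTi : 0 < TT⁻¹ := inv_pos.2 hTTpos
      have q1 : 0 ≤ C1 * τ := mul_nonneg (by linarith) hτ0
      have q2 : 0 ≤ C2 * τ := mul_nonneg (by linarith) hτ0
      have q3 : 0 ≤ C1 * TT⁻¹ := mul_nonneg (by linarith) hTi.le
      have q4 : 0 ≤ C2 * TT⁻¹ := mul_nonneg (by linarith) hTi.le
      rw [hE]
      by_cases hg : good x
      · simp only [if_pos hg]
        have h1 := hN1 hg.1
        have h2 := hM1 hg.2
        have h3 := hK2 I w hw xs hxs l' _ (I.len * (T + s9dot (s9M l' mR n x) ξ)) a0 b0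
          (h1.trans hτ1)
        rw [pow_zero, inv_one, mul_one] at h3
        refine h3.trans ?_
        calc C2 * (|I.len * (Q + s9dot (s9N nR n x) ξ) - a0|
              + |I.len * (T + s9dot (s9M l' mR n x) ξ) - b0|) ≤ C2 * (τ + τ) :=
              mul_le_mul_of_nonneg_left (add_le_add h1 h2) (by linarith)
          _ ≤ (2 * C1 + 2 * C2) * (τ + TT⁻¹) := by nlinarith
      · simp only [if_neg hg, sub_zero]
        have hfar : TT / 2 ≤ 1 + |I.len * (Q + s9dot (s9N nR n x) ξ)|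
            + |I.len * (T + s9dot (s9M l' mR n x) ξ)| := by
          by_cases hgN : kap (s9N nR n x) = kap n0
          · have hgM : kap (s9M l' mR n x) ≠ kap m0 := fun h => hg ⟨hgN, h⟩
            have h1 := hM2 hgM
            have h2 := abs_sub (I.len * (T + s9dot (s9M l' mR n x) ξ)) b0
            linarith [abs_nonneg (I.len * (Q + s9dot (s9N nR n x) ξ))]
          · have h1 := hN2 hgN
            have h2 := abs_sub (I.len * (Q + s9dot (s9N nR n x) ξ)) a0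
            linarith [abs_nonneg (I.len * (T + s9dot (s9M l' mR n x) ξ))]
        refine (hdec' _ _ (TT / 2) (by linarith) hfar).trans ?_
        have e : C1 * (TT / 2)⁻¹ = 2 * C1 * TT⁻¹ := by
          rw [inv_div, div_eq_mul_inv]
          ring
        rw [e]
        nlinarith
    rw [hsplit]
    refine (norm_add_le _ _).trans (add_le_add ?_ (s9m4_sum_le cR c E hEle))
    rw [norm_mul, mul_assoc]
    exact mul_le_mul_of_nonneg_left (s9_torus4_kap kap nR mR cR CR hR n c l' (kap n0) (kap m0))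
      (norm_nonneg _)
  · intro hno
    have hU0pos : 0 < U0 := by linarith
    have hEle : ∀ x : ιR × (∀ j, ι j), ‖s9K I w xs l' (I.len * (Q + s9dot (s9N nR n x) ξ))
        (I.len * (T + s9dot (s9M l' mR n x) ξ))‖ ≤ (2 * C1 + 2 * C2) * U0⁻¹ := by
      intro x
      obtain ⟨hbN, hbM⟩ := hbox x
      have hfar : U0 ≤ 1 + |I.len * (Q + s9dot (s9N nR n x) ξ)|
          + |I.len * (T + s9dot (s9M l' mR n x) ξ)| := by
        by_contra hlt
        push Not at hlt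
        refine hno ⟨_, _, hbN, hbM, ?_, ?_⟩
        · have := abs_nonneg (I.len * (T + s9dot (s9M l' mR n x) ξ))
          rw [abs_mul, abs_of_pos hr] at hlt
          linarith
        · have := abs_nonneg (I.len * (Q + s9dot (s9N nR n x) ξ))
          rw [abs_mul I.len (T + _), abs_of_pos hr] at hlt
          linarith
      refine (hdec' _ _ U0 hU0pos hfar).trans ?_
      exact mul_le_mul_of_nonneg_right (by linarith) (inv_pos.2 hU0pos).le
    unfold s9MF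
    exact s9m4_sum_le cR c _ hEle

end Claimed.Agent.R258
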