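/-
Row 258 (S0498), Sec. 9.2 (counting.tex, display (32)).  HOME ARCHITECT: helper41.      THE THREE-CORE MODEL FORM.
S9/{Basic,Torus,Kernel,Fser,Model4}.lean as black boxes, NO paper needed.

SETTING as in Model4.lean, anchor = the side role `l`, whose family is a dummy (`n l i = 0`); `S` = a measurable function, square integrable on `I` (`s = nnorm 2 I S`);
`s9MF3 = ∑_x co_x KS(a_x, b_x)`, `a_x = r (Q + N_x·ξ)`, `b_x = r (T + M_x·ξ)`, `KS(a,b) = ∑_k K̂(a + k, b) Ŝ(k)` (`s9_KS_series`), `|Ŝ(k)| ≤ s`.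
`s9Win … Λ` = the integers `k` with `|k + r (Q + n·ξ)| ≤ 2Λ` for some `n` in the box `Bx`;  `s9bsq … Λ S = ∑_{k ∈ Win} |Ŝ(k)|²`.

PROOF OF `s9_ft3` (all sums over `k` first over a finite set `A ⊆ ℤ`, then `A → ℤ` by `HasSum`/`le_of_tendsto`).  `C3, C4` from `s9_K_bound` (`L = 3, 4`, line `j = l`: `s9al l l = 0`),
`C2` from `s9_K_lip` (`L = 2`).  `β = r (T + m0·ξ)`, `κβ = min 1 |β| · (max 1 |β|)⁻¹`.
 (1) tuples with `κ M_x ≠ κ m0`: `|b_x| ≥ 𝒯 - U0 ≥ 𝒯/2`, `‖K̂(a_x + k, b_x)‖ ≤ C3 (1 + |a_x + k|)^{-2} (2/𝒯)`; `s9_sum_shift`: `‖KS‖ ≤ 8 C3 s/𝒯`.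
 (2) GOOD tuples (`κ M_x = κ m0`): `K0` = image of `κ ∘ N`; for `k0 ∈ K0` choose a tuple `x(k0)` with `κ N = k0`, `a(k0) = a_{x(k0)}`; for a good `x` with `κ N_x = k0`:
     `|a_x - a(k0)|, |b_x - β| ≤ τ`, so `‖KS(a_x,b_x) - KS(a(k0),β)‖ ≤ ∑_k 2 C2 τ (1+|a_x+k|)^{-2} s ≤ 8 C2 τ s`.
 (3) MAIN `= ∑_{k0} D(k0) ∑_k K̂(a(k0) + k, β) Ŝ(k)`, `D(k0)` = sum of the coefficients of the good tuples of the coset, `∑ |D|² ≤ CR² ∏ nsq_j` (`s9_torus3_kap`), `∑ |D| ≤ ℓ¹`;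
     `‖K̂(a, β)‖ ≤ C4 κβ (1 + |a|)^{-3}`.   Shell of a pair `(k0,k)`: `f = 0` if `|a(k0)+k| ≤ 2`, else `2^f < |a(k0) + k| ≤ 2^{f+1}`; there `(1+|a|)^{-3} ≤ 2^{-3f}`.
     Shell `f ≤ F0`: Cauchy-Schwarz over the pairs of the shell; at most `5·2^f` values of `k` for one `k0`; at most ONE `k0` for a given `k` (different `a(k0)` differ by `≥ 𝒯 > 4 U0 ≥ 4·2^f`);
     every such `k` lies in `s9Win … 2^f`.  Contribution `≤ C4 κβ 2^{-3f} (5·2^f)^{1/2} ‖D‖₂ √(s9bsq 2^f) ≤ 3 C4 κβ 2^{-f} CR ∏ √nsq_j √(s9bsq 2^f)`.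
     Pairs with `|a(k0) + k| > 2^{F0+1} > U0`: `(1+|a|)^{-3} ≤ U0⁻¹ (1+|a|)^{-2}`: total `≤ 4 C4 ℓ¹ s/U0`.
 (4) no reference: every `|b_x| > U0`: as in (1) `‖KS‖ ≤ 4 C3 s/U0`.
-/
import Claimed.Agent.R258.S9.Fser
import Claimed.Agent.R258.S9.Model4

set_option autoImplicit false
open MeasureTheory

namespace Claimed.Agent.R258

open scoped BigOperators
open Classical

/-- the box as a finset -/
noncomputable def s9boxF (d B : ℕ) : Finset (Fin d → ℤ) := Fintype.piFinset fun _ => Finset.Icc (-(B : ℤ)) (B : ℤ)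

theorem s9_mem_boxF {d B : ℕ} {n : Fin d → ℤ} : n ∈ s9boxF d B ↔ S9Box B n := by
  simp [s9boxF, S9Box, abs_le]

/-- the windows of (32): they use the whole Fourier box (independent of all masks) -/
noncomputable def s9Win {d : ℕ} (I : Cell) (ξ : Fin d → ℝ) (Q : ℝ) (Bx : ℕ) (Λ : ℝ) : Finset ℤ :=
  (s9boxF d Bx).biUnion fun n =>
    Finset.Icc ⌈-(I.len * (Q + s9dot n ξ)) - 2 * Λ⌉ ⌊-(I.len * (Q + s9dot n ξ)) + 2 * Λ⌋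

/-- LEAF P-S9-MODEL3-A -/
theorem s9_mem_Win {d : ℕ} {I : Cell} {ξ : Fin d → ℝ} {Q : ℝ} {Bx : ℕ} {Λ : ℝ} {k : ℤ} :
    k ∈ s9Win I ξ Q Bx Λ ↔ ∃ n, S9Box Bx n ∧ |(k : ℝ) + I.len * (Q + s9dot n ξ)| ≤ 2 * Λ := by
  unfold s9Win
  rw [Finset.mem_biUnion]
  refine exists_congr fun n => ?_
  rw [s9_mem_boxF, Finset.mem_Icc, Int.ceil_le, Int.le_floor, abs_le]
  refine and_congr_right fun _ => ⟨fun h => ⟨by linarith [h.1], by linarith [h.2]⟩,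
    fun h => ⟨by linarith [h.1], by linarith [h.2]⟩⟩

/-- the `ℓ²` mass of the Fourier coefficients in the windows -/
noncomputable def s9bsq {d : ℕ} (I : Cell) (xs : ℝ) (ξ : Fin d → ℝ) (Q : ℝ) (Bx : ℕ) (Λ : ℝ) (S : ℝ → ℂ) : ℝ :=
  ∑ k ∈ s9Win I ξ Q Bx Λ, ‖s9fc I xs S k‖ ^ 2

/-- the three-core model form -/
noncomputable def s9MF3 {d : ℕ} (I : Cell) (w : ℝ × ℝ → ℂ) (xs : ℝ) (l : Fin 4) (S : ℝ → ℂ) (ξ : Fin d → ℝ) (Q T : ℝ)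
    {ιR : Type} [Fintype ιR] {ι : Fin 4 → Type} [∀ j, Fintype (ι j)]
    (nR mR : ιR → Fin d → ℤ) (cR : ιR → ℂ) (n : ∀ j, ι j → Fin d → ℤ) (c : ∀ j, ι j → ℂ) : ℂ :=
  ∑ x : ιR × (∀ j, ι j), s9co cR c x *
    s9KS I w xs l S (I.len * (Q + s9dot (s9N nR n x) ξ)) (I.len * (T + s9dot (s9M l mR n x) ξ))

/-- a bound of all finite partial sums passes to the sum -/
theorem s9_hasSum_norm_le {f : ℤ → ℂ} {a : ℂ} (h : HasSum f a) (B : ℝ)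
    (hB : ∀ K : Finset ℤ, ‖∑ k ∈ K, f k‖ ≤ B) : ‖a‖ ≤ B :=
  le_of_tendsto' (Filter.Tendsto.norm h) hB

/-- a series with terms `≤ B (1 + |a + k|)^{-2}` is `≤ 4 B` -/
theorem s9_hasSum_shift_le {f : ℤ → ℂ} {z : ℂ} (h : HasSum f z) (a B : ℝ) (hB0 : 0 ≤ B)
    (hB : ∀ k : ℤ, ‖f k‖ ≤ B * ((1 + |a + (k : ℝ)|) ^ 2)⁻¹) : ‖z‖ ≤ 4 * B := by
  refine s9_hasSum_norm_le h _ fun K => ?_
  calc ‖∑ k ∈ K, f k‖ ≤ ∑ k ∈ K, ‖f k‖ := norm_sum_le _ _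
    _ ≤ ∑ k ∈ K, B * ((1 + |a + (k : ℝ)|) ^ 2)⁻¹ := Finset.sum_le_sum fun k _ => hB k
    _ = B * ∑ k ∈ K, ((1 + |a + (k : ℝ)|) ^ 2)⁻¹ := by rw [Finset.mul_sum]
    _ ≤ B * 4 := mul_le_mul_of_nonneg_left (s9_sum_shift a K) hB0
    _ = 4 * B := by ring

/-- crude bound of `KS` for a large second frequency (steps (1), (4)).  LEAF P-S9-MODEL3-A -/
theorem s9_KS_far (c0 C0 : ℝ) (hc0 : 0 < c0) (hC0 : 1 ≤ C0) : ∃ C : ℝ, 1 ≤ C ∧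
    ∀ (I : Cell) (w : ℝ × ℝ → ℂ), Admissible c0 C0 I w → ∀ (xs : ℝ) (l : Fin 4) (S : ℝ → ℂ), Measurable S →
      IntegrableOn (fun y => ‖S y‖ ^ 2) I.set → ∀ a b : ℝ,
      ‖s9KS I w xs l S a b‖ ≤ C * (1 + |b|)⁻¹ * nnorm 2 I S := by
  obtain ⟨C3, hC3, h3⟩ := s9_K_bound c0 C0 hc0 hC0 3
  refine ⟨4 * C3, by linarith, fun I w hw xs l S hS hS2 a b => ?_⟩
  have hser := s9_KS_series hc0 hC0 hw xs l S hS hS2 a b
  have hn := nnorm_nonneg 2 I S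
  have h := s9_hasSum_shift_le hser a (C3 * (1 + |b|)⁻¹ * nnorm 2 I S) (by positivity) (fun k => ?_)
  · calc ‖s9KS I w xs l S a b‖ ≤ 4 * (C3 * (1 + |b|)⁻¹ * nnorm 2 I S) := h
      _ = 4 * C3 * (1 + |b|)⁻¹ * nnorm 2 I S := by ring
  · rw [norm_mul]
    have h1 := h3 I w hw xs l l (a + (k : ℝ)) b
    have h2 := s9_fc_le I xs S hS hS2 k
    set x := |a + (k : ℝ)| with hx
    have hx0 : 0 ≤ x := abs_nonneg _
    have hb0 : 0 ≤ |b| := abs_nonneg _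
    have h4 : ((1 + x + |b|) ^ 3)⁻¹ ≤ (1 + |b|)⁻¹ * ((1 + x) ^ 2)⁻¹ := by
      rw [← mul_inv]
      refine inv_anti₀ (by positivity) ?_
      have e1 : 1 + |b| ≤ 1 + x + |b| := by linarith
      have e2 : 1 + x ≤ 1 + x + |b| := by linarith
      calc (1 + |b|) * (1 + x) ^ 2 ≤ (1 + x + |b|) * (1 + x + |b|) ^ 2 :=
            mul_le_mul e1 (pow_le_pow_left₀ (by positivity) e2 2) (by positivity) (by positivity)
        _ = (1 + x + |b|) ^ 3 := by ring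
    have h5 : ‖s9K I w xs l (a + (k : ℝ)) b‖ ≤ C3 * ((1 + |b|)⁻¹ * ((1 + x) ^ 2)⁻¹) := by
      refine h1.trans ?_
      calc C3 * min 1 |b - (s9al l l : ℝ) * (a + (k : ℝ))| * ((1 + x + |b|) ^ 3)⁻¹
          ≤ C3 * 1 * ((1 + x + |b|) ^ 3)⁻¹ := by
            have := min_le_left 1 |b - (s9al l l : ℝ) * (a + (k : ℝ))|
            gcongr
        _ ≤ C3 * ((1 + |b|)⁻¹ * ((1 + x) ^ 2)⁻¹) := by
            rw [mul_one]
            exact mul_le_mul_of_nonneg_left h4 (by linarith)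
    calc ‖s9K I w xs l (a + (k : ℝ)) b‖ * ‖s9fc I xs S k‖
        ≤ (C3 * ((1 + |b|)⁻¹ * ((1 + x) ^ 2)⁻¹)) * nnorm 2 I S :=
          mul_le_mul h5 h2 (norm_nonneg _) (by positivity)
      _ = C3 * (1 + |b|)⁻¹ * nnorm 2 I S * ((1 + x) ^ 2)⁻¹ := by ring

/-- Lipschitz bound of `KS` (step (2)).  LEAF P-S9-MODEL3-A -/
theorem s9_KS_lip (c0 C0 : ℝ) (hc0 : 0 < c0) (hC0 : 1 ≤ C0) : ∃ C : ℝ, 1 ≤ C ∧
    ∀ (I : Cell) (w : ℝ × ℝ → ℂ), Admissible c0 C0 I w → ∀ xs ∈ I.set, ∀ (l : Fin 4) (S : ℝ → ℂ), Measurable S →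
      IntegrableOn (fun y => ‖S y‖ ^ 2) I.set → ∀ a b a' b' : ℝ, |a - a'| ≤ 1 →
      ‖s9KS I w xs l S a b - s9KS I w xs l S a' b'‖ ≤ C * (|a - a'| + |b - b'|) * nnorm 2 I S := by
  obtain ⟨C2, hC2, h2⟩ := s9_K_lip c0 C0 hc0 hC0 2
  refine ⟨4 * C2, by linarith, fun I w hw xs hxs l S hS hS2 a b a' b' haa => ?_⟩
  have hser := (s9_KS_series hc0 hC0 hw xs l S hS hS2 a b).sub (s9_KS_series hc0 hC0 hw xs l S hS hS2 a' b')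
  have hn := nnorm_nonneg 2 I S
  have h := s9_hasSum_shift_le hser a (C2 * (|a - a'| + |b - b'|) * nnorm 2 I S) (by positivity) (fun k => ?_)
  · calc ‖s9KS I w xs l S a b - s9KS I w xs l S a' b'‖
        ≤ 4 * (C2 * (|a - a'| + |b - b'|) * nnorm 2 I S) := h
      _ = 4 * C2 * (|a - a'| + |b - b'|) * nnorm 2 I S := by ring
  · rw [← sub_mul, norm_mul]
    have h1 := h2 I w hw xs hxs l (a + (k : ℝ)) b (a' + (k : ℝ)) b' (by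
      rw [show a + (k : ℝ) - (a' + (k : ℝ)) = a - a' by ring]; exact haa)
    rw [show a + (k : ℝ) - (a' + (k : ℝ)) = a - a' by ring] at h1
    have h3 := s9_fc_le I xs S hS hS2 k
    calc ‖s9K I w xs l (a + (k : ℝ)) b - s9K I w xs l (a' + (k : ℝ)) b'‖ * ‖s9fc I xs S k‖
        ≤ (C2 * (|a - a'| + |b - b'|) * ((1 + |a + (k : ℝ)|) ^ 2)⁻¹) * nnorm 2 I S :=
          mul_le_mul h1 h3 (norm_nonneg _) (by positivity)
      _ = C2 * (|a - a'| + |b - b'|) * nnorm 2 I S * ((1 + |a + (k : ℝ)|) ^ 2)⁻¹ := by ring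

/-- at most `2R + 1` integers `k` with `|x + k| ≤ R` -/
theorem s9_card_int_le (x R : ℝ) (hR : 0 ≤ R) (A' : Finset ℤ) :
    (((A'.filter fun k : ℤ => |x + (k : ℝ)| ≤ R).card : ℕ) : ℝ) ≤ 2 * R + 1 := by
  have hsub : (A'.filter fun k : ℤ => |x + (k : ℝ)| ≤ R) ⊆ Finset.Icc ⌈-x - R⌉ ⌊-x + R⌋ := by
    intro k hk
    have h := abs_le.1 (Finset.mem_filter.1 hk).2
    rw [Finset.mem_Icc]
    exact ⟨Int.ceil_le.2 (by linarith [h.1]), Int.le_floor.2 (by linarith [h.2])⟩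
  have h1 := Finset.card_le_card hsub
  rw [Int.card_Icc] at h1
  have h2 : (((⌊-x + R⌋ + 1 - ⌈-x - R⌉).toNat : ℕ) : ℝ) ≤ 2 * R + 1 := by
    rcases le_total 0 (⌊-x + R⌋ + 1 - ⌈-x - R⌉) with h | h
    · have h3 : (((⌊-x + R⌋ + 1 - ⌈-x - R⌉).toNat : ℕ) : ℤ) = ⌊-x + R⌋ + 1 - ⌈-x - R⌉ :=
        Int.toNat_of_nonneg h
      have h4 : ((((⌊-x + R⌋ + 1 - ⌈-x - R⌉).toNat : ℕ) : ℤ) : ℝ)
          = ((⌊-x + R⌋ + 1 - ⌈-x - R⌉ : ℤ) : ℝ) := by rw [h3]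
      push_cast at h4
      rw [h4]
      have := Int.floor_le (-x + R)
      have := Int.le_ceil (-x - R)
      linarith
    · rw [Int.toNat_of_nonpos h]
      simp only [Nat.cast_zero]
      linarith
  exact le_trans (by exact_mod_cast h1) h2

/-- one shell -/
theorem s9_schur_shell {κ : Type} (K0 : Finset κ) (α : κ → ℝ) (D : κ → ℂ) (Sh : ℤ → ℂ) (Kf : ℝ → ℂ) (A sep : ℝ)
    (F0 f : ℕ) (hf : f ≤ F0) (hA : 0 ≤ A) (hK : ∀ a, ‖Kf a‖ ≤ A * ((1 + |a|) ^ 3)⁻¹)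
    (hsep : ∀ k0 ∈ K0, ∀ k0' ∈ K0, k0 ≠ k0' → sep ≤ |α k0 - α k0'|) (hF : 4 * (2 : ℝ) ^ F0 < sep) (A' : Finset ℤ) :
    ∑ z ∈ (K0 ×ˢ A').filter (fun z : κ × ℤ => |α z.1 + (z.2 : ℝ)| ≤ 2 * (2 : ℝ) ^ f ∧
        (f = 0 ∨ (2 : ℝ) ^ f < |α z.1 + (z.2 : ℝ)|)),
      ‖D z.1‖ * ‖Kf (α z.1 + (z.2 : ℝ))‖ * ‖Sh z.2‖
    ≤ 3 * A * Real.sqrt (∑ k0 ∈ K0, ‖D k0‖ ^ 2) * (((2 : ℝ) ^ f)⁻¹ *
        Real.sqrt (∑ k ∈ A'.filter (fun k : ℤ => ∃ k0 ∈ K0, |α k0 + (k : ℝ)| ≤ 2 * (2 : ℝ) ^ f), ‖Sh k‖ ^ 2)) := by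
  have hX : (1 : ℝ) ≤ (2 : ℝ) ^ f := one_le_pow₀ (by norm_num)
  have hXF : (2 : ℝ) ^ f ≤ (2 : ℝ) ^ F0 := pow_le_pow_right₀ (by norm_num) hf
  have hX0 : f = 0 → (2 : ℝ) ^ f = 1 := fun h => by rw [h, pow_zero]
  generalize (2 : ℝ) ^ f = X at *
  set P := (K0 ×ˢ A').filter (fun z : κ × ℤ => |α z.1 + (z.2 : ℝ)| ≤ 2 * X ∧
        (f = 0 ∨ X < |α z.1 + (z.2 : ℝ)|)) with hP
  have hXpos : 0 < X := by linarith
  have h1 : ∀ z ∈ P, ‖D z.1‖ * ‖Kf (α z.1 + (z.2 : ℝ))‖ * ‖Sh z.2‖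
      ≤ A * (X ^ 3)⁻¹ * (‖D z.1‖ * ‖Sh z.2‖) := by
    intro z hz
    have hz2 := (Finset.mem_filter.1 hz).2.2
    have h2 : X ≤ 1 + |α z.1 + (z.2 : ℝ)| := by
      rcases hz2 with h | h
      · rw [hX0 h]; linarith [abs_nonneg (α z.1 + (z.2 : ℝ))]
      · linarith
    have h3 : ‖Kf (α z.1 + (z.2 : ℝ))‖ ≤ A * (X ^ 3)⁻¹ := by
      refine (hK _).trans (mul_le_mul_of_nonneg_left ?_ hA)
      exact inv_anti₀ (by positivity) (pow_le_pow_left₀ hXpos.le h2 3)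
    calc ‖D z.1‖ * ‖Kf (α z.1 + (z.2 : ℝ))‖ * ‖Sh z.2‖
        ≤ ‖D z.1‖ * (A * (X ^ 3)⁻¹) * ‖Sh z.2‖ := by gcongr
      _ = A * (X ^ 3)⁻¹ * (‖D z.1‖ * ‖Sh z.2‖) := by ring
  have h2 : ∑ z ∈ P, ‖D z.1‖ * ‖Sh z.2‖
      ≤ Real.sqrt (∑ z ∈ P, ‖D z.1‖ ^ 2) * Real.sqrt (∑ z ∈ P, ‖Sh z.2‖ ^ 2) :=
    Real.sum_mul_le_sqrt_mul_sqrt _ _ _
  have h3 : ∑ z ∈ P, ‖D z.1‖ ^ 2 ≤ (5 * X) * ∑ k0 ∈ K0, ‖D k0‖ ^ 2 := by
    rw [hP, Finset.sum_filter, Finset.sum_product, Finset.mul_sum]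
    refine Finset.sum_le_sum fun k0 _ => ?_
    rw [← Finset.sum_filter]
    dsimp only
    rw [Finset.sum_const, nsmul_eq_mul]
    refine mul_le_mul_of_nonneg_right ?_ (by positivity)
    have h4 := s9_card_int_le (α k0) (2 * X) (by positivity) A'
    refine le_trans (Nat.cast_le.2 (Finset.card_le_card ?_)) (le_trans h4 (by linarith))
    intro k hk
    rw [Finset.mem_filter] at hk ⊢
    exact ⟨hk.1, hk.2.1⟩
  have h4 : ∑ z ∈ P, ‖Sh z.2‖ ^ 2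
      ≤ ∑ k ∈ A'.filter (fun k : ℤ => ∃ k0 ∈ K0, |α k0 + (k : ℝ)| ≤ 2 * X), ‖Sh k‖ ^ 2 := by
    have hinj : Set.InjOn (Prod.snd : κ × ℤ → ℤ) (P : Set (κ × ℤ)) := by
      intro z hz z' hz' he
      have m1 := Finset.mem_filter.1 (Finset.mem_coe.1 hz)
      have m2 := Finset.mem_filter.1 (Finset.mem_coe.1 hz')
      by_contra hne
      have hne1 : z.1 ≠ z'.1 := fun h => hne (Prod.ext h he)
      have h5 := hsep z.1 (Finset.mem_product.1 m1.1).1 z'.1 (Finset.mem_product.1 m2.1).1 hne1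
      have h6 : |α z.1 - α z'.1| ≤ |α z.1 + (z.2 : ℝ)| + |α z'.1 + (z'.2 : ℝ)| := by
        have e : α z.1 - α z'.1 = (α z.1 + (z.2 : ℝ)) - (α z'.1 + (z'.2 : ℝ)) := by rw [he]; ring
        rw [e]
        exact abs_sub _ _
      linarith [m1.2.1, m2.2.1]
    rw [← Finset.sum_image (f := fun k : ℤ => ‖Sh k‖ ^ 2) hinj]
    refine Finset.sum_le_sum_of_subset_of_nonneg ?_ (fun _ _ _ => by positivity)
    intro k hk
    obtain ⟨z, hz, rfl⟩ := Finset.mem_image.1 hk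
    have m1 := Finset.mem_filter.1 hz
    exact Finset.mem_filter.2 ⟨(Finset.mem_product.1 m1.1).2, z.1, (Finset.mem_product.1 m1.1).1, m1.2.1⟩
  set SD := ∑ k0 ∈ K0, ‖D k0‖ ^ 2 with hSD
  set SS := ∑ k ∈ A'.filter (fun k : ℤ => ∃ k0 ∈ K0, |α k0 + (k : ℝ)| ≤ 2 * X), ‖Sh k‖ ^ 2 with hSS
  have h5 : Real.sqrt (5 * X) ≤ 3 * X ^ 2 := by
    rw [show (3 * X ^ 2 : ℝ) = Real.sqrt ((3 * X ^ 2) ^ 2) from (Real.sqrt_sq (by positivity)).symm]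
    refine Real.sqrt_le_sqrt ?_
    have : X ≤ X ^ 4 := by
      calc X = X ^ 1 := (pow_one X).symm
        _ ≤ X ^ 4 := pow_le_pow_right₀ hX (by norm_num)
    nlinarith
  calc ∑ z ∈ P, ‖D z.1‖ * ‖Kf (α z.1 + (z.2 : ℝ))‖ * ‖Sh z.2‖
      ≤ ∑ z ∈ P, A * (X ^ 3)⁻¹ * (‖D z.1‖ * ‖Sh z.2‖) := Finset.sum_le_sum h1
    _ = A * (X ^ 3)⁻¹ * ∑ z ∈ P, ‖D z.1‖ * ‖Sh z.2‖ := by rw [Finset.mul_sum]
    _ ≤ A * (X ^ 3)⁻¹ * (Real.sqrt ((5 * X) * SD) * Real.sqrt SS) := by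
        refine mul_le_mul_of_nonneg_left ?_ (by positivity)
        refine h2.trans ?_
        exact mul_le_mul (Real.sqrt_le_sqrt h3) (Real.sqrt_le_sqrt h4) (Real.sqrt_nonneg _) (Real.sqrt_nonneg _)
    _ = A * ((X ^ 3)⁻¹ * Real.sqrt (5 * X)) * Real.sqrt SD * Real.sqrt SS := by
        rw [Real.sqrt_mul (by positivity)]; ring
    _ ≤ A * (3 * X⁻¹) * Real.sqrt SD * Real.sqrt SS := by
        have h6 : (X ^ 3)⁻¹ * Real.sqrt (5 * X) ≤ 3 * X⁻¹ := by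
          calc (X ^ 3)⁻¹ * Real.sqrt (5 * X) ≤ (X ^ 3)⁻¹ * (3 * X ^ 2) :=
                mul_le_mul_of_nonneg_left h5 (by positivity)
            _ = 3 * X⁻¹ := by field_simp
        gcongr
    _ = 3 * A * Real.sqrt SD * (X⁻¹ * Real.sqrt SS) := by ring

/-- the far pairs -/
theorem s9_schur_far {κ : Type} (K0 : Finset κ) (α : κ → ℝ) (D : κ → ℂ) (Sh : ℤ → ℂ) (Kf : ℝ → ℂ) (A s Y : ℝ)
    (hY : 0 < Y) (hA : 0 ≤ A) (hs : ∀ k, ‖Sh k‖ ≤ s) (hK : ∀ a, ‖Kf a‖ ≤ A * ((1 + |a|) ^ 3)⁻¹) (A' : Finset ℤ) :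
    ∑ z ∈ (K0 ×ˢ A').filter (fun z : κ × ℤ => Y < |α z.1 + (z.2 : ℝ)|),
      ‖D z.1‖ * ‖Kf (α z.1 + (z.2 : ℝ))‖ * ‖Sh z.2‖
    ≤ 4 * A * Y⁻¹ * s * ∑ k0 ∈ K0, ‖D k0‖ := by
  have hs0 : 0 ≤ s := (norm_nonneg _).trans (hs 0)
  have h1 : ∀ z ∈ (K0 ×ˢ A').filter (fun z : κ × ℤ => Y < |α z.1 + (z.2 : ℝ)|),
      ‖D z.1‖ * ‖Kf (α z.1 + (z.2 : ℝ))‖ * ‖Sh z.2‖
      ≤ ‖D z.1‖ * (A * Y⁻¹ * s) * ((1 + |α z.1 + (z.2 : ℝ)|) ^ 2)⁻¹ := by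
    intro z hz
    have hz2 := (Finset.mem_filter.1 hz).2
    set a := α z.1 + (z.2 : ℝ) with ha
    have h2 : ((1 + |a|) ^ 3)⁻¹ ≤ Y⁻¹ * ((1 + |a|) ^ 2)⁻¹ := by
      have e : ((1 + |a|) ^ 3)⁻¹ = (1 + |a|)⁻¹ * ((1 + |a|) ^ 2)⁻¹ := by
        rw [← mul_inv]; congr 1; ring
      rw [e]
      refine mul_le_mul_of_nonneg_right ?_ (by positivity)
      exact inv_anti₀ hY (by linarith)
    calc ‖D z.1‖ * ‖Kf a‖ * ‖Sh z.2‖ ≤ ‖D z.1‖ * (A * (Y⁻¹ * ((1 + |a|) ^ 2)⁻¹)) * s := by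
          have h3 : ‖Kf a‖ ≤ A * (Y⁻¹ * ((1 + |a|) ^ 2)⁻¹) :=
            (hK a).trans (mul_le_mul_of_nonneg_left h2 hA)
          have h4 := hs z.2
          gcongr
      _ = ‖D z.1‖ * (A * Y⁻¹ * s) * ((1 + |a|) ^ 2)⁻¹ := by ring
  refine (Finset.sum_le_sum h1).trans ?_
  refine (Finset.sum_le_sum_of_subset_of_nonneg (Finset.filter_subset _ _)
    (fun _ _ _ => by positivity)).trans ?_
  rw [Finset.sum_product, Finset.mul_sum]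
  refine Finset.sum_le_sum fun k0 _ => ?_
  dsimp only
  rw [← Finset.mul_sum]
  have h5 := s9_sum_shift (α k0) A'
  calc ‖D k0‖ * (A * Y⁻¹ * s) * ∑ k ∈ A', ((1 + |α k0 + (k : ℝ)|) ^ 2)⁻¹
      ≤ ‖D k0‖ * (A * Y⁻¹ * s) * 4 := mul_le_mul_of_nonneg_left h5 (by positivity)
    _ = 4 * A * Y⁻¹ * s * ‖D k0‖ := by ring

/-- **the Schur shell estimate** (step (3)), abstract form: `α k0` are `sep`-separated reals, `sep > 4·2^F0`; `D`, `Ŝ` arbitrary coefficient sequences, `|Ŝ| ≤ s`;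
`Kf a` a kernel with `‖Kf a‖ ≤ A (1 + |a|)^{-3}`; `A'` a finite set of integers.  LEAF P-S9-MODEL3-B -/
theorem s9_schur {κ : Type} (K0 : Finset κ) (α : κ → ℝ) (D : κ → ℂ) (Sh : ℤ → ℂ) (Kf : ℝ → ℂ) (A s sep : ℝ) (F0 : ℕ)
    (hA : 0 ≤ A) (hs : ∀ k, ‖Sh k‖ ≤ s) (hK : ∀ a, ‖Kf a‖ ≤ A * ((1 + |a|) ^ 3)⁻¹)
    (hsep : ∀ k0 ∈ K0, ∀ k0' ∈ K0, k0 ≠ k0' → sep ≤ |α k0 - α k0'|) (hF : 4 * (2 : ℝ) ^ F0 < sep) (A' : Finset ℤ) :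
    ‖∑ k0 ∈ K0, D k0 * ∑ k ∈ A', Kf (α k0 + (k : ℝ)) * Sh k‖
      ≤ 3 * A * Real.sqrt (∑ k0 ∈ K0, ‖D k0‖ ^ 2) *
          ∑ f ∈ Finset.range (F0 + 1), ((2 : ℝ) ^ f)⁻¹ *
            Real.sqrt (∑ k ∈ A'.filter (fun k : ℤ => ∃ k0 ∈ K0, |α k0 + (k : ℝ)| ≤ 2 * (2 : ℝ) ^ f), ‖Sh k‖ ^ 2)
        + 4 * A * ((2 : ℝ) ^ (F0 + 1))⁻¹ * s * ∑ k0 ∈ K0, ‖D k0‖ := by
  set T : κ × ℤ → ℝ := fun z => ‖D z.1‖ * ‖Kf (α z.1 + (z.2 : ℝ))‖ * ‖Sh z.2‖ with hT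
  have hT0 : ∀ z, 0 ≤ T z := fun z => by simp only [hT]; positivity
  have h1 : ‖∑ k0 ∈ K0, D k0 * ∑ k ∈ A', Kf (α k0 + (k : ℝ)) * Sh k‖ ≤ ∑ z ∈ K0 ×ˢ A', T z := by
    rw [Finset.sum_product]
    refine (norm_sum_le _ _).trans (Finset.sum_le_sum fun k0 _ => ?_)
    rw [norm_mul]
    calc ‖D k0‖ * ‖∑ k ∈ A', Kf (α k0 + (k : ℝ)) * Sh k‖
        ≤ ‖D k0‖ * ∑ k ∈ A', ‖Kf (α k0 + (k : ℝ))‖ * ‖Sh k‖ := by
          refine mul_le_mul_of_nonneg_left ?_ (norm_nonneg _)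
          refine (norm_sum_le _ _).trans (le_of_eq ?_)
          exact Finset.sum_congr rfl fun k _ => norm_mul _ _
      _ = ∑ k ∈ A', T (k0, k) := by
          rw [Finset.mul_sum]
          exact Finset.sum_congr rfl fun k _ => by simp only [hT]; ring
  have h2 : ∀ z : κ × ℤ, T z ≤ ∑ f ∈ Finset.range (F0 + 1),
      (if |α z.1 + (z.2 : ℝ)| ≤ 2 * (2 : ℝ) ^ f ∧ (f = 0 ∨ (2 : ℝ) ^ f < |α z.1 + (z.2 : ℝ)|) then T z else 0)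
      + (if (2 : ℝ) ^ (F0 + 1) < |α z.1 + (z.2 : ℝ)| then T z else 0) := by
    intro z
    set a := |α z.1 + (z.2 : ℝ)| with ha
    have hnn : 0 ≤ ∑ f ∈ Finset.range (F0 + 1),
        (if a ≤ 2 * (2 : ℝ) ^ f ∧ (f = 0 ∨ (2 : ℝ) ^ f < a) then T z else 0) :=
      Finset.sum_nonneg fun f _ => by split_ifs <;> [exact hT0 z; exact le_rfl]
    by_cases hfar : (2 : ℝ) ^ (F0 + 1) < a
    · rw [if_pos hfar]; linarith
    · rw [if_neg hfar, add_zero]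
      have hex : ∃ f : ℕ, a ≤ 2 * (2 : ℝ) ^ f := ⟨F0, by rw [pow_succ] at hfar; linarith [not_lt.1 hfar]⟩
      have hle : Nat.find hex ≤ F0 := Nat.find_min' hex (by rw [pow_succ] at hfar; linarith [not_lt.1 hfar])
      have hsp := Nat.find_spec hex
      have hcond : a ≤ 2 * (2 : ℝ) ^ (Nat.find hex) ∧ (Nat.find hex = 0 ∨ (2 : ℝ) ^ (Nat.find hex) < a) := by
        refine ⟨hsp, ?_⟩
        rcases Nat.eq_zero_or_pos (Nat.find hex) with h0 | hpos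
        · exact Or.inl h0
        · right
          have hm := Nat.find_min hex (m := Nat.find hex - 1) (by omega)
          have e : (2 : ℝ) ^ (Nat.find hex) = 2 * (2 : ℝ) ^ (Nat.find hex - 1) := by
            rw [← pow_succ']; congr 1; omega
          rw [e]
          exact not_le.1 hm
      have h3 := Finset.single_le_sum (f := fun f : ℕ =>
        (if a ≤ 2 * (2 : ℝ) ^ f ∧ (f = 0 ∨ (2 : ℝ) ^ f < a) then T z else 0))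
        (fun f _ => by
          show 0 ≤ (if a ≤ 2 * (2 : ℝ) ^ f ∧ (f = 0 ∨ (2 : ℝ) ^ f < a) then T z else 0)
          split_ifs <;> [exact hT0 z; exact le_rfl])
        (Finset.mem_range.2 (Nat.lt_succ_of_le hle))
      simp only [if_pos hcond] at h3
      exact h3
  refine h1.trans ((Finset.sum_le_sum fun z _ => h2 z).trans ?_)
  rw [Finset.sum_add_distrib, Finset.sum_comm, Finset.mul_sum]
  refine add_le_add (Finset.sum_le_sum fun f hf => ?_) ?_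
  · rw [← Finset.sum_filter]
    exact s9_schur_shell K0 α D Sh Kf A sep F0 f (Nat.lt_succ_iff.1 (Finset.mem_range.1 hf)) hA hK hsep hF A'
  · rw [← Finset.sum_filter]
    exact s9_schur_far K0 α D Sh Kf A s _ (by positivity) hA hs hK A'

theorem s9_m3_dot_sub {d : ℕ} (n m : Fin d → ℤ) (ξ : Fin d → ℝ) :
    s9dot (n - m) ξ = s9dot n ξ - s9dot m ξ := by
  unfold s9dot
  rw [← Finset.sum_sub_distrib]
  refine Finset.sum_congr rfl fun i _ => ?_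
  simp only [Pi.sub_apply]
  push_cast
  ring

theorem s9_m3_box_sub {d B : ℕ} {n m : Fin d → ℤ} (hn : S9Box B n) (hm : S9Box B m) :
    S9Box (2 * B) (n - m) := by
  intro i
  have h1 := hn i
  have h2 := hm i
  have h3 := abs_sub (n i) (m i)
  simp only [Pi.sub_apply]
  push_cast
  linarith

/-- the dichotomy for differences of two box points -/
theorem s9_m3_dich {d d' : ℕ} {kap : (Fin d → ℤ) →+ (Fin d' → ℤ)} {ξ : Fin d → ℝ} {Bx : ℕ} {r τ TT : ℝ}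
    (hr : 0 ≤ r) (h : S9DichK kap ξ (2 * Bx) r τ TT) {n m : Fin d → ℤ} (hn : S9Box Bx n) (hm : S9Box Bx m)
    (c : ℝ) :
    (kap n = kap m → |r * (c + s9dot n ξ) - r * (c + s9dot m ξ)| ≤ τ) ∧
      (kap n ≠ kap m → TT ≤ |r * (c + s9dot n ξ) - r * (c + s9dot m ξ)|) := by
  have e : |r * (c + s9dot n ξ) - r * (c + s9dot m ξ)| = r * |s9dot (n - m) ξ| := by
    rw [s9_m3_dot_sub, ← abs_of_nonneg hr, ← abs_mul, abs_of_nonneg hr]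
    congr 1
    ring
  rw [e]
  have h1 := h (n - m) (s9_m3_box_sub hn hm)
  refine ⟨fun he => h1.1 (by rw [map_sub, he, sub_self]), fun hne => h1.2 fun h0 => hne ?_⟩
  rw [map_sub] at h0
  exact sub_eq_zero.1 h0

theorem s9_m3_kb (C4 a β : ℝ) (hC4 : 0 ≤ C4) :
    C4 * min 1 |β| * ((1 + |a| + |β|) ^ 4)⁻¹
      ≤ C4 * (min 1 |β| * (max 1 |β|)⁻¹) * ((1 + |a|) ^ 3)⁻¹ := by
  have ha := abs_nonneg a
  have hb := abs_nonneg β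
  have h1 : ((1 + |a| + |β|) ^ 4)⁻¹ ≤ (max 1 |β|)⁻¹ * ((1 + |a|) ^ 3)⁻¹ := by
    rw [← mul_inv]
    refine inv_anti₀ (by positivity) ?_
    have e1 : max 1 |β| ≤ 1 + |a| + |β| := max_le (by linarith) (by linarith)
    have e2 : 1 + |a| ≤ 1 + |a| + |β| := by linarith
    calc max 1 |β| * (1 + |a|) ^ 3 ≤ (1 + |a| + |β|) * (1 + |a| + |β|) ^ 3 :=
          mul_le_mul e1 (pow_le_pow_left₀ (by positivity) e2 3) (by positivity) (by positivity)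
      _ = (1 + |a| + |β|) ^ 4 := by ring
  have h2 : 0 ≤ C4 * min 1 |β| := mul_nonneg hC4 (le_min zero_le_one hb)
  calc C4 * min 1 |β| * ((1 + |a| + |β|) ^ 4)⁻¹
      ≤ C4 * min 1 |β| * ((max 1 |β|)⁻¹ * ((1 + |a|) ^ 3)⁻¹) := mul_le_mul_of_nonneg_left h1 h2
    _ = C4 * (min 1 |β| * (max 1 |β|)⁻¹) * ((1 + |a|) ^ 3)⁻¹ := by ring

/-- the main term: Schur + passage to the limit -/
theorem s9_m3_main {κ : Type} (K0 : Finset κ) (α : κ → ℝ) (D : κ → ℂ) (Sh : ℤ → ℂ) (Kf : ℝ → ℂ) (KSv : κ → ℂ)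
    (A s sep E L1 : ℝ) (F0 : ℕ) (W : ℕ → ℝ)
    (hA : 0 ≤ A) (hs : ∀ k, ‖Sh k‖ ≤ s) (hK : ∀ a, ‖Kf a‖ ≤ A * ((1 + |a|) ^ 3)⁻¹)
    (hsep : ∀ k0 ∈ K0, ∀ k0' ∈ K0, k0 ≠ k0' → sep ≤ |α k0 - α k0'|) (hF : 4 * (2 : ℝ) ^ F0 < sep)
    (hser : ∀ k0 ∈ K0, HasSum (fun k : ℤ => Kf (α k0 + (k : ℝ)) * Sh k) (KSv k0))
    (hE : Real.sqrt (∑ k0 ∈ K0, ‖D k0‖ ^ 2) ≤ E)
    (hW : ∀ (f : ℕ) (A' : Finset ℤ),
      ∑ k ∈ A'.filter (fun k : ℤ => ∃ k0 ∈ K0, |α k0 + (k : ℝ)| ≤ 2 * (2 : ℝ) ^ f), ‖Sh k‖ ^ 2 ≤ W f)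
    (hL1 : ∑ k0 ∈ K0, ‖D k0‖ ≤ L1) :
    ‖∑ k0 ∈ K0, D k0 * KSv k0‖
      ≤ 3 * A * E * (∑ f ∈ Finset.range (F0 + 1), ((2 : ℝ) ^ f)⁻¹ * Real.sqrt (W f))
        + 4 * A * ((2 : ℝ) ^ (F0 + 1))⁻¹ * s * L1 := by
  have hs0 : 0 ≤ s := (norm_nonneg _).trans (hs 0)
  have hsum : HasSum (fun k : ℤ => ∑ k0 ∈ K0, D k0 * (Kf (α k0 + (k : ℝ)) * Sh k)) (∑ k0 ∈ K0, D k0 * KSv k0) :=
    hasSum_sum fun k0 hk0 => (hser k0 hk0).mul_left (D k0)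
  refine s9_hasSum_norm_le hsum _ fun A' => ?_
  rw [Finset.sum_comm]
  simp only [← Finset.mul_sum]
  refine (s9_schur K0 α D Sh Kf A s sep F0 hA hs hK hsep hF A').trans ?_
  refine add_le_add ?_ ?_
  · have h1 : ∑ f ∈ Finset.range (F0 + 1), ((2 : ℝ) ^ f)⁻¹ *
        Real.sqrt (∑ k ∈ A'.filter (fun k : ℤ => ∃ k0 ∈ K0, |α k0 + (k : ℝ)| ≤ 2 * (2 : ℝ) ^ f), ‖Sh k‖ ^ 2)
        ≤ ∑ f ∈ Finset.range (F0 + 1), ((2 : ℝ) ^ f)⁻¹ * Real.sqrt (W f) :=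
      Finset.sum_le_sum fun f _ => mul_le_mul_of_nonneg_left (Real.sqrt_le_sqrt (hW f A')) (by positivity)
    have h2 : 0 ≤ ∑ f ∈ Finset.range (F0 + 1), ((2 : ℝ) ^ f)⁻¹ *
        Real.sqrt (∑ k ∈ A'.filter (fun k : ℤ => ∃ k0 ∈ K0, |α k0 + (k : ℝ)| ≤ 2 * (2 : ℝ) ^ f), ‖Sh k‖ ^ 2) :=
      Finset.sum_nonneg fun f _ => by positivity
    have hE0 : 0 ≤ E := (Real.sqrt_nonneg _).trans hE
    exact mul_le_mul (mul_le_mul_of_nonneg_left hE (by positivity)) h1 h2 (by positivity)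
  · exact mul_le_mul_of_nonneg_left hL1 (by positivity)


/-- abstract form of (FT3), case of a moderate reference -/
theorem s9_m3_abs {X : Type} [Fintype X] {d d' : ℕ} (co : X → ℂ) (N M : X → Fin d → ℤ)
    (kap : (Fin d → ℤ) →+ (Fin d' → ℤ)) (ξ : Fin d → ℝ) (Bx F0 : ℕ) (r Q T τ TT U0 s E Cfar Clip C4 : ℝ)
    (hr : 0 ≤ r) (hτ0 : 0 ≤ τ) (hτ1 : τ ≤ 1) (hU : 1 ≤ U0) (hTT : 8 * U0 ≤ TT) (hE : 0 ≤ E)
    (hF1 : (2 : ℝ) ^ F0 ≤ U0) (hF2 : U0 < (2 : ℝ) ^ (F0 + 1))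
    (hCfar : 0 ≤ Cfar) (hClip : 0 ≤ Clip) (hC4 : 0 ≤ C4)
    (hdich : S9DichK kap ξ (2 * Bx) r τ TT)
    (hbox : ∀ x, S9Box Bx (N x) ∧ S9Box Bx (M x))
    (KS Kh : ℝ → ℝ → ℂ) (Sh : ℤ → ℂ)
    (hser : ∀ a b, HasSum (fun k : ℤ => Kh (a + (k : ℝ)) b * Sh k) (KS a b))
    (hfar : ∀ a b, ‖KS a b‖ ≤ Cfar * (1 + |b|)⁻¹ * s)
    (hlip : ∀ a b a' b', |a - a'| ≤ 1 → ‖KS a b - KS a' b'‖ ≤ Clip * (|a - a'| + |b - b'|) * s)
    (hK4 : ∀ a b, ‖Kh a b‖ ≤ C4 * min 1 |b| * ((1 + |a| + |b|) ^ 4)⁻¹)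
    (hSh : ∀ k, ‖Sh k‖ ≤ s)
    (hD2 : ∀ (K0 : Finset (Fin d' → ℤ)) (k1 : Fin d' → ℤ),
      ∑ k0 ∈ K0, ‖∑ x, if kap (N x) = k0 ∧ kap (M x) = k1 then co x else 0‖ ^ 2 ≤ E ^ 2)
    (Win : ℕ → Finset ℤ)
    (hWin : ∀ (f : ℕ) (k : ℤ) (n : Fin d → ℤ), S9Box Bx n →
      |(k : ℝ) + r * (Q + s9dot n ξ)| ≤ 2 * (2 : ℝ) ^ f → k ∈ Win f)
    (m0 : Fin d → ℤ) (hm0 : S9Box Bx m0) (hmod : r * |T + s9dot m0 ξ| ≤ U0) :
    ‖∑ x, co x * KS (r * (Q + s9dot (N x) ξ)) (r * (T + s9dot (M x) ξ))‖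
      ≤ 3 * C4 * (min 1 |r * (T + s9dot m0 ξ)| * (max 1 |r * (T + s9dot m0 ξ)|)⁻¹) * E *
          (∑ f ∈ Finset.range (F0 + 1), ((2 : ℝ) ^ f)⁻¹ * Real.sqrt (∑ k ∈ Win f, ‖Sh k‖ ^ 2))
        + (2 * Clip * τ + 2 * Cfar * TT⁻¹ + 4 * C4 * U0⁻¹) * (∑ x, ‖co x‖) * s := by
  have hs0 : 0 ≤ s := (norm_nonneg _).trans (hSh 0)
  set β : ℝ := r * (T + s9dot m0 ξ) with hβ
  have hβU : |β| ≤ U0 := by rw [hβ, abs_mul, abs_of_nonneg hr]; exact hmod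
  set kb : ℝ := min 1 |β| * (max 1 |β|)⁻¹ with hkb
  have hkb0 : 0 ≤ kb := mul_nonneg (le_min zero_le_one (abs_nonneg _)) (by positivity)
  have hkb1 : kb ≤ 1 := by
    have h1 : min 1 |β| ≤ 1 := min_le_left _ _
    have h2 : (max 1 |β|)⁻¹ ≤ 1 := inv_le_one_of_one_le₀ (le_max_left _ _)
    calc kb ≤ 1 * 1 := mul_le_mul h1 h2 (by positivity) zero_le_one
      _ = 1 := one_mul 1
  have hTT0 : 0 < TT := by linarith
  set K0 : Finset (Fin d' → ℤ) := Finset.univ.image (fun x => kap (N x)) with hK0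
  have hex : ∀ k0 ∈ K0, ∃ n, S9Box Bx n ∧ kap n = k0 := by
    intro k0 hk0
    obtain ⟨x, -, hx⟩ := Finset.mem_image.1 hk0
    exact ⟨N x, (hbox x).1, hx⟩
  choose! nrep hrep using hex
  set α : (Fin d' → ℤ) → ℝ := fun k0 => r * (Q + s9dot (nrep k0) ξ) with hα
  set D : (Fin d' → ℤ) → ℂ := fun k0 => ∑ x, if kap (N x) = k0 ∧ kap (M x) = kap m0 then co x else 0 with hD
  have hmemK0 : ∀ x, kap (N x) ∈ K0 := fun x => Finset.mem_image.2 ⟨x, Finset.mem_univ _, rfl⟩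
  -- the main term, regrouped
  have hmain : ∑ k0 ∈ K0, D k0 * KS (α k0) β
      = ∑ x, if kap (M x) = kap m0 then co x * KS (α (kap (N x))) β else 0 := by
    simp only [hD, Finset.sum_mul]
    rw [Finset.sum_comm]
    refine Finset.sum_congr rfl fun x _ => ?_
    rw [Finset.sum_eq_single (kap (N x))]
    · by_cases hG : kap (M x) = kap m0
      · simp [hG]
      · simp [hG]
    · intro k0 _ hne
      rw [if_neg (fun h => hne h.1.symm), zero_mul]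
    · intro h
      exact absurd (hmemK0 x) h
  -- the errors
  have herr : ∀ x, ‖co x * KS (r * (Q + s9dot (N x) ξ)) (r * (T + s9dot (M x) ξ))
      - (if kap (M x) = kap m0 then co x * KS (α (kap (N x))) β else 0)‖
      ≤ ‖co x‖ * ((2 * Clip * τ + 2 * Cfar * TT⁻¹) * s) := by
    intro x
    by_cases hG : kap (M x) = kap m0
    · rw [if_pos hG, ← mul_sub, norm_mul]
      refine mul_le_mul_of_nonneg_left ?_ (norm_nonneg _)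
      have h1 : |r * (Q + s9dot (N x) ξ) - α (kap (N x))| ≤ τ :=
        (s9_m3_dich hr hdich (hbox x).1 (hrep _ (hmemK0 x)).1 Q).1 (hrep _ (hmemK0 x)).2.symm
      have h2 : |r * (T + s9dot (M x) ξ) - β| ≤ τ := (s9_m3_dich hr hdich (hbox x).2 hm0 T).1 hG
      refine (hlip _ _ _ _ (h1.trans hτ1)).trans ?_
      have h3 : Clip * (|r * (Q + s9dot (N x) ξ) - α (kap (N x))| + |r * (T + s9dot (M x) ξ) - β|) * s
          ≤ Clip * (τ + τ) * s := by gcongr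
      have h4 : 0 ≤ 2 * Cfar * TT⁻¹ * s := by positivity
      nlinarith
    · rw [if_neg hG, sub_zero, norm_mul]
      refine mul_le_mul_of_nonneg_left ?_ (norm_nonneg _)
      have h2 : TT ≤ |r * (T + s9dot (M x) ξ) - β| := (s9_m3_dich hr hdich (hbox x).2 hm0 T).2 hG
      have h3 : |r * (T + s9dot (M x) ξ) - β| ≤ |r * (T + s9dot (M x) ξ)| + |β| := abs_sub _ _
      have h4 : TT / 2 ≤ 1 + |r * (T + s9dot (M x) ξ)| := by linarith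
      have h5 : (1 + |r * (T + s9dot (M x) ξ)|)⁻¹ ≤ 2 * TT⁻¹ := by
        calc (1 + |r * (T + s9dot (M x) ξ)|)⁻¹ ≤ (TT / 2)⁻¹ := inv_anti₀ (by positivity) h4
          _ = 2 * TT⁻¹ := by rw [inv_div, div_eq_mul_inv]
      refine (hfar _ _).trans ?_
      have h6 : Cfar * (1 + |r * (T + s9dot (M x) ξ)|)⁻¹ * s ≤ Cfar * (2 * TT⁻¹) * s := by gcongr
      have h7 : 0 ≤ 2 * Clip * τ * s := by positivity
      nlinarith
  -- the bound of the main term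
  have hL1 : ∑ k0 ∈ K0, ‖D k0‖ ≤ ∑ x, ‖co x‖ := by
    calc ∑ k0 ∈ K0, ‖D k0‖
        ≤ ∑ k0 ∈ K0, ∑ x, (if kap (N x) = k0 then ‖co x‖ else 0) := by
          refine Finset.sum_le_sum fun k0 _ => (norm_sum_le _ _).trans (Finset.sum_le_sum fun x _ => ?_)
          by_cases h1 : kap (N x) = k0
          · by_cases h2 : kap (M x) = kap m0
            · simp [h1, h2]
            · simp [h1, h2]
          · simp [h1]
      _ = ∑ x, ∑ k0 ∈ K0, (if kap (N x) = k0 then ‖co x‖ else 0) := Finset.sum_comm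
      _ = ∑ x, ‖co x‖ := by
          refine Finset.sum_congr rfl fun x _ => ?_
          rw [Finset.sum_ite_eq, if_pos (hmemK0 x)]
  have hM := s9_m3_main K0 α D Sh (fun a => Kh a β) (fun k0 => KS (α k0) β) (C4 * kb) s TT E (∑ x, ‖co x‖) F0
    (fun f => ∑ k ∈ Win f, ‖Sh k‖ ^ 2) (by positivity) hSh
    (fun a => (hK4 a β).trans (s9_m3_kb C4 a β hC4))
    (fun k0 hk0 k0' hk0' hne => (s9_m3_dich hr hdich (hrep k0 hk0).1 (hrep k0' hk0').1 Q).2 (by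
      rw [(hrep k0 hk0).2, (hrep k0' hk0').2]; exact hne))
    (by linarith)
    (fun k0 _ => hser (α k0) β)
    (by
      calc Real.sqrt (∑ k0 ∈ K0, ‖D k0‖ ^ 2) ≤ Real.sqrt (E ^ 2) := Real.sqrt_le_sqrt (hD2 K0 (kap m0))
        _ = E := Real.sqrt_sq hE)
    (fun f A' => by
      refine Finset.sum_le_sum_of_subset_of_nonneg ?_ (fun _ _ _ => by positivity)
      intro k hk
      obtain ⟨-, k0, hk0, hle⟩ := Finset.mem_filter.1 hk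
      refine hWin f k (nrep k0) (hrep k0 hk0).1 ?_
      rw [add_comm]
      exact hle)
    hL1
  -- assembly
  have hsplit : ∑ x, co x * KS (r * (Q + s9dot (N x) ξ)) (r * (T + s9dot (M x) ξ))
      = ∑ k0 ∈ K0, D k0 * KS (α k0) β
        + ∑ x, (co x * KS (r * (Q + s9dot (N x) ξ)) (r * (T + s9dot (M x) ξ))
          - (if kap (M x) = kap m0 then co x * KS (α (kap (N x))) β else 0)) := by
    rw [hmain, Finset.sum_sub_distrib]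
    ring
  rw [hsplit]
  have hL0 : 0 ≤ ∑ x, ‖co x‖ := Finset.sum_nonneg fun _ _ => norm_nonneg _
  have herrsum : ‖∑ x, (co x * KS (r * (Q + s9dot (N x) ξ)) (r * (T + s9dot (M x) ξ))
          - (if kap (M x) = kap m0 then co x * KS (α (kap (N x))) β else 0))‖
      ≤ (2 * Clip * τ + 2 * Cfar * TT⁻¹) * (∑ x, ‖co x‖) * s := by
    refine (norm_sum_le _ _).trans ((Finset.sum_le_sum fun x _ => herr x).trans (le_of_eq ?_))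
    rw [← Finset.sum_mul]
    ring
  have hfar2 : 4 * (C4 * kb) * ((2 : ℝ) ^ (F0 + 1))⁻¹ * s * (∑ x, ‖co x‖)
      ≤ 4 * C4 * U0⁻¹ * (∑ x, ‖co x‖) * s := by
    have h1 : ((2 : ℝ) ^ (F0 + 1))⁻¹ ≤ U0⁻¹ := inv_anti₀ (by linarith) hF2.le
    have h2 : C4 * kb ≤ C4 := by nlinarith
    calc 4 * (C4 * kb) * ((2 : ℝ) ^ (F0 + 1))⁻¹ * s * (∑ x, ‖co x‖)
        ≤ 4 * C4 * U0⁻¹ * s * (∑ x, ‖co x‖) := by gcongr
      _ = 4 * C4 * U0⁻¹ * (∑ x, ‖co x‖) * s := by ring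
  refine (norm_add_le _ _).trans ?_
  have e1 : 3 * (C4 * kb) * E * (∑ f ∈ Finset.range (F0 + 1), ((2 : ℝ) ^ f)⁻¹ * Real.sqrt (∑ k ∈ Win f, ‖Sh k‖ ^ 2))
      = 3 * C4 * kb * E * (∑ f ∈ Finset.range (F0 + 1), ((2 : ℝ) ^ f)⁻¹ * Real.sqrt (∑ k ∈ Win f, ‖Sh k‖ ^ 2)) := by
    ring
  rw [e1] at hM
  linarith

/-- abstract form of (FT3), no moderate reference -/
theorem s9_m3_absB {X : Type} [Fintype X] (co : X → ℂ) (a b : X → ℝ) (U0 s Cfar : ℝ)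
    (hU : 1 ≤ U0) (hs0 : 0 ≤ s) (hCfar : 0 ≤ Cfar) (KS : ℝ → ℝ → ℂ)
    (hfar : ∀ a b, ‖KS a b‖ ≤ Cfar * (1 + |b|)⁻¹ * s) (hb : ∀ x, U0 < |b x|) :
    ‖∑ x, co x * KS (a x) (b x)‖ ≤ Cfar * U0⁻¹ * (∑ x, ‖co x‖) * s := by
  refine (norm_sum_le _ _).trans ?_
  calc ∑ x, ‖co x * KS (a x) (b x)‖ ≤ ∑ x, ‖co x‖ * (Cfar * U0⁻¹ * s) := by
        refine Finset.sum_le_sum fun x _ => ?_
        rw [norm_mul]
        refine mul_le_mul_of_nonneg_left ((hfar _ _).trans ?_) (norm_nonneg _)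
        have h1 : (1 + |b x|)⁻¹ ≤ U0⁻¹ := inv_anti₀ (by linarith) (by linarith [hb x])
        gcongr
    _ = Cfar * U0⁻¹ * (∑ x, ‖co x‖) * s := by rw [← Finset.sum_mul]; ring

/-- **(FT3)** the three-core model estimate, display (32) for one offset.  LEAF P-S9-MODEL3-C -/
theorem s9_ft3 (c0 C0 : ℝ) (hc0 : 0 < c0) (hC0 : 1 ≤ C0) : ∃ C : ℝ, 1 ≤ C ∧
    ∀ (d d' : ℕ) (I : Cell) (w : ℝ × ℝ → ℂ), Admissible c0 C0 I w → ∀ xs ∈ I.set, ∀ (l : Fin 4) (ξ : Fin d → ℝ)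
      (kap : (Fin d → ℤ) →+ (Fin d' → ℤ)) (Bx : ℕ) (τ TT U0 CR : ℝ) (F0 : ℕ), 0 ≤ τ → τ ≤ 1 → 1 ≤ U0 → 8 * U0 ≤ TT → 0 ≤ CR →
      (2 : ℝ) ^ F0 ≤ U0 → U0 < (2 : ℝ) ^ (F0 + 1) →
      S9DichK kap ξ (2 * Bx) I.len τ TT →
    ∀ (ιR : Type) [Fintype ιR] (ι : Fin 4 → Type) [∀ j, Fintype (ι j)]
      (nR mR : ιR → Fin d → ℤ) (cR : ιR → ℂ) (n : ∀ j, ι j → Fin d → ℤ) (c : ∀ j, ι j → ℂ),
      (∀ u v, ‖s9ev2 nR mR cR u v‖ ≤ CR) → (∀ i, n l i = 0) →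
      (∀ x : ιR × (∀ j, ι j), S9Box Bx (s9N nR n x) ∧ S9Box Bx (s9M l mR n x)) →
    ∀ (S : ℝ → ℂ), Measurable S → IntegrableOn (fun y => ‖S y‖ ^ 2) I.set →
    ∀ Q T : ℝ,
      (∀ m0 : Fin d → ℤ, S9Box Bx m0 → I.len * |T + s9dot m0 ξ| ≤ U0 →
        ‖s9MF3 I w xs l S ξ Q T nR mR cR n c‖
          ≤ C * (min 1 |I.len * (T + s9dot m0 ξ)| * (max 1 |I.len * (T + s9dot m0 ξ)|)⁻¹) * CR *
              (∏ j, Real.sqrt (s9nsq (fun i => kap (n j i)) (c j))) *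
              (∑ f ∈ Finset.range (F0 + 1), ((2 : ℝ) ^ f)⁻¹ * Real.sqrt (s9bsq I xs ξ Q Bx ((2 : ℝ) ^ f) S))
            + C * (τ + TT⁻¹ + U0⁻¹) * (s9l1 cR * ∏ j, s9l1 (c j)) * nnorm 2 I S) ∧
      ((¬ ∃ m0 : Fin d → ℤ, S9Box Bx m0 ∧ I.len * |T + s9dot m0 ξ| ≤ U0) →
        ‖s9MF3 I w xs l S ξ Q T nR mR cR n c‖ ≤ C * U0⁻¹ * (s9l1 cR * ∏ j, s9l1 (c j)) * nnorm 2 I S) := by
  obtain ⟨Cfar, hCfar, hfar⟩ := s9_KS_far c0 C0 hc0 hC0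
  obtain ⟨Clip, hClip, hlip⟩ := s9_KS_lip c0 C0 hc0 hC0
  obtain ⟨C4, hC4, hK4⟩ := s9_K_bound c0 C0 hc0 hC0 4
  refine ⟨4 * C4 + 2 * Clip + 2 * Cfar, by linarith, ?_⟩
  intro d d' I w hw xs hxs l ξ kap Bx τ TT U0 CR F0 hτ0 hτ1 hU hTT hCR hF1 hF2 hdich ιR _ ι _ nR mR cR n c hR hl
    hbox S hS hS2 Q T
  have hn := nnorm_nonneg 2 I S
  have hL : ∑ x, ‖s9co cR c x‖ = s9l1 cR * ∏ j, s9l1 (c j) := s9_co_l1 cR c
  have hL0 : 0 ≤ s9l1 cR * ∏ j, s9l1 (c j) := by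
    rw [← hL]; exact Finset.sum_nonneg fun _ _ => norm_nonneg _
  have hU0 : 0 < U0 := by linarith
  constructor
  · intro m0 hm0 hmod
    have hE2 : (CR * ∏ j, Real.sqrt (s9nsq (fun i => kap (n j i)) (c j))) ^ 2
        = CR ^ 2 * ∏ j, s9nsq (fun i => kap (n j i)) (c j) := by
      rw [mul_pow, ← Finset.prod_pow]
      congr 1
      exact Finset.prod_congr rfl fun j _ => Real.sq_sqrt (s9_nsq_nonneg _ _)
    have hP0 : 0 ≤ ∏ j, Real.sqrt (s9nsq (fun i => kap (n j i)) (c j)) :=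
      Finset.prod_nonneg fun _ _ => Real.sqrt_nonneg _
    have h := s9_m3_abs (s9co cR c) (s9N nR n) (s9M l mR n) kap ξ Bx F0 I.len Q T τ TT U0 (nnorm 2 I S)
      (CR * ∏ j, Real.sqrt (s9nsq (fun i => kap (n j i)) (c j))) Cfar Clip C4 (cell_len_nonneg I) hτ0 hτ1 hU hTT
      (by positivity) hF1 hF2 (by linarith) (by linarith) (by linarith) hdich hbox
      (s9KS I w xs l S) (s9K I w xs l) (s9fc I xs S)
      (fun a b => s9_KS_series hc0 hC0 hw xs l S hS hS2 a b)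
      (fun a b => hfar I w hw xs l S hS hS2 a b)
      (fun a b a' b' h => hlip I w hw xs hxs l S hS hS2 a b a' b' h)
      (fun a b => by
        have h1 := hK4 I w hw xs l l a b
        have e : (s9al l l : ℝ) = 0 := by unfold s9al; simp
        rw [e, zero_mul, sub_zero] at h1
        exact h1)
      (s9_fc_le I xs S hS hS2)
      (fun K0 k1 => by
        rw [hE2]
        exact s9_torus3_kap kap nR mR cR CR hCR hR n c l hl K0 k1)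
      (fun f => s9Win I ξ Q Bx ((2 : ℝ) ^ f))
      (fun f k n' hn' hle => s9_mem_Win.2 ⟨n', hn', hle⟩)
      m0 hm0 hmod
    rw [hL] at h
    unfold s9MF3
    refine h.trans ?_
    set kb : ℝ := min 1 |I.len * (T + s9dot m0 ξ)| * (max 1 |I.len * (T + s9dot m0 ξ)|)⁻¹ with hkb
    have hkb0 : 0 ≤ kb := mul_nonneg (le_min zero_le_one (abs_nonneg _)) (by positivity)
    have hSg0 : 0 ≤ ∑ f ∈ Finset.range (F0 + 1), ((2 : ℝ) ^ f)⁻¹ * Real.sqrt (s9bsq I xs ξ Q Bx ((2 : ℝ) ^ f) S) :=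
      Finset.sum_nonneg fun f _ => by positivity
    have hTT0 : 0 < TT := by linarith
    refine add_le_add ?_ ?_
    · have e1 : 3 * C4 * kb * (CR * ∏ j, Real.sqrt (s9nsq (fun i => kap (n j i)) (c j))) *
          (∑ f ∈ Finset.range (F0 + 1), ((2 : ℝ) ^ f)⁻¹ *
            Real.sqrt (∑ k ∈ s9Win I ξ Q Bx ((2 : ℝ) ^ f), ‖s9fc I xs S k‖ ^ 2))
          = 3 * C4 * (kb * CR * (∏ j, Real.sqrt (s9nsq (fun i => kap (n j i)) (c j))) *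
          (∑ f ∈ Finset.range (F0 + 1), ((2 : ℝ) ^ f)⁻¹ * Real.sqrt (s9bsq I xs ξ Q Bx ((2 : ℝ) ^ f) S))) := by
        unfold s9bsq
        ring
      rw [e1]
      have e2 : (4 * C4 + 2 * Clip + 2 * Cfar) * kb * CR * (∏ j, Real.sqrt (s9nsq (fun i => kap (n j i)) (c j))) *
          (∑ f ∈ Finset.range (F0 + 1), ((2 : ℝ) ^ f)⁻¹ * Real.sqrt (s9bsq I xs ξ Q Bx ((2 : ℝ) ^ f) S))
          = (4 * C4 + 2 * Clip + 2 * Cfar) * (kb * CR * (∏ j, Real.sqrt (s9nsq (fun i => kap (n j i)) (c j))) *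
          (∑ f ∈ Finset.range (F0 + 1), ((2 : ℝ) ^ f)⁻¹ * Real.sqrt (s9bsq I xs ξ Q Bx ((2 : ℝ) ^ f) S))) := by
        ring
      rw [e2]
      exact mul_le_mul_of_nonneg_right (by linarith) (by positivity)
    · refine mul_le_mul_of_nonneg_right (mul_le_mul_of_nonneg_right ?_ hL0) hn
      have h1 : 0 ≤ TT⁻¹ := by positivity
      have h2 : 0 ≤ U0⁻¹ := by positivity
      nlinarith
  · intro hno
    have h := s9_m3_absB (s9co cR c) (fun x => I.len * (Q + s9dot (s9N nR n x) ξ))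
      (fun x => I.len * (T + s9dot (s9M l mR n x) ξ)) U0 (nnorm 2 I S) Cfar hU hn (by linarith)
      (s9KS I w xs l S) (fun a b => hfar I w hw xs l S hS hS2 a b)
      (fun x => by
        by_contra hx
        refine hno ⟨s9M l mR n x, (hbox x).2, ?_⟩
        have := not_lt.1 hx
        rwa [abs_mul, abs_of_nonneg (cell_len_nonneg I)] at this)
    rw [hL] at h
    unfold s9MF3
    refine h.trans ?_
    refine mul_le_mul_of_nonneg_right (mul_le_mul_of_nonneg_right ?_ hL0) hn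
    exact mul_le_mul_of_nonneg_right (by linarith) (by positivity)

end Claimed.Agent.R258
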