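/-
Row 258 (S0498), Sec. 9.1-9.2 (counting.tex, displays (29), (30)).  HOME ARCHITECT: helper41.      FROM THE PHYSICAL ARGUMENTS TO THE MODEL FORMS.
S9/{Basic,Kernel,Model4,Model3}.lean (definitions + `s9_K_*` as black boxes), `nb_form_integrable` (S7nb/Form.lean, PROVED) for integrability.  NO paper needed.

`S9RoleD d` = the data of ONE role at ONE cell `I`, base point `x ∈ I`, height factor `H = 6^{h-10}` (`ξ = ϑ/H`):
  physical argument `A(y) = gau(y) E(y)`, `E(y) = ∑_{m ∈ Y} α_m e(λ_m y² + γ_m y)`, `a1 = ∑ |α_m|`;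
  `γs` = slope of the representative at `x`, `nm m` = integral shift of the mode `m`;  `(ιZ, nZ, cZ)` = trigonometric family of the cutoff `|gau|` on the `ϑ` torus.
  MODEL: the family `(fn H, fc ϑ x)` on `ι = ιZ × Y`:  `B(y) = e(γs (y-x)) ∑_i fc i e(fn i · ξ (y - x)) = Z(y) · e(γs (y-x)) T(y)`,
  `Z(y) = ∑ cZ e(nZ·ϑ y)`, `T(y) = ∑_m α_m e(λ_m x² + γ_m x) e(nm m·ξ (y-x))`.
ELEMENTARY FACTS: `‖ee s‖ = 1`, `‖ee s - ee s'‖ ≤ 2π |s - s'|`, `ee (s + s') = ee s * ee s'`;  `λ y² + γ y = (λ x² + γ x) + (2λx + γ)(y-x) + λ (y-x)²`;  `|y - x| ≤ r` for `x, y ∈ I`.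

PLANS (`t ≤ 1/100` is the common tiny bound).
* `close`:  `‖E(y) - e(γs(y-x)) T(y)‖ ≤ 4π t a1` termwise (`lin`, `curv`), `‖ |gau y| - Z(y)‖ ≤ t`, `‖E‖ ≤ a1`, `‖Z‖ ≤ 1 + t`:  total `≤ (t + 4π t (1+t)) a1 ≤ 14 t a1`.
* `s9_approx4`: on the support of `w` all `y_j = y + (j-l') t'` lie in `I` (`s9_K_supp`).  Pointwise
   `∏ A_j = ∏ gau_j ∏ E_j`,  `‖∏ gau_j - R ∏ |gau_j|‖ ≤ t` (M1),  `‖∏ (|gau_j| E_j) - ∏ B_j‖ ≤ 4 · 14 t (1 + 14 t)³ ∏ a1_j` (telescoping), `‖R‖ ≤ 2`: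
   `‖∏ A_j(y_j) - R ∏ B_j(y_j)‖ ≤ 200 t ∏ a1_j`;  `s9_K_int_le`;  both integrands are integrable;  `R ∏ B_j` is the exponential sum over the tuples
   (`Finset.prod_univ_sum`), whose integral is `s9MF` by `s9_K_sum`:  `nR·ϑ y = nR·ϑ x + (H nR)·ξ (y - x)`, `y_j - x = (y - x) + (j-l') t'`.
* `s9_approx3`: the same with the role `l` = dummy:  `|gS|² ∏_{j≠l} gau_j = conj(gS) · (gS ∏_{j≠l} gau_j)`, M1 for the four factors `(gS, gau_j)`;  `s9_K_int_leS`, `s9_KS_sum`.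
* `s9_nsq_avg`: expand both sides as double sums (`s9_nsq_eq`);  `κ n_i = κ n_i'`: `|⨍_I e(φ(y-x)) - 1| ≤ 2π r|φ| ≤ 2π τ`;  otherwise `|⨍_I e(φ (y-x))| ≤ 1/(π r |φ|) ≤ 1/(π 𝒯)`.
* `nsq_le`: `s9_nsq_avg` for the model family (`s9l1 (fc) = s9l1 cZ · a1 ≤ D a1`), `|∑ fc e(..)| = |B(y)| ≤ |A(y)| + 14 t a1`, `|A| ≤ a1`.
* `s9_orth_sum`: expand the square.
-/
import Claimed.Agent.R258.S9.Model3
import Claimed.Agent.R258.Pack014

set_option autoImplicit false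
open MeasureTheory

namespace Claimed.Agent.R258

open scoped BigOperators ComplexConjugate
open Classical

theorem s9a_dot_zero {d : ℕ} (ζ : Fin d → ℝ) : s9dot (0 : Fin d → ℤ) ζ = 0 := by
  simp [s9dot]

theorem s9a_dot_add {d : ℕ} (n m : Fin d → ℤ) (ζ : Fin d → ℝ) : s9dot (n + m) ζ = s9dot n ζ + s9dot m ζ := by
  unfold s9dot
  rw [← Finset.sum_add_distrib]
  refine Finset.sum_congr rfl fun i _ => ?_
  simp only [Pi.add_apply]
  push_cast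
  ring

theorem s9a_dot_sub {d : ℕ} (n m : Fin d → ℤ) (ζ : Fin d → ℝ) : s9dot (n - m) ζ = s9dot n ζ - s9dot m ζ := by
  unfold s9dot
  rw [← Finset.sum_sub_distrib]
  refine Finset.sum_congr rfl fun i _ => ?_
  simp only [Pi.sub_apply]
  push_cast
  ring

theorem s9a_dot_smul {d : ℕ} (a : ℤ) (n : Fin d → ℤ) (ζ : Fin d → ℝ) : s9dot (a • n) ζ = (a : ℝ) * s9dot n ζ := by
  unfold s9dot
  rw [Finset.mul_sum]
  refine Finset.sum_congr rfl fun i _ => ?_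
  simp only [Pi.smul_apply, smul_eq_mul]
  push_cast
  ring

theorem s9a_dot_sum {d : ℕ} {κ : Type*} (s : Finset κ) (n : κ → Fin d → ℤ) (ζ : Fin d → ℝ) :
    s9dot (∑ j ∈ s, n j) ζ = ∑ j ∈ s, s9dot (n j) ζ := by
  induction s using Finset.induction_on with
  | empty => simp [s9a_dot_zero]
  | insert a s ha ih => rw [Finset.sum_insert ha, Finset.sum_insert ha, s9a_dot_add, ih]

/-- scaling of the point -/
theorem s9a_dot_mul {d : ℕ} (n : Fin d → ℤ) (ζ : Fin d → ℝ) (y : ℝ) : s9dot n (fun k => ζ k * y) = s9dot n ζ * y := by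
  unfold s9dot
  rw [Finset.sum_mul]
  refine Finset.sum_congr rfl fun i _ => ?_
  ring

theorem s9a_dot_div {d : ℕ} (n : Fin d → ℤ) (ζ : Fin d → ℝ) (y : ℝ) : s9dot n (fun k => ζ k / y) = s9dot n ζ / y := by
  unfold s9dot
  rw [Finset.sum_div]
  refine Finset.sum_congr rfl fun i _ => ?_
  ring

theorem s9a_dot_add_pt {d : ℕ} (n : Fin d → ℤ) (ζ ζ' : Fin d → ℝ) :
    s9dot n (fun k => ζ k + ζ' k) = s9dot n ζ + s9dot n ζ' := by
  unfold s9dot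
  rw [← Finset.sum_add_distrib]
  refine Finset.sum_congr rfl fun i _ => ?_
  ring

/-- `(H n)·(ϑ/H) = n·ϑ` -/
theorem s9a_dot_H {d : ℕ} {H : ℕ} (hH : 0 < H) (n : Fin d → ℤ) (ϑ : Fin d → ℝ) :
    s9dot ((H : ℤ) • n) (fun k => ϑ k / (H : ℝ)) = s9dot n ϑ := by
  have hH' : (H : ℝ) ≠ 0 := by positivity
  rw [s9a_dot_smul, s9a_dot_div]
  push_cast
  field_simp

theorem s9a_box_add {d : ℕ} {B B' : ℕ} {n n' : Fin d → ℤ} (h : S9Box B n) (h' : S9Box B' n') : S9Box (B + B') (n + n') := by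
  intro i
  have := abs_add_le (n i) (n' i)
  have h1 := h i
  have h2 := h' i
  simp only [Pi.add_apply]
  push_cast
  linarith

theorem s9a_box_sub {d : ℕ} {B B' : ℕ} {n n' : Fin d → ℤ} (h : S9Box B n) (h' : S9Box B' n') : S9Box (B + B') (n - n') := by
  intro i
  have := abs_sub (n i) (n' i)
  have h1 := h i
  have h2 := h' i
  simp only [Pi.sub_apply]
  push_cast
  linarith

theorem s9a_box_smul {d : ℕ} {B : ℕ} {n : Fin d → ℤ} (h : S9Box B n) (a : ℤ) (A : ℕ) (ha : |a| ≤ (A : ℤ)) :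
    S9Box (A * B) (a • n) := by
  intro i
  simp only [Pi.smul_apply, smul_eq_mul]
  rw [abs_mul]
  push_cast
  exact mul_le_mul ha (h i) (abs_nonneg _) (by positivity)

theorem s9a_box_mono {d : ℕ} {B B' : ℕ} {n : Fin d → ℤ} (h : S9Box B n) (hB : B ≤ B') : S9Box B' n :=
  fun i => (h i).trans (by exact_mod_cast hB)

/-- the data of one role at one cell -/
structure S9RoleD (d : ℕ) where
  gau : ℝ → ℂ
  Y : Finset ℕ
  al : ℕ → ℂ
  lam : ℕ → ℝ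
  gam : ℕ → ℝ
  γs : ℝ
  nm : ℕ → Fin d → ℤ
  ιZ : Type
  fZ : Fintype ιZ
  nZ : ιZ → Fin d → ℤ
  cZ : ιZ → ℂ

attribute [instance] S9RoleD.fZ

namespace S9RoleD
variable {d : ℕ} (ro : S9RoleD d)

noncomputable def E (y : ℝ) : ℂ := ∑ m ∈ ro.Y, ro.al m * ee (ro.lam m * y ^ 2 + ro.gam m * y)
/-- the physical argument -/
noncomputable def A (y : ℝ) : ℂ := ro.gau y * ro.E y
noncomputable def a1 : ℝ := ∑ m ∈ ro.Y, ‖ro.al m‖
/-- index type of the model family -/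
abbrev ι : Type := ro.ιZ × {m // m ∈ ro.Y}
/-- frequencies of the model family on the `ξ = ϑ/H` torus -/
def fn (H : ℕ) (i : ro.ι) : Fin d → ℤ := (H : ℤ) • ro.nZ i.1 + ro.nm i.2.1
/-- coefficients of the model family -/
noncomputable def fc (ϑ : Fin d → ℝ) (x : ℝ) (i : ro.ι) : ℂ :=
  ro.cZ i.1 * ee (s9dot (ro.nZ i.1) ϑ * x) * (ro.al i.2.1 * ee (ro.lam i.2.1 * x ^ 2 + ro.gam i.2.1 * x))
/-- the model function -/
noncomputable def B (ϑ : Fin d → ℝ) (H : ℕ) (x y : ℝ) : ℂ :=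
  ee (ro.γs * (y - x)) * ∑ i : ro.ι, ro.fc ϑ x i * ee (s9dot (ro.fn H i) (fun k => ϑ k / (H : ℝ)) * (y - x))

/-- the hypotheses on one role -/
structure Ok (I : Cell) (x : ℝ) (ϑ : Fin d → ℝ) (H Bs Bn : ℕ) (D t : ℝ) : Prop where
  meas : Measurable ro.gau
  le1 : ∀ y, ‖ro.gau y‖ ≤ 1
  boxZ : ∀ i, S9Box Bs (ro.nZ i)
  l1Z : s9l1 ro.cZ ≤ D
  cut : ∀ y, ‖(‖ro.gau y‖ : ℂ) - ∑ i, ro.cZ i * ee (s9dot (ro.nZ i) ϑ * y)‖ ≤ t
  boxm : ∀ m ∈ ro.Y, S9Box Bn (ro.nm m)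
  lin : ∀ m ∈ ro.Y, I.len * |2 * ro.lam m * x + ro.gam m - ro.γs - s9dot (ro.nm m) ϑ / (H : ℝ)| ≤ t
  curv : ∀ m ∈ ro.Y, |ro.lam m| * I.len ^ 2 ≤ t

/-- the dummy role (side role of a three-core term): `A = B = 1`, one index, zero frequency, coefficient `1` -/
def dummy (d : ℕ) : S9RoleD d where
  gau := fun _ => 1
  Y := {0}
  al := fun _ => 1
  lam := fun _ => 0
  gam := fun _ => 0
  γs := 0
  nm := fun _ => 0
  ιZ := Unit
  fZ := inferInstance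
  nZ := fun _ => 0
  cZ := fun _ => 1

/-- LEAF P-S9-APPROX-A -/
theorem dummy_facts (d : ℕ) (ϑ : Fin d → ℝ) (H : ℕ) (x : ℝ) :
    (dummy d).a1 = 1 ∧ (∀ i, (dummy d).fn H i = 0) ∧ (∀ i, (dummy d).fc ϑ x i = 1) ∧ s9l1 ((dummy d).fc ϑ x) = 1 ∧
    ∀ (d' : ℕ) (kap : (Fin d → ℤ) →+ (Fin d' → ℤ)), s9nsq (fun i => kap ((dummy d).fn H i)) ((dummy d).fc ϑ x) = 1 := by
  have hi : ∀ i : (dummy d).ι, i = ((), ⟨0, Finset.mem_singleton_self 0⟩) := by
    rintro ⟨u, m, hm⟩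
    have hm' : m = 0 := Finset.mem_singleton.1 hm
    subst hm'
    rfl
  have hfn : ∀ i, (dummy d).fn H i = 0 := by
    intro i
    simp [fn, dummy]
  have hfc : ∀ i, (dummy d).fc ϑ x i = 1 := by
    intro i
    simp [fc, dummy, s9a_dot_zero, wy_ee_zero]
  have hsum : ∀ f : (dummy d).ι → ℂ, ∑ i, f i = f ((), ⟨0, Finset.mem_singleton_self 0⟩) := fun f =>
    Fintype.sum_eq_single _ (fun i hne => absurd (hi i) hne)
  have hsumR : ∀ f : (dummy d).ι → ℝ, ∑ i, f i = f ((), ⟨0, Finset.mem_singleton_self 0⟩) := fun f =>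
    Fintype.sum_eq_single _ (fun i hne => absurd (hi i) hne)
  refine ⟨by simp [a1, dummy], hfn, hfc, ?_, ?_⟩
  · unfold s9l1
    rw [hsumR, hfc, norm_one]
  · intro d' kap
    have e1 : (fun i => kap ((dummy d).fn H i)) = fun _ => 0 := by
      funext i
      rw [hfn, map_zero]
    unfold s9nsq
    rw [e1]
    have e2 : Finset.image (fun _ : (dummy d).ι => (0 : Fin d' → ℤ)) Finset.univ = {0} :=
      Finset.image_const ⟨((), ⟨0, Finset.mem_singleton_self 0⟩), Finset.mem_univ _⟩ 0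
    rw [e2, Finset.sum_singleton, Finset.filter_true_of_mem (fun _ _ => rfl), hsum, hfc]
    simp

variable {ro}

/-- LEAF P-S9-APPROX-A -/
theorem E_le (y : ℝ) : ‖ro.E y‖ ≤ ro.a1 := by
  unfold E a1
  refine (norm_sum_le _ _).trans (le_of_eq ?_)
  refine Finset.sum_congr rfl fun m _ => ?_
  rw [norm_mul, wy_ee_norm, mul_one]

/-- LEAF P-S9-APPROX-A -/
theorem l1_fc (ϑ : Fin d → ℝ) (x : ℝ) : s9l1 (ro.fc ϑ x) = s9l1 ro.cZ * ro.a1 := by
  unfold s9l1 a1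
  rw [Fintype.sum_prod_type, Finset.sum_mul_sum]
  refine Finset.sum_congr rfl fun i _ => ?_
  rw [← Finset.sum_coe_sort ro.Y (fun m => ‖ro.cZ i‖ * ‖ro.al m‖)]
  refine Finset.sum_congr rfl fun m _ => ?_
  unfold fc
  rw [norm_mul, norm_mul, norm_mul, wy_ee_norm, wy_ee_norm, mul_one, mul_one]

/-- LEAF P-S9-APPROX-A -/
theorem box_fn {I : Cell} {x : ℝ} {ϑ : Fin d → ℝ} {H Bs Bn : ℕ} {D t : ℝ} (h : ro.Ok I x ϑ H Bs Bn D t) (i : ro.ι) :
    S9Box (H * Bs + Bn) (ro.fn H i) := by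
  unfold fn
  exact s9a_box_add (s9a_box_smul (h.boxZ i.1) (H : ℤ) H (by simp)) (h.boxm i.2.1 i.2.2)

/-- factorization of the model function: `B = Z · T'` -/
theorem s9a_B_eq (ro : S9RoleD d) {H : ℕ} (hH : 0 < H) (ϑ : Fin d → ℝ) (x y : ℝ) :
    ro.B ϑ H x y = (∑ i, ro.cZ i * ee (s9dot (ro.nZ i) ϑ * y)) *
      ∑ m ∈ ro.Y, ro.al m * ee (ro.lam m * x ^ 2 + ro.gam m * x + (ro.γs + s9dot (ro.nm m) ϑ / (H : ℝ)) * (y - x)) := by
  unfold B
  rw [Fintype.sum_prod_type, Finset.sum_mul_sum, Finset.mul_sum]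
  refine Finset.sum_congr rfl fun i _ => ?_
  rw [← Finset.sum_coe_sort ro.Y, Finset.mul_sum]
  refine Finset.sum_congr rfl fun m _ => ?_
  have e0 : s9dot (ro.fn H (i, m)) (fun k => ϑ k / (H : ℝ)) = s9dot (ro.nZ i) ϑ + s9dot (ro.nm m.1) ϑ / (H : ℝ) := by
    unfold fn
    rw [s9a_dot_add, s9a_dot_H hH, s9a_dot_div]
  rw [e0]
  unfold fc
  have e1 : ee (ro.γs * (y - x)) * ee (s9dot (ro.nZ i) ϑ * x) * ee (ro.lam m.1 * x ^ 2 + ro.gam m.1 * x)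
      * ee ((s9dot (ro.nZ i) ϑ + s9dot (ro.nm m.1) ϑ / (H : ℝ)) * (y - x))
      = ee (s9dot (ro.nZ i) ϑ * y)
        * ee (ro.lam m.1 * x ^ 2 + ro.gam m.1 * x + (ro.γs + s9dot (ro.nm m.1) ϑ / (H : ℝ)) * (y - x)) := by
    rw [← wy_ee_add, ← wy_ee_add, ← wy_ee_add, ← wy_ee_add]
    congr 1
    ring
  linear_combination (ro.cZ i * ro.al m.1) * e1

theorem s9a_abs_sub_le {I : Cell} {x y : ℝ} (hx : x ∈ I.set) (hy : y ∈ I.set) : |y - x| ≤ I.len := by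
  have := cell_right_eq I
  rw [abs_le]
  constructor <;> linarith [hx.1, hx.2, hy.1, hy.2]

/-- **display (29)**: the model function is uniformly close to `|gau| E` on the cell.  LEAF P-S9-APPROX-A -/
theorem close {I : Cell} {x : ℝ} {ϑ : Fin d → ℝ} {H Bs Bn : ℕ} {D t : ℝ} (h : ro.Ok I x ϑ H Bs Bn D t) (hx : x ∈ I.set)
    (hH : 0 < H) (ht0 : 0 ≤ t) (ht : t ≤ 1 / 100) (y : ℝ) (hy : y ∈ I.set) :
    ‖(‖ro.gau y‖ : ℂ) * ro.E y - ro.B ϑ H x y‖ ≤ 14 * t * ro.a1 := by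
  rw [s9a_B_eq ro hH]
  set Z : ℂ := ∑ i, ro.cZ i * ee (s9dot (ro.nZ i) ϑ * y) with hZdef
  set T' : ℂ := ∑ m ∈ ro.Y, ro.al m * ee (ro.lam m * x ^ 2 + ro.gam m * x + (ro.γs + s9dot (ro.nm m) ϑ / (H : ℝ)) * (y - x))
    with hTdef
  have hpi := Real.pi_lt_d4
  have hpi0 := Real.pi_pos
  have hr := s9a_abs_sub_le hx hy
  have ha1 : 0 ≤ ro.a1 := Finset.sum_nonneg fun _ _ => norm_nonneg _
  have hZ : ‖(‖ro.gau y‖ : ℂ) - Z‖ ≤ t := h.cut y
  have hZn : ‖Z‖ ≤ 1 + t := by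
    have h1 : ‖Z‖ ≤ ‖(‖ro.gau y‖ : ℂ)‖ + ‖(‖ro.gau y‖ : ℂ) - Z‖ := by
      have := norm_sub_norm_le Z (‖ro.gau y‖ : ℂ)
      rw [norm_sub_rev] at this
      linarith
    have h2 : ‖(‖ro.gau y‖ : ℂ)‖ ≤ 1 := by
      rw [Complex.norm_real, norm_norm]
      exact h.le1 y
    linarith
  have hET : ‖ro.E y - T'‖ ≤ 4 * Real.pi * t * ro.a1 := by
    unfold E a1
    rw [hTdef, ← Finset.sum_sub_distrib, Finset.mul_sum]
    refine (norm_sum_le _ _).trans (Finset.sum_le_sum fun m hm => ?_)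
    rw [← mul_sub, norm_mul]
    have h1 := s9kr_ee_sub_le (ro.lam m * y ^ 2 + ro.gam m * y)
      (ro.lam m * x ^ 2 + ro.gam m * x + (ro.γs + s9dot (ro.nm m) ϑ / (H : ℝ)) * (y - x))
    have e : ro.lam m * y ^ 2 + ro.gam m * y
        - (ro.lam m * x ^ 2 + ro.gam m * x + (ro.γs + s9dot (ro.nm m) ϑ / (H : ℝ)) * (y - x))
        = (2 * ro.lam m * x + ro.gam m - ro.γs - s9dot (ro.nm m) ϑ / (H : ℝ)) * (y - x) + ro.lam m * (y - x) ^ 2 := by
      ring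
    rw [e] at h1
    have h2 : |(2 * ro.lam m * x + ro.gam m - ro.γs - s9dot (ro.nm m) ϑ / (H : ℝ)) * (y - x)| ≤ t := by
      rw [abs_mul]
      refine le_trans ?_ (h.lin m hm)
      rw [mul_comm]
      exact mul_le_mul_of_nonneg_right hr (abs_nonneg _)
    have h3 : |ro.lam m * (y - x) ^ 2| ≤ t := by
      rw [abs_mul, abs_pow]
      refine le_trans ?_ (h.curv m hm)
      exact mul_le_mul_of_nonneg_left (pow_le_pow_left₀ (abs_nonneg _) hr 2) (abs_nonneg _)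
    have h4 := abs_add_le ((2 * ro.lam m * x + ro.gam m - ro.γs - s9dot (ro.nm m) ϑ / (H : ℝ)) * (y - x))
      (ro.lam m * (y - x) ^ 2)
    have h5 : ‖ee (ro.lam m * y ^ 2 + ro.gam m * y)
        - ee (ro.lam m * x ^ 2 + ro.gam m * x + (ro.γs + s9dot (ro.nm m) ϑ / (H : ℝ)) * (y - x))‖ ≤ 4 * Real.pi * t := by
      refine h1.trans ?_
      have : 2 * Real.pi * |(2 * ro.lam m * x + ro.gam m - ro.γs - s9dot (ro.nm m) ϑ / (H : ℝ)) * (y - x)
          + ro.lam m * (y - x) ^ 2| ≤ 2 * Real.pi * (t + t) :=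
        mul_le_mul_of_nonneg_left (by linarith) (by positivity)
      linarith
    calc ‖ro.al m‖ * _ ≤ ‖ro.al m‖ * (4 * Real.pi * t) := mul_le_mul_of_nonneg_left h5 (norm_nonneg _)
      _ = 4 * Real.pi * t * ‖ro.al m‖ := by ring
  have e : (‖ro.gau y‖ : ℂ) * ro.E y - Z * T' = ((‖ro.gau y‖ : ℂ) - Z) * ro.E y + Z * (ro.E y - T') := by ring
  rw [e]
  refine (norm_add_le _ _).trans ?_
  rw [norm_mul, norm_mul]
  have b1 : ‖(‖ro.gau y‖ : ℂ) - Z‖ * ‖ro.E y‖ ≤ t * ro.a1 := mul_le_mul hZ (E_le y) (norm_nonneg _) ht0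
  have b2 : ‖Z‖ * ‖ro.E y - T'‖ ≤ (1 + t) * (4 * Real.pi * t * ro.a1) :=
    mul_le_mul hZn hET (norm_nonneg _) (by linarith)
  have b3 : (1 + t) * (4 * Real.pi * t * ro.a1) ≤ 13 * t * ro.a1 := by
    have c1 : (1 + t) * (4 * Real.pi) ≤ 13 := by nlinarith
    have c2 : 0 ≤ t * ro.a1 := mul_nonneg ht0 ha1
    calc (1 + t) * (4 * Real.pi * t * ro.a1) = ((1 + t) * (4 * Real.pi)) * (t * ro.a1) := by ring
      _ ≤ 13 * (t * ro.a1) := mul_le_mul_of_nonneg_right c1 c2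
      _ = 13 * t * ro.a1 := by ring
  linarith

end S9RoleD

/-- the shifted multiplier family on the `ξ = ϑ/H` torus keeps its supremum bound.  LEAF P-S9-APPROX-A -/
theorem s9_mult_shift {d : ℕ} {ιR : Type} [Fintype ιR] (nR mR : ιR → Fin d → ℤ) (cR : ιR → ℂ) (CR : ℝ)
    (hR : ∀ u v, ‖s9ev2 nR mR cR u v‖ ≤ CR) (H : ℕ) (ϑ : Fin d → ℝ) (x : ℝ) :
    (∀ u v, ‖s9ev2 (fun i => (H : ℤ) • nR i) (fun i => (H : ℤ) • mR i) (fun i => cR i * ee (s9dot (nR i) ϑ * x)) u v‖ ≤ CR) ∧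
    s9l1 (fun i => cR i * ee (s9dot (nR i) ϑ * x)) = s9l1 cR := by
  constructor
  · intro u v
    have e : s9ev2 (fun i => (H : ℤ) • nR i) (fun i => (H : ℤ) • mR i) (fun i => cR i * ee (s9dot (nR i) ϑ * x)) u v
        = s9ev2 nR mR cR (fun k => ϑ k * x + (H : ℝ) * u k) (fun k => (H : ℝ) * v k) := by
      unfold s9ev2
      refine Finset.sum_congr rfl fun i _ => ?_
      rw [mul_assoc, ← wy_ee_add]
      congr 2
      rw [s9a_dot_smul, s9a_dot_smul, s9a_dot_add_pt, s9a_dot_mul]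
      have e1 : s9dot (nR i) (fun k => (H : ℝ) * u k) = (H : ℝ) * s9dot (nR i) u := by
        unfold s9dot
        rw [Finset.mul_sum]
        exact Finset.sum_congr rfl fun k _ => by ring
      have e2 : s9dot (mR i) (fun k => (H : ℝ) * v k) = (H : ℝ) * s9dot (mR i) v := by
        unfold s9dot
        rw [Finset.mul_sum]
        exact Finset.sum_congr rfl fun k _ => by ring
      rw [e1, e2]
      push_cast
      ring
    rw [e]
    exact hR _ _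
  · unfold s9l1
    refine Finset.sum_congr rfl fun i _ => ?_
    rw [norm_mul, wy_ee_norm, mul_one]

/-- all total frequencies of the tuples lie in the box.  LEAF P-S9-APPROX-A -/
theorem s9_tuple_box {d : ℕ} {ιR : Type} [Fintype ιR] (nR mR : ιR → Fin d → ℤ) (H Bs Bn Bx : ℕ)
    (hR : ∀ i, S9Box Bs (nR i) ∧ S9Box Bs (mR i)) (Ro : Fin 4 → S9RoleD d)
    (hbox : ∀ j i, S9Box (H * Bs + Bn) ((Ro j).fn H i)) (hBx : 13 * (H * Bs) + 12 * Bn ≤ Bx) (l' : Fin 4)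
    (x : ιR × (∀ j, (Ro j).ι)) :
    S9Box Bx (s9N (fun i => (H : ℤ) • nR i) (fun j => (Ro j).fn H) x) ∧
    S9Box Bx (s9M l' (fun i => (H : ℤ) • mR i) (fun j => (Ro j).fn H) x) := by
  have hH : ∀ i, S9Box (H * Bs) ((H : ℤ) • nR i) ∧ S9Box (H * Bs) ((H : ℤ) • mR i) := fun i =>
    ⟨s9a_box_smul (hR i).1 (H : ℤ) H (by simp), s9a_box_smul (hR i).2 (H : ℤ) H (by simp)⟩
  have hal : ∀ j, |s9al l' j| ≤ ((3 : ℕ) : ℤ) := by
    intro j
    unfold s9al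
    have h1 := j.2
    have h2 := l'.2
    rw [abs_le]
    constructor <;> push_cast <;> omega
  constructor
  · unfold s9N
    rw [Fin.sum_univ_four]
    refine s9a_box_mono (s9a_box_add (hH x.1).1 (s9a_box_add (s9a_box_add (s9a_box_add (hbox 0 _) (hbox 1 _)) (hbox 2 _))
      (hbox 3 _))) ?_
    omega
  · unfold s9M
    rw [Fin.sum_univ_four]
    refine s9a_box_mono (s9a_box_add (hH x.1).2 (s9a_box_add (s9a_box_add (s9a_box_add
      (s9a_box_smul (hbox 0 _) _ 3 (hal 0)) (s9a_box_smul (hbox 1 _) _ 3 (hal 1)))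
      (s9a_box_smul (hbox 2 _) _ 3 (hal 2))) (s9a_box_smul (hbox 3 _) _ 3 (hal 3)))) ?_
    omega

theorem s9a_ee_sum {κ : Type*} (s : Finset κ) (a : κ → ℝ) : ∏ j ∈ s, ee (a j) = ee (∑ j ∈ s, a j) := by
  induction s using Finset.induction_on with
  | empty => simp [wy_ee_zero]
  | insert b s hb ih => rw [Finset.prod_insert hb, Finset.sum_insert hb, wy_ee_add, ih]

theorem s9a_mul4_le {x0 x1 x2 x3 : ℂ} {y0 y1 y2 y3 : ℝ} (h0 : ‖x0‖ ≤ y0) (h1 : ‖x1‖ ≤ y1) (h2 : ‖x2‖ ≤ y2)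
    (h3 : ‖x3‖ ≤ y3) : ‖x0 * x1 * x2 * x3‖ ≤ y0 * y1 * y2 * y3 := by
  have p0 := (norm_nonneg x0).trans h0
  have p1 := (norm_nonneg x1).trans h1
  have p2 := (norm_nonneg x2).trans h2
  rw [norm_mul, norm_mul, norm_mul]
  exact mul_le_mul (mul_le_mul (mul_le_mul h0 h1 (norm_nonneg _) p0) h2 (norm_nonneg _) (by positivity)) h3
    (norm_nonneg _) (by positivity)

/-- the pointwise estimate behind `s9_approx4`, `s9_approx3` -/
theorem s9a_pt (g e b : Fin 4 → ℂ) (R : ℂ) (a : Fin 4 → ℝ) (t : ℝ) (ht0 : 0 ≤ t) (ht : t ≤ 1 / 100)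
    (hg : ∀ j, ‖g j‖ ≤ 1) (he : ∀ j, ‖e j‖ ≤ a j) (hb : ∀ j, ‖(‖g j‖ : ℂ) * e j - b j‖ ≤ 14 * t * a j) (hR : ‖R‖ ≤ 2)
    (hM : ‖∏ j, g j - R * ∏ j, (‖g j‖ : ℂ)‖ ≤ t) :
    ‖∏ j, (g j * e j) - R * ∏ j, b j‖ ≤ 200 * t * ∏ j, a j := by
  have ha : ∀ j, 0 ≤ a j := fun j => (norm_nonneg _).trans (he j)
  have hu : ∀ j, ‖(‖g j‖ : ℂ) * e j‖ ≤ a j := by
    intro j
    rw [norm_mul, Complex.norm_real, norm_norm]
    calc ‖g j‖ * ‖e j‖ ≤ 1 * a j := mul_le_mul (hg j) (he j) (norm_nonneg _) zero_le_one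
      _ = a j := one_mul _
  have hbn : ∀ j, ‖b j‖ ≤ (1 + 14 * t) * a j := by
    intro j
    have h1 := norm_sub_norm_le (b j) ((‖g j‖ : ℂ) * e j)
    rw [norm_sub_rev] at h1
    have h2 := hu j
    have h3 := hb j
    linarith
  have e1 : ∏ j, (g j * e j) - R * ∏ j, b j
      = (∏ j, g j - R * ∏ j, (‖g j‖ : ℂ)) * ∏ j, e j + R * (∏ j, ((‖g j‖ : ℂ) * e j) - ∏ j, b j) := by
    rw [Finset.prod_mul_distrib, Finset.prod_mul_distrib]
    ring
  have e2 : ∏ j, ((‖g j‖ : ℂ) * e j) - ∏ j, b j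
      = ((‖g 0‖ : ℂ) * e 0 - b 0) * ((‖g 1‖ : ℂ) * e 1) * ((‖g 2‖ : ℂ) * e 2) * ((‖g 3‖ : ℂ) * e 3)
        + b 0 * ((‖g 1‖ : ℂ) * e 1 - b 1) * ((‖g 2‖ : ℂ) * e 2) * ((‖g 3‖ : ℂ) * e 3)
        + b 0 * b 1 * ((‖g 2‖ : ℂ) * e 2 - b 2) * ((‖g 3‖ : ℂ) * e 3)
        + b 0 * b 1 * b 2 * ((‖g 3‖ : ℂ) * e 3 - b 3) := by
    rw [Fin.prod_univ_four, Fin.prod_univ_four]
    ring
  have hP : ∏ j, a j = a 0 * a 1 * a 2 * a 3 := Fin.prod_univ_four _
  have hE : ‖∏ j, e j‖ ≤ ∏ j, a j := by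
    rw [Fin.prod_univ_four, hP]
    exact s9a_mul4_le (he 0) (he 1) (he 2) (he 3)
  have T1 := s9a_mul4_le (hb 0) (hu 1) (hu 2) (hu 3)
  have T2 := s9a_mul4_le (hbn 0) (hb 1) (hu 2) (hu 3)
  have T3 := s9a_mul4_le (hbn 0) (hbn 1) (hb 2) (hu 3)
  have T4 := s9a_mul4_le (hbn 0) (hbn 1) (hbn 2) (hb 3)
  have hP0 : 0 ≤ ∏ j, a j := Finset.prod_nonneg fun j _ => ha j
  have hD : ‖∏ j, ((‖g j‖ : ℂ) * e j) - ∏ j, b j‖
      ≤ 14 * t * (1 + (1 + 14 * t) + (1 + 14 * t) ^ 2 + (1 + 14 * t) ^ 3) * ∏ j, a j := by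
    rw [e2, hP]
    refine (norm_add_le _ _).trans ?_
    refine (add_le_add_left (norm_add_le _ _) _).trans ?_
    refine (add_le_add_left (add_le_add_left (norm_add_le _ _) _) _).trans ?_
    refine (add_le_add (add_le_add (add_le_add T1 T2) T3) T4).trans (le_of_eq ?_)
    ring
  have hq : 1 + (1 + 14 * t) + (1 + 14 * t) ^ 2 + (1 + 14 * t) ^ 3 ≤ 5 := by
    have hc : 1 + 14 * t ≤ 1.14 := by linarith
    have hc0 : 0 ≤ 1 + 14 * t := by linarith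
    have h2 := pow_le_pow_left₀ hc0 hc 2
    have h3 := pow_le_pow_left₀ hc0 hc 3
    norm_num at h2 h3 ⊢
    linarith
  have hD' : ‖∏ j, ((‖g j‖ : ℂ) * e j) - ∏ j, b j‖ ≤ 70 * t * ∏ j, a j := by
    refine hD.trans ?_
    have h0 : 0 ≤ 14 * t * ∏ j, a j := by positivity
    calc 14 * t * (1 + (1 + 14 * t) + (1 + 14 * t) ^ 2 + (1 + 14 * t) ^ 3) * ∏ j, a j
        = (1 + (1 + 14 * t) + (1 + 14 * t) ^ 2 + (1 + 14 * t) ^ 3) * (14 * t * ∏ j, a j) := by ring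
      _ ≤ 5 * (14 * t * ∏ j, a j) := mul_le_mul_of_nonneg_right hq h0
      _ = 70 * t * ∏ j, a j := by ring
  rw [e1]
  refine (norm_add_le _ _).trans ?_
  rw [norm_mul, norm_mul]
  have b1 : ‖∏ j, g j - R * ∏ j, (‖g j‖ : ℂ)‖ * ‖∏ j, e j‖ ≤ t * ∏ j, a j := mul_le_mul hM hE (norm_nonneg _) ht0
  have b2 : ‖R‖ * ‖∏ j, ((‖g j‖ : ℂ) * e j) - ∏ j, b j‖ ≤ 2 * (70 * t * ∏ j, a j) :=
    mul_le_mul hR hD' (norm_nonneg _) (by norm_num)
  have h0 : 0 ≤ t * ∏ j, a j := by positivity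
  linarith

/-- the exponential sum over the tuples is `R ∏ B_j` -/
theorem s9a_model_eq {d : ℕ} (Ro : Fin 4 → S9RoleD d) {H : ℕ} (hH : 0 < H) (ϑ : Fin d → ℝ) (x : ℝ) (l' : Fin 4)
    {ιR : Type} [Fintype ιR] (nR mR : ιR → Fin d → ℤ) (cR : ιR → ℂ) (y s : ℝ) :
    ∑ X : ιR × (∀ j, (Ro j).ι), s9co (fun i => cR i * ee (s9dot (nR i) ϑ * x)) (fun j => (Ro j).fc ϑ x) X *
      ee ((∑ j, (Ro j).γs + s9dot (s9N (fun i => (H : ℤ) • nR i) (fun j => (Ro j).fn H) X) (fun k => ϑ k / (H : ℝ))) * (y - x)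
        + (∑ j, (s9al l' j : ℝ) * (Ro j).γs
            + s9dot (s9M l' (fun i => (H : ℤ) • mR i) (fun j => (Ro j).fn H) X) (fun k => ϑ k / (H : ℝ))) * s)
    = (∑ i, cR i * ee (s9dot (nR i) ϑ * y + s9dot (mR i) ϑ * s)) * ∏ j, (Ro j).B ϑ H x (y + (s9al l' j : ℝ) * s) := by
  unfold S9RoleD.B
  rw [Finset.prod_mul_distrib, Finset.prod_univ_sum, Fintype.piFinset_univ, s9a_ee_sum, Fintype.sum_prod_type,
    Finset.mul_sum, Finset.sum_mul_sum]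
  refine Finset.sum_congr rfl fun i _ => Finset.sum_congr rfl fun q _ => ?_
  rw [Finset.prod_mul_distrib, s9a_ee_sum]
  unfold s9co
  simp only
  have key : ee (s9dot (nR i) ϑ * x) *
      ee ((∑ j, (Ro j).γs + s9dot (s9N (fun i => (H : ℤ) • nR i) (fun j => (Ro j).fn H) (i, q)) (fun k => ϑ k / (H : ℝ))) * (y - x)
        + (∑ j, (s9al l' j : ℝ) * (Ro j).γs
            + s9dot (s9M l' (fun i => (H : ℤ) • mR i) (fun j => (Ro j).fn H) (i, q)) (fun k => ϑ k / (H : ℝ))) * s)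
      = ee (s9dot (nR i) ϑ * y + s9dot (mR i) ϑ * s) * ee (∑ j, (Ro j).γs * (y + (s9al l' j : ℝ) * s - x))
        * ee (∑ j, s9dot ((Ro j).fn H (q j)) (fun k => ϑ k / (H : ℝ)) * (y + (s9al l' j : ℝ) * s - x)) := by
    rw [← wy_ee_add, ← wy_ee_add, ← wy_ee_add]
    congr 1
    unfold s9N s9M
    simp only
    rw [s9a_dot_add, s9a_dot_H hH, s9a_dot_sum, s9a_dot_add, s9a_dot_H hH, s9a_dot_sum]
    simp only [s9a_dot_smul, Fin.sum_univ_four]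
    ring
  linear_combination (cR i * ∏ j, (Ro j).fc ϑ x (q j)) * key

theorem s9a_a1_nonneg {d : ℕ} (ro : S9RoleD d) : 0 ≤ ro.a1 := Finset.sum_nonneg fun _ _ => norm_nonneg _

theorem s9a_E_continuous {d : ℕ} (ro : S9RoleD d) : Continuous ro.E :=
  continuous_finsetSum _ fun m _ => continuous_const.mul (wy_ee_continuous.comp (by fun_prop))

theorem s9a_A_ok {d : ℕ} {ro : S9RoleD d} (hm : Measurable ro.gau) (h1 : ∀ y, ‖ro.gau y‖ ≤ 1) (I : Cell) :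
    S5fOk I ro.A := by
  refine s5f_ok_of_bdd I (hm.mul (s9a_E_continuous ro).measurable) (B := ro.a1) fun y => ?_
  unfold S9RoleD.A
  rw [norm_mul]
  calc ‖ro.gau y‖ * ‖ro.E y‖ ≤ 1 * ro.a1 := mul_le_mul (h1 y) (S9RoleD.E_le y) (norm_nonneg _) zero_le_one
    _ = ro.a1 := one_mul _

theorem s9a_R_le {d : ℕ} {ιR : Type} [Fintype ιR] (nR mR : ιR → Fin d → ℤ) (cR : ιR → ℂ) {CR : ℝ}
    (hR : ∀ u v, ‖s9ev2 nR mR cR u v‖ ≤ CR) (ϑ : Fin d → ℝ) (y s : ℝ) :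
    ‖∑ i, cR i * ee (s9dot (nR i) ϑ * y + s9dot (mR i) ϑ * s)‖ ≤ CR := by
  have := hR (fun k => ϑ k * y) (fun k => ϑ k * s)
  unfold s9ev2 at this
  simpa only [s9a_dot_mul] using this

theorem s9a_G_continuous {X : Type} [Fintype X] (co : X → ℂ) (φ ψ : X → ℝ) (a x : ℝ) :
    Continuous (fun p : ℝ × ℝ => ∑ X, co X * ee (φ X * (p.1 + a * p.2 - x) + ψ X * p.2)) :=
  continuous_finsetSum _ fun m _ => continuous_const.mul (wy_ee_continuous.comp (by fun_prop))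

theorem s9a_wG_integrable {c0 C0 : ℝ} (hc0 : 0 < c0) {I : Cell} {w : ℝ × ℝ → ℂ} (hw : Admissible c0 C0 I w)
    {X : Type} [Fintype X] (co : X → ℂ) (φ ψ : X → ℝ) (a x : ℝ) :
    Integrable (fun p : ℝ × ℝ => w p * ∑ X, co X * ee (φ X * (p.1 + a * p.2 - x) + ψ X * p.2)) :=
  (hw.smooth.continuous.mul (s9a_G_continuous co φ ψ a x)).integrable_of_hasCompactSupport
    (s9kr_compactSupport hc0 hw).mul_right

theorem s9a_sub_eq (c : ℂ) (w F1 F2 : ℝ × ℝ → ℂ) (h1 : Integrable (fun p => w p * F1 p))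
    (h2 : Integrable (fun p => w p * F2 p)) :
    c * (∫ p, w p * F1 p) - c * (∫ p, w p * F2 p) = c * ∫ p, w p * (F1 p - F2 p) := by
  rw [← mul_sub, ← integral_sub h1 h2]
  simp only [mul_sub]

theorem s9a_pt_eq (l' j : Fin 4) (p : ℝ × ℝ) :
    p.1 + ((j : ℕ) : ℝ) * p.2 = p.1 + ((l' : ℕ) : ℝ) * p.2 + (s9al l' j : ℝ) * p.2 := by
  unfold s9al
  push_cast
  ring

/-- **four cores: the form is the model form up to a tiny error.**  LEAF P-S9-APPROX-B -/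
theorem s9_approx4 (c0 C0 : ℝ) (hc0 : 0 < c0) (hC0 : 1 ≤ C0) : ∃ C : ℝ, 1 ≤ C ∧
    ∀ (d : ℕ) (I : Cell) (w : ℝ × ℝ → ℂ), Admissible c0 C0 I w → ∀ x ∈ I.set, ∀ (l' : Fin 4) (ϑ : Fin d → ℝ)
      (H Bs Bn : ℕ) (D t : ℝ), 0 < H → 0 ≤ t → t ≤ 1 / 100 →
    ∀ (Ro : Fin 4 → S9RoleD d), (∀ j, (Ro j).Ok I x ϑ H Bs Bn D t) →
    ∀ (ιR : Type) [Fintype ιR] (nR mR : ιR → Fin d → ℤ) (cR : ιR → ℂ), (∀ u v, ‖s9ev2 nR mR cR u v‖ ≤ 2) →
      (∀ y s : ℝ, ‖∏ j, (Ro j).gau (y + (s9al l' j : ℝ) * s)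
        - (∑ i, cR i * ee (s9dot (nR i) ϑ * y + s9dot (mR i) ϑ * s)) * ∏ j, (‖(Ro j).gau (y + (s9al l' j : ℝ) * s)‖ : ℂ)‖ ≤ t) →
      ‖form I w (fun j => (Ro j).A)
        - s9MF I w x l' (fun k => ϑ k / (H : ℝ)) (∑ j, (Ro j).γs) (∑ j, (s9al l' j : ℝ) * (Ro j).γs)
            (fun i => (H : ℤ) • nR i) (fun i => (H : ℤ) • mR i) (fun i => cR i * ee (s9dot (nR i) ϑ * x))
            (fun j => (Ro j).fn H) (fun j => (Ro j).fc ϑ x)‖
        ≤ C * t * ∏ j, (Ro j).a1 := by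
  obtain ⟨C1, hC1, hK⟩ := s9_K_int_le c0 C0 hc0 hC0
  refine ⟨200 * C1, by linarith, ?_⟩
  intro d I w hw x hx l' ϑ H Bs Bn D t hH ht0 ht Ro hRo ιR _ nR mR cR hR hM
  have hMF := s9_K_sum hc0 hw x l'
    (s9co (fun i => cR i * ee (s9dot (nR i) ϑ * x)) (fun j => (Ro j).fc ϑ x))
    (fun X => ∑ j, (Ro j).γs + s9dot (s9N (fun i => (H : ℤ) • nR i) (fun j => (Ro j).fn H) X) (fun k => ϑ k / (H : ℝ)))
    (fun X => ∑ j, (s9al l' j : ℝ) * (Ro j).γs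
      + s9dot (s9M l' (fun i => (H : ℤ) • mR i) (fun j => (Ro j).fn H) X) (fun k => ϑ k / (H : ℝ)))
  have hi1 : Integrable (fun p : ℝ × ℝ => w p * ∏ j : Fin 4, (Ro j).A (p.1 + (j : ℝ) * p.2)) :=
    s5f_integrable hc0 hw (g := fun j => (Ro j).A) (fun j => s9a_A_ok (hRo j).meas (hRo j).le1 I)
  have hi2 := s9a_wG_integrable hc0 hw
    (s9co (fun i => cR i * ee (s9dot (nR i) ϑ * x)) (fun j => (Ro j).fc ϑ x))
    (fun X => ∑ j, (Ro j).γs + s9dot (s9N (fun i => (H : ℤ) • nR i) (fun j => (Ro j).fn H) X) (fun k => ϑ k / (H : ℝ)))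
    (fun X => ∑ j, (s9al l' j : ℝ) * (Ro j).γs
      + s9dot (s9M l' (fun i => (H : ℤ) • mR i) (fun j => (Ro j).fn H) X) (fun k => ϑ k / (H : ℝ)))
    ((l' : ℕ) : ℝ) x
  unfold s9MF form
  rw [← hMF, s9a_sub_eq _ w _ _ hi1 hi2]
  refine (hK I w hw _ (200 * t * ∏ j, (Ro j).a1)
    (mul_nonneg (by positivity) (Finset.prod_nonneg fun j _ => s9a_a1_nonneg _)) ?_).trans (le_of_eq (by ring))
  intro p hp
  rw [s9a_model_eq Ro hH ϑ x l' nR mR cR (p.1 + ((l' : ℕ) : ℝ) * p.2) p.2]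
  have e1 : ∏ j : Fin 4, (Ro j).A (p.1 + ((j : ℕ) : ℝ) * p.2)
      = ∏ j : Fin 4, ((Ro j).gau (p.1 + ((l' : ℕ) : ℝ) * p.2 + (s9al l' j : ℝ) * p.2)
          * (Ro j).E (p.1 + ((l' : ℕ) : ℝ) * p.2 + (s9al l' j : ℝ) * p.2)) :=
    Finset.prod_congr rfl fun j _ => by rw [s9a_pt_eq l' j p]; rfl
  rw [e1]
  exact s9a_pt (fun j => (Ro j).gau (p.1 + ((l' : ℕ) : ℝ) * p.2 + (s9al l' j : ℝ) * p.2))
    (fun j => (Ro j).E (p.1 + ((l' : ℕ) : ℝ) * p.2 + (s9al l' j : ℝ) * p.2))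
    (fun j => (Ro j).B ϑ H x (p.1 + ((l' : ℕ) : ℝ) * p.2 + (s9al l' j : ℝ) * p.2)) _ (fun j => (Ro j).a1) t ht0 ht
    (fun j => (hRo j).le1 _) (fun j => S9RoleD.E_le _)
    (fun j => S9RoleD.close (hRo j) hx hH ht0 ht _ (s9_K_supp hc0 hw p hp l' j))
    (s9a_R_le nR mR cR hR ϑ _ _) (hM _ _)

theorem s9a_prod_factor (l : Fin 4) (f1 f2 : Fin 4 → ℂ) (c : ℂ) (hl : f1 l = c * f2 l)
    (h : ∀ j, j ≠ l → f1 j = f2 j) : ∏ j, f1 j = c * ∏ j, f2 j := by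
  rw [← Finset.mul_prod_erase Finset.univ f1 (Finset.mem_univ l), ← Finset.mul_prod_erase Finset.univ f2 (Finset.mem_univ l),
    hl, Finset.prod_congr rfl (fun j hj => h j (Finset.ne_of_mem_erase hj))]
  ring

theorem s9a_dummy_B (d : ℕ) {H : ℕ} (hH : 0 < H) (ϑ : Fin d → ℝ) (x y : ℝ) : (S9RoleD.dummy d).B ϑ H x y = 1 := by
  rw [S9RoleD.s9a_B_eq _ hH]
  simp [S9RoleD.dummy, s9a_dot_zero, wy_ee_zero]
  rfl

theorem s9a_al_self (l : Fin 4) : s9al l l = 0 := by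
  unfold s9al
  ring

/-- **three cores.**  `gS` = a fresh gauge factor of the side role `l`, `σ` = a square integrable function; the side argument is `|gS|² σ`.
LEAF P-S9-APPROX-C -/
theorem s9_approx3 (c0 C0 : ℝ) (hc0 : 0 < c0) (hC0 : 1 ≤ C0) : ∃ C : ℝ, 1 ≤ C ∧
    ∀ (d : ℕ) (I : Cell) (w : ℝ × ℝ → ℂ), Admissible c0 C0 I w → ∀ x ∈ I.set, ∀ (l : Fin 4) (ϑ : Fin d → ℝ)
      (H Bs Bn : ℕ) (D t : ℝ), 0 < H → 0 ≤ t → t ≤ 1 / 100 →
    ∀ (Ro : Fin 4 → S9RoleD d), Ro l = S9RoleD.dummy d → (∀ j, j ≠ l → (Ro j).Ok I x ϑ H Bs Bn D t) →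
    ∀ (gS σ : ℝ → ℂ), Measurable gS → (∀ y, ‖gS y‖ ≤ 1) → Measurable σ → IntegrableOn (fun y => ‖σ y‖ ^ 2) I.set →
    ∀ (ιR : Type) [Fintype ιR] (nR mR : ιR → Fin d → ℤ) (cR : ιR → ℂ), (∀ u v, ‖s9ev2 nR mR cR u v‖ ≤ 2) →
      (∀ y s : ℝ, ‖∏ j, (if j = l then gS else (Ro j).gau) (y + (s9al l j : ℝ) * s)
        - (∑ i, cR i * ee (s9dot (nR i) ϑ * y + s9dot (mR i) ϑ * s)) *
            ∏ j, (‖(if j = l then gS else (Ro j).gau) (y + (s9al l j : ℝ) * s)‖ : ℂ)‖ ≤ t) →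
      ‖form I w (fun j => if j = l then (fun y => ((‖gS y‖ ^ 2 : ℝ) : ℂ) * σ y) else (Ro j).A)
        - s9MF3 I w x l (fun y => conj (gS y) * (‖gS y‖ : ℂ) * σ y) (fun k => ϑ k / (H : ℝ))
            (∑ j, (Ro j).γs) (∑ j, (s9al l j : ℝ) * (Ro j).γs)
            (fun i => (H : ℤ) • nR i) (fun i => (H : ℤ) • mR i) (fun i => cR i * ee (s9dot (nR i) ϑ * x))
            (fun j => (Ro j).fn H) (fun j => (Ro j).fc ϑ x)‖
        ≤ C * t * (∏ j, (Ro j).a1) * nnorm 2 I σ := by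
  obtain ⟨C1, hC1, hK⟩ := s9_K_int_leS c0 C0 hc0 hC0
  refine ⟨200 * C1, by linarith, ?_⟩
  intro d I w hw x hx l ϑ H Bs Bn D t hH ht0 ht Ro hl hRo gS σ hgS hgS1 hσ hσ2 ιR _ nR mR cR hR hM
  have hSm : Measurable (fun y => conj (gS y) * (‖gS y‖ : ℂ) * σ y) :=
    ((Complex.continuous_conj.measurable.comp hgS).mul (Complex.measurable_ofReal.comp hgS.norm)).mul hσ
  have hSle : ∀ y, ‖conj (gS y) * (‖gS y‖ : ℂ) * σ y‖ ≤ ‖σ y‖ := by
    intro y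
    rw [norm_mul, norm_mul, RCLike.norm_conj, Complex.norm_real, norm_norm]
    have h1 := hgS1 y
    have h0 := norm_nonneg (gS y)
    have h2 : ‖gS y‖ * ‖gS y‖ ≤ 1 := by nlinarith
    calc ‖gS y‖ * ‖gS y‖ * ‖σ y‖ ≤ 1 * ‖σ y‖ := mul_le_mul_of_nonneg_right h2 (norm_nonneg _)
      _ = ‖σ y‖ := one_mul _
  have hS2 : IntegrableOn (fun y => ‖conj (gS y) * (‖gS y‖ : ℂ) * σ y‖ ^ 2) I.set := by
    refine Integrable.mono' hσ2 (hSm.norm.pow_const 2).aestronglyMeasurable (Filter.Eventually.of_forall fun y => ?_)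
    rw [Real.norm_of_nonneg (by positivity)]
    exact pow_le_pow_left₀ (norm_nonneg _) (hSle y) 2
  have hzm : Measurable (fun y => ((‖gS y‖ ^ 2 : ℝ) : ℂ) * σ y) :=
    (Complex.measurable_ofReal.comp (hgS.norm.pow_const 2)).mul hσ
  have hz2 : IntegrableOn (fun y => ‖((‖gS y‖ ^ 2 : ℝ) : ℂ) * σ y‖ ^ 2) I.set := by
    refine Integrable.mono' hσ2 (hzm.norm.pow_const 2).aestronglyMeasurable (Filter.Eventually.of_forall fun y => ?_)
    rw [Real.norm_of_nonneg (by positivity)]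
    refine pow_le_pow_left₀ (norm_nonneg _) ?_ 2
    rw [norm_mul, Complex.norm_real, Real.norm_of_nonneg (by positivity)]
    have h1 := hgS1 y
    have h0 := norm_nonneg (gS y)
    have h2 : ‖gS y‖ ^ 2 ≤ 1 := by nlinarith
    calc ‖gS y‖ ^ 2 * ‖σ y‖ ≤ 1 * ‖σ y‖ := mul_le_mul_of_nonneg_right h2 (norm_nonneg _)
      _ = ‖σ y‖ := one_mul _
  have hMF := s9_KS_sum hc0 hC0 hw x l (fun y => conj (gS y) * (‖gS y‖ : ℂ) * σ y) hSm hS2
    (s9co (fun i => cR i * ee (s9dot (nR i) ϑ * x)) (fun j => (Ro j).fc ϑ x))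
    (fun X => ∑ j, (Ro j).γs + s9dot (s9N (fun i => (H : ℤ) • nR i) (fun j => (Ro j).fn H) X) (fun k => ϑ k / (H : ℝ)))
    (fun X => ∑ j, (s9al l j : ℝ) * (Ro j).γs
      + s9dot (s9M l (fun i => (H : ℤ) • mR i) (fun j => (Ro j).fn H) X) (fun k => ϑ k / (H : ℝ)))
  have hi1 : Integrable (fun p : ℝ × ℝ => w p * ∏ j : Fin 4,
      (fun j => if j = l then (fun y => ((‖gS y‖ ^ 2 : ℝ) : ℂ) * σ y) else (Ro j).A) j (p.1 + (j : ℝ) * p.2)) := by
    refine s5f_integrable hc0 hw (fun j => ?_)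
    by_cases hj : j = l
    · simp only [hj, if_true]
      exact ⟨hzm, hz2⟩
    · simp only [hj, if_false]
      exact s9a_A_ok (hRo j hj).meas (hRo j hj).le1 I
  have hi2 : Integrable (fun p : ℝ × ℝ => w p * ((fun y => conj (gS y) * (‖gS y‖ : ℂ) * σ y) (p.1 + ((l : ℕ) : ℝ) * p.2) *
      ∑ X, (s9co (fun i => cR i * ee (s9dot (nR i) ϑ * x)) (fun j => (Ro j).fc ϑ x)) X *
        ee ((∑ j, (Ro j).γs + s9dot (s9N (fun i => (H : ℤ) • nR i) (fun j => (Ro j).fn H) X) (fun k => ϑ k / (H : ℝ)))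
            * (p.1 + ((l : ℕ) : ℝ) * p.2 - x)
          + (∑ j, (s9al l j : ℝ) * (Ro j).γs
            + s9dot (s9M l (fun i => (H : ℤ) • mR i) (fun j => (Ro j).fn H) X) (fun k => ϑ k / (H : ℝ))) * p.2))) := by
    have h0 := s9kr_wS_integrable hc0 hw l hSm hS2
    have h1 := h0.mul_bdd (c := ∑ X, ‖(s9co (fun i => cR i * ee (s9dot (nR i) ϑ * x)) (fun j => (Ro j).fc ϑ x)) X‖)
      (s9a_G_continuous (s9co (fun i => cR i * ee (s9dot (nR i) ϑ * x)) (fun j => (Ro j).fc ϑ x))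
        (fun X => ∑ j, (Ro j).γs + s9dot (s9N (fun i => (H : ℤ) • nR i) (fun j => (Ro j).fn H) X) (fun k => ϑ k / (H : ℝ)))
        (fun X => ∑ j, (s9al l j : ℝ) * (Ro j).γs
          + s9dot (s9M l (fun i => (H : ℤ) • mR i) (fun j => (Ro j).fn H) X) (fun k => ϑ k / (H : ℝ)))
        ((l : ℕ) : ℝ) x).aestronglyMeasurable
      (Filter.Eventually.of_forall fun p => by
        refine (norm_sum_le _ _).trans (le_of_eq (Finset.sum_congr rfl fun X _ => ?_))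
        rw [norm_mul, wy_ee_norm, mul_one])
    refine h1.congr (Filter.Eventually.of_forall fun p => ?_)
    simp only [mul_assoc]
  unfold s9MF3 form
  rw [← hMF, s9a_sub_eq _ w _ _ hi1 hi2]
  refine ((hK I w hw l σ hσ hσ2).2 _ (200 * t * ∏ j, (Ro j).a1)
    (mul_nonneg (by positivity) (Finset.prod_nonneg fun j _ => s9a_a1_nonneg _)) ?_).trans (le_of_eq (by ring))
  intro p hp
  rw [s9a_model_eq Ro hH ϑ x l nR mR cR (p.1 + ((l : ℕ) : ℝ) * p.2) p.2]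
  set y : ℝ := p.1 + ((l : ℕ) : ℝ) * p.2 with hy
  set s : ℝ := p.2 with hs
  have hyl : y + (s9al l l : ℝ) * s = y := by rw [s9a_al_self]; simp
  have ha1l : (Ro l).a1 = 1 := by rw [hl]; exact (S9RoleD.dummy_facts d ϑ H x).1
  have key := s9a_pt (fun j => (if j = l then gS else (Ro j).gau) (y + (s9al l j : ℝ) * s))
    (fun j => if j = l then 1 else (Ro j).E (y + (s9al l j : ℝ) * s))
    (fun j => if j = l then (‖gS y‖ : ℂ) else (Ro j).B ϑ H x (y + (s9al l j : ℝ) * s))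
    (∑ i, cR i * ee (s9dot (nR i) ϑ * y + s9dot (mR i) ϑ * s)) (fun j => (Ro j).a1) t ht0 ht
    (fun j => by
      by_cases hj : j = l
      · simp only [hj, if_true]; exact hgS1 _
      · simp only [hj, if_false]; exact (hRo j hj).le1 _)
    (fun j => by
      by_cases hj : j = l
      · simp only [hj, if_true, ha1l, norm_one, le_refl]
      · simp only [hj, if_false]; exact S9RoleD.E_le _)
    (fun j => by
      by_cases hj : j = l
      · simp only [hj, if_true, hyl, mul_one, sub_self, norm_zero, ha1l]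
        positivity
      · simp only [hj, if_false]
        exact S9RoleD.close (hRo j hj) hx hH ht0 ht _ (s9_K_supp hc0 hw p hp l j))
    (s9a_R_le nR mR cR hR ϑ _ _) (hM _ _)
  have c1 : ∏ j : Fin 4, (fun j => if j = l then (fun y => ((‖gS y‖ ^ 2 : ℝ) : ℂ) * σ y) else (Ro j).A) j
        (p.1 + ((j : ℕ) : ℝ) * p.2)
      = (conj (gS y) * σ y) * ∏ j : Fin 4, ((if j = l then gS else (Ro j).gau) (y + (s9al l j : ℝ) * s)
          * (if j = l then 1 else (Ro j).E (y + (s9al l j : ℝ) * s))) := by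
    refine s9a_prod_factor l _ _ _ ?_ ?_
    · simp only [if_true, hyl, mul_one]
      rw [← hy]
      have : ((‖gS y‖ ^ 2 : ℝ) : ℂ) = conj (gS y) * gS y := by
        rw [mul_comm, Complex.mul_conj, Complex.normSq_eq_norm_sq]
      rw [this]
      ring
    · intro j hj
      simp only [hj, if_false]
      rw [s9a_pt_eq l j p]
      rfl
  have c2 : ∏ j : Fin 4, (if j = l then (‖gS y‖ : ℂ) else (Ro j).B ϑ H x (y + (s9al l j : ℝ) * s))
      = (‖gS y‖ : ℂ) * ∏ j : Fin 4, (Ro j).B ϑ H x (y + (s9al l j : ℝ) * s) := by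
    refine s9a_prod_factor l _ _ _ ?_ ?_
    · simp only [if_true]
      rw [hl, s9a_dummy_B d hH, mul_one]
    · intro j hj
      simp only [hj, if_false]
  rw [c2] at key
  rw [c1]
  have e : conj (gS y) * σ y * ∏ j : Fin 4, ((if j = l then gS else (Ro j).gau) (y + (s9al l j : ℝ) * s)
          * (if j = l then 1 else (Ro j).E (y + (s9al l j : ℝ) * s)))
      - (fun y => conj (gS y) * (‖gS y‖ : ℂ) * σ y) y * ((∑ i, cR i * ee (s9dot (nR i) ϑ * y + s9dot (mR i) ϑ * s))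
          * ∏ j : Fin 4, (Ro j).B ϑ H x (y + (s9al l j : ℝ) * s))
      = conj (gS y) * σ y * (∏ j : Fin 4, ((if j = l then gS else (Ro j).gau) (y + (s9al l j : ℝ) * s)
          * (if j = l then 1 else (Ro j).E (y + (s9al l j : ℝ) * s)))
        - (∑ i, cR i * ee (s9dot (nR i) ϑ * y + s9dot (mR i) ϑ * s))
          * ((‖gS y‖ : ℂ) * ∏ j : Fin 4, (Ro j).B ϑ H x (y + (s9al l j : ℝ) * s))) := by
    simp only
    ring
  rw [e, norm_mul, norm_mul, RCLike.norm_conj]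
  calc ‖gS y‖ * ‖σ y‖ * _ ≤ 1 * ‖σ y‖ * (200 * t * ∏ j, (Ro j).a1) :=
        mul_le_mul (mul_le_mul_of_nonneg_right (hgS1 y) (norm_nonneg _)) key (norm_nonneg _)
          (by have := norm_nonneg (σ y); linarith)
    _ = 200 * t * (∏ j, (Ro j).a1) * ‖σ y‖ := by ring

/-- normalized average of an exponential over the cell -/
noncomputable def s9aAv (I : Cell) (x φ : ℝ) : ℂ := ((I.len⁻¹ : ℝ) : ℂ) * ∫ y in I.set, ee (φ * (y - x))

theorem s9a_lin_continuous (φ x : ℝ) : Continuous (fun y : ℝ => ee (φ * (y - x))) :=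
  wy_ee_continuous.comp (by fun_prop)

theorem s9a_intOn_of_bdd (I : Cell) {f : ℝ → ℂ} (hm : Measurable f) {B : ℝ} (hb : ∀ y, ‖f y‖ ≤ B) :
    IntegrableOn f I.set :=
  Measure.integrableOn_of_bounded (M := B) (cell_volume_ne_top I) hm.aestronglyMeasurable
    (Filter.Eventually.of_forall hb)

theorem s9a_lin_intOn (I : Cell) (φ x : ℝ) : IntegrableOn (fun y : ℝ => ee (φ * (y - x))) I.set :=
  s9a_intOn_of_bdd I (s9a_lin_continuous φ x).measurable (B := 1) (fun y => (wy_ee_norm _).le)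

theorem s9a_av_sub_one (I : Cell) {x : ℝ} (hx : x ∈ I.set) (φ : ℝ) :
    ‖s9aAv I x φ - 1‖ ≤ 2 * Real.pi * (I.len * |φ|) := by
  have hl := cell_len_pos I
  have hvol : volume.real I.set = I.len := cell_volume_real I
  have h1 : (1 : ℂ) = ((I.len⁻¹ : ℝ) : ℂ) * ∫ _ in I.set, (1 : ℂ) := by
    rw [setIntegral_const, hvol]
    simp only [Complex.real_smul, mul_one]
    rw [← Complex.ofReal_mul, inv_mul_cancel₀ hl.ne', Complex.ofReal_one]
  have h2 : s9aAv I x φ - 1 = ((I.len⁻¹ : ℝ) : ℂ) * ∫ y in I.set, (ee (φ * (y - x)) - 1) := by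
    rw [integral_sub (s9a_lin_intOn I φ x) (s9a_intOn_of_bdd I measurable_const (B := 1) (fun _ => by simp)), mul_sub,
      ← h1]
    rfl
  rw [h2, norm_mul, Complex.norm_real, Real.norm_of_nonneg (by positivity)]
  have h3 : ‖∫ y in I.set, (ee (φ * (y - x)) - 1)‖ ≤ (2 * Real.pi * (|φ| * I.len)) * volume.real I.set := by
    refine norm_setIntegral_le_of_norm_le_const (lt_top_iff_ne_top.2 (cell_volume_ne_top I)) (fun y hy => ?_)
    refine (wy_ee_sub_one _).trans ?_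
    rw [abs_mul]
    exact mul_le_mul_of_nonneg_left (mul_le_mul_of_nonneg_left (S9RoleD.s9a_abs_sub_le hx hy) (abs_nonneg _))
      (by positivity)
  rw [hvol] at h3
  calc I.len⁻¹ * ‖∫ y in I.set, (ee (φ * (y - x)) - 1)‖ ≤ I.len⁻¹ * ((2 * Real.pi * (|φ| * I.len)) * I.len) :=
        mul_le_mul_of_nonneg_left h3 (by positivity)
    _ = 2 * Real.pi * (I.len * |φ|) := by field_simp

theorem s9a_av_le (I : Cell) (x φ : ℝ) (hφ : φ ≠ 0) : ‖s9aAv I x φ‖ ≤ (Real.pi * (I.len * |φ|))⁻¹ := by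
  have hl := cell_len_pos I
  have hpi := Real.pi_pos
  have hφ' : 0 < |φ| := abs_pos.2 hφ
  have hder : ∀ y ∈ Set.uIcc I.left I.right, HasDerivAt (fun y : ℝ => ee (φ * (y - x)))
      (φ • (2 * Real.pi * Complex.I * ee (φ * (y - x)))) y := by
    intro y _
    have hlin : HasDerivAt (fun y : ℝ => φ * (y - x)) φ y := by
      simpa using ((hasDerivAt_id y).sub_const x).const_mul φ
    exact HasDerivAt.scomp (g₁ := ee) (h := fun y : ℝ => φ * (y - x)) y (s9kr_ee_hasDerivAt _) hlin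
  have hint : IntervalIntegrable (fun y : ℝ => φ • (2 * Real.pi * Complex.I * ee (φ * (y - x)))) volume I.left I.right :=
    ((continuous_const.mul (s9a_lin_continuous φ x)).const_smul φ).intervalIntegrable _ _
  have h := intervalIntegral.integral_eq_sub_of_hasDerivAt hder hint
  have e1 : ∫ y in I.set, ee (φ * (y - x)) = ∫ y in I.left..I.right, ee (φ * (y - x)) := by
    rw [intervalIntegral.integral_of_le (cell_left_lt_right I).le]
    exact integral_Ico_eq_integral_Ioc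
  have e2 : ((φ : ℂ) * (2 * Real.pi * Complex.I)) * ∫ y in I.left..I.right, ee (φ * (y - x))
      = ee (φ * (I.right - x)) - ee (φ * (I.left - x)) := by
    rw [← h, ← intervalIntegral.integral_const_mul]
    congr 1
    funext y
    rw [Complex.real_smul]
    ring
  have e3 : ‖(φ : ℂ) * (2 * Real.pi * Complex.I)‖ = 2 * Real.pi * |φ| := by
    rw [norm_mul, norm_mul, norm_mul, Complex.norm_real, Complex.norm_I, Complex.norm_real, Real.norm_eq_abs,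
      Real.norm_of_nonneg hpi.le]
    simp
    ring
  have e4 : 2 * Real.pi * |φ| * ‖∫ y in I.left..I.right, ee (φ * (y - x))‖ ≤ 2 := by
    rw [← e3, ← norm_mul, e2]
    refine (norm_sub_le _ _).trans ?_
    rw [wy_ee_norm, wy_ee_norm]
    norm_num
  unfold s9aAv
  rw [e1, norm_mul, Complex.norm_real, Real.norm_of_nonneg (by positivity)]
  have e5 : ‖∫ y in I.left..I.right, ee (φ * (y - x))‖ ≤ (Real.pi * |φ|)⁻¹ := by
    rw [← one_div, le_div_iff₀ (by positivity)]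
    linarith
  calc I.len⁻¹ * ‖∫ y in I.left..I.right, ee (φ * (y - x))‖ ≤ I.len⁻¹ * (Real.pi * |φ|)⁻¹ :=
        mul_le_mul_of_nonneg_left e5 (by positivity)
    _ = (Real.pi * (I.len * |φ|))⁻¹ := by
        rw [← mul_inv]
        congr 1
        ring

/-- **torus norm versus average over the cell** (paragraph before (30)).  LEAF P-S9-APPROX-D -/
theorem s9_nsq_avg {d d' : ℕ} (I : Cell) (x : ℝ) (hx : x ∈ I.set) (ξ : Fin d → ℝ) (kap : (Fin d → ℤ) →+ (Fin d' → ℤ))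
    (B : ℕ) (τ TT : ℝ) (hτ : 0 ≤ τ) (hTT : 0 < TT) (hd : S9DichK kap ξ B I.len τ TT)
    {ι : Type} [Fintype ι] (n : ι → Fin d → ℤ) (c : ι → ℂ) (hdiff : ∀ i i', S9Box B (n i - n i')) :
    |s9nsq (fun i => kap (n i)) c - I.len⁻¹ * ∫ y in I.set, ‖∑ i, c i * ee (s9dot (n i) ξ * (y - x))‖ ^ 2|
      ≤ (2 * Real.pi * τ + (Real.pi * TT)⁻¹) * s9l1 c ^ 2 := by
  have hl := cell_len_pos I
  have hpi := Real.pi_pos
  have hexp : ∀ y : ℝ, ((‖∑ i, c i * ee (s9dot (n i) ξ * (y - x))‖ ^ 2 : ℝ) : ℂ)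
      = ∑ i, ∑ i', c i * conj (c i') * ee (s9dot (n i - n i') ξ * (y - x)) := by
    intro y
    rw [← Complex.normSq_eq_norm_sq, ← Complex.mul_conj, map_sum, Finset.sum_mul_sum]
    refine Finset.sum_congr rfl fun i _ => Finset.sum_congr rfl fun i' _ => ?_
    rw [map_mul, ← wy_ee_neg_conj, s9a_dot_sub]
    have : ee ((s9dot (n i) ξ - s9dot (n i') ξ) * (y - x))
        = ee (s9dot (n i) ξ * (y - x)) * ee (-(s9dot (n i') ξ * (y - x))) := by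
      rw [← wy_ee_add]
      congr 1
      ring
    rw [this]
    ring
  have hA : ((I.len⁻¹ * ∫ y in I.set, ‖∑ i, c i * ee (s9dot (n i) ξ * (y - x))‖ ^ 2 : ℝ) : ℂ)
      = ∑ i, ∑ i', c i * conj (c i') * s9aAv I x (s9dot (n i - n i') ξ) := by
    rw [Complex.ofReal_mul, ← integral_complex_ofReal]
    simp only [hexp]
    rw [integral_finsetSum _ (fun i _ => integrable_finsetSum _ (fun i' _ => (s9a_lin_intOn I _ x).const_mul _)),
      Finset.mul_sum]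
    refine Finset.sum_congr rfl fun i _ => ?_
    rw [integral_finsetSum _ (fun i' _ => (s9a_lin_intOn I _ x).const_mul _), Finset.mul_sum]
    refine Finset.sum_congr rfl fun i' _ => ?_
    rw [integral_const_mul]
    unfold s9aAv
    ring
  rw [← Real.norm_eq_abs, ← Complex.norm_real, Complex.ofReal_sub, hA, s9_nsq_eq, ← Finset.sum_sub_distrib]
  have hterm : ∀ i i', ‖(if kap (n i) = kap (n i') then c i * conj (c i') else 0)
      - c i * conj (c i') * s9aAv I x (s9dot (n i - n i') ξ)‖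
        ≤ (2 * Real.pi * τ + (Real.pi * TT)⁻¹) * (‖c i‖ * ‖c i'‖) := by
    intro i i'
    have hcc : 0 ≤ ‖c i‖ * ‖c i'‖ := by positivity
    have hT0 : 0 ≤ (Real.pi * TT)⁻¹ := by positivity
    by_cases hk : kap (n i) = kap (n i')
    · have hk0 : kap (n i - n i') = 0 := by rw [map_sub, hk, sub_self]
      have h1 := (hd _ (hdiff i i')).1 hk0
      have h2 := s9a_av_sub_one I hx (s9dot (n i - n i') ξ)
      rw [if_pos hk]
      have e : c i * conj (c i') - c i * conj (c i') * s9aAv I x (s9dot (n i - n i') ξ)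
          = -(c i * conj (c i') * (s9aAv I x (s9dot (n i - n i') ξ) - 1)) := by ring
      rw [e, norm_neg, norm_mul, norm_mul, RCLike.norm_conj, mul_comm]
      refine mul_le_mul_of_nonneg_right ?_ hcc
      have h3 : 2 * Real.pi * (I.len * |s9dot (n i - n i') ξ|) ≤ 2 * Real.pi * τ :=
        mul_le_mul_of_nonneg_left h1 (by positivity)
      linarith
    · have hk0 : kap (n i - n i') ≠ 0 := by
        rw [map_sub]
        exact sub_ne_zero.2 hk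
      have h1 := (hd _ (hdiff i i')).2 hk0
      have hφ : s9dot (n i - n i') ξ ≠ 0 := by
        intro h0
        rw [h0, abs_zero, mul_zero] at h1
        linarith
      have h2 := s9a_av_le I x _ hφ
      rw [if_neg hk, zero_sub, norm_neg, norm_mul, norm_mul, RCLike.norm_conj, mul_comm]
      refine mul_le_mul_of_nonneg_right ?_ hcc
      have h3 : (Real.pi * (I.len * |s9dot (n i - n i') ξ|))⁻¹ ≤ (Real.pi * TT)⁻¹ :=
        inv_anti₀ (by positivity) (mul_le_mul_of_nonneg_left h1 hpi.le)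
      have h4 : 0 ≤ 2 * Real.pi * τ := by positivity
      linarith
  calc _ ≤ ∑ i, ∑ i', (2 * Real.pi * τ + (Real.pi * TT)⁻¹) * (‖c i‖ * ‖c i'‖) := by
        refine (norm_sum_le _ _).trans (Finset.sum_le_sum fun i _ => ?_)
        rw [← Finset.sum_sub_distrib]
        exact (norm_sum_le _ _).trans (Finset.sum_le_sum fun i' _ => hterm i i')
    _ = (2 * Real.pi * τ + (Real.pi * TT)⁻¹) * s9l1 c ^ 2 := by
        unfold s9l1
        rw [sq, Finset.sum_mul_sum, Finset.mul_sum]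
        refine Finset.sum_congr rfl fun i _ => ?_
        rw [Finset.mul_sum]

/-- **first half of (30)**: the torus norm of the model family is bounded by the physical norm.  LEAF P-S9-APPROX-D -/
theorem S9RoleD.nsq_le {d d' : ℕ} {ro : S9RoleD d} {I : Cell} {x : ℝ} {ϑ : Fin d → ℝ} {H Bs Bn : ℕ} {D t : ℝ}
    (h : ro.Ok I x ϑ H Bs Bn D t) (hx : x ∈ I.set) (hH : 0 < H) (ht0 : 0 ≤ t) (ht : t ≤ 1 / 100) (hD : 0 ≤ D)
    (kap : (Fin d → ℤ) →+ (Fin d' → ℤ)) (B : ℕ) (τ TT : ℝ) (hτ : 0 ≤ τ) (hTT : 0 < TT)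
    (hd : S9DichK kap (fun k => ϑ k / (H : ℝ)) B I.len τ TT) (hB : 2 * (H * Bs + Bn) ≤ B) :
    s9nsq (fun i => kap (ro.fn H i)) (ro.fc ϑ x) ≤ nnorm 2 I ro.A ^ 2 + (7 * D ^ 2 * (τ + TT⁻¹) + 30 * t) * ro.a1 ^ 2 := by
  have hl := cell_len_pos I
  have hpi := Real.pi_gt_three
  have hpi' := Real.pi_lt_d2
  have ha1 := s9a_a1_nonneg ro
  have h1 := s9_nsq_avg I x hx (fun k => ϑ k / (H : ℝ)) kap B τ TT hτ hTT hd (ro.fn H) (ro.fc ϑ x)
    (fun i i' => s9a_box_mono (s9a_box_sub (S9RoleD.box_fn h i) (S9RoleD.box_fn h i')) (by omega))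
  have h2 := (abs_le.1 h1).2
  have hl1 : s9l1 (ro.fc ϑ x) ^ 2 ≤ D ^ 2 * ro.a1 ^ 2 := by
    rw [S9RoleD.l1_fc, mul_pow]
    refine mul_le_mul_of_nonneg_right (pow_le_pow_left₀ ?_ h.l1Z 2) (by positivity)
    exact Finset.sum_nonneg fun _ _ => norm_nonneg _
  have hK : 2 * Real.pi * τ + (Real.pi * TT)⁻¹ ≤ 7 * (τ + TT⁻¹) := by
    have hT : 0 ≤ TT⁻¹ := by positivity
    have e1 : (Real.pi * TT)⁻¹ ≤ TT⁻¹ := by
      refine inv_anti₀ hTT ?_
      nlinarith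
    nlinarith
  have hK0 : 0 ≤ 2 * Real.pi * τ + (Real.pi * TT)⁻¹ := by positivity
  have hpt : ∀ y ∈ I.set, ‖∑ i, ro.fc ϑ x i * ee (s9dot (ro.fn H i) (fun k => ϑ k / (H : ℝ)) * (y - x))‖ ^ 2
      ≤ ‖ro.A y‖ ^ 2 + 30 * t * ro.a1 ^ 2 := by
    intro y hy
    have c1 := S9RoleD.close h hx hH ht0 ht y hy
    have c2 : ‖∑ i, ro.fc ϑ x i * ee (s9dot (ro.fn H i) (fun k => ϑ k / (H : ℝ)) * (y - x))‖ = ‖ro.B ϑ H x y‖ := by
      unfold S9RoleD.B
      rw [norm_mul, wy_ee_norm, one_mul]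
    have c3 : ‖(‖ro.gau y‖ : ℂ) * ro.E y‖ = ‖ro.A y‖ := by
      unfold S9RoleD.A
      rw [norm_mul, norm_mul, Complex.norm_real, norm_norm]
    have c4 : ‖ro.B ϑ H x y‖ ≤ ‖ro.A y‖ + 14 * t * ro.a1 := by
      have := norm_sub_norm_le (ro.B ϑ H x y) ((‖ro.gau y‖ : ℂ) * ro.E y)
      rw [norm_sub_rev, c3] at this
      linarith
    have c5 : ‖ro.A y‖ ≤ ro.a1 := by
      unfold S9RoleD.A
      rw [norm_mul]
      calc ‖ro.gau y‖ * ‖ro.E y‖ ≤ 1 * ro.a1 := mul_le_mul (h.le1 y) (S9RoleD.E_le y) (norm_nonneg _) zero_le_one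
        _ = ro.a1 := one_mul _
    rw [c2]
    have c6 := pow_le_pow_left₀ (norm_nonneg _) c4 2
    have c7 : 0 ≤ ‖ro.A y‖ := norm_nonneg _
    have c8 : t * ro.a1 * ‖ro.A y‖ ≤ t * ro.a1 * ro.a1 := mul_le_mul_of_nonneg_left c5 (by positivity)
    have c9 : t * t * ro.a1 ^ 2 ≤ 1 / 100 * t * ro.a1 ^ 2 := by
      have : t * t ≤ 1 / 100 * t := mul_le_mul_of_nonneg_right ht ht0
      exact mul_le_mul_of_nonneg_right this (by positivity)
    nlinarith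
  have hcont : Continuous (fun y : ℝ => ‖∑ i, ro.fc ϑ x i * ee (s9dot (ro.fn H i) (fun k => ϑ k / (H : ℝ)) * (y - x))‖ ^ 2) :=
    ((continuous_finsetSum _ fun i _ => continuous_const.mul (s9a_lin_continuous _ x)).norm).pow 2
  have hi1 : IntegrableOn (fun y : ℝ => ‖∑ i, ro.fc ϑ x i * ee (s9dot (ro.fn H i) (fun k => ϑ k / (H : ℝ)) * (y - x))‖ ^ 2)
      I.set := (hcont.integrableOn_Icc (a := I.left) (b := I.right)).mono_set Set.Ico_subset_Icc_self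
  have hi2 : IntegrableOn (fun y : ℝ => ‖ro.A y‖ ^ 2) I.set := (s9a_A_ok h.meas h.le1 I).2
  have hi3 : IntegrableOn (fun _ : ℝ => 30 * t * ro.a1 ^ 2) I.set :=
    integrableOn_const (cell_volume_ne_top I)
  have hint : ∫ y in I.set, ‖∑ i, ro.fc ϑ x i * ee (s9dot (ro.fn H i) (fun k => ϑ k / (H : ℝ)) * (y - x))‖ ^ 2
      ≤ (∫ y in I.set, ‖ro.A y‖ ^ 2) + I.len * (30 * t * ro.a1 ^ 2) := by
    rw [← cell_integral_const, ← integral_add hi2 hi3]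
    exact setIntegral_mono_on hi1 (hi2.add hi3) (cell_measurableSet I) hpt
  have havg : I.len⁻¹ * ∫ y in I.set, ‖∑ i, ro.fc ϑ x i * ee (s9dot (ro.fn H i) (fun k => ϑ k / (H : ℝ)) * (y - x))‖ ^ 2
      ≤ nnorm 2 I ro.A ^ 2 + 30 * t * ro.a1 ^ 2 := by
    rw [s9_nnorm_sq]
    calc _ ≤ I.len⁻¹ * ((∫ y in I.set, ‖ro.A y‖ ^ 2) + I.len * (30 * t * ro.a1 ^ 2)) :=
          mul_le_mul_of_nonneg_left hint (by positivity)
      _ = _ := by field_simp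
  have hfin : (2 * Real.pi * τ + (Real.pi * TT)⁻¹) * s9l1 (ro.fc ϑ x) ^ 2 ≤ 7 * D ^ 2 * (τ + TT⁻¹) * ro.a1 ^ 2 := by
    calc _ ≤ (2 * Real.pi * τ + (Real.pi * TT)⁻¹) * (D ^ 2 * ro.a1 ^ 2) := mul_le_mul_of_nonneg_left hl1 hK0
      _ ≤ (7 * (τ + TT⁻¹)) * (D ^ 2 * ro.a1 ^ 2) := mul_le_mul_of_nonneg_right hK (by positivity)
      _ = _ := by ring
  linarith

/-- **second half of (30)**: almost orthogonal pieces.  LEAF P-S9-APPROX-D -/
theorem s9_orth_sum (I : Cell) {κ : Type} (X : Finset κ) (A : κ → ℝ → ℂ) (c : κ → ℝ) (τ : ℝ) (hτ : 0 ≤ τ)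
    (hm : ∀ D ∈ X, Measurable (A D)) (hb : ∀ D ∈ X, ∀ y, ‖A D y‖ ≤ c D)
    (ho : ∀ D ∈ X, ∀ D' ∈ X, D ≠ D' → ‖((I.len⁻¹ : ℝ) : ℂ) * ∫ y in I.set, A D y * conj (A D' y)‖ ≤ τ * (c D * c D')) :
    nnorm 2 I (fun y => ∑ D ∈ X, A D y) ^ 2 ≤ ∑ D ∈ X, nnorm 2 I (A D) ^ 2 + τ * (∑ D ∈ X, c D) ^ 2 := by
  have hl := cell_len_pos I
  have hc0 : ∀ D ∈ X, 0 ≤ c D := fun D hD => (norm_nonneg _).trans (hb D hD 0)
  have hint : ∀ D ∈ X, ∀ D' ∈ X, IntegrableOn (fun y => A D y * conj (A D' y)) I.set := by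
    intro D hD D' hD'
    refine s9a_intOn_of_bdd I ((hm D hD).mul (Complex.continuous_conj.measurable.comp (hm D' hD'))) (B := c D * c D')
      (fun y => ?_)
    rw [norm_mul, RCLike.norm_conj]
    exact mul_le_mul (hb D hD y) (hb D' hD' y) (norm_nonneg _) (hc0 D hD)
  have hexp : ∀ y : ℝ, ((‖∑ D ∈ X, A D y‖ ^ 2 : ℝ) : ℂ) = ∑ D ∈ X, ∑ D' ∈ X, A D y * conj (A D' y) := by
    intro y
    rw [← Complex.normSq_eq_norm_sq, ← Complex.mul_conj, map_sum, Finset.sum_mul_sum]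
  have hT : ((nnorm 2 I (fun y => ∑ D ∈ X, A D y) ^ 2 : ℝ) : ℂ)
      = ∑ D ∈ X, ∑ D' ∈ X, ((I.len⁻¹ : ℝ) : ℂ) * ∫ y in I.set, A D y * conj (A D' y) := by
    rw [s9_nnorm_sq, Complex.ofReal_mul, ← integral_complex_ofReal]
    simp only [hexp]
    rw [integral_finsetSum _ (fun D hD => integrable_finsetSum _ (fun D' hD' => hint D hD D' hD')), Finset.mul_sum]
    refine Finset.sum_congr rfl fun D hD => ?_
    rw [integral_finsetSum _ (fun D' hD' => hint D hD D' hD'), Finset.mul_sum]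
  have hdiag : ∀ D, ((I.len⁻¹ : ℝ) : ℂ) * ∫ y in I.set, A D y * conj (A D y) = ((nnorm 2 I (A D) ^ 2 : ℝ) : ℂ) := by
    intro D
    rw [s9_nnorm_sq, Complex.ofReal_mul, ← integral_complex_ofReal]
    congr 2
    funext y
    rw [Complex.mul_conj, Complex.normSq_eq_norm_sq]
  have hre : nnorm 2 I (fun y => ∑ D ∈ X, A D y) ^ 2
      = ∑ D ∈ X, ∑ D' ∈ X, (((I.len⁻¹ : ℝ) : ℂ) * ∫ y in I.set, A D y * conj (A D' y)).re := by
    have := congrArg Complex.re hT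
    rw [Complex.ofReal_re, Complex.re_sum] at this
    rw [this]
    exact Finset.sum_congr rfl fun D _ => Complex.re_sum _ _
  rw [hre]
  have hterm : ∀ D ∈ X, ∀ D' ∈ X, (((I.len⁻¹ : ℝ) : ℂ) * ∫ y in I.set, A D y * conj (A D' y)).re
      ≤ (if D = D' then nnorm 2 I (A D) ^ 2 else 0) + τ * (c D * c D') := by
    intro D hD D' hD'
    have h0 : 0 ≤ τ * (c D * c D') := mul_nonneg hτ (mul_nonneg (hc0 D hD) (hc0 D' hD'))
    by_cases hDD : D = D'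
    · subst hDD
      rw [if_pos rfl, hdiag, Complex.ofReal_re]
      linarith
    · rw [if_neg hDD, zero_add]
      exact (Complex.re_le_norm _).trans (ho D hD D' hD' hDD)
  calc _ ≤ ∑ D ∈ X, ∑ D' ∈ X, ((if D = D' then nnorm 2 I (A D) ^ 2 else 0) + τ * (c D * c D')) :=
        Finset.sum_le_sum fun D hD => Finset.sum_le_sum fun D' hD' => hterm D hD D' hD'
    _ = ∑ D ∈ X, nnorm 2 I (A D) ^ 2 + τ * (∑ D ∈ X, c D) ^ 2 := by
        simp only [Finset.sum_add_distrib]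
        congr 1
        · refine Finset.sum_congr rfl fun D hD => ?_
          rw [Finset.sum_ite_eq, if_pos hD]
        · rw [sq, Finset.sum_mul_sum, Finset.mul_sum]
          refine Finset.sum_congr rfl fun D _ => ?_
          rw [Finset.mul_sum]

end Claimed.Agent.R258
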