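/-
Row 258 (S0498), Sec. 9.1 (counting.tex, "A common successful height").  HOME ARCHITECT: helper41.      THE FIRST-SUCCESS SAMPLING LEMMA.
Mathlib only, no paper needed (the full proof is in this header).

SETTING.  `r` roles; `Cl j` = finite set of classes (minimal CURRENT components) of the role `j`; `Hs` = heights; `good j h D`; every class is bad at
a proportion `≤ δ` of the heights; `comp j h D` = name (representative) of the height-`h` component containing `D`; `φ` = a function of tuples of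
classes (a multilinear form evaluated at the subtotals); `s j D` = size of the class, `c j D` = its absolute coefficient sum.
HYPOTHESIS `hmain` (single-cell estimate): for a height `h`, a tuple `a` of component names and ARBITRARY sets `X j` of classes good at `h` inside the
components `a j`, the sum of `φ` over `∏ X j` is `≤ κ h a ∏_j (∑_{X j} s²)^{1/2} + ε ∏_j ∑_{X j} c`.
CONCLUSION: the full sum is `≤ 2 avg_h ∑_a κ h a ∏_j σ_j(h, a j) + ε ∏_j ∑_{Cl j} c`.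

PROOF (deterministic form of the paper's first-success rule).  `W = #Hs`.  For `X : Fin r → Finset ℕ`, `X j ⊆ Cl j`, put
  `F X = ‖∑_{∏X} φ‖`, `Abs X = ∑_{∏X} ‖φ‖`, `Er X = ε ∏_j ∑_{X j} c`,
  `Ψ X = W⁻¹ ∑_h ∑_a κ h a ∏_j (∑_{D ∈ X j, good j h D, comp j h D = a j} s²)^{1/2}`.
For `h` and a role `j` let `X^{h,j}` be: `X i ∩ good_h` for `i < j`, `X j ∩ bad_h` for `i = j`, `X i` for `i > j` (first failing role `j`).
(a) `∏X = ∏(X ∩ good_h) ⊔ ⨆_j ∏ X^{h,j}` (disjoint), hence  `F X ≤ W⁻¹ ∑_h (F (X ∩ good_h) + ∑_j F (X^{h,j}))`, and the same with `=` for `Abs`, `Er`.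
(b) `F (X ∩ good_h) ≤ ∑_a (...)` by `hmain` after splitting by the tuple `a`;  the average over `h` of the main parts is `Ψ X`, the errors add up to
    `Er (X ∩ good_h)`.
(c) CONTRACTION: `W⁻¹ ∑_h Ψ (X^{h,j}) ≤ √δ Ψ X` (monotonicity in the roles `i ≠ j`; in the role `j` Jensen/Cauchy-Schwarz in `h` and
    `W⁻¹ ∑_h 1[D bad at h] ≤ δ`);  so `W⁻¹ ∑_h ∑_j Ψ (X^{h,j}) ≤ r √δ Ψ X ≤ Ψ X / 2`.   Also `W⁻¹ ∑_h ∑_j Abs (X^{h,j}) ≤ r δ Abs X ≤ Abs X / 2`.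
(d) by induction on `n`, for all `X`:  `F X ≤ 2 Ψ X + Er X + 2^{-n} Abs X`.   (`n = 0`: `F ≤ Abs`.)   Let `n → ∞`.
-/
import Mathlib

set_option autoImplicit false

namespace Claimed.Agent.R258

open Finset

section s9s

variable {r : ℕ}

/-- all roles restricted to the good classes of the height `h` -/
def s9sG (Gd : Fin r → ℕ → Finset ℕ) (h : ℕ) (X : Fin r → Finset ℕ) : Fin r → Finset ℕ := fun i => X i ∩ Gd i h

/-- the last failing role is `j` -/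
def s9sF (Gd : Fin r → ℕ → Finset ℕ) (h : ℕ) (j : Fin r) (X : Fin r → Finset ℕ) : Fin r → Finset ℕ :=
  fun i => if i < j then X i else if i = j then X i \ Gd i h else X i ∩ Gd i h

theorem s9s_G_subset (Gd : Fin r → ℕ → Finset ℕ) (h : ℕ) (X : Fin r → Finset ℕ) (i : Fin r) : s9sG Gd h X i ⊆ X i :=
  Finset.inter_subset_left

theorem s9s_F_subset (Gd : Fin r → ℕ → Finset ℕ) (h : ℕ) (j : Fin r) (X : Fin r → Finset ℕ) (i : Fin r) :
    s9sF Gd h j X i ⊆ X i := by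
  unfold s9sF
  split_ifs
  · exact Finset.Subset.refl _
  · exact Finset.sdiff_subset
  · exact Finset.inter_subset_left

theorem s9s_F_self (Gd : Fin r → ℕ → Finset ℕ) (h : ℕ) (j : Fin r) (X : Fin r → Finset ℕ) :
    s9sF Gd h j X j = X j \ Gd j h := by
  unfold s9sF
  rw [if_neg (lt_irrefl j), if_pos rfl]

/-- the indicator identity behind the decomposition -/
theorem s9s_one_eq {R : Type*} [CommSemiring R] (P : Fin r → Prop) [DecidablePred P] :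
    (1 : R) = (if ∀ i, P i then 1 else 0) + ∑ j, (if ¬ P j ∧ ∀ i, j < i → P i then 1 else 0) := by
  have h := Finset.prod_add_ordered (Finset.univ : Finset (Fin r)) (fun i => if P i then (1 : R) else 0)
    (fun i => if P i then (0 : R) else 1)
  have e1 : ∀ i, (if P i then (1 : R) else 0) + (if P i then (0 : R) else 1) = 1 := by
    intro i
    split_ifs <;> simp
  simp only [e1, Finset.prod_const_one, mul_one] at h
  refine h.trans ?_
  congr 1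
  · rw [Finset.prod_boole]
    simp
  · refine Finset.sum_congr rfl fun j _ => ?_
    rw [Finset.prod_boole]
    by_cases hj : P j
    · simp [hj]
    · simp [hj]

/-- **decomposition by the last failing role** -/
theorem s9s_decomp {R : Type*} [CommSemiring R] (Gd : Fin r → ℕ → Finset ℕ) (h : ℕ) (X : Fin r → Finset ℕ)
    (f : (Fin r → ℕ) → R) :
    ∑ D ∈ Fintype.piFinset X, f D = ∑ D ∈ Fintype.piFinset (s9sG Gd h X), f D +
      ∑ j, ∑ D ∈ Fintype.piFinset (s9sF Gd h j X), f D := by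
  have e0 : Fintype.piFinset (s9sG Gd h X) = (Fintype.piFinset X).filter fun D => ∀ i, D i ∈ Gd i h := by
    ext D
    simp only [Fintype.mem_piFinset, Finset.mem_filter, s9sG, Finset.mem_inter, forall_and]
  have e1 : ∀ j, Fintype.piFinset (s9sF Gd h j X) =
      (Fintype.piFinset X).filter fun D => D j ∉ Gd j h ∧ ∀ i, j < i → D i ∈ Gd i h := by
    intro j
    ext D
    simp only [Fintype.mem_piFinset, Finset.mem_filter]
    constructor
    · intro hD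
      refine ⟨fun i => s9s_F_subset Gd h j X i (hD i), ?_, fun i hi => ?_⟩
      · have := hD j
        rw [s9s_F_self] at this
        exact (Finset.mem_sdiff.1 this).2
      · have := hD i
        unfold s9sF at this
        rw [if_neg (not_lt.2 hi.le), if_neg hi.ne'] at this
        exact (Finset.mem_inter.1 this).2
    · rintro ⟨hX, hj, hi⟩ i
      unfold s9sF
      split_ifs with h1 h2
      · exact hX i
      · subst h2
        exact Finset.mem_sdiff.2 ⟨hX i, hj⟩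
      · exact Finset.mem_inter.2 ⟨hX i, hi i (lt_of_le_of_ne (not_lt.1 h1) (Ne.symm h2))⟩
  rw [e0]
  simp only [e1, Finset.sum_filter]
  rw [Finset.sum_comm, ← Finset.sum_add_distrib]
  refine Finset.sum_congr rfl fun D _ => ?_
  have h1 := s9s_one_eq (R := R) (fun i => D i ∈ Gd i h)
  calc f D = f D * 1 := (mul_one _).symm
    _ = f D * ((if ∀ i, D i ∈ Gd i h then 1 else 0) +
          ∑ j, (if D j ∉ Gd j h ∧ ∀ i, j < i → D i ∈ Gd i h then 1 else 0)) := by rw [← h1]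
    _ = _ := by
        rw [mul_add, Finset.mul_sum]
        congr 1
        · split_ifs <;> simp
        · refine Finset.sum_congr rfl fun j _ => ?_
          split_ifs <;> simp

/-- the local square sum -/
def s9sS (Gd : Fin r → ℕ → Finset ℕ) (comp : Fin r → ℕ → ℕ → ℕ) (s : Fin r → ℕ → ℝ) (h : ℕ) (a : Fin r → ℕ)
    (X : Fin r → Finset ℕ) (j : Fin r) : ℝ :=
  ∑ D ∈ (X j ∩ Gd j h).filter (fun D => comp j h D = a j), s j D ^ 2

/-- the main term at the height `h` -/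
noncomputable def s9sM (Gd : Fin r → ℕ → Finset ℕ) (comp : Fin r → ℕ → ℕ → ℕ) (s : Fin r → ℕ → ℝ)
    (Cl : Fin r → Finset ℕ) (κ : ℕ → (Fin r → ℕ) → ℝ) (h : ℕ) (X : Fin r → Finset ℕ) : ℝ :=
  ∑ a ∈ Fintype.piFinset (fun j => (Cl j).image (comp j h)), κ h a * ∏ j, Real.sqrt (s9sS Gd comp s h a X j)

theorem s9s_S_nonneg (Gd : Fin r → ℕ → Finset ℕ) (comp : Fin r → ℕ → ℕ → ℕ) (s : Fin r → ℕ → ℝ) (h : ℕ)
    (a : Fin r → ℕ) (X : Fin r → Finset ℕ) (j : Fin r) : 0 ≤ s9sS Gd comp s h a X j :=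
  Finset.sum_nonneg fun _ _ => sq_nonneg _

theorem s9s_S_mono (Gd : Fin r → ℕ → Finset ℕ) (comp : Fin r → ℕ → ℕ → ℕ) (s : Fin r → ℕ → ℝ) (h : ℕ)
    (a : Fin r → ℕ) {X X' : Fin r → Finset ℕ} (j : Fin r) (hX : X j ⊆ X' j) :
    s9sS Gd comp s h a X j ≤ s9sS Gd comp s h a X' j :=
  Finset.sum_le_sum_of_subset_of_nonneg
    (Finset.filter_subset_filter _ (Finset.inter_subset_inter_right hX)) fun _ _ _ => sq_nonneg _

theorem s9s_M_nonneg (Gd : Fin r → ℕ → Finset ℕ) (comp : Fin r → ℕ → ℕ → ℕ) (s : Fin r → ℕ → ℝ)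
    (Cl : Fin r → Finset ℕ) (κ : ℕ → (Fin r → ℕ) → ℝ) (hκ : ∀ h a, 0 ≤ κ h a) (h : ℕ) (X : Fin r → Finset ℕ) :
    0 ≤ s9sM Gd comp s Cl κ h X :=
  Finset.sum_nonneg fun a _ => mul_nonneg (hκ h a) (Finset.prod_nonneg fun _ _ => Real.sqrt_nonneg _)

/-- splitting a sum over tuples of classes by the tuple of the component names -/
theorem s9s_split {R : Type*} [AddCommMonoid R] (comp : Fin r → ℕ → ℕ → ℕ) (Cl : Fin r → Finset ℕ) (h : ℕ)
    (Y : Fin r → Finset ℕ) (hY : ∀ j, Y j ⊆ Cl j) (f : (Fin r → ℕ) → R) :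
    ∑ D ∈ Fintype.piFinset Y, f D = ∑ a ∈ Fintype.piFinset (fun j => (Cl j).image (comp j h)),
      ∑ D ∈ Fintype.piFinset (fun j => (Y j).filter fun D => comp j h D = a j), f D := by
  have hmaps : ∀ D ∈ Fintype.piFinset Y,
      (fun j => comp j h (D j)) ∈ Fintype.piFinset (fun j => (Cl j).image (comp j h)) := by
    intro D hD
    rw [Fintype.mem_piFinset] at hD ⊢
    exact fun j => Finset.mem_image_of_mem _ (hY j (hD j))
  rw [← Finset.sum_fiberwise_of_maps_to hmaps]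
  refine Finset.sum_congr rfl fun a _ => ?_
  congr 1
  ext D
  simp only [Fintype.mem_piFinset, Finset.mem_filter, funext_iff, forall_and]

/-- (b): the good part at the height `h` -/
theorem s9s_main (Gd : Fin r → ℕ → Finset ℕ) (comp : Fin r → ℕ → ℕ → ℕ) (s c : Fin r → ℕ → ℝ)
    (Cl : Fin r → Finset ℕ) (κ : ℕ → (Fin r → ℕ) → ℝ) (ε : ℝ) (φ : (Fin r → ℕ) → ℂ) (h : ℕ)
    (hmain : ∀ a : Fin r → ℕ, ∀ X : Fin r → Finset ℕ,
      (∀ j, X j ⊆ (Cl j ∩ Gd j h).filter fun D => comp j h D = a j) →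
      ‖∑ D ∈ Fintype.piFinset X, φ D‖
        ≤ κ h a * ∏ j, Real.sqrt (∑ D ∈ X j, s j D ^ 2) + ε * ∏ j, ∑ D ∈ X j, c j D)
    (X : Fin r → Finset ℕ) (hX : ∀ j, X j ⊆ Cl j) :
    ‖∑ D ∈ Fintype.piFinset (s9sG Gd h X), φ D‖ ≤ s9sM Gd comp s Cl κ h X +
      ε * ∑ D ∈ Fintype.piFinset (s9sG Gd h X), ∏ j, c j (D j) := by
  have hY : ∀ j, s9sG Gd h X j ⊆ Cl j := fun j => (s9s_G_subset Gd h X j).trans (hX j)
  rw [s9s_split comp Cl h _ hY φ, s9s_split comp Cl h _ hY (fun D => ∏ j, c j (D j)), Finset.mul_sum]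
  unfold s9sM
  rw [← Finset.sum_add_distrib]
  refine (norm_sum_le _ _).trans (Finset.sum_le_sum fun a _ => ?_)
  rw [← Finset.prod_univ_sum]
  refine hmain a _ fun j => ?_
  exact Finset.filter_subset_filter _ (Finset.inter_subset_inter_right (hX j))

/-- double counting of the bad heights -/
theorem s9s_count (Hs : Finset ℕ) (T : Finset ℕ) (B : ℕ → Finset ℕ) (g : ℕ → ℝ) (hg : ∀ D, 0 ≤ g D) (m : ℝ)
    (hbad : ∀ D ∈ T, ((Hs.filter fun h => D ∉ B h).card : ℝ) ≤ m) :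
    ∑ h ∈ Hs, ∑ D ∈ T, (if D ∉ B h then g D else 0) ≤ m * ∑ D ∈ T, g D := by
  rw [Finset.sum_comm, Finset.mul_sum]
  refine Finset.sum_le_sum fun D hD => ?_
  rw [← Finset.sum_filter, Finset.sum_const, nsmul_eq_mul]
  exact mul_le_mul_of_nonneg_right (hbad D hD) (hg D)

/-- (c), the role `j`: Cauchy-Schwarz in the height -/
theorem s9s_contract_role (Gd : Fin r → ℕ → Finset ℕ) (comp : Fin r → ℕ → ℕ → ℕ) (s : Fin r → ℕ → ℝ)
    (Cl : Fin r → Finset ℕ) (Hs : Finset ℕ) (δ : ℝ) (hδ0 : 0 ≤ δ)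
    (hbad : ∀ j, ∀ D ∈ Cl j, ((Hs.filter fun h => D ∉ Gd j h).card : ℝ) ≤ δ * Hs.card)
    (X : Fin r → Finset ℕ) (hX : ∀ j, X j ⊆ Cl j) (j : Fin r) (h' : ℕ) (a : Fin r → ℕ) :
    ∑ h ∈ Hs, Real.sqrt (s9sS Gd comp s h' a (s9sF Gd h j X) j)
      ≤ Hs.card * Real.sqrt δ * Real.sqrt (s9sS Gd comp s h' a X j) := by
  have hW : (0 : ℝ) ≤ Hs.card := Nat.cast_nonneg _
  have hT : ∀ h, s9sS Gd comp s h' a (s9sF Gd h j X) j =
      ∑ D ∈ (X j ∩ Gd j h').filter (fun D => comp j h' D = a j), (if D ∉ Gd j h then s j D ^ 2 else 0) := by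
    intro h
    unfold s9sS
    rw [s9s_F_self, ← Finset.sum_filter]
    congr 1
    ext D
    simp only [Finset.mem_filter, Finset.mem_inter, Finset.mem_sdiff]
    tauto
  have h1 : ∑ h ∈ Hs, s9sS Gd comp s h' a (s9sF Gd h j X) j ≤ δ * Hs.card * s9sS Gd comp s h' a X j := by
    simp only [hT]
    refine s9s_count Hs _ (Gd j) (fun D => s j D ^ 2) (fun D => sq_nonneg _) _ fun D hD => ?_
    exact hbad j D (hX j (Finset.mem_inter.1 (Finset.mem_filter.1 hD).1).1)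
  have h2 := Real.sum_mul_le_sqrt_mul_sqrt Hs (fun _ => (1 : ℝ))
    (fun h => Real.sqrt (s9sS Gd comp s h' a (s9sF Gd h j X) j))
  simp only [one_mul, one_pow, Finset.sum_const, nsmul_eq_mul, mul_one,
    Real.sq_sqrt (s9s_S_nonneg Gd comp s h' a _ j)] at h2
  refine h2.trans ?_
  calc Real.sqrt Hs.card * Real.sqrt (∑ h ∈ Hs, s9sS Gd comp s h' a (s9sF Gd h j X) j)
      ≤ Real.sqrt Hs.card * Real.sqrt (δ * Hs.card * s9sS Gd comp s h' a X j) :=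
        mul_le_mul_of_nonneg_left (Real.sqrt_le_sqrt h1) (Real.sqrt_nonneg _)
    _ = (Real.sqrt Hs.card * Real.sqrt Hs.card) * Real.sqrt δ * Real.sqrt (s9sS Gd comp s h' a X j) := by
        rw [Real.sqrt_mul (mul_nonneg hδ0 hW), Real.sqrt_mul hδ0]
        ring
    _ = _ := by rw [Real.mul_self_sqrt hW]

/-- (c): contraction of the main term -/
theorem s9s_contract (Gd : Fin r → ℕ → Finset ℕ) (comp : Fin r → ℕ → ℕ → ℕ) (s : Fin r → ℕ → ℝ)
    (Cl : Fin r → Finset ℕ) (κ : ℕ → (Fin r → ℕ) → ℝ) (hκ : ∀ h a, 0 ≤ κ h a) (Hs : Finset ℕ) (δ : ℝ) (hδ0 : 0 ≤ δ)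
    (hbad : ∀ j, ∀ D ∈ Cl j, ((Hs.filter fun h => D ∉ Gd j h).card : ℝ) ≤ δ * Hs.card)
    (X : Fin r → Finset ℕ) (hX : ∀ j, X j ⊆ Cl j) (j : Fin r) (h' : ℕ) :
    ∑ h ∈ Hs, s9sM Gd comp s Cl κ h' (s9sF Gd h j X) ≤ Hs.card * Real.sqrt δ * s9sM Gd comp s Cl κ h' X := by
  unfold s9sM
  rw [Finset.sum_comm, Finset.mul_sum]
  refine Finset.sum_le_sum fun a _ => ?_
  rw [← Finset.mul_sum, mul_left_comm]
  refine mul_le_mul_of_nonneg_left ?_ (hκ h' a)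
  have hP : 0 ≤ ∏ i ∈ Finset.univ.erase j, Real.sqrt (s9sS Gd comp s h' a X i) :=
    Finset.prod_nonneg fun _ _ => Real.sqrt_nonneg _
  calc ∑ h ∈ Hs, ∏ i, Real.sqrt (s9sS Gd comp s h' a (s9sF Gd h j X) i)
      ≤ ∑ h ∈ Hs, Real.sqrt (s9sS Gd comp s h' a (s9sF Gd h j X) j) *
          ∏ i ∈ Finset.univ.erase j, Real.sqrt (s9sS Gd comp s h' a X i) := by
        refine Finset.sum_le_sum fun h _ => ?_
        rw [← Finset.mul_prod_erase Finset.univ _ (Finset.mem_univ j)]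
        refine mul_le_mul_of_nonneg_left ?_ (Real.sqrt_nonneg _)
        exact Finset.prod_le_prod (fun _ _ => Real.sqrt_nonneg _) fun i _ =>
          Real.sqrt_le_sqrt (s9s_S_mono Gd comp s h' a i (s9s_F_subset Gd h j X i))
    _ = (∑ h ∈ Hs, Real.sqrt (s9sS Gd comp s h' a (s9sF Gd h j X) j)) *
          ∏ i ∈ Finset.univ.erase j, Real.sqrt (s9sS Gd comp s h' a X i) := by rw [Finset.sum_mul]
    _ ≤ (Hs.card * Real.sqrt δ * Real.sqrt (s9sS Gd comp s h' a X j)) *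
          ∏ i ∈ Finset.univ.erase j, Real.sqrt (s9sS Gd comp s h' a X i) :=
        mul_le_mul_of_nonneg_right (s9s_contract_role Gd comp s Cl Hs δ hδ0 hbad X hX j h' a) hP
    _ = _ := by
        rw [mul_assoc, Finset.mul_prod_erase Finset.univ (fun i => Real.sqrt (s9sS Gd comp s h' a X i))
          (Finset.mem_univ j)]

/-- (c): contraction of an absolute sum -/
theorem s9s_abs_contract (Gd : Fin r → ℕ → Finset ℕ) (Cl : Fin r → Finset ℕ) (Hs : Finset ℕ) (δ : ℝ)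
    (hbad : ∀ j, ∀ D ∈ Cl j, ((Hs.filter fun h => D ∉ Gd j h).card : ℝ) ≤ δ * Hs.card)
    (f : (Fin r → ℕ) → ℝ) (hf : ∀ D, 0 ≤ f D) (X : Fin r → Finset ℕ) (hX : ∀ j, X j ⊆ Cl j) (j : Fin r) :
    ∑ h ∈ Hs, ∑ D ∈ Fintype.piFinset (s9sF Gd h j X), f D ≤ δ * Hs.card * ∑ D ∈ Fintype.piFinset X, f D := by
  have h1 : ∀ h, ∑ D ∈ Fintype.piFinset (s9sF Gd h j X), f D
      ≤ ∑ D ∈ Fintype.piFinset X, (if D j ∉ Gd j h then f D else 0) := by
    intro h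
    rw [← Finset.sum_filter]
    refine Finset.sum_le_sum_of_subset_of_nonneg (fun D hD => ?_) fun D _ _ => hf D
    rw [Fintype.mem_piFinset] at hD
    refine Finset.mem_filter.2 ⟨Fintype.mem_piFinset.2 fun i => s9s_F_subset Gd h j X i (hD i), ?_⟩
    have := hD j
    rw [s9s_F_self] at this
    exact (Finset.mem_sdiff.1 this).2
  refine (Finset.sum_le_sum fun h _ => h1 h).trans ?_
  rw [Finset.sum_comm, Finset.mul_sum]
  refine Finset.sum_le_sum fun D hD => ?_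
  rw [← Finset.sum_filter, Finset.sum_const, nsmul_eq_mul]
  exact mul_le_mul_of_nonneg_right (hbad j (D j) (hX j (Fintype.mem_piFinset.1 hD j))) (hf D)

theorem s9s_r_delta (δ : ℝ) (hδ0 : 0 ≤ δ) (hδ : (r : ℝ) * Real.sqrt δ ≤ 1 / 2) : (r : ℝ) * δ ≤ 1 / 2 := by
  rcases Nat.eq_zero_or_pos r with h0 | h0
  · subst h0
    simp
  · have h1 : (1 : ℝ) ≤ r := by exact_mod_cast h0
    have h2 := Real.sqrt_nonneg δ
    have h3 : Real.sqrt δ ≤ 1 / 2 := by nlinarith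
    have h4 : δ = Real.sqrt δ * Real.sqrt δ := (Real.mul_self_sqrt hδ0).symm
    have h5 : (r : ℝ) * δ = ((r : ℝ) * Real.sqrt δ) * Real.sqrt δ := by rw [mul_assoc, ← h4]
    rw [h5]
    nlinarith

/-- (d): the induction -/
theorem s9s_induct (Gd : Fin r → ℕ → Finset ℕ) (comp : Fin r → ℕ → ℕ → ℕ) (s c : Fin r → ℕ → ℝ)
    (Cl : Fin r → Finset ℕ) (κ : ℕ → (Fin r → ℕ) → ℝ) (hκ : ∀ h a, 0 ≤ κ h a) (Hs : Finset ℕ) (hHs : Hs.Nonempty)
    (δ : ℝ) (hδ0 : 0 ≤ δ) (hδ : (r : ℝ) * Real.sqrt δ ≤ 1 / 2)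
    (hbad : ∀ j, ∀ D ∈ Cl j, ((Hs.filter fun h => D ∉ Gd j h).card : ℝ) ≤ δ * Hs.card)
    (φ : (Fin r → ℕ) → ℂ) (hc : ∀ j D, 0 ≤ c j D) (ε : ℝ) (hε : 0 ≤ ε)
    (hmain : ∀ h ∈ Hs, ∀ a : Fin r → ℕ, ∀ X : Fin r → Finset ℕ,
      (∀ j, X j ⊆ (Cl j ∩ Gd j h).filter fun D => comp j h D = a j) →
      ‖∑ D ∈ Fintype.piFinset X, φ D‖
        ≤ κ h a * ∏ j, Real.sqrt (∑ D ∈ X j, s j D ^ 2) + ε * ∏ j, ∑ D ∈ X j, c j D) (n : ℕ) :
    ∀ X : Fin r → Finset ℕ, (∀ j, X j ⊆ Cl j) →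
      ‖∑ D ∈ Fintype.piFinset X, φ D‖ ≤ 2 * ((Hs.card : ℝ)⁻¹ * ∑ h ∈ Hs, s9sM Gd comp s Cl κ h X)
        + ε * ∑ D ∈ Fintype.piFinset X, ∏ j, c j (D j) + (1 / 2) ^ n * ∑ D ∈ Fintype.piFinset X, ‖φ D‖ := by
  have hW : (0 : ℝ) < Hs.card := by exact_mod_cast hHs.card_pos
  have hΨ0 : ∀ Y, 0 ≤ ∑ h ∈ Hs, s9sM Gd comp s Cl κ h Y := fun Y =>
    Finset.sum_nonneg fun h _ => s9s_M_nonneg Gd comp s Cl κ hκ h Y
  induction n with
  | zero =>
    intro X _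
    have h1 : 0 ≤ 2 * ((Hs.card : ℝ)⁻¹ * ∑ h ∈ Hs, s9sM Gd comp s Cl κ h X) :=
      mul_nonneg (by norm_num) (mul_nonneg (inv_nonneg.2 hW.le) (hΨ0 X))
    have h2 : 0 ≤ ε * ∑ D ∈ Fintype.piFinset X, ∏ j, c j (D j) :=
      mul_nonneg hε (Finset.sum_nonneg fun D _ => Finset.prod_nonneg fun j _ => hc j _)
    have h3 := norm_sum_le (Fintype.piFinset X) φ
    rw [pow_zero, one_mul]
    linarith
  | succ n ih =>
    intro X hX
    set W : ℝ := (Hs.card : ℝ) with hWdef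
    set Ψ : (Fin r → Finset ℕ) → ℝ := fun Y => ∑ h ∈ Hs, s9sM Gd comp s Cl κ h Y with hΨ
    set Er : (Fin r → Finset ℕ) → ℝ := fun Y => ε * ∑ D ∈ Fintype.piFinset Y, ∏ j, c j (D j) with hEr
    set Ab : (Fin r → Finset ℕ) → ℝ := fun Y => ∑ D ∈ Fintype.piFinset Y, ‖φ D‖ with hAb
    have hAb0 : 0 ≤ Ab X := Finset.sum_nonneg fun D _ => norm_nonneg _
    have step : ∀ h ∈ Hs, ‖∑ D ∈ Fintype.piFinset X, φ D‖ ≤ s9sM Gd comp s Cl κ h X + Er X +
        ∑ j, (2 * (W⁻¹ * Ψ (s9sF Gd h j X)) + (1 / 2) ^ n * Ab (s9sF Gd h j X)) := by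
      intro h hh
      have d1 := s9s_decomp Gd h X φ
      have d2 := s9s_decomp Gd h X (fun D => ∏ j, c j (D j))
      have m1 := s9s_main Gd comp s c Cl κ ε φ h (hmain h hh) X hX
      have i1 : ∀ j, ‖∑ D ∈ Fintype.piFinset (s9sF Gd h j X), φ D‖
          ≤ 2 * (W⁻¹ * Ψ (s9sF Gd h j X)) + Er (s9sF Gd h j X) + (1 / 2) ^ n * Ab (s9sF Gd h j X) :=
        fun j => ih _ (fun i => (s9s_F_subset Gd h j X i).trans (hX i))
      have e : Er X = ε * ∑ D ∈ Fintype.piFinset (s9sG Gd h X), ∏ j, c j (D j) +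
          ∑ j, Er (s9sF Gd h j X) := by
        simp only [hEr]
        rw [d2, mul_add]
        congr 1
        exact Finset.mul_sum _ _ _
      calc ‖∑ D ∈ Fintype.piFinset X, φ D‖
          ≤ ‖∑ D ∈ Fintype.piFinset (s9sG Gd h X), φ D‖ +
              ∑ j, ‖∑ D ∈ Fintype.piFinset (s9sF Gd h j X), φ D‖ := by
            rw [d1]
            exact (norm_add_le _ _).trans (add_le_add le_rfl (norm_sum_le _ _))
        _ ≤ (s9sM Gd comp s Cl κ h X + ε * ∑ D ∈ Fintype.piFinset (s9sG Gd h X), ∏ j, c j (D j)) +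
              ∑ j, (2 * (W⁻¹ * Ψ (s9sF Gd h j X)) + Er (s9sF Gd h j X) + (1 / 2) ^ n * Ab (s9sF Gd h j X)) :=
            add_le_add m1 (Finset.sum_le_sum fun j _ => i1 j)
        _ = _ := by
            rw [e]
            simp only [Finset.sum_add_distrib]
            ring
    have c1 : ∀ j, ∑ h ∈ Hs, Ψ (s9sF Gd h j X) ≤ W * Real.sqrt δ * Ψ X := by
      intro j
      simp only [hΨ]
      rw [Finset.sum_comm, Finset.mul_sum]
      exact Finset.sum_le_sum fun h' _ => s9s_contract Gd comp s Cl κ hκ Hs δ hδ0 hbad X hX j h'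
    have c2 : ∀ j, ∑ h ∈ Hs, Ab (s9sF Gd h j X) ≤ δ * W * Ab X := fun j =>
      s9s_abs_contract Gd Cl Hs δ hbad (fun D => ‖φ D‖) (fun D => norm_nonneg _) X hX j
    have hpow : (0 : ℝ) ≤ (1 / 2) ^ n := by positivity
    have tot : ∑ h ∈ Hs, ∑ j, (2 * (W⁻¹ * Ψ (s9sF Gd h j X)) + (1 / 2) ^ n * Ab (s9sF Gd h j X))
        ≤ Ψ X + W * ((1 / 2) ^ (n + 1) * Ab X) := by
      rw [Finset.sum_comm]
      calc ∑ j, ∑ h ∈ Hs, (2 * (W⁻¹ * Ψ (s9sF Gd h j X)) + (1 / 2) ^ n * Ab (s9sF Gd h j X))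
          = ∑ j, (2 * (W⁻¹ * ∑ h ∈ Hs, Ψ (s9sF Gd h j X)) + (1 / 2) ^ n * ∑ h ∈ Hs, Ab (s9sF Gd h j X)) := by
            refine Finset.sum_congr rfl fun j _ => ?_
            rw [Finset.sum_add_distrib, Finset.mul_sum, Finset.mul_sum, Finset.mul_sum]
        _ ≤ ∑ _j : Fin r, (2 * (W⁻¹ * (W * Real.sqrt δ * Ψ X)) + (1 / 2) ^ n * (δ * W * Ab X)) := by
            refine Finset.sum_le_sum fun j _ => add_le_add ?_ (mul_le_mul_of_nonneg_left (c2 j) hpow)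
            exact mul_le_mul_of_nonneg_left (mul_le_mul_of_nonneg_left (c1 j) (inv_nonneg.2 hW.le)) (by norm_num)
        _ = 2 * ((r : ℝ) * Real.sqrt δ) * Ψ X + W * ((1 / 2) ^ n * (((r : ℝ) * δ) * Ab X)) := by
            rw [Finset.sum_const, Finset.card_univ, Fintype.card_fin, nsmul_eq_mul]
            field_simp
        _ ≤ 2 * (1 / 2) * Ψ X + W * ((1 / 2) ^ n * ((1 / 2) * Ab X)) := by
            refine add_le_add (mul_le_mul_of_nonneg_right (mul_le_mul_of_nonneg_left hδ (by norm_num)) (hΨ0 X)) ?_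
            refine mul_le_mul_of_nonneg_left (mul_le_mul_of_nonneg_left ?_ hpow) hW.le
            exact mul_le_mul_of_nonneg_right (s9s_r_delta δ hδ0 hδ) hAb0
        _ = _ := by ring
    have sum1 := Finset.sum_le_sum step
    rw [Finset.sum_const, nsmul_eq_mul, Finset.sum_add_distrib, Finset.sum_add_distrib, Finset.sum_const,
      nsmul_eq_mul] at sum1
    refine le_of_mul_le_mul_left ?_ hW
    calc W * ‖∑ D ∈ Fintype.piFinset X, φ D‖
        ≤ Ψ X + W * Er X + (Ψ X + W * ((1 / 2) ^ (n + 1) * Ab X)) := sum1.trans (add_le_add le_rfl tot)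
      _ = W * (2 * (W⁻¹ * Ψ X) + Er X + (1 / 2) ^ (n + 1) * Ab X) := by
          field_simp
          ring

/-- the abstract form of the sampling lemma -/
theorem s9s_abstract (Gd : Fin r → ℕ → Finset ℕ) (comp : Fin r → ℕ → ℕ → ℕ) (s c : Fin r → ℕ → ℝ)
    (Cl : Fin r → Finset ℕ) (κ : ℕ → (Fin r → ℕ) → ℝ) (hκ : ∀ h a, 0 ≤ κ h a) (Hs : Finset ℕ) (hHs : Hs.Nonempty)
    (δ : ℝ) (hδ0 : 0 ≤ δ) (hδ : (r : ℝ) * Real.sqrt δ ≤ 1 / 2)
    (hbad : ∀ j, ∀ D ∈ Cl j, ((Hs.filter fun h => D ∉ Gd j h).card : ℝ) ≤ δ * Hs.card)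
    (φ : (Fin r → ℕ) → ℂ) (hc : ∀ j D, 0 ≤ c j D) (ε : ℝ) (hε : 0 ≤ ε)
    (hmain : ∀ h ∈ Hs, ∀ a : Fin r → ℕ, ∀ X : Fin r → Finset ℕ,
      (∀ j, X j ⊆ (Cl j ∩ Gd j h).filter fun D => comp j h D = a j) →
      ‖∑ D ∈ Fintype.piFinset X, φ D‖
        ≤ κ h a * ∏ j, Real.sqrt (∑ D ∈ X j, s j D ^ 2) + ε * ∏ j, ∑ D ∈ X j, c j D) :
    ‖∑ D ∈ Fintype.piFinset Cl, φ D‖ ≤ 2 * ((Hs.card : ℝ)⁻¹ * ∑ h ∈ Hs, s9sM Gd comp s Cl κ h Cl)
        + ε * ∏ j, ∑ D ∈ Cl j, c j D := by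
  rw [Finset.prod_univ_sum]
  have ht : Filter.Tendsto (fun n : ℕ => 2 * ((Hs.card : ℝ)⁻¹ * ∑ h ∈ Hs, s9sM Gd comp s Cl κ h Cl)
        + ε * ∑ D ∈ Fintype.piFinset Cl, ∏ j, c j (D j) + (1 / 2 : ℝ) ^ n * ∑ D ∈ Fintype.piFinset Cl, ‖φ D‖)
      Filter.atTop (nhds (2 * ((Hs.card : ℝ)⁻¹ * ∑ h ∈ Hs, s9sM Gd comp s Cl κ h Cl)
        + ε * ∑ D ∈ Fintype.piFinset Cl, ∏ j, c j (D j) + 0 * ∑ D ∈ Fintype.piFinset Cl, ‖φ D‖)) :=
    tendsto_const_nhds.add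
      ((tendsto_pow_atTop_nhds_zero_of_lt_one (by norm_num) (by norm_num)).mul_const _)
  rw [zero_mul, add_zero] at ht
  exact ge_of_tendsto' ht fun n =>
    s9s_induct Gd comp s c Cl κ hκ Hs hHs δ hδ0 hδ hbad φ hc ε hε hmain n Cl fun j => Finset.Subset.refl _

end s9s

open Classical in
/-- **The first-success sampling lemma.**   LEAF P-S9-SAMPLE -/
theorem s9_sample {r : ℕ} (Hs : Finset ℕ) (hHs : Hs.Nonempty) (Cl : Fin r → Finset ℕ)
    (good : Fin r → ℕ → ℕ → Prop) (comp : Fin r → ℕ → ℕ → ℕ) (δ : ℝ) (hδ0 : 0 ≤ δ)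
    (hδ : (r : ℝ) * Real.sqrt δ ≤ 1 / 2)
    (hbad : ∀ j, ∀ D ∈ Cl j, ((Hs.filter fun h => ¬ good j h D).card : ℝ) ≤ δ * Hs.card)
    (φ : (Fin r → ℕ) → ℂ) (s c : Fin r → ℕ → ℝ) (hs : ∀ j D, 0 ≤ s j D) (hc : ∀ j D, 0 ≤ c j D)
    (κ : ℕ → (Fin r → ℕ) → ℝ) (hκ : ∀ h a, 0 ≤ κ h a) (ε : ℝ) (hε : 0 ≤ ε)
    (hmain : ∀ h ∈ Hs, ∀ a : Fin r → ℕ, ∀ X : Fin r → Finset ℕ,
      (∀ j, X j ⊆ (Cl j).filter fun D => good j h D ∧ comp j h D = a j) →
      ‖∑ D ∈ Fintype.piFinset X, φ D‖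
        ≤ κ h a * ∏ j, Real.sqrt (∑ D ∈ X j, s j D ^ 2) + ε * ∏ j, ∑ D ∈ X j, c j D) :
    ‖∑ D ∈ Fintype.piFinset Cl, φ D‖ ≤
      2 * ((Hs.card : ℝ)⁻¹ * ∑ h ∈ Hs, ∑ a ∈ Fintype.piFinset (fun j => (Cl j).image (comp j h)),
          κ h a * ∏ j, Real.sqrt (∑ D ∈ (Cl j).filter (fun D => good j h D ∧ comp j h D = a j), s j D ^ 2))
        + ε * ∏ j, ∑ D ∈ Cl j, c j D := by
  set Gd : Fin r → ℕ → Finset ℕ := fun j h => (Cl j).filter fun D => good j h D with hGd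
  have eF : ∀ (j : Fin r) (h : ℕ) (a : Fin r → ℕ), (Cl j ∩ Gd j h).filter (fun D => comp j h D = a j)
      = (Cl j).filter (fun D => good j h D ∧ comp j h D = a j) := by
    intro j h a
    ext D
    simp only [hGd, Finset.mem_filter, Finset.mem_inter]
    tauto
  have hbad' : ∀ j, ∀ D ∈ Cl j, ((Hs.filter fun h => D ∉ Gd j h).card : ℝ) ≤ δ * Hs.card := by
    intro j D hD
    have e : (Hs.filter fun h => D ∉ Gd j h) = Hs.filter fun h => ¬ good j h D := by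
      ext h
      simp only [hGd, Finset.mem_filter]
      tauto
    rw [e]
    exact hbad j D hD
  have hmain' : ∀ h ∈ Hs, ∀ a : Fin r → ℕ, ∀ X : Fin r → Finset ℕ,
      (∀ j, X j ⊆ (Cl j ∩ Gd j h).filter fun D => comp j h D = a j) →
      ‖∑ D ∈ Fintype.piFinset X, φ D‖
        ≤ κ h a * ∏ j, Real.sqrt (∑ D ∈ X j, s j D ^ 2) + ε * ∏ j, ∑ D ∈ X j, c j D := by
    intro h hh a X hX
    exact hmain h hh a X fun j => (eF j h a) ▸ hX j
  have key := s9s_abstract Gd comp s c Cl κ hκ Hs hHs δ hδ0 hδ hbad' φ hc ε hε hmain'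
  unfold s9sM s9sS at key
  simp only [eF] at key
  exact key

end Claimed.Agent.R258
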