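/-
Row 258 (S0498), Sec. 9 (counting.tex).  HOME ARCHITECT: helper41.      BLOCK [S9c]: THE PURE INEQUALITY OF PROP. 9.3.
Mathlib only, no paper needed (the full proof is in this header).

A CONFIGURATION is `cfg = (e, a, b, c, f)`: `e` = discrete part (pattern, height, types), `a : Fin 4 → ℤ` = amplitude bins `σ_i = 2^(a i)`,
`μ = 2^(-b)`, `ν = 2^c`, `Λ = 2^f`.   `N cfg g s ≥ 0` = number of tested tuples of the group `g` at the scale `s`, `M cfg i g ≥ 0` = label counts.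
Hypotheses = displays (34), (28) of the paper; conclusion = the path sum of the `p`-th powers of the principal contributions (33).

PROOF OF `s9i_main`.  `θ := min (1/8) (1/(4 (C1+1)))`, `p := 1 - θ (1 - p0) = (1-θ) + θ p0 ≥ 7/8`.  Fix `cfg`, let `π` sort the bins:
`σ_{π0} ≥ σ_{π1} ≥ σ_{π2} ≥ σ_{π3}`, and let `i*` maximise `M cfg i g` (depends on `g`: bound `X^{2 p0 θ} ≤ ∑_i (M i g)^{2 p0 θ}`).
(1) `s9i_interp`: `∑_s N^p ≤ (∑_s N)^{1-θ} (∑_s N^{p0})^θ ≤ (L0 M_{π0} M_{π1})^{1-θ} (X2 (M_{i*})^{2 p0})^θ`.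
(2) `s9i_group` with exponents `β = (1-θ)[π0] + (1-θ)[π1] + 2 p0 θ [i*]`, total `2p ≥ 1`:
    `∑_g ... ≤ (∑_g M_{π0})^{1-θ} (∑_g M_{π1})^{1-θ} (∑_g M_{i*})^{2 p0 θ}`.
(3) `∑_g M_{i*} ≤ PC σ_{π3}^{-2}`;  one of `π0, π1` is a core role, for it `∑_g M ≤ min(Ds, PC σ^{-2}) ≤ PC σ^{-2} min(1, Ds σ_{π0}^2)`.
(4) times `(∏ σ_i)^p`: the amplitude factor is `s9iAmp` of the sorted bins; exponents `e = (p-2+2θ, p-2+2θ, p, p-4θ p0)` have sum `0` and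
    partial sums `-1+θ(1+p0), -2+2θ(1+p0), -1+θ(1+3p0) ≤ -1/2`: `s9i_amp` (three geometric series in the gaps, then the common shift).
(5) the frequency factor is `≤ PL 3^{C1} (1+b+c)^{C1} 2^{-(b+c+f)/2}`: `s9i_freq`.  24 orderings, `nE` discrete parts.
-/
import Mathlib

set_option autoImplicit false

namespace Claimed.Agent.R258

open Finset

/-- (I1) Hölder interpolation in the scale variable.  LEAF P-S9-INEQ-A -/
theorem s9i_interp {ι : Type*} (S : Finset ι) (N : ι → ℝ) (hN : ∀ s ∈ S, 0 ≤ N s) (p0 θ : ℝ)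
    (hp0 : 0 < p0) (hθ0 : 0 ≤ θ) (hθ1 : θ ≤ 1) :
    ∑ s ∈ S, N s ^ ((1 - θ) + θ * p0) ≤ (∑ s ∈ S, N s) ^ (1 - θ) * (∑ s ∈ S, N s ^ p0) ^ θ := by
  rcases hθ0.eq_or_lt with rfl | hθ0'
  · simp
  rcases hθ1.eq_or_lt with rfl | hθ1'
  · simp
  have h1θ : 0 < 1 - θ := by linarith
  have hpq : (1 / (1 - θ)).HolderConjugate (1 / θ) := by
    rw [Real.holderConjugate_iff]
    refine ⟨?_, ?_⟩
    · rw [lt_div_iff₀ h1θ]
      linarith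
    · simp
  have h := Real.inner_le_Lp_mul_Lq_of_nonneg S hpq (f := fun s => N s ^ (1 - θ))
    (g := fun s => (N s ^ p0) ^ θ) (fun s hs => Real.rpow_nonneg (hN s hs) _)
    (fun s hs => Real.rpow_nonneg (Real.rpow_nonneg (hN s hs) _) _)
  have e1 : ∀ s ∈ S, N s ^ ((1 - θ) + θ * p0) = N s ^ (1 - θ) * (N s ^ p0) ^ θ := by
    intro s hs
    rw [← Real.rpow_mul (hN s hs), mul_comm p0 θ]
    rcases (hN s hs).eq_or_lt with h0 | hpos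
    · rw [← h0, Real.zero_rpow (by positivity), Real.zero_rpow h1θ.ne', zero_mul]
    · exact Real.rpow_add hpos _ _
  have e2 : ∀ s ∈ S, (N s ^ (1 - θ)) ^ (1 / (1 - θ)) = N s := by
    intro s hs
    rw [← Real.rpow_mul (hN s hs), mul_one_div_cancel h1θ.ne', Real.rpow_one]
  have e3 : ∀ s ∈ S, ((N s ^ p0) ^ θ) ^ (1 / θ) = N s ^ p0 := by
    intro s hs
    rw [← Real.rpow_mul (Real.rpow_nonneg (hN s hs) _), mul_one_div_cancel hθ0'.ne', Real.rpow_one]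
  rw [Finset.sum_congr rfl e1]
  refine h.trans (le_of_eq ?_)
  rw [Finset.sum_congr rfl e2, Finset.sum_congr rfl e3]
  simp

/-- normalised form of `s9i_group` -/
theorem s9i_group_norm {γ κ : Type*} (G : Finset γ) (R : Finset κ) (y : κ → γ → ℝ) (β : κ → ℝ)
    (hy : ∀ i ∈ R, ∀ g ∈ G, 0 ≤ y i g) (hβ : ∀ i ∈ R, 0 ≤ β i) (hsum : 1 ≤ ∑ i ∈ R, β i)
    (hy1 : ∀ i ∈ R, ∑ g ∈ G, y i g ≤ 1) :
    ∑ g ∈ G, ∏ i ∈ R, y i g ^ β i ≤ 1 := by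
  set B := ∑ i ∈ R, β i with hB
  have hB0 : 0 < B := by linarith
  have hw : ∀ i ∈ R, 0 ≤ β i / B := fun i hi => div_nonneg (hβ i hi) hB0.le
  have hw1 : ∑ i ∈ R, β i / B = 1 := by
    rw [← Finset.sum_div, div_self hB0.ne']
  have hyle : ∀ i ∈ R, ∀ g ∈ G, y i g ≤ 1 := fun i hi g hg =>
    (Finset.single_le_sum (f := fun g => y i g) (fun g' hg' => hy i hi g' hg') hg).trans (hy1 i hi)
  have hterm : ∀ g ∈ G, ∏ i ∈ R, y i g ^ β i ≤ ∑ i ∈ R, β i / B * y i g := by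
    intro g hg
    have h1 := Real.geom_mean_le_arith_mean_weighted R (fun i => β i / B) (fun i => y i g) hw hw1
      (fun i hi => hy i hi g hg)
    have h2 : ∏ i ∈ R, y i g ^ β i = (∏ i ∈ R, y i g ^ (β i / B)) ^ B := by
      rw [← Real.finsetProd_rpow R _ (fun i hi => Real.rpow_nonneg (hy i hi g hg) _)]
      refine Finset.prod_congr rfl fun i hi => ?_
      rw [← Real.rpow_mul (hy i hi g hg), div_mul_cancel₀ _ hB0.ne']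
    have h3 : 0 ≤ ∏ i ∈ R, y i g ^ (β i / B) :=
      Finset.prod_nonneg fun i hi => Real.rpow_nonneg (hy i hi g hg) _
    have h4 : ∑ i ∈ R, β i / B * y i g ≤ 1 := by
      calc ∑ i ∈ R, β i / B * y i g ≤ ∑ i ∈ R, β i / B * 1 :=
            Finset.sum_le_sum fun i hi => mul_le_mul_of_nonneg_left (hyle i hi g hg) (hw i hi)
        _ = 1 := by simp only [mul_one]; exact hw1
    rw [h2]
    calc (∏ i ∈ R, y i g ^ (β i / B)) ^ B ≤ (∑ i ∈ R, β i / B * y i g) ^ B :=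
          Real.rpow_le_rpow h3 h1 hB0.le
      _ ≤ (∑ i ∈ R, β i / B * y i g) ^ (1 : ℝ) :=
          Real.rpow_le_rpow_of_exponent_ge' (h3.trans h1) h4 (by norm_num) hsum
      _ = _ := Real.rpow_one _
  calc ∑ g ∈ G, ∏ i ∈ R, y i g ^ β i ≤ ∑ g ∈ G, ∑ i ∈ R, β i / B * y i g := Finset.sum_le_sum hterm
    _ = ∑ i ∈ R, β i / B * ∑ g ∈ G, y i g := by
        rw [Finset.sum_comm]
        refine Finset.sum_congr rfl fun i _ => ?_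
        rw [Finset.mul_sum]
    _ ≤ ∑ i ∈ R, β i / B * 1 :=
        Finset.sum_le_sum fun i hi => mul_le_mul_of_nonneg_left (hy1 i hi) (hw i hi)
    _ = 1 := by simp only [mul_one]; exact hw1

/-- (I2) summation over the groups: normalise each sum to one, weighted AM-GM, `y^B ≤ y` for `y ∈ [0,1]`, `B ≥ 1`.
LEAF P-S9-INEQ-A -/
theorem s9i_group {γ κ : Type*} (G : Finset γ) (R : Finset κ) (m : κ → γ → ℝ) (β : κ → ℝ)
    (hm : ∀ i ∈ R, ∀ g ∈ G, 0 ≤ m i g) (hβ : ∀ i ∈ R, 0 ≤ β i) (hsum : 1 ≤ ∑ i ∈ R, β i) :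
    ∑ g ∈ G, ∏ i ∈ R, m i g ^ β i ≤ ∏ i ∈ R, (∑ g ∈ G, m i g) ^ β i := by
  have hT0 : ∀ i ∈ R, 0 ≤ ∑ g ∈ G, m i g := fun i hi => Finset.sum_nonneg fun g hg => hm i hi g hg
  have hRHS : 0 ≤ ∏ i ∈ R, (∑ g ∈ G, m i g) ^ β i :=
    Finset.prod_nonneg fun i hi => Real.rpow_nonneg (hT0 i hi) _
  by_cases hcase : ∃ i ∈ R, 0 < β i ∧ ∑ g ∈ G, m i g = 0
  · obtain ⟨i, hi, hβi, hTi⟩ := hcase
    have hz : ∀ g ∈ G, m i g = 0 := (Finset.sum_eq_zero_iff_of_nonneg (fun g hg => hm i hi g hg)).1 hTi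
    have : ∑ g ∈ G, ∏ i ∈ R, m i g ^ β i = 0 := by
      refine Finset.sum_eq_zero fun g hg => Finset.prod_eq_zero hi ?_
      rw [hz g hg, Real.zero_rpow hβi.ne']
    rw [this]
    exact hRHS
  · push Not at hcase
    have hfac : ∀ i ∈ R, ∀ g ∈ G, m i g ^ β i =
        (∑ g ∈ G, m i g) ^ β i * (m i g / ∑ g ∈ G, m i g) ^ β i := by
      intro i hi g hg
      rcases (hβ i hi).eq_or_lt with h0 | hpos
      · rw [← h0]
        simp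
      · have hT : 0 < ∑ g ∈ G, m i g := lt_of_le_of_ne (hT0 i hi) (Ne.symm (hcase i hi hpos))
        rw [← Real.mul_rpow hT.le (div_nonneg (hm i hi g hg) hT.le), mul_div_cancel₀ _ hT.ne']
    have h1 : ∑ g ∈ G, ∏ i ∈ R, m i g ^ β i =
        (∏ i ∈ R, (∑ g ∈ G, m i g) ^ β i) * ∑ g ∈ G, ∏ i ∈ R, (m i g / ∑ g ∈ G, m i g) ^ β i := by
      rw [Finset.mul_sum]
      refine Finset.sum_congr rfl fun g hg => ?_
      rw [← Finset.prod_mul_distrib]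
      exact Finset.prod_congr rfl fun i hi => hfac i hi g hg
    rw [h1]
    have h2 := s9i_group_norm G R (fun i g => m i g / ∑ g ∈ G, m i g) β
      (fun i hi g hg => div_nonneg (hm i hi g hg) (hT0 i hi)) hβ hsum (fun i hi => by
        rw [← Finset.sum_div]
        exact div_self_le_one _)
    calc (∏ i ∈ R, (∑ g ∈ G, m i g) ^ β i) * ∑ g ∈ G, ∏ i ∈ R, (m i g / ∑ g ∈ G, m i g) ^ β i
        ≤ (∏ i ∈ R, (∑ g ∈ G, m i g) ^ β i) * 1 := mul_le_mul_of_nonneg_left h2 hRHS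
      _ = _ := mul_one _

/-- the amplitude factor of sorted bins `a 0 ≥ a 1 ≥ a 2 ≥ a 3` (`σ_i = 2^(a i)`, `p = 1 - θ (1 - p0)`) -/
noncomputable def s9iAmp (θ p0 Ds : ℝ) (a : Fin 4 → ℤ) : ℝ :=
  min 1 (Ds * ((2 : ℝ) ^ (a 0)) ^ 2) ^ (1 - θ) *
    (((2 : ℝ) ^ (a 0)) ^ ((1 - θ * (1 - p0)) - 2 * (1 - θ)) * ((2 : ℝ) ^ (a 1)) ^ ((1 - θ * (1 - p0)) - 2 * (1 - θ)) *
      ((2 : ℝ) ^ (a 2)) ^ (1 - θ * (1 - p0)) * ((2 : ℝ) ^ (a 3)) ^ ((1 - θ * (1 - p0)) - 4 * θ * p0))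

/-- `q = 2^(-1/2)` -/
theorem s9i_q_props : 0 < (2 : ℝ) ^ (-(1 / 2 : ℝ)) ∧ (2 : ℝ) ^ (-(1 / 2 : ℝ)) < 1 :=
  ⟨Real.rpow_pos_of_pos (by norm_num) _, Real.rpow_lt_one_of_one_lt_of_neg (by norm_num) (by norm_num)⟩

theorem s9i_summable_poly_geom (m : ℕ) {q : ℝ} (hq0 : 0 < q) (hq1 : q < 1) :
    Summable fun n : ℕ => ((n : ℝ) + 1) ^ m * q ^ n := by
  have h1 : Summable fun n : ℕ => ((n : ℝ)) ^ m * q ^ n :=
    summable_pow_mul_geometric_of_norm_lt_one m (by rw [Real.norm_of_nonneg hq0.le]; exact hq1)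
  have h2 := ((summable_nat_add_iff 1).2 h1).mul_left q⁻¹
  refine h2.congr fun n => ?_
  push_cast
  rw [pow_succ]
  field_simp

/-- factorisation of a sum over a product -/
theorem s9i_sum_prod2 {α β : Type*} (B1 : Finset α) (B2 : Finset β) (f : α → ℝ) (g : β → ℝ) :
    ∑ x ∈ B1 ×ˢ B2, f x.1 * g x.2 = (∑ a ∈ B1, f a) * ∑ b ∈ B2, g b := by
  rw [Finset.sum_product, Finset.sum_mul_sum]

/-- factorisation of a sum over a triple product -/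
theorem s9i_sum_prod3 {α β γ : Type*} (B1 : Finset α) (B2 : Finset β) (B3 : Finset γ) (f : α → ℝ)
    (g : β → ℝ) (h : γ → ℝ) :
    ∑ x ∈ B1 ×ˢ (B2 ×ˢ B3), f x.1 * (g x.2.1 * h x.2.2) =
      (∑ a ∈ B1, f a) * ((∑ b ∈ B2, g b) * ∑ c ∈ B3, h c) := by
  rw [s9i_sum_prod2 B1 (B2 ×ˢ B3) f (fun y => g y.1 * h y.2), s9i_sum_prod2]

/-- (I4) the frequency summation.  LEAF P-S9-INEQ-B -/
theorem s9i_freq (C1 : ℝ) (hC1 : 0 ≤ C1) : ∃ C : ℝ, 0 < C ∧ ∀ B : Finset (ℕ × ℕ × ℕ),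
    ∑ x ∈ B, (1 + (x.1 : ℝ) + (x.2.1 : ℝ)) ^ C1 * (2 : ℝ) ^ (-(((x.1 : ℝ) + x.2.1 + x.2.2) / 2)) ≤ C := by
  obtain ⟨hq0, hq1⟩ := s9i_q_props
  set q : ℝ := (2 : ℝ) ^ (-(1 / 2 : ℝ)) with hq
  set m : ℕ := ⌈C1⌉₊ with hm
  have hs := s9i_summable_poly_geom m hq0 hq1
  have hs0 := s9i_summable_poly_geom 0 hq0 hq1
  set T := ∑' n : ℕ, ((n : ℝ) + 1) ^ m * q ^ n with hT
  set T0 := ∑' n : ℕ, ((n : ℝ) + 1) ^ 0 * q ^ n with hT0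
  have hfin : ∀ F : Finset ℕ, ∑ n ∈ F, ((n : ℝ) + 1) ^ m * q ^ n ≤ T := fun F =>
    hs.sum_le_tsum F fun n _ => by positivity
  have hfin0 : ∀ F : Finset ℕ, ∑ n ∈ F, ((n : ℝ) + 1) ^ 0 * q ^ n ≤ T0 := fun F =>
    hs0.sum_le_tsum F fun n _ => by positivity
  have hTpos : 0 < T := by
    have := hfin {0}
    simp at this
    linarith
  have hT0pos : 0 < T0 := by
    have := hfin0 {0}
    simp at this
    linarith
  refine ⟨T * T * T0, by positivity, fun B => ?_⟩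
  have hterm : ∀ x : ℕ × ℕ × ℕ,
      (1 + (x.1 : ℝ) + (x.2.1 : ℝ)) ^ C1 * (2 : ℝ) ^ (-(((x.1 : ℝ) + x.2.1 + x.2.2) / 2)) ≤
      (((x.1 : ℝ) + 1) ^ m * q ^ x.1) * ((((x.2.1 : ℝ) + 1) ^ m * q ^ x.2.1) *
        (((x.2.2 : ℝ) + 1) ^ 0 * q ^ x.2.2)) := by
    intro x
    have hb : (0 : ℝ) ≤ x.1 := Nat.cast_nonneg _
    have hc : (0 : ℝ) ≤ x.2.1 := Nat.cast_nonneg _
    have h1 : (1 + (x.1 : ℝ) + (x.2.1 : ℝ)) ^ C1 ≤ ((x.1 : ℝ) + 1) ^ m * ((x.2.1 : ℝ) + 1) ^ m := by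
      calc (1 + (x.1 : ℝ) + (x.2.1 : ℝ)) ^ C1 ≤ (1 + (x.1 : ℝ) + (x.2.1 : ℝ)) ^ (m : ℝ) :=
            Real.rpow_le_rpow_of_exponent_le (by linarith) (Nat.le_ceil _)
        _ = (1 + (x.1 : ℝ) + (x.2.1 : ℝ)) ^ m := Real.rpow_natCast _ _
        _ ≤ (((x.1 : ℝ) + 1) * ((x.2.1 : ℝ) + 1)) ^ m := by
            apply pow_le_pow_left₀ (by linarith)
            nlinarith
        _ = _ := mul_pow _ _ _
    have h2 : (2 : ℝ) ^ (-(((x.1 : ℝ) + x.2.1 + x.2.2) / 2)) = q ^ x.1 * q ^ x.2.1 * q ^ x.2.2 := by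
      rw [hq, ← Real.rpow_natCast, ← Real.rpow_natCast, ← Real.rpow_natCast, ← Real.rpow_mul (by norm_num),
        ← Real.rpow_mul (by norm_num), ← Real.rpow_mul (by norm_num), ← Real.rpow_add (by norm_num),
        ← Real.rpow_add (by norm_num)]
      congr 1
      ring
    rw [h2]
    calc (1 + (x.1 : ℝ) + (x.2.1 : ℝ)) ^ C1 * (q ^ x.1 * q ^ x.2.1 * q ^ x.2.2)
        ≤ (((x.1 : ℝ) + 1) ^ m * ((x.2.1 : ℝ) + 1) ^ m) * (q ^ x.1 * q ^ x.2.1 * q ^ x.2.2) :=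
          mul_le_mul_of_nonneg_right h1 (by positivity)
      _ = _ := by ring
  set B1 := B.image Prod.fst with hB1
  set B2 := B.image fun x => x.2.1 with hB2
  set B3 := B.image fun x => x.2.2 with hB3
  have hsub : B ⊆ B1 ×ˢ (B2 ×ˢ B3) := by
    intro x hx
    exact Finset.mem_product.2 ⟨Finset.mem_image_of_mem _ hx, Finset.mem_product.2
      ⟨Finset.mem_image_of_mem (fun x : ℕ × ℕ × ℕ => x.2.1) hx,
        Finset.mem_image_of_mem (fun x : ℕ × ℕ × ℕ => x.2.2) hx⟩⟩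
  calc ∑ x ∈ B, (1 + (x.1 : ℝ) + (x.2.1 : ℝ)) ^ C1 * (2 : ℝ) ^ (-(((x.1 : ℝ) + x.2.1 + x.2.2) / 2))
      ≤ ∑ x ∈ B, (((x.1 : ℝ) + 1) ^ m * q ^ x.1) * ((((x.2.1 : ℝ) + 1) ^ m * q ^ x.2.1) *
        (((x.2.2 : ℝ) + 1) ^ 0 * q ^ x.2.2)) := Finset.sum_le_sum fun x _ => hterm x
    _ ≤ ∑ x ∈ B1 ×ˢ (B2 ×ˢ B3), (((x.1 : ℝ) + 1) ^ m * q ^ x.1) * ((((x.2.1 : ℝ) + 1) ^ m * q ^ x.2.1) *
        (((x.2.2 : ℝ) + 1) ^ 0 * q ^ x.2.2)) :=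
        Finset.sum_le_sum_of_subset_of_nonneg hsub fun x _ _ => by positivity
    _ = (∑ n ∈ B1, ((n : ℝ) + 1) ^ m * q ^ n) * ((∑ n ∈ B2, ((n : ℝ) + 1) ^ m * q ^ n) *
        (∑ n ∈ B3, ((n : ℝ) + 1) ^ 0 * q ^ n)) :=
        s9i_sum_prod3 B1 B2 B3 (fun n => ((n : ℝ) + 1) ^ m * q ^ n) (fun n => ((n : ℝ) + 1) ^ m * q ^ n)
          (fun n => ((n : ℝ) + 1) ^ 0 * q ^ n)
    _ ≤ T * (T * T0) := by
        have n1 : 0 ≤ ∑ n ∈ B2, ((n : ℝ) + 1) ^ m * q ^ n := Finset.sum_nonneg fun n _ => by positivity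
        have n2 : 0 ≤ ∑ n ∈ B3, ((n : ℝ) + 1) ^ 0 * q ^ n := Finset.sum_nonneg fun n _ => by positivity
        exact mul_le_mul (hfin B1) (mul_le_mul (hfin B2) (hfin0 B3) n2 hTpos.le) (mul_nonneg n1 n2) hTpos.le
    _ = T * T * T0 := by ring

/-- the exponent of the amplitude factor in terms of the gaps -/
theorem s9i_amp_exp {θ p0 x0 x1 x2 x3 : ℝ} (hθ0 : 0 < θ) (hθ : θ ≤ 1 / 8) (hp0 : 0 < p0) (hp1 : p0 < 1)
    (h1 : x1 ≤ x0) (h2 : x2 ≤ x1) (h3 : x3 ≤ x2) :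
    x0 * ((1 - θ * (1 - p0)) - 2 * (1 - θ)) + x1 * ((1 - θ * (1 - p0)) - 2 * (1 - θ)) +
      x2 * (1 - θ * (1 - p0)) + x3 * ((1 - θ * (1 - p0)) - 4 * θ * p0) ≤
    -(1 / 2) * (x0 - x1) + (-(1 / 2) * (x1 - x2) + -(1 / 2) * (x2 - x3)) := by
  have ht0 : 0 ≤ θ * p0 := by positivity
  have ht1 : θ * p0 ≤ θ := by nlinarith
  set t := θ * p0 with ht
  have e : x0 * ((1 - θ * (1 - p0)) - 2 * (1 - θ)) + x1 * ((1 - θ * (1 - p0)) - 2 * (1 - θ)) +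
      x2 * (1 - θ * (1 - p0)) + x3 * ((1 - θ * (1 - p0)) - 4 * θ * p0) =
      -((1 - θ - t) * (x0 - x1) + (2 - 2 * θ - 2 * t) * (x1 - x2) + (1 - θ - 3 * t) * (x2 - x3)) := by
    rw [ht]
    ring
  rw [e]
  have a1 : 1 / 2 * (x0 - x1) ≤ (1 - θ - t) * (x0 - x1) :=
    mul_le_mul_of_nonneg_right (by linarith) (by linarith)
  have a2 : 1 / 2 * (x1 - x2) ≤ (2 - 2 * θ - 2 * t) * (x1 - x2) :=
    mul_le_mul_of_nonneg_right (by linarith) (by linarith)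
  have a3 : 1 / 2 * (x2 - x3) ≤ (1 - θ - 3 * t) * (x2 - x3) :=
    mul_le_mul_of_nonneg_right (by linarith) (by linarith)
  linarith

theorem s9i_zpow_rpow (x : ℤ) (e : ℝ) : ((2 : ℝ) ^ x) ^ e = (2 : ℝ) ^ ((x : ℝ) * e) := by
  rw [← Real.rpow_intCast, ← Real.rpow_mul (by norm_num)]

theorem s9i_q_pow_toNat {x y : ℤ} (h : y ≤ x) :
    ((2 : ℝ) ^ (-(1 / 2 : ℝ))) ^ (x - y).toNat = (2 : ℝ) ^ (-(1 / 2) * ((x : ℝ) - y)) := by
  rw [← Real.rpow_natCast, ← Real.rpow_mul (by norm_num)]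
  congr 1
  have : (((x - y).toNat : ℕ) : ℝ) = (x : ℝ) - y := by
    have h1 : (((x - y).toNat : ℕ) : ℤ) = x - y := Int.toNat_of_nonneg (by omega)
    have h2 : ((((x - y).toNat : ℕ) : ℤ) : ℝ) = ((x - y : ℤ) : ℝ) := by rw [h1]
    push_cast at h2
    exact h2
  rw [this]

/-- pointwise bound of the amplitude factor -/
theorem s9i_amp_term {θ p0 Ds : ℝ} (hDs : 0 ≤ Ds) (hθ0 : 0 < θ) (hθ : θ ≤ 1 / 8) (hp0 : 0 < p0) (hp1 : p0 < 1)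
    {a : Fin 4 → ℤ} (h1 : a 1 ≤ a 0) (h2 : a 2 ≤ a 1) (h3 : a 3 ≤ a 2) :
    s9iAmp θ p0 Ds a ≤ min 1 (Ds * ((2 : ℝ) ^ (a 0)) ^ 2) ^ (1 - θ) *
      (((2 : ℝ) ^ (-(1 / 2 : ℝ))) ^ (a 0 - a 1).toNat * (((2 : ℝ) ^ (-(1 / 2 : ℝ))) ^ (a 1 - a 2).toNat *
        ((2 : ℝ) ^ (-(1 / 2 : ℝ))) ^ (a 2 - a 3).toNat)) := by
  unfold s9iAmp
  have hneg : 0 ≤ min 1 (Ds * ((2 : ℝ) ^ (a 0)) ^ 2) ^ (1 - θ) :=
    Real.rpow_nonneg (le_min zero_le_one (by positivity)) _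
  refine mul_le_mul_of_nonneg_left ?_ hneg
  rw [s9i_zpow_rpow, s9i_zpow_rpow, s9i_zpow_rpow, s9i_zpow_rpow, s9i_q_pow_toNat h1, s9i_q_pow_toNat h2,
    s9i_q_pow_toNat h3, ← Real.rpow_add (by norm_num), ← Real.rpow_add (by norm_num),
    ← Real.rpow_add (by norm_num), ← Real.rpow_add (by norm_num), ← Real.rpow_add (by norm_num)]
  apply Real.rpow_le_rpow_of_exponent_le (by norm_num)
  exact s9i_amp_exp hθ0 hθ hp0 hp1 (by exact_mod_cast h1) (by exact_mod_cast h2) (by exact_mod_cast h3)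

/-- finite geometric sums -/
theorem s9i_geom_le {q : ℝ} (hq0 : 0 ≤ q) (hq1 : q < 1) (F : Finset ℕ) : ∑ n ∈ F, q ^ n ≤ (1 - q)⁻¹ := by
  rw [← tsum_geometric_of_lt_one hq0 hq1]
  exact (summable_geometric_of_lt_one hq0 hq1).sum_le_tsum F fun n _ => by positivity

/-- `1/(1 - 2^(-1/2)) ≤ 3.42` -/
theorem s9i_q_inv_le : (1 - (2 : ℝ) ^ (-(1 / 2 : ℝ)))⁻¹ ≤ 3.42 := by
  set q : ℝ := (2 : ℝ) ^ (-(1 / 2 : ℝ)) with hq
  have hq0 : 0 < q := Real.rpow_pos_of_pos (by norm_num) _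
  have hq2 : q ^ 2 = 1 / 2 := by
    rw [hq, ← Real.rpow_natCast, ← Real.rpow_mul (by norm_num)]
    norm_num
  have hq3 : q ≤ 0.7072 := by
    by_contra hcon
    have : 0.7072 < q := not_le.1 hcon
    nlinarith
  rw [inv_le_comm₀ (by linarith) (by norm_num)]
  norm_num
  linarith

/-- the low part: a geometric tail -/
theorem s9i_amp_low {θ Ds : ℝ} (hθ0 : 0 < θ) (hθ : θ ≤ 1 / 8) (hDs : 0 ≤ Ds) (A0 : Finset ℤ)
    (hlo : ∀ x ∈ A0, Ds * ((2 : ℝ) ^ x) ^ 2 < 1) :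
    ∑ x ∈ A0, min 1 (Ds * ((2 : ℝ) ^ x) ^ 2) ^ (1 - θ) ≤ 2 := by
  rcases A0.eq_empty_or_nonempty with rfl | hne
  · simp
  set xm := A0.max' hne with hxm
  have hxm_mem : xm ∈ A0 := Finset.max'_mem _ _
  have hle : ∀ x ∈ A0, x ≤ xm := fun x hx => Finset.le_max' _ _ hx
  have hterm : ∀ x ∈ A0, min 1 (Ds * ((2 : ℝ) ^ x) ^ 2) ^ (1 - θ) ≤ (1 / 2 : ℝ) ^ (xm - x).toNat := by
    intro x hx
    set n := (xm - x).toNat with hn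
    have hxn : x = xm - n := by
      have : ((xm - x).toNat : ℤ) = xm - x := Int.toNat_of_nonneg (by have := hle x hx; omega)
      omega
    have h1 : Ds * ((2 : ℝ) ^ x) ^ 2 = Ds * ((2 : ℝ) ^ xm) ^ 2 * (1 / 4 : ℝ) ^ n := by
      rw [hxn, zpow_sub₀ (by norm_num), zpow_natCast]
      have : ((1 : ℝ) / 4) ^ n = 1 / ((2 : ℝ) ^ n) ^ 2 := by
        rw [one_div_pow, ← pow_mul, mul_comm, pow_mul]
        norm_num
      rw [this]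
      field_simp
    have h2 : Ds * ((2 : ℝ) ^ x) ^ 2 ≤ (1 / 4 : ℝ) ^ n := by
      rw [h1]
      calc Ds * ((2 : ℝ) ^ xm) ^ 2 * (1 / 4 : ℝ) ^ n ≤ 1 * (1 / 4 : ℝ) ^ n :=
            mul_le_mul_of_nonneg_right (hlo xm hxm_mem).le (by positivity)
        _ = _ := one_mul _
    have h3 : 0 ≤ min 1 (Ds * ((2 : ℝ) ^ x) ^ 2) := le_min zero_le_one (by positivity)
    calc min 1 (Ds * ((2 : ℝ) ^ x) ^ 2) ^ (1 - θ) ≤ ((1 / 4 : ℝ) ^ n) ^ (1 - θ) :=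
          Real.rpow_le_rpow h3 ((min_le_right _ _).trans h2) (by linarith)
      _ ≤ ((1 / 4 : ℝ) ^ n) ^ (1 / 2 : ℝ) :=
          Real.rpow_le_rpow_of_exponent_ge' (by positivity) (pow_le_one₀ (by norm_num) (by norm_num))
            (by norm_num) (by linarith)
      _ = (1 / 2 : ℝ) ^ n := by
          rw [← Real.rpow_natCast, ← Real.rpow_mul (by norm_num), mul_comm, Real.rpow_mul (by norm_num),
            Real.rpow_natCast]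
          congr 1
          rw [← Real.sqrt_eq_rpow, show (1 / 4 : ℝ) = (1 / 2) ^ 2 by norm_num, Real.sqrt_sq (by norm_num)]
  have hinj : Set.InjOn (fun x : ℤ => (xm - x).toNat) (A0 : Set ℤ) := by
    intro x hx y hy he
    have h1 := hle x hx
    have h2 := hle y hy
    simp only at he
    omega
  calc ∑ x ∈ A0, min 1 (Ds * ((2 : ℝ) ^ x) ^ 2) ^ (1 - θ) ≤ ∑ x ∈ A0, (1 / 2 : ℝ) ^ (xm - x).toNat :=
        Finset.sum_le_sum hterm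
    _ = ∑ n ∈ A0.image fun x : ℤ => (xm - x).toNat, (1 / 2 : ℝ) ^ n := (Finset.sum_image hinj).symm
    _ ≤ (1 - (1 / 2 : ℝ))⁻¹ := s9i_geom_le (by norm_num) (by norm_num) _
    _ = 2 := by norm_num

/-- the high part: counting -/
theorem s9i_amp_high {θ Ds PA : ℝ} (hθ : θ ≤ 1 / 8) (hDs : 1 ≤ Ds) (hPA : 1 ≤ PA) (A0 : Finset ℤ)
    (hhi : ∀ x ∈ A0, 1 ≤ Ds * ((2 : ℝ) ^ x) ^ 2) (hcap : ∀ x ∈ A0, (2 : ℝ) ^ x ≤ PA) :
    ∑ x ∈ A0, min 1 (Ds * ((2 : ℝ) ^ x) ^ 2) ^ (1 - θ) ≤ 1 + Real.logb 2 PA + Real.logb 2 Ds := by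
  have hLam : 0 ≤ Real.logb 2 PA := Real.logb_nonneg (by norm_num) hPA
  have hlam : 0 ≤ Real.logb 2 Ds := Real.logb_nonneg (by norm_num) hDs
  rcases A0.eq_empty_or_nonempty with rfl | hne
  · simp
    linarith
  have hup : ∀ x ∈ A0, (x : ℝ) ≤ Real.logb 2 PA := by
    intro x hx
    rw [Real.le_logb_iff_rpow_le (by norm_num) (by linarith), Real.rpow_intCast]
    exact hcap x hx
  have hdn : ∀ x ∈ A0, -(Real.logb 2 Ds) ≤ 2 * (x : ℝ) := by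
    intro x hx
    have h1 : -(2 * (x : ℝ)) ≤ Real.logb 2 Ds := by
      rw [Real.le_logb_iff_rpow_le (by norm_num) (by linarith), Real.rpow_neg (by norm_num), mul_comm,
        Real.rpow_mul (by norm_num), Real.rpow_intCast, Real.rpow_ofNat]
      have h2 := hhi x hx
      have h3 : 0 < ((2 : ℝ) ^ x) ^ 2 := by positivity
      rw [inv_le_iff_one_le_mul₀ h3]
      linarith
    linarith
  set xM := A0.max' hne
  set xm := A0.min' hne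
  have hsub : A0 ⊆ Finset.Icc xm xM := fun x hx =>
    Finset.mem_Icc.2 ⟨Finset.min'_le _ _ hx, Finset.le_max' _ _ hx⟩
  have hcard := Finset.card_le_card hsub
  rw [Int.card_Icc] at hcard
  have hmM : xm ≤ xM := Finset.min'_le _ _ (Finset.max'_mem _ _)
  have hcard' : (A0.card : ℝ) ≤ (xM : ℝ) + 1 - xm := by
    have h1 : ((xM + 1 - xm).toNat : ℤ) = xM + 1 - xm := Int.toNat_of_nonneg (by omega)
    have h2 : (A0.card : ℤ) ≤ xM + 1 - xm := by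
      rw [← h1]
      exact_mod_cast hcard
    exact_mod_cast h2
  have h1 := hup xM (Finset.max'_mem _ _)
  have h2 := hdn xm (Finset.min'_mem _ _)
  calc ∑ x ∈ A0, min 1 (Ds * ((2 : ℝ) ^ x) ^ 2) ^ (1 - θ) ≤ ∑ _x ∈ A0, (1 : ℝ) := by
        refine Finset.sum_le_sum fun x _ => ?_
        exact Real.rpow_le_one (le_min zero_le_one (by positivity)) (min_le_left _ _) (by linarith)
    _ = A0.card := by simp
    _ ≤ 1 + Real.logb 2 PA + Real.logb 2 Ds := by linarith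

open Classical in
/-- the sum over the largest bin -/
theorem s9i_amp_shift {θ Ds PA : ℝ} (hθ0 : 0 < θ) (hθ : θ ≤ 1 / 8) (hDs : 1 ≤ Ds) (hPA : 1 ≤ PA)
    (A0 : Finset ℤ) (hcap : ∀ x ∈ A0, (2 : ℝ) ^ x ≤ PA) :
    ∑ x ∈ A0, min 1 (Ds * ((2 : ℝ) ^ x) ^ 2) ^ (1 - θ) ≤ 3 + Real.logb 2 PA + Real.logb 2 Ds := by
  rw [← Finset.sum_filter_add_sum_filter_not A0 (fun x => 1 ≤ Ds * ((2 : ℝ) ^ x) ^ 2)]
  have h1 := s9i_amp_high hθ hDs hPA (A0.filter fun x => 1 ≤ Ds * ((2 : ℝ) ^ x) ^ 2)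
    (fun x hx => (Finset.mem_filter.1 hx).2) (fun x hx => hcap x (Finset.mem_filter.1 hx).1)
  have h2 := s9i_amp_low hθ0 hθ (by linarith) (A0.filter fun x => ¬ 1 ≤ Ds * ((2 : ℝ) ^ x) ^ 2)
    (fun x hx => not_le.1 (Finset.mem_filter.1 hx).2)
  linarith

/-- (I3) the amplitude summation.  LEAF P-S9-INEQ-B -/
theorem s9i_amp (θ p0 Ds PA : ℝ) (hθ0 : 0 < θ) (hθ : θ ≤ 1 / 8) (hp0 : 0 < p0) (hp1 : p0 < 1) (hDs : 1 ≤ Ds)
    (hPA : 1 ≤ PA) (A : Finset (Fin 4 → ℤ)) (hsort : ∀ a ∈ A, a 1 ≤ a 0 ∧ a 2 ≤ a 1 ∧ a 3 ≤ a 2)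
    (hcap : ∀ a ∈ A, (2 : ℝ) ^ (a 0) ≤ PA) :
    ∑ a ∈ A, s9iAmp θ p0 Ds a ≤ 100 * (3 + Real.logb 2 PA + Real.logb 2 Ds) := by
  set q : ℝ := (2 : ℝ) ^ (-(1 / 2 : ℝ)) with hq
  have hq0 : 0 < q := Real.rpow_pos_of_pos (by norm_num) _
  have hq1 : q < 1 := Real.rpow_lt_one_of_one_lt_of_neg (by norm_num) (by norm_num)
  set φ : (Fin 4 → ℤ) → ℤ × ℕ × ℕ × ℕ := fun a =>
    (a 0, (a 0 - a 1).toNat, (a 1 - a 2).toNat, (a 2 - a 3).toNat) with hφ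
  set F : ℤ → ℝ := fun x => min 1 (Ds * ((2 : ℝ) ^ x) ^ 2) ^ (1 - θ) with hF
  have hF0 : ∀ x, 0 ≤ F x := fun x => Real.rpow_nonneg (le_min zero_le_one (by positivity)) _
  have hinj : Set.InjOn φ (A : Set (Fin 4 → ℤ)) := by
    intro a ha b hb he
    obtain ⟨a1, a2, a3⟩ := hsort a ha
    obtain ⟨b1, b2, b3⟩ := hsort b hb
    simp only [hφ, Prod.mk.injEq] at he
    obtain ⟨e0, e1, e2, e3⟩ := he
    funext i
    fin_cases i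
    · exact e0
    · show a 1 = b 1
      omega
    · show a 2 = b 2
      omega
    · show a 3 = b 3
      omega
  set A0 := A.image fun a => a 0 with hA0
  set G1 := A.image fun a => (a 0 - a 1).toNat with hG1
  set G2 := A.image fun a => (a 1 - a 2).toNat with hG2
  set G3 := A.image fun a => (a 2 - a 3).toNat with hG3
  have hsub : A.image φ ⊆ A0 ×ˢ (G1 ×ˢ (G2 ×ˢ G3)) := by
    intro z hz
    obtain ⟨a, ha, rfl⟩ := Finset.mem_image.1 hz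
    exact Finset.mem_product.2 ⟨Finset.mem_image_of_mem (fun a : Fin 4 → ℤ => a 0) ha, Finset.mem_product.2
      ⟨Finset.mem_image_of_mem (fun a : Fin 4 → ℤ => (a 0 - a 1).toNat) ha, Finset.mem_product.2
        ⟨Finset.mem_image_of_mem (fun a : Fin 4 → ℤ => (a 1 - a 2).toNat) ha,
          Finset.mem_image_of_mem (fun a : Fin 4 → ℤ => (a 2 - a 3).toNat) ha⟩⟩⟩
  have hshift := s9i_amp_shift hθ0 hθ hDs hPA A0 (fun x hx => by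
    obtain ⟨a, ha, rfl⟩ := Finset.mem_image.1 hx
    exact hcap a ha)
  have hg := s9i_q_inv_le
  have hLam : 0 ≤ Real.logb 2 PA := Real.logb_nonneg (by norm_num) hPA
  have hlam : 0 ≤ Real.logb 2 Ds := Real.logb_nonneg (by norm_num) hDs
  have hgeo : ∀ G : Finset ℕ, ∑ n ∈ G, q ^ n ≤ 3.42 := fun G => (s9i_geom_le hq0.le hq1 G).trans hg
  have hgeo0 : ∀ G : Finset ℕ, 0 ≤ ∑ n ∈ G, q ^ n := fun G => Finset.sum_nonneg fun n _ => by positivity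
  calc ∑ a ∈ A, s9iAmp θ p0 Ds a
      ≤ ∑ a ∈ A, F (φ a).1 * (q ^ (φ a).2.1 * (q ^ (φ a).2.2.1 * q ^ (φ a).2.2.2)) := by
        refine Finset.sum_le_sum fun a ha => ?_
        obtain ⟨a1, a2, a3⟩ := hsort a ha
        exact s9i_amp_term (by linarith) hθ0 hθ hp0 hp1 a1 a2 a3
    _ = ∑ z ∈ A.image φ, F z.1 * (q ^ z.2.1 * (q ^ z.2.2.1 * q ^ z.2.2.2)) :=
        (Finset.sum_image (f := fun z : ℤ × ℕ × ℕ × ℕ => F z.1 * (q ^ z.2.1 * (q ^ z.2.2.1 * q ^ z.2.2.2))) hinj).symm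
    _ ≤ ∑ z ∈ A0 ×ˢ (G1 ×ˢ (G2 ×ˢ G3)), F z.1 * (q ^ z.2.1 * (q ^ z.2.2.1 * q ^ z.2.2.2)) :=
        Finset.sum_le_sum_of_subset_of_nonneg hsub fun z _ _ => mul_nonneg (hF0 _) (by positivity)
    _ = (∑ x ∈ A0, F x) * ((∑ n ∈ G1, q ^ n) * ((∑ n ∈ G2, q ^ n) * ∑ n ∈ G3, q ^ n)) := by
        rw [s9i_sum_prod2 A0 (G1 ×ˢ (G2 ×ˢ G3)) F (fun y => q ^ y.1 * (q ^ y.2.1 * q ^ y.2.2)),
          s9i_sum_prod3 G1 G2 G3 (fun n => q ^ n) (fun n => q ^ n) (fun n => q ^ n)]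
    _ ≤ (3 + Real.logb 2 PA + Real.logb 2 Ds) * (3.42 * (3.42 * 3.42)) := by
        refine mul_le_mul hshift ?_ (mul_nonneg (hgeo0 _) (mul_nonneg (hgeo0 _) (hgeo0 _))) (by linarith)
        exact mul_le_mul (hgeo _) (mul_le_mul (hgeo _) (hgeo _) (hgeo0 _) (by norm_num))
          (mul_nonneg (hgeo0 _) (hgeo0 _)) (by norm_num)
    _ ≤ 100 * (3 + Real.logb 2 PA + Real.logb 2 Ds) := by nlinarith

/-- configurations -/
abbrev S9Cfg (E : Type) : Type := E × (Fin 4 → ℤ) × ℕ × ℕ × ℕ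

namespace S9Cfg
variable {E : Type} (x : S9Cfg E)
/-- amplitude `σ_i = 2^(a i)` -/
noncomputable def sg (i : Fin 4) : ℝ := (2 : ℝ) ^ (x.2.1 i)
/-- `b` (`μ = 2^(-b)`) -/
def b : ℕ := x.2.2.1
/-- `c` (`ν = 2^c`) -/
def c : ℕ := x.2.2.2.1
/-- `f` (`Λ = 2^f`) -/
def f : ℕ := x.2.2.2.2
/-- the kernel factor `μ ν⁻¹ Λ⁻¹` -/
noncomputable def ker : ℝ := (2 : ℝ) ^ (-((x.b : ℝ) + x.c + x.f))
end S9Cfg

/-- the interpolation parameter `θ'` of Prop. 9.3 for the loss exponent `C1` -/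
noncomputable def s9iTh (C1 : ℝ) : ℝ := min (1 / 8) (1 / (4 * (C1 + 1)))

/-- the power `p = 1 - θ' (1 - p0)` of Prop. 9.3 -/
noncomputable def s9iPw (p0 C1 : ℝ) : ℝ := 1 - s9iTh C1 * (1 - p0)

/-- the parameters `θ`, `p` -/
theorem s9i_th_props {C1 : ℝ} (hC1 : 0 ≤ C1) : 0 < s9iTh C1 ∧ s9iTh C1 ≤ 1 / 8 ∧ C1 * s9iTh C1 ≤ 1 / 4 := by
  unfold s9iTh
  have h1 : 0 < 1 / (4 * (C1 + 1)) := by positivity
  refine ⟨lt_min (by norm_num) h1, min_le_left _ _, ?_⟩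
  calc C1 * min (1 / 8) (1 / (4 * (C1 + 1))) ≤ C1 * (1 / (4 * (C1 + 1))) :=
        mul_le_mul_of_nonneg_left (min_le_right _ _) hC1
    _ ≤ 1 / 4 := by
        rw [mul_one_div, div_le_iff₀ (by positivity)]
        linarith

/-- (step 1) one configuration, one group: interpolation in the scale variable -/
theorem s9i_step1 {ι : Type*} (S : Finset ι) (N : ι → ℝ) (hN : ∀ s ∈ S, 0 ≤ N s) (M : Fin 4 → ℝ)
    (hM : ∀ i, 0 ≤ M i) {p0 θ L0 X2 : ℝ} (hp0 : 0 < p0) (hθ0 : 0 ≤ θ) (hθ1 : θ ≤ 1) (hX2 : 0 ≤ X2)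
    {i j : Fin 4} (h1 : ∑ s ∈ S, N s ≤ L0 * (M i * M j))
    (h2 : ∀ X : ℝ, (∀ k, M k ≤ X) → ∑ s ∈ S, N s ^ p0 ≤ X2 * X ^ (2 * p0)) :
    ∑ s ∈ S, N s ^ ((1 - θ) + θ * p0) ≤
      ∑ k : Fin 4, (L0 * (M i * M j)) ^ (1 - θ) * (X2 ^ θ * M k ^ (2 * p0 * θ)) := by
  have h0 := s9i_interp S N hN p0 θ hp0 hθ0 hθ1
  obtain ⟨k0, -, hk0⟩ := Finset.exists_mem_eq_sup' (s := (Finset.univ : Finset (Fin 4)))
    ⟨0, Finset.mem_univ _⟩ M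
  have hmax : ∀ k, M k ≤ M k0 := fun k => by
    rw [← hk0]
    exact Finset.le_sup' M (Finset.mem_univ k)
  have h3 := h2 (M k0) hmax
  have hs1 : 0 ≤ ∑ s ∈ S, N s := Finset.sum_nonneg hN
  have hs2 : 0 ≤ ∑ s ∈ S, N s ^ p0 := Finset.sum_nonneg fun s hs => Real.rpow_nonneg (hN s hs) _
  have h4 : (∑ s ∈ S, N s) ^ (1 - θ) ≤ (L0 * (M i * M j)) ^ (1 - θ) :=
    Real.rpow_le_rpow hs1 h1 (by linarith)
  have h5 : (∑ s ∈ S, N s ^ p0) ^ θ ≤ X2 ^ θ * M k0 ^ (2 * p0 * θ) := by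
    calc (∑ s ∈ S, N s ^ p0) ^ θ ≤ (X2 * M k0 ^ (2 * p0)) ^ θ := Real.rpow_le_rpow hs2 h3 hθ0
      _ = X2 ^ θ * M k0 ^ (2 * p0 * θ) := by
          rw [Real.mul_rpow hX2 (Real.rpow_nonneg (hM k0) _), ← Real.rpow_mul (hM k0)]
  have h6 : 0 ≤ (L0 * (M i * M j)) ^ (1 - θ) := Real.rpow_nonneg (hs1.trans h1) _
  calc ∑ s ∈ S, N s ^ ((1 - θ) + θ * p0) ≤ (∑ s ∈ S, N s) ^ (1 - θ) * (∑ s ∈ S, N s ^ p0) ^ θ := h0
    _ ≤ (L0 * (M i * M j)) ^ (1 - θ) * (X2 ^ θ * M k0 ^ (2 * p0 * θ)) :=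
        mul_le_mul h4 h5 (Real.rpow_nonneg hs2 _) h6
    _ ≤ ∑ k : Fin 4, (L0 * (M i * M j)) ^ (1 - θ) * (X2 ^ θ * M k ^ (2 * p0 * θ)) :=
        Finset.single_le_sum (f := fun k => (L0 * (M i * M j)) ^ (1 - θ) * (X2 ^ θ * M k ^ (2 * p0 * θ)))
          (fun k _ => mul_nonneg h6 (mul_nonneg (Real.rpow_nonneg hX2 _) (Real.rpow_nonneg (hM k) _)))
          (Finset.mem_univ k0)

/-- (step 2) the sum over the groups of three factors -/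
theorem s9i_step2 {γ : Type*} (G : Finset γ) (m0 m1 m2 : γ → ℝ) (h0 : ∀ g ∈ G, 0 ≤ m0 g)
    (h1 : ∀ g ∈ G, 0 ≤ m1 g) (h2 : ∀ g ∈ G, 0 ≤ m2 g) {b0 b1 b2 : ℝ} (hb0 : 0 ≤ b0) (hb1 : 0 ≤ b1)
    (hb2 : 0 ≤ b2) (hsum : 1 ≤ b0 + b1 + b2) :
    ∑ g ∈ G, m0 g ^ b0 * m1 g ^ b1 * m2 g ^ b2 ≤
      (∑ g ∈ G, m0 g) ^ b0 * (∑ g ∈ G, m1 g) ^ b1 * (∑ g ∈ G, m2 g) ^ b2 := by
  have h := s9i_group G (Finset.univ : Finset (Fin 3)) (fun i => ![m0, m1, m2] i) (fun i => ![b0, b1, b2] i)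
    (by
      intro i _ g hg
      fin_cases i
      · exact h0 g hg
      · exact h1 g hg
      · exact h2 g hg)
    (by
      intro i _
      fin_cases i
      · exact hb0
      · exact hb1
      · exact hb2)
    (by
      rw [Fin.sum_univ_three]
      exact hsum)
  simp only [Fin.prod_univ_three] at h
  exact h

/-- `((s²)⁻¹)^e = s^(-2e)` -/
theorem s9i_inv_sq_rpow {s : ℝ} (hs : 0 < s) (e : ℝ) : ((s ^ 2)⁻¹) ^ e = s ^ (-(2 * e)) := by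
  rw [← Real.rpow_natCast s 2, ← Real.rpow_neg hs.le, ← Real.rpow_mul hs.le]
  congr 1
  push_cast
  ring

/-- a core role among the two largest amplitudes -/
theorem s9i_core_prod {PC Ds s0 s1 A0 A1 : ℝ} (hPC : 1 ≤ PC) (hDs : 1 ≤ Ds) (hs1 : 0 < s1) (hs10 : s1 ≤ s0)
    (hA1 : 0 ≤ A1) (h0 : A0 ≤ PC * (s0 ^ 2)⁻¹) (h1 : A1 ≤ PC * (s1 ^ 2)⁻¹)
    (hcore : A0 ≤ Ds ∨ A1 ≤ Ds) :
    A0 * A1 ≤ PC ^ 2 * min 1 (Ds * s0 ^ 2) * ((s0 ^ 2)⁻¹ * (s1 ^ 2)⁻¹) := by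
  have hs0 : 0 < s0 := lt_of_lt_of_le hs1 hs10
  have hi0 : 0 < (s0 ^ 2)⁻¹ := by positivity
  have hi1 : 0 < (s1 ^ 2)⁻¹ := by positivity
  have hm0 : 0 ≤ min 1 (Ds * s0 ^ 2) := le_min zero_le_one (by positivity)
  have key : ∀ {s A : ℝ}, 0 < s → s ≤ s0 → A ≤ PC * (s ^ 2)⁻¹ → A ≤ Ds →
      A ≤ PC * min 1 (Ds * s0 ^ 2) * (s ^ 2)⁻¹ := by
    intro s A hs hss hA hAD
    have hi : 0 < (s ^ 2)⁻¹ := by positivity
    rcases le_total 1 (Ds * s0 ^ 2) with hc | hc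
    · rw [min_eq_left hc, mul_one]
      exact hA
    · rw [min_eq_right hc]
      have h2 : s ^ 2 ≤ s0 ^ 2 := pow_le_pow_left₀ hs.le hss 2
      have h3 : 1 ≤ s0 ^ 2 * (s ^ 2)⁻¹ := by
        rw [← div_eq_mul_inv, le_div_iff₀ (by positivity)]
        linarith
      calc A ≤ Ds := hAD
        _ = 1 * Ds * 1 := by ring
        _ ≤ PC * Ds * (s0 ^ 2 * (s ^ 2)⁻¹) := by gcongr
        _ = PC * (Ds * s0 ^ 2) * (s ^ 2)⁻¹ := by ring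
  rcases hcore with hc | hc
  · have h2 := key hs0 le_rfl h0 hc
    calc A0 * A1 ≤ (PC * min 1 (Ds * s0 ^ 2) * (s0 ^ 2)⁻¹) * (PC * (s1 ^ 2)⁻¹) :=
          mul_le_mul h2 h1 hA1 (by positivity)
      _ = _ := by ring
  · have h2 := key hs1 hs10 h1 hc
    calc A0 * A1 ≤ (PC * (s0 ^ 2)⁻¹) * (PC * min 1 (Ds * s0 ^ 2) * (s1 ^ 2)⁻¹) :=
          mul_le_mul h0 h2 hA1 (by positivity)
      _ = _ := by ring

/-- (step 3+4) the amplitude algebra -/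
theorem s9i_amp_alg {θ p0 PC Ds s0 s1 s2 s3 A0 A1 Tk : ℝ} (hθ0 : 0 < θ) (hθ : θ ≤ 1 / 8) (hp0 : 0 < p0)
    (hp1 : p0 < 1) (hPC : 1 ≤ PC) (hDs : 1 ≤ Ds) (hs3 : 0 < s3) (hs2 : 0 < s2) (hs1 : 0 < s1)
    (hs10 : s1 ≤ s0) (hA0 : 0 ≤ A0) (hA1 : 0 ≤ A1) (hTk : 0 ≤ Tk) (h0 : A0 ≤ PC * (s0 ^ 2)⁻¹)
    (h1 : A1 ≤ PC * (s1 ^ 2)⁻¹) (hk : Tk ≤ PC * (s3 ^ 2)⁻¹) (hcore : A0 ≤ Ds ∨ A1 ≤ Ds) :
    (s0 * s1 * s2 * s3) ^ (1 - θ * (1 - p0)) * (A0 ^ (1 - θ) * A1 ^ (1 - θ) * Tk ^ (2 * p0 * θ)) ≤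
      PC ^ 2 * (min 1 (Ds * s0 ^ 2) ^ (1 - θ) *
        (s0 ^ ((1 - θ * (1 - p0)) - 2 * (1 - θ)) * s1 ^ ((1 - θ * (1 - p0)) - 2 * (1 - θ)) *
          s2 ^ (1 - θ * (1 - p0)) * s3 ^ ((1 - θ * (1 - p0)) - 4 * θ * p0))) := by
  have hs0 : 0 < s0 := lt_of_lt_of_le hs1 hs10
  set p := 1 - θ * (1 - p0) with hp
  set m := min 1 (Ds * s0 ^ 2) with hm
  have hm0 : 0 ≤ m := le_min zero_le_one (by positivity)
  have hPC0 : 0 < PC := by linarith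
  have h1θ : 0 ≤ 1 - θ := by linarith
  have e1 : A0 ^ (1 - θ) * A1 ^ (1 - θ) ≤
      (PC ^ 2) ^ (1 - θ) * m ^ (1 - θ) * (s0 ^ (-(2 * (1 - θ))) * s1 ^ (-(2 * (1 - θ)))) := by
    rw [← Real.mul_rpow hA0 hA1]
    refine (Real.rpow_le_rpow (mul_nonneg hA0 hA1) (s9i_core_prod hPC hDs hs1 hs10 hA1 h0 h1 hcore) h1θ).trans
      (le_of_eq ?_)
    rw [Real.mul_rpow (by positivity) (by positivity), Real.mul_rpow (by positivity) hm0,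
      Real.mul_rpow (by positivity) (by positivity), s9i_inv_sq_rpow hs0, s9i_inv_sq_rpow hs1]
  have e2 : Tk ^ (2 * p0 * θ) ≤ PC ^ (2 * p0 * θ) * s3 ^ (-(2 * (2 * p0 * θ))) := by
    refine (Real.rpow_le_rpow hTk hk (by positivity)).trans (le_of_eq ?_)
    rw [Real.mul_rpow hPC0.le (by positivity), s9i_inv_sq_rpow hs3]
  have e3 : (s0 * s1 * s2 * s3) ^ p = s0 ^ p * s1 ^ p * s2 ^ p * s3 ^ p := by
    rw [Real.mul_rpow (by positivity) hs3.le, Real.mul_rpow (by positivity) hs2.le,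
      Real.mul_rpow hs0.le hs1.le]
  have e4 : (PC ^ 2) ^ (1 - θ) * PC ^ (2 * p0 * θ) ≤ PC ^ 2 := by
    rw [← Real.rpow_natCast PC 2, ← Real.rpow_mul hPC0.le, ← Real.rpow_add hPC0]
    apply Real.rpow_le_rpow_of_exponent_le hPC
    push_cast
    nlinarith
  have hpos1 : 0 ≤ (s0 * s1 * s2 * s3) ^ p := Real.rpow_nonneg (by positivity) _
  have hmθ : 0 ≤ m ^ (1 - θ) := Real.rpow_nonneg hm0 _
  calc (s0 * s1 * s2 * s3) ^ p * (A0 ^ (1 - θ) * A1 ^ (1 - θ) * Tk ^ (2 * p0 * θ))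
      ≤ (s0 * s1 * s2 * s3) ^ p * (((PC ^ 2) ^ (1 - θ) * m ^ (1 - θ) *
          (s0 ^ (-(2 * (1 - θ))) * s1 ^ (-(2 * (1 - θ))))) * (PC ^ (2 * p0 * θ) * s3 ^ (-(2 * (2 * p0 * θ))))) := by
        refine mul_le_mul_of_nonneg_left (mul_le_mul e1 e2 (Real.rpow_nonneg hTk _) ?_) hpos1
        positivity
    _ = ((PC ^ 2) ^ (1 - θ) * PC ^ (2 * p0 * θ)) * (m ^ (1 - θ) *
          ((s0 ^ p * s0 ^ (-(2 * (1 - θ)))) * (s1 ^ p * s1 ^ (-(2 * (1 - θ)))) * s2 ^ p *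
            (s3 ^ p * s3 ^ (-(2 * (2 * p0 * θ)))))) := by
        rw [e3]
        ring
    _ = ((PC ^ 2) ^ (1 - θ) * PC ^ (2 * p0 * θ)) * (m ^ (1 - θ) *
          (s0 ^ (p - 2 * (1 - θ)) * s1 ^ (p - 2 * (1 - θ)) * s2 ^ p * s3 ^ (p - 4 * θ * p0))) := by
        rw [← Real.rpow_add hs0, ← Real.rpow_add hs1, ← Real.rpow_add hs3]
        congr 5
        ring
    _ ≤ PC ^ 2 * (m ^ (1 - θ) *
          (s0 ^ (p - 2 * (1 - θ)) * s1 ^ (p - 2 * (1 - θ)) * s2 ^ p * s3 ^ (p - 4 * θ * p0))) := by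
        refine mul_le_mul_of_nonneg_right e4 ?_
        positivity

/-- (step 5) the frequency algebra -/
theorem s9i_freq_alg {θ p0 C1 PL : ℝ} (hθ0 : 0 < θ) (hθ : θ ≤ 1 / 8) (hCθ : C1 * θ ≤ 1 / 4) (hC1 : 0 ≤ C1)
    (hp0 : 0 < p0) (hPL : 1 ≤ PL) (b c f : ℕ) :
    ((2 : ℝ) ^ (-((b : ℝ) + c + f))) ^ (1 - θ * (1 - p0)) *
      ((PL * (1 + (b : ℝ) + c) ^ C1) ^ (1 - θ) * (PL * ((2 : ℝ) ^ b + 2 ^ c + 2 ^ f) ^ C1) ^ θ) ≤
    3 * PL * ((1 + (b : ℝ) + c) ^ C1 * (2 : ℝ) ^ (-(((b : ℝ) + c + f) / 2))) := by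
  have hb : (0 : ℝ) ≤ b := Nat.cast_nonneg _
  have hc : (0 : ℝ) ≤ c := Nat.cast_nonneg _
  have hf : (0 : ℝ) ≤ f := Nat.cast_nonneg _
  set n : ℝ := (b : ℝ) + c + f with hn
  have hn0 : 0 ≤ n := by positivity
  set u : ℝ := (1 + (b : ℝ) + c) ^ C1 with hu
  have hu1 : 1 ≤ u := Real.one_le_rpow (by linarith) hC1
  have hPL0 : 0 < PL := by linarith
  set w : ℝ := (2 : ℝ) ^ b + 2 ^ c + 2 ^ f with hw
  have hw1 : 1 ≤ w := by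
    have h1 : (1 : ℝ) ≤ 2 ^ b := one_le_pow₀ (by norm_num)
    have h2 : (0 : ℝ) ≤ 2 ^ c := by positivity
    have h3 : (0 : ℝ) ≤ 2 ^ f := by positivity
    linarith
  have hw3 : w ≤ 3 * (2 : ℝ) ^ n := by
    have h2n : (2 : ℝ) ^ n = 2 ^ (b + c + f) := by
      rw [hn, ← Real.rpow_natCast]
      push_cast
      rfl
    rw [h2n]
    have h1 : (2 : ℝ) ^ b ≤ 2 ^ (b + c + f) := pow_le_pow_right₀ (by norm_num) (by omega)
    have h2 : (2 : ℝ) ^ c ≤ 2 ^ (b + c + f) := pow_le_pow_right₀ (by norm_num) (by omega)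
    have h3 : (2 : ℝ) ^ f ≤ 2 ^ (b + c + f) := pow_le_pow_right₀ (by norm_num) (by omega)
    linarith
  have e1 : (PL * u) ^ (1 - θ) * (PL * w ^ C1) ^ θ = PL * (u ^ (1 - θ) * w ^ (C1 * θ)) := by
    have hwθ : (w ^ C1) ^ θ = w ^ (C1 * θ) := (Real.rpow_mul (by linarith) _ _).symm
    rw [Real.mul_rpow hPL0.le (by positivity), Real.mul_rpow hPL0.le (by positivity), hwθ]
    have : PL ^ (1 - θ) * PL ^ θ = PL := by
      rw [← Real.rpow_add hPL0]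
      simp
    calc PL ^ (1 - θ) * u ^ (1 - θ) * (PL ^ θ * w ^ (C1 * θ))
        = (PL ^ (1 - θ) * PL ^ θ) * (u ^ (1 - θ) * w ^ (C1 * θ)) := by ring
      _ = _ := by rw [this]
  have e2 : u ^ (1 - θ) ≤ u := by
    calc u ^ (1 - θ) ≤ u ^ (1 : ℝ) := Real.rpow_le_rpow_of_exponent_le hu1 (by linarith)
      _ = u := Real.rpow_one _
  have e3 : w ^ (C1 * θ) ≤ 3 * (2 : ℝ) ^ (n / 4) := by
    calc w ^ (C1 * θ) ≤ w ^ (1 / 4 : ℝ) := Real.rpow_le_rpow_of_exponent_le hw1 hCθ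
      _ ≤ (3 * (2 : ℝ) ^ n) ^ (1 / 4 : ℝ) := Real.rpow_le_rpow (by linarith) hw3 (by norm_num)
      _ = (3 : ℝ) ^ (1 / 4 : ℝ) * (2 : ℝ) ^ (n / 4) := by
          rw [Real.mul_rpow (by norm_num) (by positivity), ← Real.rpow_mul (by norm_num)]
          congr 2
          ring
      _ ≤ 3 * (2 : ℝ) ^ (n / 4) := by
          refine mul_le_mul_of_nonneg_right ?_ (by positivity)
          calc (3 : ℝ) ^ (1 / 4 : ℝ) ≤ (3 : ℝ) ^ (1 : ℝ) :=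
                Real.rpow_le_rpow_of_exponent_le (by norm_num) (by norm_num)
            _ = 3 := Real.rpow_one _
  have e4 : ((2 : ℝ) ^ (-n)) ^ (1 - θ * (1 - p0)) * (2 : ℝ) ^ (n / 4) ≤ (2 : ℝ) ^ (-(n / 2)) := by
    rw [← Real.rpow_mul (by norm_num), ← Real.rpow_add (by norm_num)]
    apply Real.rpow_le_rpow_of_exponent_le (by norm_num)
    have h1 : θ * (1 - p0) ≤ 1 / 8 := by nlinarith
    nlinarith
  have hk0 : 0 ≤ ((2 : ℝ) ^ (-n)) ^ (1 - θ * (1 - p0)) := by positivity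
  rw [e1]
  calc ((2 : ℝ) ^ (-n)) ^ (1 - θ * (1 - p0)) * (PL * (u ^ (1 - θ) * w ^ (C1 * θ)))
      ≤ ((2 : ℝ) ^ (-n)) ^ (1 - θ * (1 - p0)) * (PL * (u * (3 * (2 : ℝ) ^ (n / 4)))) := by
        refine mul_le_mul_of_nonneg_left (mul_le_mul_of_nonneg_left ?_ hPL0.le) hk0
        exact mul_le_mul e2 e3 (by positivity) (by linarith)
    _ = 3 * PL * (u * (((2 : ℝ) ^ (-n)) ^ (1 - θ * (1 - p0)) * (2 : ℝ) ^ (n / 4))) := by ring
    _ ≤ 3 * PL * (u * (2 : ℝ) ^ (-(n / 2))) := by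
        refine mul_le_mul_of_nonneg_left (mul_le_mul_of_nonneg_left e4 (by linarith)) (by positivity)

/-- sorted bins -/
def s9iSrt (a : Fin 4 → ℤ) : Prop := a 1 ≤ a 0 ∧ a 2 ≤ a 1 ∧ a 3 ≤ a 2

instance s9iSrt_dec (a : Fin 4 → ℤ) : Decidable (s9iSrt a) := by
  unfold s9iSrt
  infer_instance

theorem s9i_exists_sort (a : Fin 4 → ℤ) : ∃ π : Equiv.Perm (Fin 4), s9iSrt (a ∘ π) := by
  have h := Tuple.monotone_sort (fun i => -a i)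
  refine ⟨Tuple.sort (fun i => -a i), ?_, ?_, ?_⟩
  · have := h (show (0 : Fin 4) ≤ 1 by decide)
    simp only [Function.comp] at this ⊢
    linarith
  · have := h (show (1 : Fin 4) ≤ 2 by decide)
    simp only [Function.comp] at this ⊢
    linarith
  · have := h (show (2 : Fin 4) ≤ 3 by decide)
    simp only [Function.comp] at this ⊢
    linarith

theorem s9iAmp_nonneg {θ p0 Ds : ℝ} (hDs : 0 ≤ Ds) (a : Fin 4 → ℤ) : 0 ≤ s9iAmp θ p0 Ds a := by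
  unfold s9iAmp
  have : 0 ≤ min 1 (Ds * ((2 : ℝ) ^ (a 0)) ^ 2) := le_min zero_le_one (by positivity)
  positivity

/-- one configuration -/
theorem s9i_cfg {γ ι : Type*} (G : Finset γ) (S : Finset ι) (N : γ → ι → ℝ) (M : Fin 4 → γ → ℝ)
    {θ p0 C1 PL PC Ds : ℝ} (hθ0 : 0 < θ) (hθ : θ ≤ 1 / 8) (hCθ : C1 * θ ≤ 1 / 4) (hC1 : 0 ≤ C1)
    (hp0 : 0 < p0) (hp1 : p0 < 1) (hPL : 1 ≤ PL) (hPC : 1 ≤ PC) (hDs : 1 ≤ Ds)
    (a : Fin 4 → ℤ) (b c f : ℕ) (core : Fin 4 → Prop)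
    (hN : ∀ g ∈ G, ∀ s ∈ S, 0 ≤ N g s) (hM : ∀ i, ∀ g ∈ G, 0 ≤ M i g)
    (hcore1 : ∀ i j, ¬ core i → ¬ core j → i = j)
    (H1 : ∀ g ∈ G, ∀ i j, i ≠ j → ∑ s ∈ S, N g s ≤ PL * (1 + (b : ℝ) + c) ^ C1 * (M i g * M j g))
    (H2 : ∀ g ∈ G, ∀ X : ℝ, (∀ i, M i g ≤ X) →
      ∑ s ∈ S, N g s ^ p0 ≤ PL * ((2 : ℝ) ^ b + 2 ^ c + 2 ^ f) ^ C1 * X ^ (2 * p0))
    (H3 : ∀ i, ∑ g ∈ G, M i g ≤ PC * (((2 : ℝ) ^ (a i)) ^ 2)⁻¹)
    (H4 : ∀ i, core i → ∑ g ∈ G, M i g ≤ Ds)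
    (π : Equiv.Perm (Fin 4)) (hπ : s9iSrt (a ∘ π)) :
    ∑ g ∈ G, ∑ s ∈ S, ((2 : ℝ) ^ (-((b : ℝ) + c + f)) * (∏ i, (2 : ℝ) ^ (a i)) * N g s) ^ (1 - θ * (1 - p0)) ≤
      12 * PL * PC ^ 2 * (((1 + (b : ℝ) + c) ^ C1 * (2 : ℝ) ^ (-(((b : ℝ) + c + f) / 2))) *
        s9iAmp θ p0 Ds (a ∘ π)) := by
  set p := 1 - θ * (1 - p0) with hp
  have hpe : p = (1 - θ) + θ * p0 := by rw [hp]; ring
  set ker : ℝ := (2 : ℝ) ^ (-((b : ℝ) + c + f)) with hker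
  set Ps : ℝ := ∏ i, (2 : ℝ) ^ (a i) with hPs
  have hker0 : 0 < ker := Real.rpow_pos_of_pos (by norm_num) _
  have hPs0 : 0 < Ps := Finset.prod_pos fun i _ => by positivity
  set L0 : ℝ := PL * (1 + (b : ℝ) + c) ^ C1 with hL0
  set X2 : ℝ := PL * ((2 : ℝ) ^ b + 2 ^ c + 2 ^ f) ^ C1 with hX2
  have hb : (0 : ℝ) ≤ b := Nat.cast_nonneg _
  have hc : (0 : ℝ) ≤ c := Nat.cast_nonneg _
  have hL00 : 0 ≤ L0 := by positivity
  have hX20 : 0 ≤ X2 := by positivity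
  have h1θ : 0 ≤ 1 - θ := by linarith
  set T : Fin 4 → ℝ := fun i => ∑ g ∈ G, M i g with hT
  have hT0 : ∀ i, 0 ≤ T i := fun i => Finset.sum_nonneg fun g hg => hM i g hg
  have h01 : π 0 ≠ π 1 := fun h => by
    have := π.injective h
    exact absurd this (by decide)
  -- the sum over s and g
  have hsg : ∑ g ∈ G, ∑ s ∈ S, N g s ^ p ≤
      ∑ k : Fin 4, L0 ^ (1 - θ) * X2 ^ θ * (T (π 0) ^ (1 - θ) * T (π 1) ^ (1 - θ) * T k ^ (2 * p0 * θ)) := by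
    calc ∑ g ∈ G, ∑ s ∈ S, N g s ^ p
        ≤ ∑ g ∈ G, ∑ k : Fin 4, (L0 * (M (π 0) g * M (π 1) g)) ^ (1 - θ) * (X2 ^ θ * M k g ^ (2 * p0 * θ)) := by
          refine Finset.sum_le_sum fun g hg => ?_
          rw [hpe]
          exact s9i_step1 S (N g) (hN g hg) (fun i => M i g) (fun i => hM i g hg) hp0 hθ0.le (by linarith) hX20
            (H1 g hg _ _ h01) (H2 g hg)
      _ = ∑ k : Fin 4, L0 ^ (1 - θ) * X2 ^ θ *
            ∑ g ∈ G, M (π 0) g ^ (1 - θ) * M (π 1) g ^ (1 - θ) * M k g ^ (2 * p0 * θ) := by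
          rw [Finset.sum_comm]
          refine Finset.sum_congr rfl fun k _ => ?_
          rw [Finset.mul_sum]
          refine Finset.sum_congr rfl fun g hg => ?_
          rw [Real.mul_rpow hL00 (mul_nonneg (hM _ g hg) (hM _ g hg)), Real.mul_rpow (hM _ g hg) (hM _ g hg)]
          ring
      _ ≤ _ := by
          refine Finset.sum_le_sum fun k _ => ?_
          refine mul_le_mul_of_nonneg_left ?_ (by positivity)
          refine s9i_step2 G _ _ _ (hM _) (hM _) (hM _) h1θ h1θ (by positivity) ?_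
          nlinarith
  -- amplitudes
  have hprod : Ps = (2 : ℝ) ^ (a (π 0)) * (2 : ℝ) ^ (a (π 1)) * (2 : ℝ) ^ (a (π 2)) * (2 : ℝ) ^ (a (π 3)) := by
    rw [hPs, ← Equiv.prod_comp π (fun i => (2 : ℝ) ^ (a i)), Fin.prod_univ_four]
  obtain ⟨s10, s21, s32⟩ := hπ
  simp only [Function.comp] at s10 s21 s32
  have hmin : ∀ k, a (π 3) ≤ a k := by
    intro k
    obtain ⟨k', rfl⟩ := π.surjective k
    fin_cases k'
    · show a (π 3) ≤ a (π 0)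
      omega
    · show a (π 3) ≤ a (π 1)
      omega
    · show a (π 3) ≤ a (π 2)
      omega
    · exact le_rfl
  have hTk : ∀ k, T k ≤ PC * (((2 : ℝ) ^ (a (π 3))) ^ 2)⁻¹ := by
    intro k
    refine (H3 k).trans (mul_le_mul_of_nonneg_left ?_ (by linarith))
    apply inv_anti₀ (by positivity)
    exact pow_le_pow_left₀ (by positivity) (zpow_le_zpow_right₀ (by norm_num) (hmin k)) 2
  have hcore : T (π 0) ≤ Ds ∨ T (π 1) ≤ Ds := by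
    by_cases h0 : core (π 0)
    · exact Or.inl (H4 _ h0)
    · by_cases h1 : core (π 1)
      · exact Or.inr (H4 _ h1)
      · exact absurd (hcore1 _ _ h0 h1) h01
  have hamp : ∀ k, Ps ^ p * (T (π 0) ^ (1 - θ) * T (π 1) ^ (1 - θ) * T k ^ (2 * p0 * θ)) ≤
      PC ^ 2 * s9iAmp θ p0 Ds (a ∘ π) := by
    intro k
    rw [hprod]
    exact s9i_amp_alg hθ0 hθ hp0 hp1 hPC hDs (by positivity) (by positivity) (by positivity)
      (zpow_le_zpow_right₀ (by norm_num) s10) (hT0 _) (hT0 _) (hT0 _) (H3 _) (H3 _) (hTk k) hcore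
  have hfr := s9i_freq_alg hθ0 hθ hCθ hC1 hp0 hPL b c f
  have hampnn : 0 ≤ s9iAmp θ p0 Ds (a ∘ π) := s9iAmp_nonneg (by linarith) _
  set Fq : ℝ := (1 + (b : ℝ) + c) ^ C1 * (2 : ℝ) ^ (-(((b : ℝ) + c + f) / 2)) with hFq
  have hFq0 : 0 ≤ Fq := by positivity
  have hterm : ∀ g ∈ G, ∀ s ∈ S, (ker * Ps * N g s) ^ p = ker ^ p * Ps ^ p * N g s ^ p := by
    intro g hg s hs
    rw [Real.mul_rpow (by positivity) (hN g hg s hs), Real.mul_rpow hker0.le hPs0.le]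
  calc ∑ g ∈ G, ∑ s ∈ S, (ker * Ps * N g s) ^ p
      = ker ^ p * Ps ^ p * ∑ g ∈ G, ∑ s ∈ S, N g s ^ p := by
        rw [Finset.mul_sum]
        refine Finset.sum_congr rfl fun g hg => ?_
        rw [Finset.mul_sum]
        exact Finset.sum_congr rfl fun s hs => hterm g hg s hs
    _ ≤ ker ^ p * Ps ^ p *
          ∑ k : Fin 4, L0 ^ (1 - θ) * X2 ^ θ * (T (π 0) ^ (1 - θ) * T (π 1) ^ (1 - θ) * T k ^ (2 * p0 * θ)) :=
        mul_le_mul_of_nonneg_left hsg (by positivity)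
    _ = ∑ k : Fin 4, (ker ^ p * (L0 ^ (1 - θ) * X2 ^ θ)) *
          (Ps ^ p * (T (π 0) ^ (1 - θ) * T (π 1) ^ (1 - θ) * T k ^ (2 * p0 * θ))) := by
        rw [Finset.mul_sum]
        refine Finset.sum_congr rfl fun k _ => ?_
        ring
    _ ≤ ∑ _k : Fin 4, (3 * PL * Fq) * (PC ^ 2 * s9iAmp θ p0 Ds (a ∘ π)) := by
        refine Finset.sum_le_sum fun k _ => ?_
        refine mul_le_mul hfr (hamp k) ?_ (by positivity)
        exact mul_nonneg (by positivity) (mul_nonneg (mul_nonneg (Real.rpow_nonneg (hT0 _) _)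
          (Real.rpow_nonneg (hT0 _) _)) (Real.rpow_nonneg (hT0 _) _))
    _ = 12 * PL * PC ^ 2 * (Fq * s9iAmp θ p0 Ds (a ∘ π)) := by
        rw [Finset.sum_const, Finset.card_univ, Fintype.card_fin, nsmul_eq_mul]
        push_cast
        ring

/-- the amplitude factor summed over all the sorting permutations -/
noncomputable def s9iW (θ p0 Ds : ℝ) (a : Fin 4 → ℤ) : ℝ :=
  ∑ π : Equiv.Perm (Fin 4), if s9iSrt (a ∘ π) then s9iAmp θ p0 Ds (a ∘ π) else 0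

theorem s9iW_nonneg {θ p0 Ds : ℝ} (hDs : 0 ≤ Ds) (a : Fin 4 → ℤ) : 0 ≤ s9iW θ p0 Ds a := by
  unfold s9iW
  refine Finset.sum_nonneg fun π _ => ?_
  split_ifs
  · exact s9iAmp_nonneg hDs _
  · exact le_rfl

theorem s9i_le_W {θ p0 Ds : ℝ} (hDs : 0 ≤ Ds) (a : Fin 4 → ℤ) {π : Equiv.Perm (Fin 4)} (hπ : s9iSrt (a ∘ π)) :
    s9iAmp θ p0 Ds (a ∘ π) ≤ s9iW θ p0 Ds a := by
  unfold s9iW
  have h := Finset.single_le_sum
    (f := fun π : Equiv.Perm (Fin 4) => if s9iSrt (a ∘ π) then s9iAmp θ p0 Ds (a ∘ π) else 0)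
    (fun π _ => by
      show 0 ≤ if s9iSrt (a ∘ π) then s9iAmp θ p0 Ds (a ∘ π) else 0
      split_ifs
      · exact s9iAmp_nonneg hDs _
      · exact le_rfl) (Finset.mem_univ π)
  simp only [if_pos hπ] at h
  exact h

/-- the sum of the amplitude factors over arbitrary (unsorted) bins -/
theorem s9i_W_sum {θ p0 Ds PA : ℝ} (hθ0 : 0 < θ) (hθ : θ ≤ 1 / 8) (hp0 : 0 < p0) (hp1 : p0 < 1) (hDs : 1 ≤ Ds)
    (hPA : 1 ≤ PA) (A : Finset (Fin 4 → ℤ)) (hcap : ∀ a ∈ A, ∀ i, (2 : ℝ) ^ (a i) ≤ PA) :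
    ∑ a ∈ A, s9iW θ p0 Ds a ≤ 24 * (100 * (3 + Real.logb 2 PA + Real.logb 2 Ds)) := by
  unfold s9iW
  rw [Finset.sum_comm]
  have hπ : ∀ π : Equiv.Perm (Fin 4), ∑ a ∈ A, (if s9iSrt (a ∘ π) then s9iAmp θ p0 Ds (a ∘ π) else 0) ≤
      100 * (3 + Real.logb 2 PA + Real.logb 2 Ds) := by
    intro π
    rw [← Finset.sum_filter]
    have hinj : Set.InjOn (fun a : Fin 4 → ℤ => a ∘ π) ((A.filter fun a => s9iSrt (a ∘ π) : Finset _) : Set (Fin 4 → ℤ)) := by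
      intro a _ b _ he
      funext i
      have := congrFun he (π.symm i)
      simpa using this
    rw [← Finset.sum_image (f := fun a' => s9iAmp θ p0 Ds a') hinj]
    refine s9i_amp θ p0 Ds PA hθ0 hθ hp0 hp1 hDs hPA _ ?_ ?_
    · intro a' ha'
      obtain ⟨a, ha, rfl⟩ := Finset.mem_image.1 ha'
      exact (Finset.mem_filter.1 ha).2
    · intro a' ha'
      obtain ⟨a, ha, rfl⟩ := Finset.mem_image.1 ha'
      exact hcap a (Finset.mem_filter.1 ha).1 _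
  refine (Finset.sum_le_sum fun π _ => hπ π).trans (le_of_eq ?_)
  rw [Finset.sum_const, Finset.card_univ, Fintype.card_perm, Fintype.card_fin, nsmul_eq_mul]
  norm_num [Nat.factorial]

open Classical in
/-- **[S9c]** the pure inequality of Prop. 9.3. -/
theorem s9i_main (p0 C1 : ℝ) (hp0 : 0 < p0) (hp1 : p0 < 1) (hC1 : 0 ≤ C1) :
    ∃ C : ℝ, 0 < C ∧
    ∀ (E γ ι : Type) (cfgs : Finset (S9Cfg E)) (G : Finset γ) (S : Finset ι)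
      (N : S9Cfg E → γ → ι → ℝ) (M : S9Cfg E → Fin 4 → γ → ℝ) (isCore : E → Fin 4 → Prop) (PL PC PA Ds : ℝ),
      1 ≤ PL → 1 ≤ PC → 1 ≤ PA → 1 ≤ Ds →
      (∀ x ∈ cfgs, ∀ g ∈ G, ∀ s ∈ S, 0 ≤ N x g s) → (∀ x ∈ cfgs, ∀ i, ∀ g ∈ G, 0 ≤ M x i g) →
      (∀ e i j, ¬ isCore e i → ¬ isCore e j → i = j) →
      -- (34), first line
      (∀ x ∈ cfgs, ∀ g ∈ G, ∀ i j, i ≠ j →
        ∑ s ∈ S, N x g s ≤ PL * (1 + (x.b : ℝ) + x.c) ^ C1 * (M x i g * M x j g)) →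
      -- (34), second line
      (∀ x ∈ cfgs, ∀ g ∈ G, ∀ X : ℝ, (∀ i, M x i g ≤ X) →
        ∑ s ∈ S, N x g s ^ p0 ≤ PL * ((2 : ℝ) ^ x.b + 2 ^ x.c + 2 ^ x.f) ^ C1 * X ^ (2 * p0)) →
      -- (28) and the side budget
      (∀ x ∈ cfgs, ∀ i, ∑ g ∈ G, M x i g ≤ PC * (x.sg i ^ 2)⁻¹) →
      (∀ x ∈ cfgs, ∀ i, isCore x.1 i → ∑ g ∈ G, M x i g ≤ Ds) →
      -- amplitude cap
      (∀ x ∈ cfgs, ∀ i, x.sg i ≤ PA) →
      ∑ x ∈ cfgs, ∑ g ∈ G, ∑ s ∈ S, (x.ker * (∏ i, x.sg i) * N x g s) ^ s9iPw p0 C1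
        ≤ C * ((cfgs.image Prod.fst).card : ℝ) * PL * PC ^ 2 * (3 + Real.logb 2 PA + Real.logb 2 Ds) := by
  obtain ⟨hθ0, hθ, hCθ⟩ := s9i_th_props hC1
  obtain ⟨Cf, hCf0, hCf⟩ := s9i_freq C1 hC1
  refine ⟨12 * (24 * 100) * Cf, by positivity, ?_⟩
  intro E γ ι cfgs G S N M isCore PL PC PA Ds hPL hPC hPA hDs hN hM hcore1 H1 H2 H3 H4 H5
  set θ := s9iTh C1 with hθdef
  set Fq : ℕ × ℕ × ℕ → ℝ := fun z =>
    (1 + (z.1 : ℝ) + (z.2.1 : ℝ)) ^ C1 * (2 : ℝ) ^ (-(((z.1 : ℝ) + z.2.1 + z.2.2) / 2)) with hFq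
  have hFq0 : ∀ z, 0 ≤ Fq z := fun z => by
    have h1 : (0 : ℝ) ≤ z.1 := Nat.cast_nonneg _
    have h2 : (0 : ℝ) ≤ z.2.1 := Nat.cast_nonneg _
    positivity
  have hLg : 0 ≤ 3 + Real.logb 2 PA + Real.logb 2 Ds := by
    have h1 : 0 ≤ Real.logb 2 PA := Real.logb_nonneg (by norm_num) hPA
    have h2 : 0 ≤ Real.logb 2 Ds := Real.logb_nonneg (by norm_num) hDs
    linarith
  have hDs0 : 0 ≤ Ds := by linarith
  -- one configuration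
  have hx : ∀ x ∈ cfgs, ∑ g ∈ G, ∑ s ∈ S, (x.ker * (∏ i, x.sg i) * N x g s) ^ s9iPw p0 C1 ≤
      12 * PL * PC ^ 2 * ((1 : ℝ) * (s9iW θ p0 Ds x.2.1 * Fq x.2.2)) := by
    intro x hxc
    obtain ⟨π, hπ⟩ := s9i_exists_sort x.2.1
    have h := s9i_cfg G S (N x) (M x) hθ0 hθ hCθ hC1 hp0 hp1 hPL hPC hDs x.2.1 x.b x.c x.f (isCore x.1)
      (hN x hxc) (hM x hxc) (hcore1 x.1) (H1 x hxc) (H2 x hxc) (H3 x hxc) (H4 x hxc) π hπ
    refine le_trans h ?_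
    have h2 := s9i_le_W (θ := θ) (p0 := p0) hDs0 x.2.1 hπ
    have h3 : (1 + (x.b : ℝ) + x.c) ^ C1 * (2 : ℝ) ^ (-(((x.b : ℝ) + x.c + x.f) / 2)) = Fq x.2.2 := rfl
    rw [h3, one_mul, mul_comm (s9iW θ p0 Ds x.2.1)]
    exact mul_le_mul_of_nonneg_left (mul_le_mul_of_nonneg_left h2 (hFq0 _)) (by positivity)
  set E' := cfgs.image Prod.fst with hE'
  set A' := cfgs.image fun x => x.2.1 with hA'
  set B' := cfgs.image fun x => x.2.2 with hB'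
  have hsub : cfgs ⊆ E' ×ˢ (A' ×ˢ B') := by
    intro x hxc
    exact Finset.mem_product.2 ⟨Finset.mem_image_of_mem _ hxc, Finset.mem_product.2
      ⟨Finset.mem_image_of_mem (fun x : S9Cfg E => x.2.1) hxc,
        Finset.mem_image_of_mem (fun x : S9Cfg E => x.2.2) hxc⟩⟩
  have hW := s9i_W_sum hθ0 hθ hp0 hp1 hDs hPA A' (fun a ha i => by
    obtain ⟨x, hxc, rfl⟩ := Finset.mem_image.1 ha
    exact H5 x hxc i)
  have hW0 : 0 ≤ ∑ a ∈ A', s9iW θ p0 Ds a := Finset.sum_nonneg fun a _ => s9iW_nonneg hDs0 a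
  have hB0 : 0 ≤ ∑ z ∈ B', Fq z := Finset.sum_nonneg fun z _ => hFq0 z
  calc ∑ x ∈ cfgs, ∑ g ∈ G, ∑ s ∈ S, (x.ker * (∏ i, x.sg i) * N x g s) ^ s9iPw p0 C1
      ≤ ∑ x ∈ cfgs, 12 * PL * PC ^ 2 * ((1 : ℝ) * (s9iW θ p0 Ds x.2.1 * Fq x.2.2)) := Finset.sum_le_sum hx
    _ = 12 * PL * PC ^ 2 * ∑ x ∈ cfgs, ((1 : ℝ) * (s9iW θ p0 Ds x.2.1 * Fq x.2.2)) := by
        rw [Finset.mul_sum]
    _ ≤ 12 * PL * PC ^ 2 * ∑ x ∈ E' ×ˢ (A' ×ˢ B'), ((1 : ℝ) * (s9iW θ p0 Ds x.2.1 * Fq x.2.2)) := by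
        refine mul_le_mul_of_nonneg_left ?_ (by positivity)
        refine Finset.sum_le_sum_of_subset_of_nonneg hsub fun x _ _ => ?_
        exact mul_nonneg zero_le_one (mul_nonneg (s9iW_nonneg hDs0 _) (hFq0 _))
    _ = 12 * PL * PC ^ 2 * ((E'.card : ℝ) * ((∑ a ∈ A', s9iW θ p0 Ds a) * ∑ z ∈ B', Fq z)) := by
        rw [s9i_sum_prod3 E' A' B' (fun _ => (1 : ℝ)) (fun a => s9iW θ p0 Ds a) Fq]
        simp
    _ ≤ 12 * PL * PC ^ 2 * ((E'.card : ℝ) * ((24 * (100 * (3 + Real.logb 2 PA + Real.logb 2 Ds))) * Cf)) := by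
        refine mul_le_mul_of_nonneg_left ?_ (by positivity)
        refine mul_le_mul_of_nonneg_left ?_ (Nat.cast_nonneg _)
        exact mul_le_mul hW (hCf B') hB0 (by positivity)
    _ = 12 * (24 * 100) * Cf * (E'.card : ℝ) * PL * PC ^ 2 * (3 + Real.logb 2 PA + Real.logb 2 Ds) := by ring

end Claimed.Agent.R258
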