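/-
Row 258 (S0498), Sec. 9.2 (counting.tex, displays (31)-(33)).  HOME ARCHITECT: helper41.      THE FREQUENCY TESTS, BINS AND CONFIGURATIONS (definitions only).

Fix a use `u = (G, I)`, a point `x ∈ I`, a height `h`, a tuple of labels `a : Fin 4 → ℕ` (the label of the side role is the dummy `0`).
* `anc` = anchor `l'` (the side role, or `0`);  `val x a j = ω_{a j}(x)` (`0` in the side role);  `Qv = ∑_j val`, `Tv = ∑_j (j - l') val`;
* `xi G h = ϑ/6^{h-10}`, `Bx h = D_*^5 E_{h-10}`, `U0 = D_*^250`, `F0 = ⌊log₂ U0⌋`;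
* `IsRef` = moderate reference `(n0, m0)` in the box; `ref` = the normalized pair `(q', t') r` of a reference chosen by a rule depending only on `(x, u, h, a)`
  (three cores: `(0, β)`);  `s9mu`, `s9nu` = the quantities of (31);  a tuple is DISCARDED if there is no reference or `μ < U0⁻¹`;
* `kap0` = the kernel factor `μ/ν` of a tuple that is not discarded;  `Sp u ρ` = `S'` for the fresh offset `ρ`;  `bL … f` = `b_Λ` of (32), `Λ = 2^f`;  `sfac` = `∑_Λ Λ⁻¹ b_Λ` (`1` for four cores);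
* configurations `S9Cfg S9E`, `S9E = ℕ × (Fin 4 → ℕ × ℕ)` (height, types);  `tup x cfg u` = the label tuples counted by `N_s^G` in (33).
-/
import Claimed.Agent.R258.S9.Sys
import Claimed.Agent.R258.S9.Ineq
import Claimed.Agent.R258.S9.Model3

set_option autoImplicit false
open MeasureTheory

namespace Claimed.Agent.R258

open scoped BigOperators ComplexConjugate
open Classical

noncomputable section

/-- `μ` of (31) for the normalized pair `qt = (q' r, t' r)`, anchor `l'` -/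
def s9mu (l' : Fin 4) (qt : ℝ × ℝ) : ℝ := min 1 (Finset.univ.inf' Finset.univ_nonempty fun j : Fin 4 => |qt.2 - (s9al l' j : ℝ) * qt.1|)
/-- `ν` of (31) -/
def s9nu (qt : ℝ × ℝ) : ℝ := max 1 (max |qt.1| |qt.2|)
/-- the bin `b` of `μ`: `2^{-b} ≤ μ < 2^{-b+1}` -/
def s9binB (l' : Fin 4) (qt : ℝ × ℝ) : ℕ := ⌈-Real.logb 2 (s9mu l' qt)⌉₊
/-- the bin `c` of `ν`: `2^{c-1} < ν ≤ 2^c` -/
def s9binC (qt : ℝ × ℝ) : ℕ := ⌈Real.logb 2 (s9nu qt)⌉₊
/-- the dyadic bin of a positive amplitude: `2^a ≤ σ < 2^{a+1}` -/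
def s9binA (σ : ℝ) : ℤ := ⌊Real.logb 2 σ⌋

/-- discrete part of a configuration: height and types -/
abbrev S9E : Type := ℕ × (Fin 4 → ℕ × ℕ)

namespace S9Sys
variable {d : ℕ} (S : S9Sys d) (p : S8Par)

def hasSide : Prop := ∃ l, S.sd l = true
/-- the anchor -/
def anc : Fin 4 := if h : ∃ l, S.sd l = true then h.choose else 0
def val (x : ℝ) (a : Fin 4 → ℕ) (j : Fin 4) : ℝ := if S.sd j = true then 0 else S.om (a j) x
def Qv (x : ℝ) (a : Fin 4 → ℕ) : ℝ := ∑ j, S.val x a j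
def Tv (x : ℝ) (a : Fin 4 → ℕ) : ℝ := ∑ j, (s9al S.anc j : ℝ) * S.val x a j
def xi (G h : ℕ) : Fin d → ℝ := fun k => S.vth G k / ((6 ^ (h - 10) : ℕ) : ℝ)

end S9Sys

namespace S8Par
variable (p : S8Par)
/-- `B'_h` -/
def Bx (h : ℕ) : ℕ := p.Ds ^ 5 * p.E (h - 10)
def U0 : ℝ := (p.Ds : ℝ) ^ 250
def F0 : ℕ := Nat.log 2 (p.Ds ^ 250)
/-- the common tiny bound -/
def tin : ℝ := ((p.Ds : ℝ) ^ 300)⁻¹
end S8Par

namespace S9Sys
variable {d : ℕ} (S : S9Sys d) (p : S8Par)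

/-- moderate reference in the box (three cores: only `m0` is tested) -/
def IsRef (x : ℝ) (u : ℕ × Cell) (h : ℕ) (a : Fin 4 → ℕ) (nm : (Fin d → ℤ) × (Fin d → ℤ)) : Prop :=
  S9Box (p.Bx h) nm.1 ∧ S9Box (p.Bx h) nm.2 ∧
    (S.hasSide ∨ u.2.len * |S.Qv x a + s9dot nm.1 (S.xi u.1 h)| ≤ p.U0) ∧
    u.2.len * |S.Tv x a + s9dot nm.2 (S.xi u.1 h)| ≤ p.U0

/-- the normalized pair of a reference -/
def qtOf (x : ℝ) (u : ℕ × Cell) (h : ℕ) (a : Fin 4 → ℕ) (nm : (Fin d → ℤ) × (Fin d → ℤ)) : ℝ × ℝ :=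
  (if S.hasSide then 0 else u.2.len * (S.Qv x a + s9dot nm.1 (S.xi u.1 h)), u.2.len * (S.Tv x a + s9dot nm.2 (S.xi u.1 h)))

/-- the chosen reference pair; `none` if no moderate reference exists or if the tuple is discarded (`μ < U0⁻¹`) -/
def ref (x : ℝ) (u : ℕ × Cell) (h : ℕ) (a : Fin 4 → ℕ) : Option (ℝ × ℝ) :=
  if hr : ∃ nm, S.IsRef p x u h a nm then
    (if p.U0⁻¹ ≤ s9mu S.anc (S.qtOf x u h a hr.choose) then some (S.qtOf x u h a hr.choose) else none)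
  else none

/-- the kernel factor `μ/ν` -/
def kap0 (x : ℝ) (u : ℕ × Cell) (h : ℕ) (a : Fin 4 → ℕ) : ℝ :=
  match S.ref p x u h a with
  | none => 0
  | some qt => s9mu S.anc qt * (s9nu qt)⁻¹

/-- the mean of the squares of the fresh cutoffs -/
def cbar (G : ℕ) (y : ℝ) : ℝ := (S.nof : ℝ)⁻¹ * ∑ ρ, ‖S.gauS G ρ y‖ ^ 2
/-- the side function divided by the mean -/
def Sq (u : ℕ × Cell) (y : ℝ) : ℂ := S.Sd u y / (S.cbar u.1 y : ℂ)
/-- `S'` for the fresh offset `ρ` -/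
def Sp (u : ℕ × Cell) (ρ : Fin S.nof) (y : ℝ) : ℂ := conj (S.gauS u.1 ρ y) * (‖S.gauS u.1 ρ y‖ : ℂ) * S.Sq u y

/-- `b_Λ` of (32), `Λ = 2^f` -/
def bL (x : ℝ) (u : ℕ × Cell) (h : ℕ) (a : Fin 4 → ℕ) (f : ℕ) : ℝ :=
  Real.sqrt ((S.nof : ℝ)⁻¹ * ∑ ρ, s9bsq u.2 x (S.xi u.1 h) (S.Qv x a) (p.Bx h) ((2 : ℝ) ^ f) (S.Sp u ρ))

/-- the side factor `∑_Λ Λ⁻¹ b_Λ` -/
def sfac (x : ℝ) (u : ℕ × Cell) (h : ℕ) (a : Fin 4 → ℕ) : ℝ :=
  if S.hasSide then ∑ f ∈ Finset.range (p.F0 + 1), ((2 : ℝ) ^ f)⁻¹ * S.bL p x u h a f else 1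

/-- the label tuples of a use at the height `h` (dummy `0` in the side role) -/
def labT (u : ℕ × Cell) (h : ℕ) : Finset (Fin 4 → ℕ) :=
  Fintype.piFinset fun j => if S.sd j = true then {0} else S.lab j u h

/-- the core amplitudes (`1` in the side role) -/
def sgv (u : ℕ × Cell) (h : ℕ) (a : Fin 4 → ℕ) (j : Fin 4) : ℝ := if S.sd j = true then 1 else S.sg j u h (a j)

/-- **the principal part at the cell**, before binning -/
def prin (x : ℝ) (u : ℕ × Cell) : ℝ :=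
  (p.up.card : ℝ)⁻¹ * ∑ h ∈ p.up, ∑ a ∈ S.labT u h, S.kap0 p x u h a * S.sfac p x u h a * ∏ j, S.sgv u h a j

/-- the amplitude of the role `j` of a tuple in the shell `f`: the size (26), resp. `b_Λ` -/
def amp (x : ℝ) (u : ℕ × Cell) (h : ℕ) (a : Fin 4 → ℕ) (f : ℕ) (j : Fin 4) : ℝ :=
  if S.sd j = true then S.bL p x u h a f else S.sg j u h (a j)

/-- the type of the role `j` of a tuple (`(0,0)` in the side role) -/
def tyv (u : ℕ × Cell) (h : ℕ) (a : Fin 4 → ℕ) (j : Fin 4) : ℕ × ℕ := if S.sd j = true then (0, 0) else S.typ j u h (a j)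

/-- **the tuples counted by `N_s^G`** for the configuration `cfg` at the use `u` -/
def tup (x : ℝ) (cfg : S9Cfg S9E) (u : ℕ × Cell) : Finset (Fin 4 → ℕ) :=
  (S.labT u cfg.1.1).filter fun a =>
    (∀ j, S.tyv u cfg.1.1 a j = cfg.1.2 j) ∧
    (∀ j, 0 < S.amp p x u cfg.1.1 a cfg.f j ∧ s9binA (S.amp p x u cfg.1.1 a cfg.f j) = cfg.2.1 j) ∧
    (∃ qt, S.ref p x u cfg.1.1 a = some qt ∧ s9binB S.anc qt = cfg.b ∧ s9binC qt = cfg.c) ∧
    (if S.hasSide then cfg.f ≤ p.F0 else cfg.f = 0)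

/-- the configurations that occur at the use `u` -/
def cfgOf (x : ℝ) (u : ℕ × Cell) : Finset (S9Cfg S9E) :=
  p.up.biUnion fun h => (S.labT u h).biUnion fun a => (Finset.range (p.F0 + 1)).biUnion fun f =>
    match S.ref p x u h a with
    | none => ∅
    | some qt => {((h, S.tyv u h a), (fun j => s9binA (S.amp p x u h a f j)), s9binB S.anc qt, s9binC qt, f)}

end S9Sys

end

end Claimed.Agent.R258
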