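/-
Row 258 (S0498), Secs. 9.1-9.2 (counting.tex).  HOME ARCHITECT: helper41.      THE SINGLE-CELL ESTIMATE:  `S9Sys.Valid`  ⟹  cell bound by the principal part `prin`.
Black boxes: S9/{Sample,Torus,Kernel,Fser,Model4,Model3,Approx}.lean; definitions S9/{Sys,Test}.lean.  NO paper needed (complete plans below).

NOTATION.  `u = (G, I) ∈ uses`, `x ∈ I`, `h ∈ up`, `H = 6^{h-10}`, `ϑ = vth G`, `ξ = xi G h = ϑ/H`, `r = I.len`, `t = p.tin = D_*^{-300}`, `Bn = D_* E_{h-10}`, `Bx = p.Bx h = D_*^5 E_{h-10}`.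
The data of `s9_sample` (`r = 4` roles; the side role is a DUMMY with the single class `0`): `ClS, goodS, compS, phi, sS, cS` below.

PLANS.
* `s9c_dich`: field `dich` gives `κ` for `ϑ/6^h` on the box `E_h`.  For `n` in the box `2 Bx`: `n·ξ = (6^10 n)·(ϑ/6^h)` (`h ≥ 10` by `good_ge`), `6^10 · 2 Bx ≤ E_h` (`S9ParOk.A0_big`:
  `E_h = A0^{h+1} = A0^10 E_{h-10}`), `κ (6^10 n) = 6^10 • κ n` vanishes iff `κ n` does.
* `s9c_sub_sel`: `sub j u (sel X) = ∑_{D ∈ X} sub j u (mdOf D)` for `X ⊆ clsOf` (fibres of `cls`).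
* `s9c_phys`: `s9_orth_sum` with `A D = sub j u (mdOf D)`, `c D = cD`, `τ = D_*^{-200}` (expand the inner product of two classes into modes, field `orth`).
* `s9c_role`: `ro` := gauge `gau j G`, `Y = sel X`, `al, lam, gam` of `S`, `γs = om a x`, `nm` from the field `lin` (choice), `(ιZ, nZ, cZ)` from the field `cut` (choice).
  `nsq`: `S9RoleD.nsq_le` (`B = 2 Bx ≥ 2 (H Bs + Bn)`: `H Bs ≤ A0^{h-10} A0 = E_{h-10}`), `s9c_phys`; with `c = ∑_{D ∈ X} cD`, `#X ≤ D_*`, `c² ≤ D_* ∑ cD²`: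
  `nsq ≤ ∑ ‖A_D‖² + (D_*^{-200} + 14 D_*² /𝒯 + 30 t) D_* ∑ cD² ≤ ∑ (‖A_D‖² + D_*^{-60} cD²) ≤ ∑ sz²`.
* `s9c_hmain4`: if some `X j = ∅` both sides are trivial.  Otherwise `s9c_dich`, `s9c_role` for the four roles, `mul4` (anchor `0 = anc`), multilinearity (`s9c_phi_sum`):
  LHS `= ‖form I w (fun j => (Ro j).A)‖ ≤ ‖s9MF‖ + C t ∏ a1` (`s9_approx4`), `s9_ft4` (`τ = 𝒯⁻¹`, `CR = 2`, `s9_mult_shift`, `s9_tuple_box`), reference = the one chosen in `ref`: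
  `‖K̂(q',t')‖ ≤ C1 μ/ν` (`s9_K_bound`, `L = 1`, all four `j`).  Discarded tuples (`kap0 = 0`): no reference: `s9_ft4` (b); `μ < U0⁻¹`: main term `≤ 2 C1 U0⁻¹ ∏ ℓ¹`.
  `ℓ¹(fc) ≤ D_* a1`, `ℓ¹(cR) ≤ D_*`: all errors `≤ C D_*^{-245} ∏ a1`.
* `s9c_hmain3`: `l` = the side role `= anc`.  `Sd = nof⁻¹ ∑_ρ |gauS ρ|² Sq` (`cbar ≥ 1/2`), linearity in the slot `l`; for every `ρ`: `s9_approx3` (`gS = gauS G ρ`, `σ = Sq u`, `mul3`), `s9_ft3`
  with `S = Sp u ρ`; `nnorm (Sq), nnorm (Sp) ≤ 2 nnorm (Sd)` (`s9_nnorm_mono`); average over `ρ`: `nof⁻¹ ∑_ρ √(bsq_ρ) ≤ bL` (Cauchy-Schwarz); `s9mu l (0,β) = min 1 |β|`, `s9nu (0,β) = max 1 |β|`;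
  discarded tuples as above, with `√bsq ≤ nnorm (Sp)` (`s9_fc_bessel`).
* `s9c_cell`: `s9_sample` with `δ = 2 δ_*` (`4 √(2 δ_*) ≤ 1/2`), `hmain = s9c_hmain`; `√(∑ sz²) ≤ sg` (field `size`); tuples `a` with a label not coming from a good class contribute `0`;
  `∑_{ClS} cS ≤ D_*`.
-/
import Claimed.Agent.R258.S9.Test
import Claimed.Agent.R258.S9.Approx
import Claimed.Agent.R258.S9.Sample

set_option autoImplicit false
open MeasureTheory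

namespace Claimed.Agent.R258

open scoped BigOperators ComplexConjugate
open Classical

noncomputable section

namespace S9Sys
variable {d : ℕ} (S : S9Sys d)

/-- the modes of the classes in `X` -/
def sel (j : Fin 4) (u : ℕ × Cell) (X : Finset ℕ) : Finset ℕ := (S.md j u).filter fun m => S.cls j u m ∈ X
/-- the data of `s9_sample` -/
def ClS (j : Fin 4) (u : ℕ × Cell) : Finset ℕ := if S.sd j = true then {0} else S.clsOf j u
def goodS (j : Fin 4) (u : ℕ × Cell) (h D : ℕ) : Prop := S.sd j = true ∨ S.good j u h D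
def compS (j : Fin 4) (u : ℕ × Cell) (h D : ℕ) : ℕ := if S.sd j = true then 0 else S.rep j u h D
def phi (u : ℕ × Cell) (D : Fin 4 → ℕ) : ℂ :=
  form u.2 (S.w u.2) fun j => if S.sd j = true then S.Sd u else S.sub j u (S.mdOf j u (D j))
def sS (Ds : ℕ) (j : Fin 4) (u : ℕ × Cell) (D : ℕ) : ℝ := if S.sd j = true then 1 else S.sz Ds j u D
def cS (j : Fin 4) (u : ℕ × Cell) (D : ℕ) : ℝ := if S.sd j = true then 1 else S.cD j u D

end S9Sys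

variable {d : ℕ} {S : S9Sys d} {c0 C0 PC : ℝ} {p : S8Par} {tys : Finset (ℕ × ℕ)}

/-- the dichotomy on the `ξ` torus.  LEAF P-S9-CELL-A -/
theorem s9c_dich (hV : S.Valid c0 C0 p PC tys) (hP : S9ParOk p d) (u : ℕ × Cell) (hu : u ∈ S.uses) (h : ℕ) (hh : h ∈ p.up)
    (hg : ∃ j, S.sd j = false ∧ ∃ D ∈ S.clsOf j u, S.good j u h D) :
    ∃ (d' : ℕ) (kap : (Fin d → ℤ) →+ (Fin d' → ℤ)), S9DichK kap (S.xi u.1 h) (2 * p.Bx h) u.2.len p.TT⁻¹ p.TT := by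
  obtain ⟨d', kap, hk⟩ := hV.dich u hu h hh hg
  refine ⟨d', kap, fun n hn => ?_⟩
  have h10 : 10 ≤ h := hP.up_ge h hh
  set n' : Fin d → ℤ := (6 ^ 10 : ℤ) • n with hn'
  have hbox : S9Box (p.E h) n' := by
    intro i
    have h1 := hn i
    have h2 : 6 ^ 10 * (2 * p.Bx h) ≤ p.E h := by
      unfold S8Par.Bx S8Par.E
      have e : p.A0 ^ (h + 1) = p.A0 ^ 10 * p.A0 ^ (h - 10 + 1) := by
        rw [← pow_add]
        congr 1
        omega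
      rw [e]
      have h3 : 6 ^ 10 * 2 * p.Ds ^ 5 ≤ p.A0 ^ 10 := by
        refine le_trans ?_ hP.A0_big
        refine Nat.mul_le_mul_right _ ?_
        have h4 : 1 ≤ (d + 1) ^ 2 := Nat.one_le_pow _ _ (by omega)
        calc 6 ^ 10 * 2 ≤ 6 ^ 10 * 10 ^ 9 * 1 := by norm_num
          _ ≤ 6 ^ 10 * 10 ^ 9 * (d + 1) ^ 2 := Nat.mul_le_mul_left _ h4
      calc 6 ^ 10 * (2 * (p.Ds ^ 5 * p.A0 ^ (h - 10 + 1)))
          = (6 ^ 10 * 2 * p.Ds ^ 5) * p.A0 ^ (h - 10 + 1) := by ring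
        _ ≤ _ := Nat.mul_le_mul_right _ h3
    have h2' : (6 ^ 10 : ℤ) * ((2 * p.Bx h : ℕ) : ℤ) ≤ (p.E h : ℤ) := by exact_mod_cast h2
    rw [hn', Pi.smul_apply, smul_eq_mul, abs_mul, abs_of_pos (by norm_num : (0 : ℤ) < 6 ^ 10)]
    exact (mul_le_mul_of_nonneg_left h1 (by norm_num)).trans h2'
  have hdot : s9dot n' (fun i => S.vth u.1 i / 6 ^ h) = s9dot n (S.xi u.1 h) := by
    unfold s9dot S9Sys.xi
    refine Finset.sum_congr rfl fun i _ => ?_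
    rw [hn', Pi.smul_apply, smul_eq_mul]
    push_cast
    have e : (6 : ℝ) ^ h = 6 ^ 10 * 6 ^ (h - 10) := by
      rw [← pow_add]
      congr 1
      omega
    rw [e]
    field_simp
    ring
  have hkap : kap n' = (6 ^ 10 : ℤ) • kap n := map_zsmul kap _ _
  obtain ⟨h1, h2⟩ := hk n' hbox
  rw [hdot] at h1 h2
  refine ⟨fun h0 => h1 (by rw [hkap, h0, smul_zero]), fun h0 => h2 fun h' => h0 ?_⟩
  rw [hkap] at h'
  exact (smul_eq_zero.1 h').resolve_left (by norm_num)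

/-- sums over the modes of the selected classes, by classes -/
theorem s9c_sum_sel {β : Type*} [AddCommMonoid β] (j : Fin 4) (u : ℕ × Cell) (X : Finset ℕ) (f : ℕ → β) :
    ∑ m ∈ S.sel j u X, f m = ∑ D ∈ X, ∑ m ∈ S.mdOf j u D, f m := by
  have hmaps : ∀ m ∈ S.sel j u X, S.cls j u m ∈ X := fun m hm => (Finset.mem_filter.1 hm).2
  rw [← Finset.sum_fiberwise_of_maps_to hmaps]
  refine Finset.sum_congr rfl fun D hD => ?_
  have e : (S.sel j u X).filter (fun m => S.cls j u m = D) = S.mdOf j u D := by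
    ext m
    simp only [S9Sys.sel, S9Sys.mdOf, Finset.mem_filter]
    constructor
    · rintro ⟨⟨h1, _⟩, h3⟩
      exact ⟨h1, h3⟩
    · rintro ⟨h1, h3⟩
      exact ⟨⟨h1, h3 ▸ hD⟩, h3⟩
  rw [e]

/-- LEAF P-S9-CELL-A -/
theorem s9c_sub_sel (j : Fin 4) (u : ℕ × Cell) (X : Finset ℕ) (y : ℝ) :
    S.sub j u (S.sel j u X) y = ∑ D ∈ X, S.sub j u (S.mdOf j u D) y := by
  unfold S9Sys.sub
  exact s9c_sum_sel j u X _

theorem s9c_atom_meas (hV : S.Valid c0 C0 p PC tys) (j : Fin 4) (G m : ℕ) : Measurable (S.atom j G m) :=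
  (hV.gau_meas j G).mul (wy_ee_continuous.comp (by fun_prop)).measurable

theorem s9c_atom_le (hV : S.Valid c0 C0 p PC tys) (j : Fin 4) (G m : ℕ) (y : ℝ) : ‖S.atom j G m y‖ ≤ 1 := by
  unfold S9Sys.atom
  rw [norm_mul, wy_ee_norm, mul_one]
  exact hV.gau_le j G y

theorem s9c_sub_meas (hV : S.Valid c0 C0 p PC tys) (j : Fin 4) (u : ℕ × Cell) (Y : Finset ℕ) :
    Measurable (S.sub j u Y) := by
  unfold S9Sys.sub
  exact Finset.measurable_fun_sum _ fun m _ => (s9c_atom_meas hV j u.1 m).const_mul _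

theorem s9c_sub_le (hV : S.Valid c0 C0 p PC tys) (j : Fin 4) (u : ℕ × Cell) (Y : Finset ℕ) (y : ℝ) :
    ‖S.sub j u Y y‖ ≤ ∑ m ∈ Y, ‖S.al j u m‖ := by
  unfold S9Sys.sub
  refine (norm_sum_le _ _).trans (Finset.sum_le_sum fun m _ => ?_)
  rw [norm_mul]
  calc ‖S.al j u m‖ * ‖S.atom j u.1 m y‖ ≤ ‖S.al j u m‖ * 1 :=
        mul_le_mul_of_nonneg_left (s9c_atom_le hV j u.1 m y) (norm_nonneg _)
    _ = _ := mul_one _

theorem s9c_sub_ok (hV : S.Valid c0 C0 p PC tys) (I : Cell) (j : Fin 4) (u : ℕ × Cell) (Y : Finset ℕ) :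
    S5fOk I (S.sub j u Y) :=
  s5f_ok_of_bdd I (s9c_sub_meas hV j u Y) (s9c_sub_le hV j u Y)

/-- multilinear expansion of the form -/
theorem s9c_form_sum (hc0 : 0 < c0) {I : Cell} {w : ℝ × ℝ → ℂ} (hw : Admissible c0 C0 I w)
    (X : Fin 4 → Finset ℕ) (f : Fin 4 → ℕ → ℝ → ℂ) (hf : ∀ j D, S5fOk I (f j D)) :
    form I w (fun j y => ∑ D ∈ X j, f j D y)
      = ∑ D ∈ Fintype.piFinset X, form I w (fun j => f j (D j)) := by
  unfold form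
  rw [← Finset.mul_sum, ← integral_finsetSum _ (fun D _ => s5f_integrable hc0 hw (fun j => hf j (D j)))]
  congr 2
  funext q
  rw [Finset.prod_univ_sum, Finset.mul_sum]

/-- multilinearity: the sum of `phi` over a product of sets of classes.  LEAF P-S9-CELL-A -/
theorem s9c_phi_sum (hc0 : 0 < c0) (hV : S.Valid c0 C0 p PC tys) (u : ℕ × Cell) (hu : u ∈ S.uses) (X : Fin 4 → Finset ℕ)
    (hX : ∀ j, S.sd j = true → X j = {0}) :
    ∑ D ∈ Fintype.piFinset X, S.phi u D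
      = form u.2 (S.w u.2) fun j => if S.sd j = true then S.Sd u else S.sub j u (S.sel j u (X j)) := by
  have hw := hV.adm u.2 (hV.uses_sub u hu)
  set f : Fin 4 → ℕ → ℝ → ℂ :=
    fun j D => if S.sd j = true then S.Sd u else S.sub j u (S.mdOf j u D) with hf
  have hfok : ∀ j D, S5fOk u.2 (f j D) := by
    intro j D
    rw [hf]
    by_cases hj : S.sd j = true
    · simp only [if_pos hj]
      exact ⟨hV.Sd_meas u, hV.Sd_int u hu⟩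
    · simp only [if_neg hj]
      exact s9c_sub_ok hV u.2 j u _
  have h := s9c_form_sum hc0 hw X f hfok
  unfold S9Sys.phi
  rw [← h]
  congr 1
  funext j y
  by_cases hj : S.sd j = true
  · simp [hf, hj, hX j hj]
  · simp [hf, hj, s9c_sub_sel]

/-- the full argument is the sum over all classes.  LEAF P-S9-CELL-A -/
theorem s9c_arg_eq (u : ℕ × Cell) (j : Fin 4) :
    S.arg u j = if S.sd j = true then S.Sd u else S.sub j u (S.sel j u (S.ClS j u)) := by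
  unfold S9Sys.arg
  by_cases hj : S.sd j = true
  · simp only [if_pos hj]
  · simp only [if_neg hj]
    congr 1
    unfold S9Sys.sel S9Sys.ClS
    rw [if_neg hj]
    ext m
    simp only [S9Sys.clsOf, Finset.mem_filter, Finset.mem_image]
    exact ⟨fun hm => ⟨hm, m, hm, rfl⟩, fun hm => hm.1⟩

/-- almost orthogonality of the selected classes.  LEAF P-S9-CELL-A -/
theorem s9c_phys (hV : S.Valid c0 C0 p PC tys) (j : Fin 4) (hj : S.sd j = false) (u : ℕ × Cell) (hu : u ∈ S.uses)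
    (X : Finset ℕ) (hX : X ⊆ S.clsOf j u) :
    nnorm 2 u.2 (S.sub j u (S.sel j u X)) ^ 2
      ≤ ∑ D ∈ X, nnorm 2 u.2 (S.sub j u (S.mdOf j u D)) ^ 2 + ((p.Ds : ℝ) ^ 200)⁻¹ * (∑ D ∈ X, S.cD j u D) ^ 2 := by
  have hfin : volume u.2.set < ⊤ := lt_top_iff_ne_top.2 (cell_volume_ne_top u.2)
  have hint : ∀ m m', IntegrableOn (fun y => S.atom j u.1 m y * conj (S.atom j u.1 m' y)) u.2.set := by
    intro m m'
    refine IntegrableOn.of_bound hfin ?_ 1 (Filter.Eventually.of_forall fun y => ?_)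
    · exact ((s9c_atom_meas hV j u.1 m).mul
        (Complex.continuous_conj.measurable.comp (s9c_atom_meas hV j u.1 m'))).aestronglyMeasurable
    · rw [norm_mul, RCLike.norm_conj]
      exact mul_le_one₀ (s9c_atom_le hV j u.1 m y) (norm_nonneg _) (s9c_atom_le hV j u.1 m' y)
  have h := s9_orth_sum u.2 X (fun D => S.sub j u (S.mdOf j u D)) (S.cD j u) ((p.Ds : ℝ) ^ 200)⁻¹ (by positivity)
    (fun D _ => s9c_sub_meas hV j u _) (fun D _ y => s9c_sub_le hV j u _ y) ?_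
  · have e : S.sub j u (S.sel j u X) = fun y => ∑ D ∈ X, S.sub j u (S.mdOf j u D) y := by
      funext y
      exact s9c_sub_sel j u X y
    rw [e]
    exact h
  · intro D _ D' _ hDD
    have e : ∀ y, S.sub j u (S.mdOf j u D) y * conj (S.sub j u (S.mdOf j u D') y)
        = ∑ m ∈ S.mdOf j u D, ∑ m' ∈ S.mdOf j u D', (S.al j u m * conj (S.al j u m')) *
            (S.atom j u.1 m y * conj (S.atom j u.1 m' y)) := by
      intro y
      unfold S9Sys.sub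
      rw [map_sum, Finset.sum_mul_sum]
      refine Finset.sum_congr rfl fun m _ => Finset.sum_congr rfl fun m' _ => ?_
      rw [map_mul]
      ring
    simp only [e]
    rw [integral_finsetSum _ (fun m _ => integrable_finsetSum _ fun m' _ => (hint m m').const_mul _),
      Finset.mul_sum]
    unfold S9Sys.cD
    rw [Finset.sum_mul_sum, Finset.mul_sum]
    refine (norm_sum_le _ _).trans (Finset.sum_le_sum fun m hm => ?_)
    rw [integral_finsetSum _ (fun m' _ => (hint m m').const_mul _), Finset.mul_sum, Finset.mul_sum]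
    refine (norm_sum_le _ _).trans (Finset.sum_le_sum fun m' hm' => ?_)
    rw [integral_const_mul, mul_left_comm, norm_mul, norm_mul, RCLike.norm_conj, mul_comm]
    have hm1 := Finset.mem_filter.1 hm
    have hm2 := Finset.mem_filter.1 hm'
    refine mul_le_mul_of_nonneg_right ?_ (by positivity)
    exact hV.orth j hj u hu m hm1.1 m' hm2.1 (by rw [hm1.2, hm2.2]; exact hDD)

/-- negative powers of `D_*` absorb positive powers and a factor `100` -/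
theorem s9c_pow_inv {D : ℝ} (hD : 100 ≤ D) (k a b : ℕ) (hab : a + k + 1 ≤ b) :
    D ^ k * (D ^ b)⁻¹ ≤ 1 / 100 * (D ^ a)⁻¹ := by
  have hD0 : 0 < D := by linarith
  have h1 : D ^ (a + k + 1) ≤ D ^ b := pow_le_pow_right₀ (by linarith) hab
  have h2 : D ^ (a + k + 1) = D ^ a * D ^ k * D := by ring
  rw [← div_eq_mul_inv, div_le_iff₀ (by positivity)]
  calc D ^ k = 1 / 100 * (D ^ a)⁻¹ * (D ^ a * D ^ k * 100) := by field_simp
    _ ≤ 1 / 100 * (D ^ a)⁻¹ * (D ^ a * D ^ k * D) := by gcongr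
    _ ≤ 1 / 100 * (D ^ a)⁻¹ * D ^ b := by rw [← h2]; gcongr

theorem s9c_Ds_ge (hP : S9ParOk p d) : (100 : ℝ) ≤ (p.Ds : ℝ) := by exact_mod_cast hP.Ds_ge

theorem s9c_TT_inv (hP : S9ParOk p d) : 0 < p.TT ∧ p.TT⁻¹ ≤ ((p.Ds : ℝ) ^ 1001)⁻¹ := by
  have hD := s9c_Ds_ge hP
  have h1 : 0 < (p.Ds : ℝ) ^ 1001 := by positivity
  exact ⟨h1.trans_le hP.TT_big, inv_anti₀ h1 hP.TT_big⟩

theorem s9c_tin (hP : S9ParOk p d) : 0 ≤ p.tin ∧ p.tin ≤ 1 / 100 := by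
  have hD := s9c_Ds_ge hP
  unfold S8Par.tin
  refine ⟨by positivity, ?_⟩
  have := s9c_pow_inv hD 0 0 300 (by norm_num)
  simpa using this

/-- the boxes: `H B_s ≤ E_{h-10}` -/
theorem s9c_HBs (hP : S9ParOk p d) (h : ℕ) : 6 ^ (h - 10) * p.Bs ≤ p.E (h - 10) := by
  unfold S8Par.E
  rw [pow_succ]
  exact Nat.mul_le_mul (Nat.pow_le_pow_left hP.A0_ge _) hP.Bs_le

theorem s9c_box13 (hP : S9ParOk p d) (h : ℕ) :
    13 * (6 ^ (h - 10) * p.Bs) + 12 * (p.Ds * p.E (h - 10)) ≤ p.Bx h := by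
  have h1 := s9c_HBs hP h
  have h2 := hP.Ds_ge
  unfold S8Par.Bx
  have h3 : 13 + 12 * p.Ds ≤ p.Ds ^ 5 := by
    have : p.Ds * 13 ≤ p.Ds * p.Ds ^ 4 := Nat.mul_le_mul_left _ (by
      calc 13 ≤ 100 ^ 4 := by norm_num
        _ ≤ p.Ds ^ 4 := Nat.pow_le_pow_left h2 4)
    have e : p.Ds ^ 5 = p.Ds * p.Ds ^ 4 := by ring
    rw [e]
    omega
  calc 13 * (6 ^ (h - 10) * p.Bs) + 12 * (p.Ds * p.E (h - 10))
      ≤ 13 * p.E (h - 10) + 12 * (p.Ds * p.E (h - 10)) := by omega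
    _ = (13 + 12 * p.Ds) * p.E (h - 10) := by ring
    _ ≤ _ := Nat.mul_le_mul_right _ h3

theorem s9c_cD_nonneg (j : Fin 4) (u : ℕ × Cell) (D : ℕ) : 0 ≤ S.cD j u D :=
  Finset.sum_nonneg fun _ _ => norm_nonneg _

/-- abstract form of the last step of (30) -/
theorem s9c_role_num {κ : Type*} (X : Finset κ) (nn cD sz : κ → ℝ) (N2 ε1 ε2 Dr t30 : ℝ)
    (h2 : N2 ≤ ∑ D ∈ X, nn D ^ 2 + ε2 * (∑ D ∈ X, cD D) ^ 2) (hcard : (X.card : ℝ) ≤ Dr)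
    (hε : 0 ≤ ε1 + ε2) (hnum : (ε1 + ε2) * Dr ≤ t30 ^ 2) (ht30 : 0 ≤ t30) (hnn : ∀ D ∈ X, 0 ≤ nn D)
    (hcD : ∀ D ∈ X, 0 ≤ cD D) (hsz : ∀ D ∈ X, sz D = nn D + t30 * cD D) :
    N2 + ε1 * (∑ D ∈ X, cD D) ^ 2 ≤ ∑ D ∈ X, sz D ^ 2 := by
  have hs0 : 0 ≤ ∑ D ∈ X, cD D ^ 2 := Finset.sum_nonneg fun _ _ => sq_nonneg _
  have hsq : (∑ D ∈ X, cD D) ^ 2 ≤ Dr * ∑ D ∈ X, cD D ^ 2 :=
    (sq_sum_le_card_mul_sum_sq).trans (mul_le_mul_of_nonneg_right hcard hs0)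
  calc N2 + ε1 * (∑ D ∈ X, cD D) ^ 2
      ≤ ∑ D ∈ X, nn D ^ 2 + (ε1 + ε2) * (∑ D ∈ X, cD D) ^ 2 := by linarith
    _ ≤ ∑ D ∈ X, nn D ^ 2 + (ε1 + ε2) * (Dr * ∑ D ∈ X, cD D ^ 2) :=
        add_le_add le_rfl (mul_le_mul_of_nonneg_left hsq hε)
    _ ≤ ∑ D ∈ X, nn D ^ 2 + t30 ^ 2 * ∑ D ∈ X, cD D ^ 2 := by
        rw [← mul_assoc]
        exact add_le_add le_rfl (mul_le_mul_of_nonneg_right hnum hs0)
    _ = ∑ D ∈ X, (nn D ^ 2 + t30 ^ 2 * cD D ^ 2) := by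
        rw [Finset.sum_add_distrib, Finset.mul_sum]
    _ ≤ ∑ D ∈ X, sz D ^ 2 := by
        refine Finset.sum_le_sum fun D hD => ?_
        rw [hsz D hD]
        nlinarith [mul_nonneg (hnn D hD) (mul_nonneg ht30 (hcD D hD))]

theorem s9c_role_eps (hP : S9ParOk p d) :
    0 ≤ (7 * (p.Ds : ℝ) ^ 2 * (p.TT⁻¹ + p.TT⁻¹) + 30 * p.tin) + ((p.Ds : ℝ) ^ 200)⁻¹ ∧
    ((7 * (p.Ds : ℝ) ^ 2 * (p.TT⁻¹ + p.TT⁻¹) + 30 * p.tin) + ((p.Ds : ℝ) ^ 200)⁻¹) * (p.Ds : ℝ)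
      ≤ (((p.Ds : ℝ) ^ 30)⁻¹) ^ 2 := by
  have hDs := s9c_Ds_ge hP
  obtain ⟨hTT, hTTi⟩ := s9c_TT_inv hP
  have e1 : (p.Ds : ℝ) ^ 3 * p.TT⁻¹ ≤ 1 / 100 * ((p.Ds : ℝ) ^ 60)⁻¹ :=
    (mul_le_mul_of_nonneg_left hTTi (by positivity)).trans (s9c_pow_inv hDs 3 60 1001 (by norm_num))
  have e2 : (p.Ds : ℝ) ^ 1 * ((p.Ds : ℝ) ^ 300)⁻¹ ≤ 1 / 100 * ((p.Ds : ℝ) ^ 60)⁻¹ :=
    s9c_pow_inv hDs 1 60 300 (by norm_num)
  have e3 : (p.Ds : ℝ) ^ 1 * ((p.Ds : ℝ) ^ 200)⁻¹ ≤ 1 / 100 * ((p.Ds : ℝ) ^ 60)⁻¹ :=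
    s9c_pow_inv hDs 1 60 200 (by norm_num)
  have e : (((p.Ds : ℝ) ^ 30)⁻¹) ^ 2 = ((p.Ds : ℝ) ^ 60)⁻¹ := by
    rw [inv_pow, ← pow_mul]
  have h60 : 0 ≤ ((p.Ds : ℝ) ^ 60)⁻¹ := by positivity
  have h300 : 0 ≤ ((p.Ds : ℝ) ^ 300)⁻¹ := by positivity
  have h200 : 0 ≤ ((p.Ds : ℝ) ^ 200)⁻¹ := by positivity
  have hT : 0 ≤ p.TT⁻¹ := inv_nonneg.2 hTT.le
  rw [e]
  unfold S8Par.tin
  clear hTTi e
  generalize ((p.Ds : ℝ) ^ 60)⁻¹ = t60 at *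
  generalize ((p.Ds : ℝ) ^ 300)⁻¹ = t300 at *
  generalize ((p.Ds : ℝ) ^ 200)⁻¹ = t200 at *
  generalize p.TT⁻¹ = T at *
  generalize (p.Ds : ℝ) = Dr at *
  constructor
  · positivity
  · calc (7 * Dr ^ 2 * (T + T) + 30 * t300 + t200) * Dr
        = 14 * (Dr ^ 3 * T) + 30 * (Dr ^ 1 * t300) + Dr ^ 1 * t200 := by ring
      _ ≤ t60 := by linarith

/-- **the role data of a selected argument, with (30).**  LEAF P-S9-CELL-B -/
theorem s9c_role (hV : S.Valid c0 C0 p PC tys) (hP : S9ParOk p d) (j : Fin 4) (hj : S.sd j = false) (u : ℕ × Cell)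
    (hu : u ∈ S.uses) (x : ℝ) (hx : x ∈ u.2.set) (h : ℕ) (hh : h ∈ p.up) (a : ℕ) (X : Finset ℕ)
    (hX : X ⊆ (S.clsOf j u).filter fun D => S.good j u h D ∧ S.rep j u h D = a) :
    ∃ ro : S9RoleD d, ro.A = S.sub j u (S.sel j u X) ∧ ro.gau = S.gau j u.1 ∧ ro.γs = S.om a x ∧
      ro.a1 = ∑ D ∈ X, S.cD j u D ∧
      ro.Ok u.2 x (S.vth u.1) (6 ^ (h - 10)) p.Bs (p.Ds * p.E (h - 10)) p.Ds p.tin ∧
      ∀ (d' : ℕ) (kap : (Fin d → ℤ) →+ (Fin d' → ℤ)), S9DichK kap (S.xi u.1 h) (2 * p.Bx h) u.2.len p.TT⁻¹ p.TT →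
        s9nsq (fun i => kap (ro.fn (6 ^ (h - 10)) i)) (ro.fc (S.vth u.1) x) ≤ ∑ D ∈ X, S.sz p.Ds j u D ^ 2 := by
  obtain ⟨ιZ, fZ, nZ, cZ, hboxZ, hl1Z, hcut⟩ := hV.cut j hj u hu
  have hsel : ∀ m ∈ S.sel j u X, m ∈ S.md j u ∧ S.good j u h (S.cls j u m) ∧
      S.rep j u h (S.cls j u m) = a := by
    intro m hm
    obtain ⟨h1, h2⟩ := Finset.mem_filter.1 hm
    have h3 := (Finset.mem_filter.1 (hX h2)).2
    exact ⟨h1, h3.1, h3.2⟩
  have hlin : ∀ m, ∃ n : Fin d → ℤ, m ∈ S.sel j u X → (S9Box (p.Ds * p.E (h - 10)) n ∧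
      ∀ x ∈ u.2.set, u.2.len * |S.om m x - S.om a x - s9dot n (S.vth u.1) / 6 ^ (h - 10)|
        ≤ ((p.Ds : ℝ) ^ 300)⁻¹) := by
    intro m
    by_cases hm : m ∈ S.sel j u X
    · obtain ⟨h1, h2, h3⟩ := hsel m hm
      obtain ⟨n, hn1, hn2⟩ := hV.lin j hj u hu h hh m h1 h2
      rw [h3] at hn2
      exact ⟨n, fun _ => ⟨hn1, hn2⟩⟩
    · exact ⟨0, fun h => absurd h hm⟩
  choose nm hnm using hlin
  let ro : S9RoleD d :=
    { gau := S.gau j u.1, Y := S.sel j u X, al := S.al j u, lam := S.lam, gam := S.gam,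
      γs := S.om a x, nm := nm, ιZ := ιZ, fZ := fZ, nZ := nZ, cZ := cZ }
  have hA : ro.A = S.sub j u (S.sel j u X) := by
    funext y
    show S.gau j u.1 y * ∑ m ∈ S.sel j u X, S.al j u m * ee (S.lam m * y ^ 2 + S.gam m * y)
      = ∑ m ∈ S.sel j u X, S.al j u m * (S.gau j u.1 y * ee (S.lam m * y ^ 2 + S.gam m * y))
    rw [Finset.mul_sum]
    exact Finset.sum_congr rfl fun m _ => by ring
  have ha1 : ro.a1 = ∑ D ∈ X, S.cD j u D := s9c_sum_sel j u X _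
  have hOk : ro.Ok u.2 x (S.vth u.1) (6 ^ (h - 10)) p.Bs (p.Ds * p.E (h - 10)) p.Ds p.tin :=
    { meas := hV.gau_meas j u.1
      le1 := hV.gau_le j u.1
      boxZ := hboxZ
      l1Z := hl1Z
      cut := hcut
      boxm := fun m hm => (hnm m hm).1
      lin := fun m hm => by
        have := (hnm m hm).2 x hx
        push_cast
        exact this
      curv := fun m hm => hV.curv j hj u hu m (hsel m hm).1 }
  refine ⟨ro, hA, rfl, rfl, ha1, hOk, fun d' kap hD => ?_⟩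
  have hDs := s9c_Ds_ge hP
  obtain ⟨hTT, hTTi⟩ := s9c_TT_inv hP
  obtain ⟨ht0, ht⟩ := s9c_tin hP
  have hB : 2 * (6 ^ (h - 10) * p.Bs + p.Ds * p.E (h - 10)) ≤ 2 * p.Bx h := by
    have := s9c_box13 hP h
    omega
  have h1 := S9RoleD.nsq_le hOk hx (by positivity) ht0 ht (Nat.cast_nonneg _) kap (2 * p.Bx h) p.TT⁻¹
    p.TT (inv_nonneg.2 hTT.le) hTT hD hB
  rw [hA, ha1] at h1
  have h2 := s9c_phys hV j hj u hu X (hX.trans (Finset.filter_subset _ _))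
  have hcard : (X.card : ℝ) ≤ (p.Ds : ℝ) := by
    have h3 : X.card ≤ (S.clsOf j u).card := Finset.card_le_card (hX.trans (Finset.filter_subset _ _))
    have h4 : (S.clsOf j u).card ≤ (S.md j u).card := Finset.card_image_le
    have h5 := hV.md_card j u hu
    exact_mod_cast h3.trans (h4.trans h5)
  obtain ⟨hε0, hnum⟩ := s9c_role_eps hP
  exact h1.trans (s9c_role_num X _ (S.cD j u) (S.sz p.Ds j u) _ _ _ _ _ h2 hcard hε0 hnum
    (by positivity) (fun D _ => nnorm_nonneg _ _ _) (fun D _ => s9c_cD_nonneg j u D) (fun D _ => rfl))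

/-! ### preparations for the single-cell estimates -/

theorem s9c_mu_nonneg (l' : Fin 4) (qt : ℝ × ℝ) : 0 ≤ s9mu l' qt :=
  le_min zero_le_one (Finset.le_inf' _ _ fun _ _ => abs_nonneg _)

theorem s9c_mu_le_one (l' : Fin 4) (qt : ℝ × ℝ) : s9mu l' qt ≤ 1 := min_le_left _ _

theorem s9c_nu_ge (qt : ℝ × ℝ) : 1 ≤ s9nu qt := le_max_left _ _

theorem s9c_nu_inv (qt : ℝ × ℝ) : 0 ≤ (s9nu qt)⁻¹ ∧ (s9nu qt)⁻¹ ≤ 1 :=
  ⟨inv_nonneg.2 (zero_le_one.trans (s9c_nu_ge qt)), inv_le_one_of_one_le₀ (s9c_nu_ge qt)⟩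

/-- the three cases of the definition of `kap0` -/
theorem s9c_kap0_cases (S : S9Sys d) (p : S8Par) (x : ℝ) (u : ℕ × Cell) (h : ℕ) (a : Fin 4 → ℕ) :
    (∃ nm, S.IsRef p x u h a nm ∧ S.kap0 p x u h a
        = s9mu S.anc (S.qtOf x u h a nm) * (s9nu (S.qtOf x u h a nm))⁻¹) ∨
    (∃ nm, S.IsRef p x u h a nm ∧ s9mu S.anc (S.qtOf x u h a nm) < p.U0⁻¹ ∧ S.kap0 p x u h a = 0) ∨
    ((¬ ∃ nm, S.IsRef p x u h a nm) ∧ S.kap0 p x u h a = 0) := by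
  by_cases hr : ∃ nm, S.IsRef p x u h a nm
  · by_cases hmu : p.U0⁻¹ ≤ s9mu S.anc (S.qtOf x u h a hr.choose)
    · refine Or.inl ⟨hr.choose, hr.choose_spec, ?_⟩
      unfold S9Sys.kap0 S9Sys.ref
      rw [dif_pos hr, if_pos hmu]
    · refine Or.inr (Or.inl ⟨hr.choose, hr.choose_spec, not_le.1 hmu, ?_⟩)
      unfold S9Sys.kap0 S9Sys.ref
      rw [dif_pos hr, if_neg hmu]
  · refine Or.inr (Or.inr ⟨hr, ?_⟩)
    unfold S9Sys.kap0 S9Sys.ref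
    rw [dif_neg hr]

theorem s9c_kap0_nonneg (S : S9Sys d) (p : S8Par) (x : ℝ) (u : ℕ × Cell) (h : ℕ) (a : Fin 4 → ℕ) :
    0 ≤ S.kap0 p x u h a := by
  rcases s9c_kap0_cases S p x u h a with ⟨nm, _, h1⟩ | ⟨nm, _, _, h1⟩ | ⟨_, h1⟩
  · rw [h1]
    exact mul_nonneg (s9c_mu_nonneg _ _) (s9c_nu_inv _).1
  · rw [h1]
  · rw [h1]

theorem s9c_sfac_nonneg (S : S9Sys d) (p : S8Par) (x : ℝ) (u : ℕ × Cell) (h : ℕ) (a : Fin 4 → ℕ) :
    0 ≤ S.sfac p x u h a := by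
  unfold S9Sys.sfac
  split_ifs
  · exact Finset.sum_nonneg fun f _ => mul_nonneg (by positivity) (Real.sqrt_nonneg _)
  · exact zero_le_one

theorem s9c_cS_nonneg (S : S9Sys d) (j : Fin 4) (u : ℕ × Cell) (D : ℕ) : 0 ≤ S.cS j u D := by
  unfold S9Sys.cS
  split_ifs
  · exact zero_le_one
  · exact s9c_cD_nonneg j u D

/-- the kernel bound in terms of `μ/ν` -/
theorem s9c_K_mu {C1 : ℝ} (hC1 : 0 ≤ C1) {I : Cell} {w : ℝ × ℝ → ℂ} {xs : ℝ} {l' : Fin 4}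
    (hK1 : ∀ (j : Fin 4) (a b : ℝ), ‖s9K I w xs l' a b‖
      ≤ C1 * min 1 |b - (s9al l' j : ℝ) * a| * ((1 + |a| + |b|) ^ 1)⁻¹) (qt : ℝ × ℝ) :
    ‖s9K I w xs l' qt.1 qt.2‖ ≤ C1 * (s9mu l' qt * (s9nu qt)⁻¹) := by
  obtain ⟨j, _, hj⟩ := Finset.exists_mem_eq_inf' (Finset.univ_nonempty (α := Fin 4))
    (fun j : Fin 4 => |qt.2 - (s9al l' j : ℝ) * qt.1|)
  have h1 := hK1 j qt.1 qt.2
  rw [pow_one] at h1
  have h2 : s9mu l' qt = min 1 |qt.2 - (s9al l' j : ℝ) * qt.1| := by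
    unfold s9mu
    rw [hj]
  have h3 : s9nu qt ≤ 1 + |qt.1| + |qt.2| := by
    unfold s9nu
    refine max_le (by linarith [abs_nonneg qt.1, abs_nonneg qt.2]) (max_le ?_ ?_) <;>
      linarith [abs_nonneg qt.1, abs_nonneg qt.2]
  have h4 : (1 + |qt.1| + |qt.2|)⁻¹ ≤ (s9nu qt)⁻¹ :=
    inv_anti₀ (zero_lt_one.trans_le (s9c_nu_ge qt)) h3
  rw [← h2, mul_assoc] at h1
  exact h1.trans (mul_le_mul_of_nonneg_left
    (mul_le_mul_of_nonneg_left h4 (s9c_mu_nonneg _ _)) hC1)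

/-- numerical facts on the parameters -/
theorem s9c_num (hP : S9ParOk p d) :
    0 ≤ ((p.Ds : ℝ) ^ 240)⁻¹ ∧ p.tin ≤ ((p.Ds : ℝ) ^ 240)⁻¹ ∧
    p.TT⁻¹ * (p.Ds : ℝ) ^ 5 ≤ ((p.Ds : ℝ) ^ 240)⁻¹ ∧ p.U0⁻¹ * (p.Ds : ℝ) ^ 5 ≤ ((p.Ds : ℝ) ^ 240)⁻¹ ∧
    p.U0⁻¹ * (p.Ds : ℝ) ^ 4 ≤ ((p.Ds : ℝ) ^ 240)⁻¹ ∧ 1 ≤ p.U0 ∧ 8 * p.U0 ≤ p.TT ∧ p.TT⁻¹ ≤ 1 := by
  have hDs := s9c_Ds_ge hP
  obtain ⟨hTT, hTTi⟩ := s9c_TT_inv hP
  have h240 : 0 ≤ ((p.Ds : ℝ) ^ 240)⁻¹ := by positivity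
  have e0 := s9c_pow_inv hDs 0 240 300 (by norm_num)
  have e1 := s9c_pow_inv hDs 5 240 1001 (by norm_num)
  have e2 := s9c_pow_inv hDs 5 240 250 (by norm_num)
  have e3 := s9c_pow_inv hDs 4 240 250 (by norm_num)
  have e4 := s9c_pow_inv hDs 0 0 1001 (by norm_num)
  have hU : (1 : ℝ) ≤ (p.Ds : ℝ) ^ 250 := one_le_pow₀ (by linarith)
  have h8 : 8 * (p.Ds : ℝ) ^ 250 ≤ (p.Ds : ℝ) ^ 1001 := by
    calc 8 * (p.Ds : ℝ) ^ 250 ≤ (p.Ds : ℝ) * (p.Ds : ℝ) ^ 250 :=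
          mul_le_mul_of_nonneg_right (by linarith) (by positivity)
      _ = (p.Ds : ℝ) ^ 251 := by rw [← pow_succ']
      _ ≤ (p.Ds : ℝ) ^ 1001 := pow_le_pow_right₀ (by linarith) (by norm_num)
  have h5 : (0 : ℝ) ≤ (p.Ds : ℝ) ^ 5 := by positivity
  unfold S8Par.tin S8Par.U0
  refine ⟨h240, ?_, ?_, ?_, ?_, hU, h8.trans hP.TT_big, ?_⟩
  · rw [pow_zero, one_mul] at e0
    linarith
  · rw [mul_comm]
    have := mul_le_mul_of_nonneg_left hTTi h5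
    linarith
  · rw [mul_comm]
    linarith
  · rw [mul_comm]
    linarith
  · rw [pow_zero, one_mul, inv_one] at e4
    linarith

theorem s9c_l1_nonneg {ι : Type} [Fintype ι] (c : ι → ℂ) : 0 ≤ s9l1 c :=
  Finset.sum_nonneg fun _ _ => norm_nonneg _

theorem s9c_a1_nonneg (ro : S9RoleD d) : 0 ≤ ro.a1 := Finset.sum_nonneg fun _ _ => norm_nonneg _

/-- the role data of a selected argument, core or side -/
theorem s9c_roleS (hV : S.Valid c0 C0 p PC tys) (hP : S9ParOk p d) (j : Fin 4) (u : ℕ × Cell)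
    (hu : u ∈ S.uses) (x : ℝ) (hx : x ∈ u.2.set) (h : ℕ) (hh : h ∈ p.up) (a : Fin 4 → ℕ) (X : Finset ℕ)
    (hne : X.Nonempty)
    (hX : X ⊆ (S.ClS j u).filter fun D => S.goodS j u h D ∧ S.compS j u h D = a j) :
    ∃ ro : S9RoleD d, ro.γs = S.val x a j ∧ ro.a1 = ∑ D ∈ X, S.cS j u D ∧
      s9l1 (ro.fc (S.vth u.1) x) ≤ (p.Ds : ℝ) * ro.a1 ∧
      (∀ i, S9Box (6 ^ (h - 10) * p.Bs + p.Ds * p.E (h - 10)) (ro.fn (6 ^ (h - 10)) i)) ∧
      (∀ (d' : ℕ) (kap : (Fin d → ℤ) →+ (Fin d' → ℤ)),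
        S9DichK kap (S.xi u.1 h) (2 * p.Bx h) u.2.len p.TT⁻¹ p.TT →
        s9nsq (fun i => kap (ro.fn (6 ^ (h - 10)) i)) (ro.fc (S.vth u.1) x)
          ≤ ∑ D ∈ X, S.sS p.Ds j u D ^ 2) ∧
      (S.sd j = false → ro.A = S.sub j u (S.sel j u X) ∧ ro.gau = S.gau j u.1 ∧
        ro.Ok u.2 x (S.vth u.1) (6 ^ (h - 10)) p.Bs (p.Ds * p.E (h - 10)) p.Ds p.tin ∧
        ∃ D ∈ S.clsOf j u, S.good j u h D) ∧
      (S.sd j = true → ro = S9RoleD.dummy d ∧ X = {0}) := by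
  have hDs := s9c_Ds_ge hP
  by_cases hj : S.sd j = true
  · have hX0 : X = {0} := by
      refine hne.subset_singleton_iff.1 (hX.trans ?_)
      unfold S9Sys.ClS
      rw [if_pos hj]
      exact Finset.filter_subset _ _
    obtain ⟨f1, f2, f3, f4, f5⟩ := S9RoleD.dummy_facts d (S.vth u.1) (6 ^ (h - 10)) x
    refine ⟨S9RoleD.dummy d, ?_, ?_, ?_, ?_, ?_, fun h' => ?_, fun _ => ⟨rfl, hX0⟩⟩
    · unfold S9Sys.val
      rw [if_pos hj]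
      rfl
    · rw [f1, hX0, Finset.sum_singleton]
      unfold S9Sys.cS
      rw [if_pos hj]
    · rw [f4, f1]
      linarith
    · intro i k
      rw [f2 i]
      simp only [Pi.zero_apply, abs_zero]
      exact Int.natCast_nonneg _
    · intro d' kap _
      rw [f5 d' kap, hX0, Finset.sum_singleton]
      unfold S9Sys.sS
      rw [if_pos hj]
      norm_num
    · rw [hj] at h'
      exact absurd h' (by simp)
  · have hj' : S.sd j = false := by simpa using hj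
    have hX' : X ⊆ (S.clsOf j u).filter fun D => S.good j u h D ∧ S.rep j u h D = a j := by
      intro D hD
      have h1 := Finset.mem_filter.1 (hX hD)
      unfold S9Sys.ClS S9Sys.goodS S9Sys.compS at h1
      rw [if_neg hj, if_neg hj] at h1
      exact Finset.mem_filter.2 ⟨h1.1, h1.2.1.resolve_left hj, h1.2.2⟩
    obtain ⟨ro, r1, r2, r3, r4, r5, r6⟩ := s9c_role hV hP j hj' u hu x hx h hh (a j) X hX'
    refine ⟨ro, ?_, ?_, ?_, fun i => S9RoleD.box_fn r5 i, ?_, fun _ => ⟨r1, r2, r5, ?_⟩,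
      fun h' => absurd h' hj⟩
    · unfold S9Sys.val
      rw [if_neg hj, r3]
    · rw [r4]
      refine Finset.sum_congr rfl fun D _ => ?_
      unfold S9Sys.cS
      rw [if_neg hj]
    · rw [S9RoleD.l1_fc]
      exact mul_le_mul_of_nonneg_right r5.l1Z (s9c_a1_nonneg ro)
    · intro d' kap hk
      refine (r6 d' kap hk).trans (le_of_eq ?_)
      refine Finset.sum_congr rfl fun D _ => ?_
      unfold S9Sys.sS
      rw [if_neg hj]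
    · obtain ⟨D, hD⟩ := hne
      have h1 := Finset.mem_filter.1 (hX' hD)
      exact ⟨D, h1.1, h1.2.1⟩

theorem s9c_l1_prod (Ro : Fin 4 → S9RoleD d) (ϑ : Fin d → ℝ) (x Dr : ℝ)
    (hl1 : ∀ j, s9l1 ((Ro j).fc ϑ x) ≤ Dr * (Ro j).a1) :
    ∏ j, s9l1 ((Ro j).fc ϑ x) ≤ Dr ^ 4 * ∏ j, (Ro j).a1 := by
  refine (Finset.prod_le_prod (fun j _ => s9c_l1_nonneg _) fun j _ => hl1 j).trans (le_of_eq ?_)
  rw [Finset.prod_mul_distrib, Finset.prod_const]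
  simp

/-- last step: collect a main term and an error term -/
theorem s9c_fin {F A B C kS eP nS : ℝ} (h : F ≤ A * kS + B * eP) (hA : A ≤ C) (hB : B ≤ C)
    (hkS : 0 ≤ kS) (heP : 0 ≤ eP) (hnS : 0 ≤ nS) (hC : 0 ≤ C) : F ≤ C * kS + C * ((1 + nS) * eP) := by
  have h1 : A * kS ≤ C * kS := mul_le_mul_of_nonneg_right hA hkS
  have h2 : B * eP ≤ C * eP := mul_le_mul_of_nonneg_right hB heP
  have h3 : 0 ≤ C * (nS * eP) := mul_nonneg hC (mul_nonneg hnS heP)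
  nlinarith

theorem s9c_asm4A {F M Kn Sq Sz L P1 Ca Cf C1 tin τ D5 e k0 : ℝ}
    (h1 : F ≤ M + Ca * tin * P1) (h2 : M ≤ Kn * 2 * Sq + Cf * (τ + τ) * L) (h3 : Kn ≤ C1 * k0)
    (h4 : Sq ≤ Sz) (h5 : L ≤ D5 * P1) (h6 : tin ≤ e) (h7 : τ * D5 ≤ e)
    (hSq : 0 ≤ Sq) (hk0 : 0 ≤ k0) (hP1 : 0 ≤ P1) (hCa : 0 ≤ Ca) (hCf : 0 ≤ Cf) (hC1 : 0 ≤ C1)
    (hτ : 0 ≤ τ) : F ≤ (2 * C1) * (k0 * Sz) + (2 * Cf + Ca) * (e * P1) := by
  have t1 : Kn * 2 * Sq ≤ (C1 * k0) * 2 * Sz :=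
    mul_le_mul (mul_le_mul_of_nonneg_right h3 (by norm_num)) h4 hSq
      (mul_nonneg (mul_nonneg hC1 hk0) (by norm_num))
  have t2 : Cf * (τ + τ) * L ≤ Cf * (τ + τ) * (D5 * P1) :=
    mul_le_mul_of_nonneg_left h5 (mul_nonneg hCf (by linarith))
  have t3 : Cf * ((τ * D5) * P1) ≤ Cf * (e * P1) :=
    mul_le_mul_of_nonneg_left (mul_le_mul_of_nonneg_right h7 hP1) hCf
  have t4 : Ca * (tin * P1) ≤ Ca * (e * P1) :=
    mul_le_mul_of_nonneg_left (mul_le_mul_of_nonneg_right h6 hP1) hCa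
  nlinarith

theorem s9c_asm4B {F M Kn Sq L P1 Ca Cf C1 tin τ D4 D5 e Ui : ℝ}
    (h1 : F ≤ M + Ca * tin * P1) (h2 : M ≤ Kn * 2 * Sq + Cf * (τ + τ) * L) (h3 : Kn ≤ C1 * Ui)
    (h4 : Sq ≤ D4 * P1) (h5 : L ≤ D5 * P1) (h6 : tin ≤ e) (h7 : τ * D5 ≤ e) (h8 : Ui * D4 ≤ e)
    (hSq : 0 ≤ Sq) (hUi : 0 ≤ Ui) (hP1 : 0 ≤ P1) (hCa : 0 ≤ Ca) (hCf : 0 ≤ Cf) (hC1 : 0 ≤ C1)
    (hτ : 0 ≤ τ) : F ≤ (2 * C1 + 2 * Cf + Ca) * (e * P1) := by
  have t1 : Kn * 2 * Sq ≤ (C1 * Ui) * 2 * (D4 * P1) :=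
    mul_le_mul (mul_le_mul_of_nonneg_right h3 (by norm_num)) h4 hSq
      (mul_nonneg (mul_nonneg hC1 hUi) (by norm_num))
  have t1' : C1 * ((Ui * D4) * P1) ≤ C1 * (e * P1) :=
    mul_le_mul_of_nonneg_left (mul_le_mul_of_nonneg_right h8 hP1) hC1
  have t2 : Cf * (τ + τ) * L ≤ Cf * (τ + τ) * (D5 * P1) :=
    mul_le_mul_of_nonneg_left h5 (mul_nonneg hCf (by linarith))
  have t3 : Cf * ((τ * D5) * P1) ≤ Cf * (e * P1) :=
    mul_le_mul_of_nonneg_left (mul_le_mul_of_nonneg_right h7 hP1) hCf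
  have t4 : Ca * (tin * P1) ≤ Ca * (e * P1) :=
    mul_le_mul_of_nonneg_left (mul_le_mul_of_nonneg_right h6 hP1) hCa
  nlinarith

theorem s9c_asm4C {F M L P1 Ca Cf tin D5 e Ui : ℝ}
    (h1 : F ≤ M + Ca * tin * P1) (h2 : M ≤ Cf * Ui * L)
    (h5 : L ≤ D5 * P1) (h6 : tin ≤ e) (h8 : Ui * D5 ≤ e)
    (hUi : 0 ≤ Ui) (hP1 : 0 ≤ P1) (hCa : 0 ≤ Ca) (hCf : 0 ≤ Cf) :
    F ≤ (Cf + Ca) * (e * P1) := by
  have t2 : Cf * Ui * L ≤ Cf * Ui * (D5 * P1) :=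
    mul_le_mul_of_nonneg_left h5 (mul_nonneg hCf hUi)
  have t3 : Cf * ((Ui * D5) * P1) ≤ Cf * (e * P1) :=
    mul_le_mul_of_nonneg_left (mul_le_mul_of_nonneg_right h8 hP1) hCf
  have t4 : Ca * (tin * P1) ≤ Ca * (e * P1) :=
    mul_le_mul_of_nonneg_left (mul_le_mul_of_nonneg_right h6 hP1) hCa
  nlinarith

/-- **the single-cell estimate, four cores.**  LEAF P-S9-CELL-4 -/
theorem s9c_hmain4 (c0 C0 : ℝ) (hc0 : 0 < c0) (hC0 : 1 ≤ C0) : ∃ C : ℝ, 1 ≤ C ∧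
    ∀ (d : ℕ) (S : S9Sys d) (p : S8Par) (PC : ℝ) (tys : Finset (ℕ × ℕ)), S.Valid c0 C0 p PC tys → S9ParOk p d →
      (∀ j, S.sd j = false) →
    ∀ u ∈ S.uses, ∀ x ∈ u.2.set, ∀ h ∈ p.up, ∀ (a : Fin 4 → ℕ) (X : Fin 4 → Finset ℕ),
      (∀ j, X j ⊆ (S.ClS j u).filter fun D => S.goodS j u h D ∧ S.compS j u h D = a j) →
      ‖∑ D ∈ Fintype.piFinset X, S.phi u D‖
        ≤ C * (S.kap0 p x u h a * S.sfac p x u h a) * ∏ j, Real.sqrt (∑ D ∈ X j, S.sS p.Ds j u D ^ 2)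
          + C * ((p.Ds : ℝ) ^ 240)⁻¹ * (1 + nnorm 2 u.2 (S.Sd u)) * ∏ j, ∑ D ∈ X j, S.cS j u D := by
  obtain ⟨Ca, hCa, hA4⟩ := s9_approx4 c0 C0 hc0 hC0
  obtain ⟨Cf, hCf, hF4⟩ := s9_ft4 c0 C0 hc0 hC0
  obtain ⟨C1, hC1, hK1⟩ := s9_K_bound c0 C0 hc0 hC0 1
  refine ⟨2 * C1 + Ca + 2 * Cf, by linarith, ?_⟩
  intro d S p PC tys hV hP hsd u hu x hx h hh a X hX
  have hCC : 0 ≤ 2 * C1 + Ca + 2 * Cf := by linarith
  obtain ⟨n1, n2, n3, n4, n5, n6, n7, n8⟩ := s9c_num hP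
  obtain ⟨hTT, -⟩ := s9c_TT_inv hP
  have hDs0 : (0 : ℝ) ≤ (p.Ds : ℝ) := Nat.cast_nonneg _
  generalize ((p.Ds : ℝ) ^ 240)⁻¹ = e at *
  have hnS := nnorm_nonneg 2 u.2 (S.Sd u)
  have hk0 := s9c_kap0_nonneg S p x u h a
  have hsf := s9c_sfac_nonneg S p x u h a
  have hP1 : 0 ≤ ∏ j, ∑ D ∈ X j, S.cS j u D :=
    Finset.prod_nonneg fun j _ => Finset.sum_nonneg fun D _ => s9c_cS_nonneg S j u D
  have hSz : 0 ≤ ∏ j, Real.sqrt (∑ D ∈ X j, S.sS p.Ds j u D ^ 2) :=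
    Finset.prod_nonneg fun j _ => Real.sqrt_nonneg _
  by_cases hne : ∀ j, (X j).Nonempty
  swap
  · have h0 : Fintype.piFinset X = ∅ := by
      rw [← Finset.not_nonempty_iff_eq_empty, Fintype.piFinset_nonempty]
      exact hne
    rw [h0, Finset.sum_empty, norm_zero]
    exact add_nonneg (mul_nonneg (mul_nonneg hCC (mul_nonneg hk0 hsf)) hSz)
      (mul_nonneg (mul_nonneg (mul_nonneg hCC n1) (by linarith)) hP1)
  have hw := hV.adm u.2 (hV.uses_sub u hu)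
  choose Ro hγ ha1 hl1 hbox hnsq hcore hside using
    fun j => s9c_roleS hV hP j u hu x hx h hh a (X j) (hne j) (hX j)
  obtain ⟨d', kap, hkap⟩ := s9c_dich hV hP u hu h hh ⟨0, hsd 0, (hcore 0 (hsd 0)).2.2.2⟩
  obtain ⟨ιR, fR, nR, mR, cR, hRbox, hRl1, hRsup, hRmul⟩ := hV.mul4 hsd u hu
  have hns : ¬ S.hasSide := by
    rintro ⟨l, hl⟩
    rw [hsd l] at hl
    exact absurd hl (by simp)
  have hanc : S.anc = 0 := by
    unfold S9Sys.anc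
    exact dif_neg hns
  have hsf1 : S.sfac p x u h a = 1 := by
    unfold S9Sys.sfac
    rw [if_neg hns]
  have hHpos : 0 < 6 ^ (h - 10) := by positivity
  have hL : ∑ D ∈ Fintype.piFinset X, S.phi u D = form u.2 (S.w u.2) (fun j => (Ro j).A) := by
    rw [s9c_phi_sum hc0 hV u hu X (fun j hj => by rw [hsd j] at hj; exact absurd hj (by simp))]
    congr 1
    funext j
    rw [if_neg (by rw [hsd j]; simp), (hcore j (hsd j)).1]
  obtain ⟨ht0, ht⟩ := s9c_tin hP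
  have hmul' : ∀ y s : ℝ, ‖∏ j, (Ro j).gau (y + (s9al 0 j : ℝ) * s)
      - (∑ i, cR i * ee (s9dot (nR i) (S.vth u.1) * y + s9dot (mR i) (S.vth u.1) * s)) *
        ∏ j, (‖(Ro j).gau (y + (s9al 0 j : ℝ) * s)‖ : ℂ)‖ ≤ p.tin := by
    intro y s
    have := hRmul y s
    simp only [fun j => (hcore j (hsd j)).2.1]
    exact this
  have hA := hA4 d u.2 (S.w u.2) hw x hx 0 (S.vth u.1) (6 ^ (h - 10)) p.Bs (p.Ds * p.E (h - 10)) p.Ds
    p.tin hHpos ht0 ht Ro (fun j => (hcore j (hsd j)).2.2.1) ιR nR mR cR hRsup hmul'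
  obtain ⟨hsup', hl1R⟩ := s9_mult_shift nR mR cR 2 hRsup (6 ^ (h - 10)) (S.vth u.1) x
  have hboxT := fun t => s9_tuple_box nR mR (6 ^ (h - 10)) p.Bs (p.Ds * p.E (h - 10)) (p.Bx h) hRbox Ro
    hbox (s9c_box13 hP h) 0 t
  have hQ : ∑ j, (Ro j).γs = S.Qv x a := Finset.sum_congr rfl fun j _ => hγ j
  have hT : ∑ j, (s9al 0 j : ℝ) * (Ro j).γs = S.Tv x a := by
    unfold S9Sys.Tv
    rw [hanc]
    exact Finset.sum_congr rfl fun j _ => by rw [hγ j]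
  have hxi : (fun k => S.vth u.1 k / ((6 ^ (h - 10) : ℕ) : ℝ)) = S.xi u.1 h := rfl
  rw [hQ, hT, hxi] at hA
  have hF := hF4 d d' u.2 (S.w u.2) hw x hx 0 (S.xi u.1 h) kap (p.Bx h) p.TT⁻¹ p.TT p.U0 2
    (inv_nonneg.2 hTT.le) n8 n6 (by linarith) hkap ιR (fun j => (Ro j).ι)
    (fun i => ((6 ^ (h - 10) : ℕ) : ℤ) • nR i) (fun i => ((6 ^ (h - 10) : ℕ) : ℤ) • mR i)
    (fun i => cR i * ee (s9dot (nR i) (S.vth u.1) * x)) (fun j => (Ro j).fn (6 ^ (h - 10)))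
    (fun j => (Ro j).fc (S.vth u.1) x) hsup' hboxT (S.Qv x a) (S.Tv x a)
  have hP1e : ∏ j, (Ro j).a1 = ∏ j, ∑ D ∈ X j, S.cS j u D := Finset.prod_congr rfl fun j _ => ha1 j
  rw [hL]
  rw [hP1e] at hA
  have hl1p := s9c_l1_prod Ro (S.vth u.1) x (p.Ds : ℝ) hl1
  rw [hP1e] at hl1p
  have hLb : s9l1 (fun i => cR i * ee (s9dot (nR i) (S.vth u.1) * x))
      * ∏ j, s9l1 ((Ro j).fc (S.vth u.1) x) ≤ (p.Ds : ℝ) ^ 5 * ∏ j, ∑ D ∈ X j, S.cS j u D := by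
    rw [hl1R]
    calc s9l1 cR * ∏ j, s9l1 ((Ro j).fc (S.vth u.1) x)
        ≤ (p.Ds : ℝ) * ((p.Ds : ℝ) ^ 4 * ∏ j, ∑ D ∈ X j, S.cS j u D) :=
          mul_le_mul hRl1 hl1p (Finset.prod_nonneg fun j _ => s9c_l1_nonneg _) hDs0
      _ = _ := by ring
  have hSq0 : 0 ≤ ∏ j, Real.sqrt (s9nsq (fun i => kap ((Ro j).fn (6 ^ (h - 10)) i))
      ((Ro j).fc (S.vth u.1) x)) := Finset.prod_nonneg fun j _ => Real.sqrt_nonneg _
  have hSq1 : ∏ j, Real.sqrt (s9nsq (fun i => kap ((Ro j).fn (6 ^ (h - 10)) i))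
      ((Ro j).fc (S.vth u.1) x)) ≤ ∏ j, Real.sqrt (∑ D ∈ X j, S.sS p.Ds j u D ^ 2) :=
    Finset.prod_le_prod (fun _ _ => Real.sqrt_nonneg _)
      fun j _ => Real.sqrt_le_sqrt (hnsq j d' kap hkap)
  have hSq2 : ∏ j, Real.sqrt (s9nsq (fun i => kap ((Ro j).fn (6 ^ (h - 10)) i))
      ((Ro j).fc (S.vth u.1) x)) ≤ (p.Ds : ℝ) ^ 4 * ∏ j, ∑ D ∈ X j, S.cS j u D :=
    (Finset.prod_le_prod (fun _ _ => Real.sqrt_nonneg _) fun j _ => s9_nsq_le_l1 _ _).trans hl1p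
  have hFM := norm_sub_norm_le (form u.2 (S.w u.2) (fun j => (Ro j).A))
    (s9MF u.2 (S.w u.2) x 0 (S.xi u.1 h) (S.Qv x a) (S.Tv x a)
      (fun i => ((6 ^ (h - 10) : ℕ) : ℤ) • nR i) (fun i => ((6 ^ (h - 10) : ℕ) : ℤ) • mR i)
      (fun i => cR i * ee (s9dot (nR i) (S.vth u.1) * x)) (fun j => (Ro j).fn (6 ^ (h - 10)))
      (fun j => (Ro j).fc (S.vth u.1) x))
  have h1 := sub_le_iff_le_add'.1 (hFM.trans hA)
  have hUi : 0 ≤ p.U0⁻¹ := inv_nonneg.2 (by linarith)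
  have hτ : 0 ≤ p.TT⁻¹ := inv_nonneg.2 hTT.le
  have hfin : ∀ A B : ℝ, A ≤ 2 * C1 + Ca + 2 * Cf → B ≤ 2 * C1 + Ca + 2 * Cf →
      ‖form u.2 (S.w u.2) (fun j => (Ro j).A)‖
        ≤ A * (S.kap0 p x u h a * ∏ j, Real.sqrt (∑ D ∈ X j, S.sS p.Ds j u D ^ 2))
          + B * (e * ∏ j, ∑ D ∈ X j, S.cS j u D) →
      ‖form u.2 (S.w u.2) (fun j => (Ro j).A)‖
        ≤ (2 * C1 + Ca + 2 * Cf) * (S.kap0 p x u h a * S.sfac p x u h a)
            * ∏ j, Real.sqrt (∑ D ∈ X j, S.sS p.Ds j u D ^ 2)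
          + (2 * C1 + Ca + 2 * Cf) * e * (1 + nnorm 2 u.2 (S.Sd u)) * ∏ j, ∑ D ∈ X j, S.cS j u D := by
    intro A B hA' hB' hle
    have := s9c_fin hle hA' hB' (mul_nonneg hk0 hSz) (mul_nonneg n1 hP1) hnS hCC
    rw [hsf1]
    calc _ ≤ _ := this
      _ = _ := by ring
  rcases s9c_kap0_cases S p x u h a with ⟨nm, hnm, hk⟩ | ⟨nm, hnm, hmu, hk⟩ | ⟨hno, hk⟩
  · obtain ⟨b1, b2, b3, b4⟩ := hnm
    have hM := hF.1 nm.1 nm.2 b1 b2 (b3.resolve_left hns) b4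
    have hKn := s9c_K_mu (by linarith : 0 ≤ C1) (fun j a b => hK1 u.2 (S.w u.2) hw x 0 j a b)
      (S.qtOf x u h a nm)
    rw [hanc] at hk
    rw [← hk] at hKn
    have e1 : (S.qtOf x u h a nm).1 = u.2.len * (S.Qv x a + s9dot nm.1 (S.xi u.1 h)) := by
      unfold S9Sys.qtOf
      rw [if_neg hns]
    have e2 : (S.qtOf x u h a nm).2 = u.2.len * (S.Tv x a + s9dot nm.2 (S.xi u.1 h)) := rfl
    rw [e1, e2] at hKn
    exact hfin _ _ (by linarith) (by linarith)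
      (s9c_asm4A h1 hM hKn hSq1 hLb n2 n3 hSq0 hk0 hP1 (by linarith) (by linarith) (by linarith) hτ)
  · obtain ⟨b1, b2, b3, b4⟩ := hnm
    have hM := hF.1 nm.1 nm.2 b1 b2 (b3.resolve_left hns) b4
    have hKn := s9c_K_mu (by linarith : 0 ≤ C1) (fun j a b => hK1 u.2 (S.w u.2) hw x 0 j a b)
      (S.qtOf x u h a nm)
    rw [hanc] at hmu
    have e1 : (S.qtOf x u h a nm).1 = u.2.len * (S.Qv x a + s9dot nm.1 (S.xi u.1 h)) := by
      unfold S9Sys.qtOf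
      rw [if_neg hns]
    have e2 : (S.qtOf x u h a nm).2 = u.2.len * (S.Tv x a + s9dot nm.2 (S.xi u.1 h)) := rfl
    have hKn' : ‖s9K u.2 (S.w u.2) x 0 (u.2.len * (S.Qv x a + s9dot nm.1 (S.xi u.1 h)))
        (u.2.len * (S.Tv x a + s9dot nm.2 (S.xi u.1 h)))‖ ≤ C1 * p.U0⁻¹ := by
      rw [← e1, ← e2]
      refine hKn.trans (mul_le_mul_of_nonneg_left ?_ (by linarith))
      calc s9mu 0 (S.qtOf x u h a nm) * (s9nu (S.qtOf x u h a nm))⁻¹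
          ≤ s9mu 0 (S.qtOf x u h a nm) * 1 :=
            mul_le_mul_of_nonneg_left (s9c_nu_inv _).2 (s9c_mu_nonneg _ _)
        _ ≤ p.U0⁻¹ := by rw [mul_one]; exact hmu.le
    have h2 := s9c_asm4B h1 hM hKn' hSq2 hLb n2 n3 n5 hSq0 hUi hP1 (by linarith) (by linarith)
      (by linarith) hτ
    refine hfin 0 (2 * C1 + 2 * Cf + Ca) (by linarith) (by linarith) ?_
    rw [zero_mul, zero_add]
    exact h2
  · have hM := hF.2 (by
      rintro ⟨n0, m0, b1, b2, b3, b4⟩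
      exact hno ⟨(n0, m0), b1, b2, Or.inr b3, b4⟩)
    have h2 := s9c_asm4C h1 hM hLb n2 n4 hUi hP1 (by linarith) (by linarith)
    refine hfin 0 (Cf + Ca) (by linarith) (by linarith) ?_
    rw [zero_mul, zero_add]
    exact h2

theorem s9c3_ok_sum {I : Cell} {ι : Type} (s : Finset ι) (G : ι → ℝ → ℂ) (hG : ∀ ρ ∈ s, S5fOk I (G ρ)) :
    S5fOk I (fun y => ∑ ρ ∈ s, G ρ y) := by
  induction s using Finset.induction_on with
  | empty =>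
    simp only [Finset.sum_empty]
    exact s5f_ok_of_bdd I measurable_const (B := 0) (fun y => by simp)
  | insert b s hb ih =>
    simp only [Finset.sum_insert hb]
    exact s5f_ok_add (hG b (Finset.mem_insert_self _ _)) (ih fun ρ hρ => hG ρ (Finset.mem_insert_of_mem hρ))

/-- linearity of the form in the slot `l`, finite sums -/
theorem s9c3_form_sum {c0 C0 : ℝ} (hc0 : 0 < c0) {I : Cell} {w : ℝ × ℝ → ℂ} (hw : Admissible c0 C0 I w)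
    {g : Fin 4 → ℝ → ℂ} (l : Fin 4) (hg : ∀ j, j ≠ l → S5fOk I (g j)) {ι : Type} (s : Finset ι) (G : ι → ℝ → ℂ)
    (hG : ∀ ρ ∈ s, S5fOk I (G ρ)) :
    form I w (Function.update g l (fun y => ∑ ρ ∈ s, G ρ y)) = ∑ ρ ∈ s, form I w (Function.update g l (G ρ)) := by
  induction s using Finset.induction_on with
  | empty =>
    simp only [Finset.sum_empty]
    have h := s5f_form_update_smul I w g l 0 (fun _ => 0)
    simpa using h
  | insert b s hb ih =>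
    simp only [Finset.sum_insert hb]
    rw [s5f_form_update_add hc0 hw l hg (hG b (Finset.mem_insert_self _ _))
      (s9c3_ok_sum s G fun ρ hρ => hG ρ (Finset.mem_insert_of_mem hρ)),
      ih fun ρ hρ => hG ρ (Finset.mem_insert_of_mem hρ)]

theorem s9c3_a1_nonneg {d : ℕ} (ro : S9RoleD d) : 0 ≤ ro.a1 :=
  Finset.sum_nonneg fun _ _ => norm_nonneg _

/-- approximation + three-core model estimate for ONE fresh offset -/
theorem s9c3_one (c0 C0 : ℝ) (hc0 : 0 < c0) (hC0 : 1 ≤ C0) : ∃ C : ℝ, 1 ≤ C ∧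
    ∀ (d d' : ℕ) (I : Cell) (w : ℝ × ℝ → ℂ), Admissible c0 C0 I w → ∀ x ∈ I.set, ∀ (l : Fin 4) (ϑ : Fin d → ℝ)
      (H Bs Bn Bx F0 : ℕ) (D t TT U0 : ℝ) (kap : (Fin d → ℤ) →+ (Fin d' → ℤ)),
      0 < H → 0 ≤ t → t ≤ 1 / 100 → 1 ≤ U0 → 8 * U0 ≤ TT → (2 : ℝ) ^ F0 ≤ U0 → U0 < (2 : ℝ) ^ (F0 + 1) → 1 ≤ D →
      S9DichK kap (fun k => ϑ k / (H : ℝ)) (2 * Bx) I.len TT⁻¹ TT → 13 * (H * Bs) + 12 * Bn ≤ Bx →
    ∀ (Ro : Fin 4 → S9RoleD d), Ro l = S9RoleD.dummy d → (∀ j, j ≠ l → (Ro j).Ok I x ϑ H Bs Bn D t) →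
    ∀ (gS σ : ℝ → ℂ), Measurable gS → (∀ y, ‖gS y‖ ≤ 1) → Measurable σ → IntegrableOn (fun y => ‖σ y‖ ^ 2) I.set →
      S9Mult ϑ (fun j => if j = l then gS else (Ro j).gau) l Bs D t →
      (∀ m0 : Fin d → ℤ, S9Box Bx m0 →
        I.len * |(∑ j, (s9al l j : ℝ) * (Ro j).γs) + s9dot m0 (fun k => ϑ k / (H : ℝ))| ≤ U0 →
        ‖form I w (fun j => if j = l then (fun y => ((‖gS y‖ ^ 2 : ℝ) : ℂ) * σ y) else (Ro j).A)‖
          ≤ C * (min 1 |I.len * ((∑ j, (s9al l j : ℝ) * (Ro j).γs) + s9dot m0 (fun k => ϑ k / (H : ℝ)))| *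
                (max 1 |I.len * ((∑ j, (s9al l j : ℝ) * (Ro j).γs) + s9dot m0 (fun k => ϑ k / (H : ℝ)))|)⁻¹) *
              (∏ j, Real.sqrt (s9nsq (fun i => kap ((Ro j).fn H i)) ((Ro j).fc ϑ x))) *
              (∑ f ∈ Finset.range (F0 + 1), ((2 : ℝ) ^ f)⁻¹ *
                Real.sqrt (s9bsq I x (fun k => ϑ k / (H : ℝ)) (∑ j, (Ro j).γs) Bx ((2 : ℝ) ^ f)
                  (fun y => conj (gS y) * (‖gS y‖ : ℂ) * σ y)))
            + C * (t + TT⁻¹ + U0⁻¹) * D ^ 5 * (∏ j, (Ro j).a1) * nnorm 2 I σ) ∧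
      ((¬ ∃ m0 : Fin d → ℤ, S9Box Bx m0 ∧
          I.len * |(∑ j, (s9al l j : ℝ) * (Ro j).γs) + s9dot m0 (fun k => ϑ k / (H : ℝ))| ≤ U0) →
        ‖form I w (fun j => if j = l then (fun y => ((‖gS y‖ ^ 2 : ℝ) : ℂ) * σ y) else (Ro j).A)‖
          ≤ C * (t + TT⁻¹ + U0⁻¹) * D ^ 5 * (∏ j, (Ro j).a1) * nnorm 2 I σ) := by
  obtain ⟨Ca, hCa, happ⟩ := s9_approx3 c0 C0 hc0 hC0
  obtain ⟨C3, hC3, hft⟩ := s9_ft3 c0 C0 hc0 hC0
  refine ⟨2 * C3 + Ca, by linarith, ?_⟩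
  intro d d' I w hw x hx l ϑ H Bs Bn Bx F0 D t TT U0 kap hH ht0 ht1 hU hTT hF1 hF2 hD hdich hBx Ro hRl hRo gS σ
    hgm hg1 hσm hσ2 hmult
  obtain ⟨ιR, fR, nR, mR, cR, hRbox, hRl1, hRsup, hRapp⟩ := hmult
  have hU0 : 0 < U0 := by linarith
  have hTT0 : 0 < TT := by linarith
  have hTT1 : TT⁻¹ ≤ 1 := inv_le_one_of_one_le₀ (by linarith)
  -- the side function
  set Sp : ℝ → ℂ := fun y => conj (gS y) * (‖gS y‖ : ℂ) * σ y with hSp
  have hSpm : Measurable Sp :=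
    ((Complex.continuous_conj.measurable.comp hgm).mul (Complex.measurable_ofReal.comp hgm.norm)).mul hσm
  have hSpσ := s9_nnorm_mono I σ Sp 1 zero_le_one hSpm hσ2 (fun y _ => by
    simp only [hSp]
    rw [norm_mul, norm_mul, RCLike.norm_conj, Complex.norm_real, norm_norm, one_mul]
    have := hg1 y
    have h0 := norm_nonneg (gS y)
    have h1 : ‖gS y‖ * ‖gS y‖ ≤ 1 := by nlinarith
    exact mul_le_of_le_one_left (norm_nonneg _) h1)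
  rw [one_mul] at hSpσ
  have hnσ := nnorm_nonneg 2 I σ
  have hnSp := nnorm_nonneg 2 I Sp
  -- the approximation
  have h1 := happ d I w hw x hx l ϑ H Bs Bn D t hH ht0 ht1 Ro hRl hRo gS σ hgm hg1 hσm hσ2 ιR nR mR cR hRsup hRapp
  obtain ⟨hsh1, hsh2⟩ := s9_mult_shift nR mR cR 2 hRsup H ϑ x
  have hdum := S9RoleD.dummy_facts d ϑ H x
  have hboxfn : ∀ j i, S9Box (H * Bs + Bn) ((Ro j).fn H i) := by
    intro j
    by_cases hj : j = l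
    · subst hj
      rw [hRl]
      intro i
      rw [hdum.2.1 i]
      intro k
      simp only [Pi.zero_apply, abs_zero]
      positivity
    · exact fun i => S9RoleD.box_fn (hRo j hj) i
  have h2 := hft d d' I w hw x hx l (fun k => ϑ k / (H : ℝ)) kap Bx TT⁻¹ TT U0 2 F0 (by positivity) hTT1 hU hTT
    (by norm_num) hF1 hF2 hdich ιR (fun j => (Ro j).ι) (fun i => (H : ℤ) • nR i) (fun i => (H : ℤ) • mR i)
    (fun i => cR i * ee (s9dot (nR i) ϑ * x)) (fun j => (Ro j).fn H) (fun j => (Ro j).fc ϑ x) hsh1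
    (by rw [hRl]; exact hdum.2.1)
    (fun z => s9_tuple_box nR mR H Bs Bn Bx hRbox Ro hboxfn hBx l z)
    Sp hSpm hSpσ.1 (∑ j, (Ro j).γs) (∑ j, (s9al l j : ℝ) * (Ro j).γs)
  -- the l1 norms
  have ha1 : ∀ j, 0 ≤ (Ro j).a1 := fun j => s9c3_a1_nonneg _
  have hA1 : 0 ≤ ∏ j, (Ro j).a1 := Finset.prod_nonneg fun j _ => ha1 j
  have hl1j : ∀ j, s9l1 ((Ro j).fc ϑ x) ≤ D * (Ro j).a1 := by
    intro j
    by_cases hj : j = l
    · subst hj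
      rw [hRl, hdum.2.2.2.1, hdum.1]
      linarith
    · rw [S9RoleD.l1_fc]
      exact mul_le_mul_of_nonneg_right (hRo j hj).l1Z (ha1 j)
  have hl1nn : ∀ j, 0 ≤ s9l1 ((Ro j).fc ϑ x) := fun j => Finset.sum_nonneg fun _ _ => norm_nonneg _
  have hl1 : s9l1 (fun i => cR i * ee (s9dot (nR i) ϑ * x)) * ∏ j, s9l1 ((Ro j).fc ϑ x)
      ≤ D ^ 5 * ∏ j, (Ro j).a1 := by
    rw [hsh2]
    calc s9l1 cR * ∏ j, s9l1 ((Ro j).fc ϑ x) ≤ D * ∏ j, (D * (Ro j).a1) :=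
          mul_le_mul hRl1 (Finset.prod_le_prod (fun j _ => hl1nn j) fun j _ => hl1j j)
            (Finset.prod_nonneg fun j _ => hl1nn j) (by linarith)
      _ = D ^ 5 * ∏ j, (Ro j).a1 := by
          rw [Finset.prod_mul_distrib, Finset.prod_const, Finset.card_univ, Fintype.card_fin]
          ring
  have hl10 : 0 ≤ s9l1 (fun i => cR i * ee (s9dot (nR i) ϑ * x)) * ∏ j, s9l1 ((Ro j).fc ϑ x) :=
    mul_nonneg (Finset.sum_nonneg fun _ _ => norm_nonneg _) (Finset.prod_nonneg fun j _ => hl1nn j)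
  have hD5 : 1 ≤ D ^ 5 := one_le_pow₀ hD
  have htri : ∀ MF : ℂ, ‖form I w (fun j => if j = l then (fun y => ((‖gS y‖ ^ 2 : ℝ) : ℂ) * σ y) else (Ro j).A) - MF‖
      ≤ Ca * t * (∏ j, (Ro j).a1) * nnorm 2 I σ →
      ‖form I w (fun j => if j = l then (fun y => ((‖gS y‖ ^ 2 : ℝ) : ℂ) * σ y) else (Ro j).A)‖
        ≤ ‖MF‖ + Ca * t * D ^ 5 * (∏ j, (Ro j).a1) * nnorm 2 I σ := by
    intro MF h
    have e1 := norm_sub_norm_le (form I w (fun j => if j = l then (fun y => ((‖gS y‖ ^ 2 : ℝ) : ℂ) * σ y) else (Ro j).A)) MF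
    have e2 : Ca * t * (∏ j, (Ro j).a1) * nnorm 2 I σ ≤ Ca * t * D ^ 5 * (∏ j, (Ro j).a1) * nnorm 2 I σ := by
      have : Ca * t * 1 ≤ Ca * t * D ^ 5 := mul_le_mul_of_nonneg_left hD5 (by positivity)
      rw [mul_one] at this
      exact mul_le_mul_of_nonneg_right (mul_le_mul_of_nonneg_right this hA1) hnσ
    linarith
  have h3 := htri _ h1
  have hinvT : 0 ≤ TT⁻¹ := by positivity
  have hinvU : 0 ≤ U0⁻¹ := by positivity
  have hX0 : 0 ≤ D ^ 5 * (∏ j, (Ro j).a1) * nnorm 2 I σ := by positivity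
  have p1 : 0 ≤ C3 * t := by positivity
  have p2 : 0 ≤ C3 * U0⁻¹ := by positivity
  have p3 : 0 ≤ Ca * TT⁻¹ := by positivity
  have p4 : 0 ≤ Ca * U0⁻¹ := by positivity
  have p5 : 0 ≤ C3 * TT⁻¹ := by positivity
  clear happ hft
  have herr : ∀ c : ℝ, 0 ≤ c → c * (s9l1 (fun i => cR i * ee (s9dot (nR i) ϑ * x)) * ∏ j, s9l1 ((Ro j).fc ϑ x)) * nnorm 2 I Sp
      ≤ c * (D ^ 5 * (∏ j, (Ro j).a1) * nnorm 2 I σ) := by
    intro c hc
    rw [mul_assoc]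
    refine mul_le_mul_of_nonneg_left ?_ hc
    exact mul_le_mul hl1 hSpσ.2 hnSp (by positivity)
  constructor
  · intro m0 hm0 hmod
    have h4 := h2.1 m0 hm0 hmod
    have h5 := herr (C3 * (TT⁻¹ + TT⁻¹ + U0⁻¹)) (by positivity)
    set kb : ℝ := min 1 |I.len * ((∑ j, (s9al l j : ℝ) * (Ro j).γs) + s9dot m0 (fun k => ϑ k / (H : ℝ)))| *
                (max 1 |I.len * ((∑ j, (s9al l j : ℝ) * (Ro j).γs) + s9dot m0 (fun k => ϑ k / (H : ℝ)))|)⁻¹ with hkb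
    have hkb0 : 0 ≤ kb := mul_nonneg (le_min zero_le_one (abs_nonneg _)) (by positivity)
    set PP : ℝ := ∏ j, Real.sqrt (s9nsq (fun i => kap ((Ro j).fn H i)) ((Ro j).fc ϑ x)) with hPP
    have hPP0 : 0 ≤ PP := Finset.prod_nonneg fun _ _ => Real.sqrt_nonneg _
    set SS : ℝ := ∑ f ∈ Finset.range (F0 + 1), ((2 : ℝ) ^ f)⁻¹ *
                Real.sqrt (s9bsq I x (fun k => ϑ k / (H : ℝ)) (∑ j, (Ro j).γs) Bx ((2 : ℝ) ^ f) Sp) with hSS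
    have hSS0 : 0 ≤ SS := Finset.sum_nonneg fun f _ => by positivity
    have e1 : C3 * kb * 2 * PP * SS ≤ (2 * C3 + Ca) * kb * PP * SS := by
      have h0 : 0 ≤ kb * PP * SS := by positivity
      calc C3 * kb * 2 * PP * SS = (2 * C3) * (kb * PP * SS) := by ring
        _ ≤ (2 * C3 + Ca) * (kb * PP * SS) := mul_le_mul_of_nonneg_right (by linarith) h0
        _ = (2 * C3 + Ca) * kb * PP * SS := by ring
    have e2 : C3 * (TT⁻¹ + TT⁻¹ + U0⁻¹) * (D ^ 5 * (∏ j, (Ro j).a1) * nnorm 2 I σ)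
        + Ca * t * D ^ 5 * (∏ j, (Ro j).a1) * nnorm 2 I σ
        ≤ (2 * C3 + Ca) * (t + TT⁻¹ + U0⁻¹) * D ^ 5 * (∏ j, (Ro j).a1) * nnorm 2 I σ := by
      have e3 : C3 * (TT⁻¹ + TT⁻¹ + U0⁻¹) + Ca * t ≤ (2 * C3 + Ca) * (t + TT⁻¹ + U0⁻¹) := by
        have e4 : (2 * C3 + Ca) * (t + TT⁻¹ + U0⁻¹) = C3 * (TT⁻¹ + TT⁻¹ + U0⁻¹) + Ca * t
            + (2 * (C3 * t) + C3 * U0⁻¹ + Ca * TT⁻¹ + Ca * U0⁻¹) := by ring
        rw [e4]
        linarith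
      calc C3 * (TT⁻¹ + TT⁻¹ + U0⁻¹) * (D ^ 5 * (∏ j, (Ro j).a1) * nnorm 2 I σ)
            + Ca * t * D ^ 5 * (∏ j, (Ro j).a1) * nnorm 2 I σ
          = (C3 * (TT⁻¹ + TT⁻¹ + U0⁻¹) + Ca * t) * (D ^ 5 * (∏ j, (Ro j).a1) * nnorm 2 I σ) := by ring
        _ ≤ ((2 * C3 + Ca) * (t + TT⁻¹ + U0⁻¹)) * (D ^ 5 * (∏ j, (Ro j).a1) * nnorm 2 I σ) :=
            mul_le_mul_of_nonneg_right e3 hX0
        _ = (2 * C3 + Ca) * (t + TT⁻¹ + U0⁻¹) * D ^ 5 * (∏ j, (Ro j).a1) * nnorm 2 I σ := by ring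
    linarith
  · intro hno
    have h4 := h2.2 hno
    have h5 := herr (C3 * U0⁻¹) (by positivity)
    have e2 : C3 * U0⁻¹ * (D ^ 5 * (∏ j, (Ro j).a1) * nnorm 2 I σ)
        + Ca * t * D ^ 5 * (∏ j, (Ro j).a1) * nnorm 2 I σ
        ≤ (2 * C3 + Ca) * (t + TT⁻¹ + U0⁻¹) * D ^ 5 * (∏ j, (Ro j).a1) * nnorm 2 I σ := by
      have e3 : C3 * U0⁻¹ + Ca * t ≤ (2 * C3 + Ca) * (t + TT⁻¹ + U0⁻¹) := by
        have e4 : (2 * C3 + Ca) * (t + TT⁻¹ + U0⁻¹) = C3 * U0⁻¹ + Ca * t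
            + (2 * (C3 * t) + 2 * (C3 * TT⁻¹) + C3 * U0⁻¹ + Ca * TT⁻¹ + Ca * U0⁻¹) := by ring
        rw [e4]
        linarith
      calc C3 * U0⁻¹ * (D ^ 5 * (∏ j, (Ro j).a1) * nnorm 2 I σ)
            + Ca * t * D ^ 5 * (∏ j, (Ro j).a1) * nnorm 2 I σ
          = (C3 * U0⁻¹ + Ca * t) * (D ^ 5 * (∏ j, (Ro j).a1) * nnorm 2 I σ) := by ring
        _ ≤ ((2 * C3 + Ca) * (t + TT⁻¹ + U0⁻¹)) * (D ^ 5 * (∏ j, (Ro j).a1) * nnorm 2 I σ) :=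
            mul_le_mul_of_nonneg_right e3 hX0
        _ = (2 * C3 + Ca) * (t + TT⁻¹ + U0⁻¹) * D ^ 5 * (∏ j, (Ro j).a1) * nnorm 2 I σ := by ring
    linarith


theorem s9c3_anc (hs : S.hasSide) : S.sd S.anc = true := by
  have hs' : ∃ l, S.sd l = true := hs
  unfold S9Sys.anc
  rw [dif_pos hs']
  exact hs'.choose_spec

theorem s9c3_uniq (hV : S.Valid c0 C0 p PC tys) (hs : S.hasSide) (j : Fin 4) (hj : j ≠ S.anc) : S.sd j = false := by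
  by_contra h
  have h1 : S.sd j = true := by simpa using h
  exact hj (Finset.card_le_one.1 hV.sd_le j (Finset.mem_filter.2 ⟨Finset.mem_univ _, h1⟩) S.anc
    (Finset.mem_filter.2 ⟨Finset.mem_univ _, s9c3_anc hs⟩))

theorem s9c3_mu (l : Fin 4) (β : ℝ) : s9mu l (0, β) = min 1 |β| := by
  unfold s9mu
  simp only [mul_zero, sub_zero]
  rw [Finset.inf'_const]

theorem s9c3_nu (β : ℝ) : s9nu (0, β) = max 1 |β| := by
  unfold s9nu
  simp only [abs_zero]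
  rw [max_eq_right (abs_nonneg β)]

theorem s9c3_mu_nonneg (l : Fin 4) (qt : ℝ × ℝ) : 0 ≤ s9mu l qt := by
  unfold s9mu
  refine le_min zero_le_one ?_
  rw [Finset.le_inf'_iff]
  exact fun j _ => abs_nonneg _

theorem s9c3_nu_pos (qt : ℝ × ℝ) : 0 < s9nu qt := lt_of_lt_of_le one_pos (le_max_left _ _)

theorem s9c3_kap0_nonneg (S : S9Sys d) (p : S8Par) (x : ℝ) (u : ℕ × Cell) (h : ℕ) (a : Fin 4 → ℕ) :
    0 ≤ S.kap0 p x u h a := by
  unfold S9Sys.kap0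
  cases S.ref p x u h a with
  | none => exact le_rfl
  | some qt => exact mul_nonneg (s9c3_mu_nonneg _ _) (inv_nonneg.2 (s9c3_nu_pos qt).le)

theorem s9c3_sfac_nonneg (S : S9Sys d) (p : S8Par) (x : ℝ) (u : ℕ × Cell) (h : ℕ) (a : Fin 4 → ℕ) :
    0 ≤ S.sfac p x u h a := by
  unfold S9Sys.sfac
  split_ifs
  · exact Finset.sum_nonneg fun f _ => mul_nonneg (by positivity) (Real.sqrt_nonneg _)
  · exact zero_le_one

/-- the three cases of the reference of a three-core tuple -/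
theorem s9c3_ref (hs : S.hasSide) (p : S8Par) (x : ℝ) (u : ℕ × Cell) (h : ℕ) (a : Fin 4 → ℕ) :
    (∃ m0, S9Box (p.Bx h) m0 ∧ u.2.len * |S.Tv x a + s9dot m0 (S.xi u.1 h)| ≤ p.U0 ∧
      ((S.kap0 p x u h a = min 1 |u.2.len * (S.Tv x a + s9dot m0 (S.xi u.1 h))| *
          (max 1 |u.2.len * (S.Tv x a + s9dot m0 (S.xi u.1 h))|)⁻¹) ∨
        min 1 |u.2.len * (S.Tv x a + s9dot m0 (S.xi u.1 h))| < p.U0⁻¹)) ∨
    (¬ ∃ m0, S9Box (p.Bx h) m0 ∧ u.2.len * |S.Tv x a + s9dot m0 (S.xi u.1 h)| ≤ p.U0) := by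
  by_cases hr : ∃ nm, S.IsRef p x u h a nm
  · left
    obtain ⟨-, hb2, -, hmod⟩ := hr.choose_spec
    refine ⟨hr.choose.2, hb2, hmod, ?_⟩
    have hqt : S.qtOf x u h a hr.choose = (0, u.2.len * (S.Tv x a + s9dot hr.choose.2 (S.xi u.1 h))) := by
      unfold S9Sys.qtOf
      rw [if_pos hs]
    by_cases hμ : p.U0⁻¹ ≤ s9mu S.anc (S.qtOf x u h a hr.choose)
    · left
      have href : S.ref p x u h a = some (S.qtOf x u h a hr.choose) := by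
        unfold S9Sys.ref
        rw [dif_pos hr, if_pos hμ]
      unfold S9Sys.kap0
      rw [href, hqt]
      simp only
      rw [s9c3_mu, s9c3_nu]
    · right
      rw [hqt, s9c3_mu] at hμ
      exact not_le.1 hμ
  · right
    rintro ⟨m0, hb, hmod⟩
    exact hr ⟨(0, m0), fun i => by simp, hb, Or.inl hs, hmod⟩

/-- Jensen for the square root -/
theorem s9c3_jensen (N : ℕ) (hN : 0 < N) (b : Fin N → ℝ) (hb : ∀ ρ, 0 ≤ b ρ) :
    (N : ℝ)⁻¹ * ∑ ρ, Real.sqrt (b ρ) ≤ Real.sqrt ((N : ℝ)⁻¹ * ∑ ρ, b ρ) := by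
  have hN' : (0 : ℝ) < N := by exact_mod_cast hN
  refine Real.le_sqrt_of_sq_le ?_
  have h1 := sq_sum_le_card_mul_sum_sq (s := (Finset.univ : Finset (Fin N))) (f := fun ρ => Real.sqrt (b ρ))
  rw [Finset.card_univ, Fintype.card_fin] at h1
  have h2 : ∑ ρ, Real.sqrt (b ρ) ^ 2 = ∑ ρ, b ρ := Finset.sum_congr rfl fun ρ _ => Real.sq_sqrt (hb ρ)
  rw [h2] at h1
  rw [mul_pow]
  calc ((N : ℝ)⁻¹) ^ 2 * (∑ ρ, Real.sqrt (b ρ)) ^ 2 ≤ ((N : ℝ)⁻¹) ^ 2 * ((N : ℝ) * ∑ ρ, b ρ) :=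
        mul_le_mul_of_nonneg_left h1 (by positivity)
    _ = (N : ℝ)⁻¹ * ∑ ρ, b ρ := by field_simp

/-- averaging the one-offset estimates -/
theorem s9c3_avg (N : ℕ) (hN : 0 < N) (F : Fin N → ℝ) (b : Fin N → ℕ → ℝ) (hb : ∀ ρ f, 0 ≤ b ρ f) (K E0 : ℝ)
    (hK : 0 ≤ K) (F0 : ℕ)
    (h : ∀ ρ, F ρ ≤ K * (∑ f ∈ Finset.range (F0 + 1), ((2 : ℝ) ^ f)⁻¹ * Real.sqrt (b ρ f)) + E0) :
    (N : ℝ)⁻¹ * ∑ ρ, F ρ
      ≤ K * (∑ f ∈ Finset.range (F0 + 1), ((2 : ℝ) ^ f)⁻¹ * Real.sqrt ((N : ℝ)⁻¹ * ∑ ρ, b ρ f)) + E0 := by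
  have hN' : (0 : ℝ) < N := by exact_mod_cast hN
  calc (N : ℝ)⁻¹ * ∑ ρ, F ρ
      ≤ (N : ℝ)⁻¹ * ∑ ρ : Fin N, (K * (∑ f ∈ Finset.range (F0 + 1), ((2 : ℝ) ^ f)⁻¹ * Real.sqrt (b ρ f)) + E0) :=
        mul_le_mul_of_nonneg_left (Finset.sum_le_sum fun ρ _ => h ρ) (by positivity)
    _ = K * (∑ f ∈ Finset.range (F0 + 1), ((2 : ℝ) ^ f)⁻¹ * ((N : ℝ)⁻¹ * ∑ ρ, Real.sqrt (b ρ f))) + E0 := by
        rw [Finset.sum_add_distrib, ← Finset.mul_sum, Finset.sum_comm, Finset.sum_const, Finset.card_univ,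
          Fintype.card_fin, nsmul_eq_mul, mul_add]
        have e1 : (N : ℝ)⁻¹ * ((N : ℝ) * E0) = E0 := by field_simp
        rw [e1]
        congr 1
        rw [mul_left_comm, Finset.mul_sum]
        congr 1
        refine Finset.sum_congr rfl fun f _ => ?_
        rw [← Finset.mul_sum]
        ring
    _ ≤ _ := by
        refine add_le_add (mul_le_mul_of_nonneg_left (Finset.sum_le_sum fun f _ => ?_) hK) le_rfl
        exact mul_le_mul_of_nonneg_left (s9c3_jensen N hN (fun ρ => b ρ f) fun ρ => hb ρ f) (by positivity)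

theorem s9c3_geom (n : ℕ) : ∑ f ∈ Finset.range n, ((2 : ℝ) ^ f)⁻¹ ≤ 2 := by
  have h : ∀ n : ℕ, ∑ f ∈ Finset.range n, ((2 : ℝ) ^ f)⁻¹ = 2 - 2 * ((2 : ℝ) ^ n)⁻¹ := by
    intro n
    induction n with
    | zero => simp
    | succ n ih =>
      rw [Finset.sum_range_succ, ih, pow_succ]
      field_simp
      ring
  rw [h]
  have : (0 : ℝ) ≤ 2 * ((2 : ℝ) ^ n)⁻¹ := by positivity
  linarith

theorem s9c3_cbar_ge (hV : S.Valid c0 C0 p PC tys) (G : ℕ) (y : ℝ) : (1 : ℝ) / 2 ≤ S.cbar G y :=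
  hV.gauS_avg G y

theorem s9c3_cbar_meas (hV : S.Valid c0 C0 p PC tys) (G : ℕ) : Measurable (S.cbar G) := by
  unfold S9Sys.cbar
  exact (Finset.measurable_fun_sum _ fun ρ _ => ((hV.gauS_meas G ρ).norm.pow_const 2)).const_mul _

theorem s9c3_Sq_meas (hV : S.Valid c0 C0 p PC tys) (u : ℕ × Cell) : Measurable (S.Sq u) := by
  unfold S9Sys.Sq
  exact (hV.Sd_meas u).div (Complex.measurable_ofReal.comp (s9c3_cbar_meas hV u.1))

theorem s9c3_Sq_le (hV : S.Valid c0 C0 p PC tys) (u : ℕ × Cell) (y : ℝ) : ‖S.Sq u y‖ ≤ 2 * ‖S.Sd u y‖ := by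
  unfold S9Sys.Sq
  have h := s9c3_cbar_ge hV u.1 y
  rw [norm_div, Complex.norm_real, Real.norm_of_nonneg (by linarith), div_le_iff₀ (by linarith)]
  have := norm_nonneg (S.Sd u y)
  nlinarith

/-- `Sq` is square integrable, `nnorm Sq ≤ 2 nnorm Sd` -/
theorem s9c3_Sq_norm (hV : S.Valid c0 C0 p PC tys) (u : ℕ × Cell) (hu : u ∈ S.uses) :
    IntegrableOn (fun y => ‖S.Sq u y‖ ^ 2) u.2.set ∧ nnorm 2 u.2 (S.Sq u) ≤ 2 * nnorm 2 u.2 (S.Sd u) :=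
  s9_nnorm_mono u.2 (S.Sd u) (S.Sq u) 2 (by norm_num) (s9c3_Sq_meas hV u) (hV.Sd_int u hu)
    (fun y _ => s9c3_Sq_le hV u y)

theorem s9c3_Sp_meas (hV : S.Valid c0 C0 p PC tys) (u : ℕ × Cell) (ρ : Fin S.nof) : Measurable (S.Sp u ρ) := by
  unfold S9Sys.Sp
  exact ((Complex.continuous_conj.measurable.comp (hV.gauS_meas u.1 ρ)).mul
    (Complex.measurable_ofReal.comp (hV.gauS_meas u.1 ρ).norm)).mul (s9c3_Sq_meas hV u)

theorem s9c3_Sp_norm (hV : S.Valid c0 C0 p PC tys) (u : ℕ × Cell) (hu : u ∈ S.uses) (ρ : Fin S.nof) :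
    IntegrableOn (fun y => ‖S.Sp u ρ y‖ ^ 2) u.2.set ∧ nnorm 2 u.2 (S.Sp u ρ) ≤ 2 * nnorm 2 u.2 (S.Sd u) := by
  have h := s9_nnorm_mono u.2 (S.Sq u) (S.Sp u ρ) 1 zero_le_one (s9c3_Sp_meas hV u ρ) (s9c3_Sq_norm hV u hu).1
    (fun y _ => by
      unfold S9Sys.Sp
      rw [norm_mul, norm_mul, RCLike.norm_conj, Complex.norm_real, norm_norm, one_mul]
      have h1 := hV.gauS_le u.1 ρ y
      have h0 := norm_nonneg (S.gauS u.1 ρ y)
      have h2 : ‖S.gauS u.1 ρ y‖ * ‖S.gauS u.1 ρ y‖ ≤ 1 := by nlinarith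
      exact mul_le_of_le_one_left (norm_nonneg _) h2)
  rw [one_mul] at h
  exact ⟨h.1, h.2.trans (s9c3_Sq_norm hV u hu).2⟩

/-- the pieces `|gauS ρ|² Sq` -/
theorem s9c3_piece_ok (hV : S.Valid c0 C0 p PC tys) (u : ℕ × Cell) (hu : u ∈ S.uses) (ρ : Fin S.nof) :
    S5fOk u.2 (fun y => ((‖S.gauS u.1 ρ y‖ ^ 2 : ℝ) : ℂ) * S.Sq u y) := by
  have hm : Measurable (fun y => ((‖S.gauS u.1 ρ y‖ ^ 2 : ℝ) : ℂ) * S.Sq u y) :=
    (Complex.measurable_ofReal.comp ((hV.gauS_meas u.1 ρ).norm.pow_const 2)).mul (s9c3_Sq_meas hV u)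
  refine ⟨hm, (s9_nnorm_mono u.2 (S.Sq u) _ 1 zero_le_one hm (s9c3_Sq_norm hV u hu).1 (fun y _ => ?_)).1⟩
  rw [norm_mul, Complex.norm_real, Real.norm_of_nonneg (by positivity), one_mul]
  have h1 := hV.gauS_le u.1 ρ y
  have h0 := norm_nonneg (S.gauS u.1 ρ y)
  have h2 : ‖S.gauS u.1 ρ y‖ ^ 2 ≤ 1 := by nlinarith
  exact mul_le_of_le_one_left (norm_nonneg _) h2

/-- `Sd = nof⁻¹ ∑_ρ |gauS ρ|² Sq` -/
theorem s9c3_Sd_eq (hV : S.Valid c0 C0 p PC tys) (u : ℕ × Cell) (y : ℝ) :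
    S.Sd u y = ∑ ρ : Fin S.nof, (((S.nof : ℝ)⁻¹ : ℝ) : ℂ) * (((‖S.gauS u.1 ρ y‖ ^ 2 : ℝ) : ℂ) * S.Sq u y) := by
  have h := s9c3_cbar_ge hV u.1 y
  have hne : (S.cbar u.1 y : ℂ) ≠ 0 := by
    rw [Ne, Complex.ofReal_eq_zero]
    linarith
  have e : ∑ ρ : Fin S.nof, (((S.nof : ℝ)⁻¹ : ℝ) : ℂ) * (((‖S.gauS u.1 ρ y‖ ^ 2 : ℝ) : ℂ) * S.Sq u y)
      = (S.cbar u.1 y : ℂ) * S.Sq u y := by
    unfold S9Sys.cbar
    rw [Complex.ofReal_mul, Complex.ofReal_sum, Finset.mul_sum, Finset.sum_mul]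
    exact Finset.sum_congr rfl fun ρ _ => by ring
  rw [e]
  unfold S9Sys.Sq
  field_simp

/-- the numerics of the single-cell estimates -/
theorem s9c3_num (hP : S9ParOk p d) (h : ℕ) :
    0 ≤ p.tin ∧ p.tin ≤ 1 / 100 ∧ 1 ≤ p.U0 ∧ 8 * p.U0 ≤ p.TT ∧ (2 : ℝ) ^ p.F0 ≤ p.U0 ∧ p.U0 < (2 : ℝ) ^ (p.F0 + 1) ∧
    (1 : ℝ) ≤ p.Ds ∧ 13 * (6 ^ (h - 10) * p.Bs) + 12 * (p.Ds * p.E (h - 10)) ≤ p.Bx h ∧
    (p.tin + p.TT⁻¹ + p.U0⁻¹) * (p.Ds : ℝ) ^ 5 ≤ 3 * ((p.Ds : ℝ) ^ 240)⁻¹ := by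
  have hD : (100 : ℝ) ≤ p.Ds := by exact_mod_cast hP.Ds_ge
  have hD1 : (1 : ℝ) ≤ p.Ds := by linarith
  have hD0 : (0 : ℝ) < p.Ds := by linarith
  have hU : p.U0 = (p.Ds : ℝ) ^ 250 := rfl
  have hpow : ∀ {m n : ℕ}, m ≤ n → (p.Ds : ℝ) ^ m ≤ (p.Ds : ℝ) ^ n := fun h => pow_le_pow_right₀ hD1 h
  have hTT : (p.Ds : ℝ) ^ 1001 ≤ p.TT := hP.TT_big
  have hTT0 : 0 < p.TT := lt_of_lt_of_le (by positivity) hTT
  have htin : p.tin = ((p.Ds : ℝ) ^ 300)⁻¹ := rfl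
  have hne : p.Ds ^ 250 ≠ 0 := by
    have : 0 < p.Ds := by have := hP.Ds_ge; omega
    positivity
  refine ⟨by rw [htin]; positivity, ?_, ?_, ?_, ?_, ?_, hD1, ?_, ?_⟩
  · rw [htin, one_div]
    refine inv_anti₀ (by norm_num) ?_
    calc (100 : ℝ) ≤ p.Ds := hD
      _ = (p.Ds : ℝ) ^ 1 := (pow_one _).symm
      _ ≤ (p.Ds : ℝ) ^ 300 := hpow (by norm_num)
  · rw [hU]; exact one_le_pow₀ hD1
  · rw [hU]
    calc 8 * (p.Ds : ℝ) ^ 250 ≤ (p.Ds : ℝ) ^ 1 * (p.Ds : ℝ) ^ 250 := by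
          rw [pow_one]; exact mul_le_mul_of_nonneg_right (by linarith) (by positivity)
      _ = (p.Ds : ℝ) ^ 251 := by rw [← pow_add]
      _ ≤ (p.Ds : ℝ) ^ 1001 := hpow (by norm_num)
      _ ≤ p.TT := hTT
  · have h1 : 2 ^ p.F0 ≤ p.Ds ^ 250 := Nat.pow_log_le_self 2 hne
    rw [hU]
    exact_mod_cast h1
  · have h1 : p.Ds ^ 250 < 2 ^ (p.F0 + 1) := Nat.lt_pow_succ_log_self (by norm_num) _
    rw [hU]
    exact_mod_cast h1
  · have h1 : 6 ^ (h - 10) * p.Bs ≤ p.E (h - 10) := by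
      unfold S8Par.E
      rw [pow_succ]
      exact Nat.mul_le_mul (Nat.pow_le_pow_left hP.A0_ge _) hP.Bs_le
    have h2 : 25 * p.Ds ≤ p.Ds ^ 5 := by
      have h3 : 25 ≤ p.Ds ^ 4 := by
        calc 25 ≤ 100 ^ 4 := by norm_num
          _ ≤ p.Ds ^ 4 := Nat.pow_le_pow_left hP.Ds_ge 4
      calc 25 * p.Ds ≤ p.Ds ^ 4 * p.Ds := Nat.mul_le_mul_right _ h3
        _ = p.Ds ^ 5 := by ring
    have h4 : 1 ≤ p.Ds := by have := hP.Ds_ge; omega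
    unfold S8Par.Bx
    calc 13 * (6 ^ (h - 10) * p.Bs) + 12 * (p.Ds * p.E (h - 10))
        ≤ 13 * (p.Ds * p.E (h - 10)) + 12 * (p.Ds * p.E (h - 10)) := by
          have : p.E (h - 10) ≤ p.Ds * p.E (h - 10) := Nat.le_mul_of_pos_left _ h4
          omega
      _ = (25 * p.Ds) * p.E (h - 10) := by ring
      _ ≤ p.Ds ^ 5 * p.E (h - 10) := Nat.mul_le_mul_right _ h2
  · have e1 : p.tin ≤ ((p.Ds : ℝ) ^ 250)⁻¹ := by
      rw [htin]; exact inv_anti₀ (by positivity) (hpow (by norm_num))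
    have e2 : p.TT⁻¹ ≤ ((p.Ds : ℝ) ^ 250)⁻¹ :=
      inv_anti₀ (by positivity) ((hpow (by norm_num)).trans hTT)
    have e3 : p.U0⁻¹ = ((p.Ds : ℝ) ^ 250)⁻¹ := by rw [hU]
    have e4 : ((p.Ds : ℝ) ^ 250)⁻¹ * (p.Ds : ℝ) ^ 5 = ((p.Ds : ℝ) ^ 245)⁻¹ := by
      have : (p.Ds : ℝ) ^ 250 = (p.Ds : ℝ) ^ 245 * (p.Ds : ℝ) ^ 5 := by rw [← pow_add]
      rw [this]
      field_simp
    have e5 : ((p.Ds : ℝ) ^ 245)⁻¹ ≤ ((p.Ds : ℝ) ^ 240)⁻¹ := inv_anti₀ (by positivity) (hpow (by norm_num))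
    calc (p.tin + p.TT⁻¹ + p.U0⁻¹) * (p.Ds : ℝ) ^ 5 ≤ (3 * ((p.Ds : ℝ) ^ 250)⁻¹) * (p.Ds : ℝ) ^ 5 :=
          mul_le_mul_of_nonneg_right (by linarith) (by positivity)
      _ = 3 * (((p.Ds : ℝ) ^ 250)⁻¹ * (p.Ds : ℝ) ^ 5) := by ring
      _ ≤ 3 * ((p.Ds : ℝ) ^ 240)⁻¹ := by rw [e4]; linarith

/-- the role data of a three-core term -/
theorem s9c3_roles (hV : S.Valid c0 C0 p PC tys) (hP : S9ParOk p d) (hs : S.hasSide) (u : ℕ × Cell) (hu : u ∈ S.uses)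
    (x : ℝ) (hx : x ∈ u.2.set) (h : ℕ) (hh : h ∈ p.up) (a : Fin 4 → ℕ) (X : Fin 4 → Finset ℕ)
    (hX : ∀ j, X j ⊆ (S.ClS j u).filter fun D => S.goodS j u h D ∧ S.compS j u h D = a j)
    (hXl : X S.anc = {0}) :
    ∃ Ro : Fin 4 → S9RoleD d, Ro S.anc = S9RoleD.dummy d ∧
      (∀ j, j ≠ S.anc → (Ro j).A = S.sub j u (S.sel j u (X j)) ∧ (Ro j).gau = S.gau j u.1 ∧
        (Ro j).Ok u.2 x (S.vth u.1) (6 ^ (h - 10)) p.Bs (p.Ds * p.E (h - 10)) p.Ds p.tin) ∧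
      (∑ j, (Ro j).γs = S.Qv x a) ∧ (∑ j, (s9al S.anc j : ℝ) * (Ro j).γs = S.Tv x a) ∧
      (∀ j, (Ro j).a1 = ∑ D ∈ X j, S.cS j u D) ∧
      (∀ (d' : ℕ) (kap : (Fin d → ℤ) →+ (Fin d' → ℤ)),
        S9DichK kap (S.xi u.1 h) (2 * p.Bx h) u.2.len p.TT⁻¹ p.TT →
        ∀ j, s9nsq (fun i => kap ((Ro j).fn (6 ^ (h - 10)) i)) ((Ro j).fc (S.vth u.1) x)
          ≤ ∑ D ∈ X j, S.sS p.Ds j u D ^ 2) := by
  have hsl := s9c3_anc hs
  have hro : ∀ j, ∃ ro : S9RoleD d, (j = S.anc → ro = S9RoleD.dummy d) ∧ (j ≠ S.anc →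
      ro.A = S.sub j u (S.sel j u (X j)) ∧ ro.gau = S.gau j u.1 ∧ ro.γs = S.om (a j) x ∧
      ro.a1 = ∑ D ∈ X j, S.cD j u D ∧
      ro.Ok u.2 x (S.vth u.1) (6 ^ (h - 10)) p.Bs (p.Ds * p.E (h - 10)) p.Ds p.tin ∧
      ∀ (d' : ℕ) (kap : (Fin d → ℤ) →+ (Fin d' → ℤ)), S9DichK kap (S.xi u.1 h) (2 * p.Bx h) u.2.len p.TT⁻¹ p.TT →
        s9nsq (fun i => kap (ro.fn (6 ^ (h - 10)) i)) (ro.fc (S.vth u.1) x) ≤ ∑ D ∈ X j, S.sz p.Ds j u D ^ 2) := by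
    intro j
    by_cases hj : j = S.anc
    · exact ⟨S9RoleD.dummy d, fun _ => rfl, fun h' => absurd hj h'⟩
    · have hjf := s9c3_uniq hV hs j hj
      have hXj : X j ⊆ (S.clsOf j u).filter fun D => S.good j u h D ∧ S.rep j u h D = a j := by
        intro D hD
        have h1 := Finset.mem_filter.1 (hX j hD)
        unfold S9Sys.ClS S9Sys.goodS S9Sys.compS at h1
        simp only [hjf, Bool.false_eq_true, if_false, false_or] at h1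
        exact Finset.mem_filter.2 h1
      obtain ⟨ro, h1, h2, h3, h4, h5, h6⟩ := s9c_role hV hP j hjf u hu x hx h hh (a j) (X j) hXj
      exact ⟨ro, fun h' => absurd h' hj, fun _ => ⟨h1, h2, h3, h4, h5, h6⟩⟩
  choose Ro hR1 hR2 using hro
  have hdum := S9RoleD.dummy_facts d (S.vth u.1) (6 ^ (h - 10)) x
  have hγ : ∀ j, (Ro j).γs = S.val x a j := by
    intro j
    unfold S9Sys.val
    by_cases hj : j = S.anc
    · rw [hR1 j hj, hj, if_pos hsl]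
      rfl
    · rw [(hR2 j hj).2.2.1, s9c3_uniq hV hs j hj]
      simp
  refine ⟨Ro, hR1 _ rfl, fun j hj => ⟨(hR2 j hj).1, (hR2 j hj).2.1, (hR2 j hj).2.2.2.2.1⟩, ?_, ?_, ?_, ?_⟩
  · unfold S9Sys.Qv
    exact Finset.sum_congr rfl fun j _ => hγ j
  · unfold S9Sys.Tv
    exact Finset.sum_congr rfl fun j _ => by rw [hγ j]
  · intro j
    by_cases hj : j = S.anc
    · rw [hR1 j hj, hdum.1, hj, hXl, Finset.sum_singleton]
      unfold S9Sys.cS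
      rw [if_pos hsl]
    · rw [(hR2 j hj).2.2.2.1]
      refine Finset.sum_congr rfl fun D _ => ?_
      unfold S9Sys.cS
      rw [s9c3_uniq hV hs j hj]
      simp
  · intro d' kap hk j
    by_cases hj : j = S.anc
    · rw [hR1 j hj, hdum.2.2.2.2 d' kap, hj, hXl, Finset.sum_singleton]
      unfold S9Sys.sS
      rw [if_pos hsl]
      norm_num
    · refine ((hR2 j hj).2.2.2.2.2 d' kap hk).trans (le_of_eq ?_)
      refine Finset.sum_congr rfl fun D _ => ?_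
      unfold S9Sys.sS
      rw [s9c3_uniq hV hs j hj]
      simp


theorem s9c3_l1j {d : ℕ} {I : Cell} {x : ℝ} {ϑ : Fin d → ℝ} {H Bs Bn : ℕ} {D t : ℝ} (Ro : Fin 4 → S9RoleD d) (l : Fin 4)
    (hRl : Ro l = S9RoleD.dummy d) (hRo : ∀ j, j ≠ l → (Ro j).Ok I x ϑ H Bs Bn D t) (hD : 1 ≤ D) (j : Fin 4) :
    s9l1 ((Ro j).fc ϑ x) ≤ D * (Ro j).a1 := by
  have hdum := S9RoleD.dummy_facts d ϑ H x
  by_cases hj : j = l
  · subst hj
    rw [hRl, hdum.2.2.2.1, hdum.1]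
    linarith
  · rw [S9RoleD.l1_fc]
    exact mul_le_mul_of_nonneg_right (hRo j hj).l1Z (s9c3_a1_nonneg _)

theorem s9c3_bsq_nonneg {d : ℕ} (I : Cell) (xs : ℝ) (ξ : Fin d → ℝ) (Q : ℝ) (Bx : ℕ) (Λ : ℝ) (F : ℝ → ℂ) :
    0 ≤ s9bsq I xs ξ Q Bx Λ F := Finset.sum_nonneg fun _ _ => by positivity

theorem s9c3_sfac_le (hV : S.Valid c0 C0 p PC tys) (hs : S.hasSide) (x : ℝ) (u : ℕ × Cell) (hu : u ∈ S.uses) (h : ℕ)
    (a : Fin 4 → ℕ) : S.sfac p x u h a ≤ 4 * nnorm 2 u.2 (S.Sd u) := by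
  have hn := nnorm_nonneg 2 u.2 (S.Sd u)
  have hN : (0 : ℝ) < S.nof := by exact_mod_cast hV.nof_pos
  have hbL : ∀ f, S.bL p x u h a f ≤ 2 * nnorm 2 u.2 (S.Sd u) := by
    intro f
    unfold S9Sys.bL
    rw [show 2 * nnorm 2 u.2 (S.Sd u) = Real.sqrt ((2 * nnorm 2 u.2 (S.Sd u)) ^ 2) from
      (Real.sqrt_sq (by positivity)).symm]
    refine Real.sqrt_le_sqrt ?_
    have h1 : ∀ ρ : Fin S.nof, s9bsq u.2 x (S.xi u.1 h) (S.Qv x a) (p.Bx h) ((2 : ℝ) ^ f) (S.Sp u ρ)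
        ≤ (2 * nnorm 2 u.2 (S.Sd u)) ^ 2 := by
      intro ρ
      have h2 := s9c3_Sp_norm hV u hu ρ
      refine (s9_fc_bessel u.2 x (S.Sp u ρ) (s9c3_Sp_meas hV u ρ) h2.1 _).trans ?_
      exact pow_le_pow_left₀ (nnorm_nonneg _ _ _) h2.2 2
    calc (S.nof : ℝ)⁻¹ * ∑ ρ, s9bsq u.2 x (S.xi u.1 h) (S.Qv x a) (p.Bx h) ((2 : ℝ) ^ f) (S.Sp u ρ)
        ≤ (S.nof : ℝ)⁻¹ * ∑ _ρ : Fin S.nof, (2 * nnorm 2 u.2 (S.Sd u)) ^ 2 :=
          mul_le_mul_of_nonneg_left (Finset.sum_le_sum fun ρ _ => h1 ρ) (by positivity)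
      _ = (2 * nnorm 2 u.2 (S.Sd u)) ^ 2 := by
          rw [Finset.sum_const, Finset.card_univ, Fintype.card_fin, nsmul_eq_mul]
          field_simp
  unfold S9Sys.sfac
  rw [if_pos hs]
  calc ∑ f ∈ Finset.range (p.F0 + 1), ((2 : ℝ) ^ f)⁻¹ * S.bL p x u h a f
      ≤ ∑ f ∈ Finset.range (p.F0 + 1), ((2 : ℝ) ^ f)⁻¹ * (2 * nnorm 2 u.2 (S.Sd u)) :=
        Finset.sum_le_sum fun f _ => mul_le_mul_of_nonneg_left (hbL f) (by positivity)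
    _ = (∑ f ∈ Finset.range (p.F0 + 1), ((2 : ℝ) ^ f)⁻¹) * (2 * nnorm 2 u.2 (S.Sd u)) := by rw [Finset.sum_mul]
    _ ≤ 2 * (2 * nnorm 2 u.2 (S.Sd u)) := mul_le_mul_of_nonneg_right (s9c3_geom _) (by positivity)
    _ = 4 * nnorm 2 u.2 (S.Sd u) := by ring


/-- the form of a three-core term is the average over the fresh offsets -/
theorem s9c3_split (hc0 : 0 < c0) (hV : S.Valid c0 C0 p PC tys) (hs : S.hasSide) (u : ℕ × Cell) (hu : u ∈ S.uses)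
    (X : Fin 4 → Finset ℕ) (hXl : X S.anc = {0}) (Ro : Fin 4 → S9RoleD d)
    (hRo : ∀ j, j ≠ S.anc → (Ro j).A = S.sub j u (S.sel j u (X j))) :
    ‖∑ D ∈ Fintype.piFinset X, S.phi u D‖
      ≤ (S.nof : ℝ)⁻¹ * ∑ ρ : Fin S.nof, ‖form u.2 (S.w u.2) (fun j => if j = S.anc then
          (fun y => ((‖S.gauS u.1 ρ y‖ ^ 2 : ℝ) : ℂ) * S.Sq u y) else (Ro j).A)‖ := by
  have hsl := s9c3_anc hs
  have hw := hV.adm u.2 (hV.uses_sub u hu)
  have hX' : ∀ j, S.sd j = true → X j = {0} := by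
    intro j hj
    by_cases hja : j = S.anc
    · rw [hja]; exact hXl
    · rw [s9c3_uniq hV hs j hja] at hj
      exact absurd hj (by simp)
  rw [s9c_phi_sum hc0 hV u hu X hX']
  have e1 : (fun j => if S.sd j = true then S.Sd u else S.sub j u (S.sel j u (X j)))
      = Function.update (fun j => (Ro j).A) S.anc (fun y => (((S.nof : ℝ)⁻¹ : ℝ) : ℂ) *
          ∑ ρ : Fin S.nof, ((‖S.gauS u.1 ρ y‖ ^ 2 : ℝ) : ℂ) * S.Sq u y) := by
    funext j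
    by_cases hj : j = S.anc
    · subst hj
      rw [Function.update_self, if_pos hsl]
      funext y
      rw [s9c3_Sd_eq hV u y, Finset.mul_sum]
    · rw [Function.update_of_ne hj, s9c3_uniq hV hs j hj, hRo j hj]
      simp
  rw [e1, s5f_form_update_smul, s9c3_form_sum hc0 hw S.anc (fun j hj => by
    show S5fOk u.2 (Ro j).A
    rw [hRo j hj]
    exact s9c_sub_ok hV u.2 j u _) Finset.univ _ (fun ρ _ => s9c3_piece_ok hV u hu ρ)]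
  rw [norm_mul, Complex.norm_real, Real.norm_of_nonneg (by positivity)]
  refine mul_le_mul_of_nonneg_left ((norm_sum_le _ _).trans (le_of_eq ?_)) (by positivity)
  refine Finset.sum_congr rfl fun ρ _ => ?_
  congr 2
  funext j
  by_cases hj : j = S.anc
  · subst hj
    rw [Function.update_self, if_pos rfl]
  · rw [Function.update_of_ne hj, if_neg hj]

/-- **the single-cell estimate, three cores.**  LEAF P-S9-CELL-3 -/
theorem s9c_hmain3 (c0 C0 : ℝ) (hc0 : 0 < c0) (hC0 : 1 ≤ C0) : ∃ C : ℝ, 1 ≤ C ∧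
    ∀ (d : ℕ) (S : S9Sys d) (p : S8Par) (PC : ℝ) (tys : Finset (ℕ × ℕ)), S.Valid c0 C0 p PC tys → S9ParOk p d →
      S.hasSide →
    ∀ u ∈ S.uses, ∀ x ∈ u.2.set, ∀ h ∈ p.up, ∀ (a : Fin 4 → ℕ) (X : Fin 4 → Finset ℕ),
      (∀ j, X j ⊆ (S.ClS j u).filter fun D => S.goodS j u h D ∧ S.compS j u h D = a j) →
      ‖∑ D ∈ Fintype.piFinset X, S.phi u D‖
        ≤ C * (S.kap0 p x u h a * S.sfac p x u h a) * ∏ j, Real.sqrt (∑ D ∈ X j, S.sS p.Ds j u D ^ 2)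
          + C * ((p.Ds : ℝ) ^ 240)⁻¹ * (1 + nnorm 2 u.2 (S.Sd u)) * ∏ j, ∑ D ∈ X j, S.cS j u D := by
  obtain ⟨C1, hC1, hone⟩ := s9c3_one c0 C0 hc0 hC0
  refine ⟨20 * C1, by linarith, ?_⟩
  intro d S p PC tys hV hP hs u hu x hx h hh a X hX
  have hsl := s9c3_anc hs
  have hk0 := s9c3_kap0_nonneg S p x u h a
  have hsf0 := s9c3_sfac_nonneg S p x u h a
  have hnS := nnorm_nonneg 2 u.2 (S.Sd u)
  have hcS0 : ∀ j D, 0 ≤ S.cS j u D := by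
    intro j D
    unfold S9Sys.cS
    split_ifs
    · exact zero_le_one
    · exact Finset.sum_nonneg fun _ _ => norm_nonneg _
  have hA0 : 0 ≤ ∏ j, ∑ D ∈ X j, S.cS j u D :=
    Finset.prod_nonneg fun j _ => Finset.sum_nonneg fun D _ => hcS0 j D
  have hPS0 : 0 ≤ ∏ j, Real.sqrt (∑ D ∈ X j, S.sS p.Ds j u D ^ 2) :=
    Finset.prod_nonneg fun _ _ => Real.sqrt_nonneg _
  obtain ⟨n1, n2, n3, n4, n5, n6, n7, n8, n9⟩ := s9c3_num hP h
  have hDs0 : (0 : ℝ) < p.Ds := by linarith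
  by_cases hne : ∀ j, (X j).Nonempty
  swap
  · push Not at hne
    obtain ⟨j, hj⟩ := hne
    have e : Fintype.piFinset X = ∅ := Fintype.piFinset_eq_empty.2 ⟨j, hj⟩
    rw [e, Finset.sum_empty, norm_zero]
    positivity
  have hXl : X S.anc = {0} := by
    have h1 : X S.anc ⊆ {0} := fun D hD => by
      have h2 := (Finset.mem_filter.1 (hX _ hD)).1
      unfold S9Sys.ClS at h2
      rwa [if_pos hsl] at h2
    exact (Finset.Nonempty.subset_singleton_iff (hne _)).1 h1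
  obtain ⟨Ro, hRl, hRo, hQ, hT, ha1, hnsq⟩ := s9c3_roles hV hP hs u hu x hx h hh a X hX hXl
  obtain ⟨j0, hj0⟩ : ∃ j0 : Fin 4, j0 ≠ S.anc := ⟨S.anc + 1, by
    generalize S.anc = l
    revert l
    decide⟩
  have hg : ∃ j, S.sd j = false ∧ ∃ D ∈ S.clsOf j u, S.good j u h D := by
    obtain ⟨D, hD⟩ := hne j0
    have hjf := s9c3_uniq hV hs j0 hj0
    have h1 := Finset.mem_filter.1 (hX j0 hD)
    unfold S9Sys.ClS S9Sys.goodS S9Sys.compS at h1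
    simp only [hjf, Bool.false_eq_true, if_false, false_or] at h1
    exact ⟨j0, hjf, D, h1.1, h1.2.1⟩
  obtain ⟨d', kap, hkap⟩ := s9c_dich hV hP u hu h hh hg
  have hw := hV.adm u.2 (hV.uses_sub u hu)
  have hsplit := s9c3_split hc0 hV hs u hu X hXl Ro (fun j hj => (hRo j hj).1)
  have hSq := s9c3_Sq_norm hV u hu
  have hnq := nnorm_nonneg 2 u.2 (S.Sq u)
  have hN : (0 : ℝ) < S.nof := by exact_mod_cast hV.nof_pos
  -- the estimate for one offset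
  have hall := fun ρ : Fin S.nof => hone d d' u.2 (S.w u.2) hw x hx S.anc (S.vth u.1) (6 ^ (h - 10)) p.Bs
    (p.Ds * p.E (h - 10)) (p.Bx h) p.F0 (p.Ds : ℝ) p.tin p.TT p.U0 kap (by positivity) n1 n2 n3 n4 n5 n6 n7 hkap n8 Ro
    hRl (fun j hj => (hRo j hj).2.2) (S.gauS u.1 ρ) (S.Sq u) (hV.gauS_meas u.1 ρ) (hV.gauS_le u.1 ρ)
    (s9c3_Sq_meas hV u) hSq.1 (by
      have h1 := hV.mul3 S.anc hsl u hu ρ
      have e : S.gauF u.1 ρ = fun j => if j = S.anc then S.gauS u.1 ρ else (Ro j).gau := by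
        funext j
        unfold S9Sys.gauF
        by_cases hj : j = S.anc
        · rw [hj, if_pos hsl, if_pos rfl]
        · rw [if_neg hj, (hRo j hj).2.1, s9c3_uniq hV hs j hj]
          simp
      rw [e] at h1
      exact h1)
  clear hone
  simp only [hQ, hT] at hall
  set A1 : ℝ := ∏ j, ∑ D ∈ X j, S.cS j u D with hA1
  have hA1' : ∏ j, (Ro j).a1 = A1 := Finset.prod_congr rfl fun j _ => ha1 j
  simp only [hA1'] at hall
  set PS : ℝ := ∏ j, Real.sqrt (∑ D ∈ X j, S.sS p.Ds j u D ^ 2) with hPS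
  set PP : ℝ := ∏ j, Real.sqrt (s9nsq (fun i => kap ((Ro j).fn (6 ^ (h - 10)) i)) ((Ro j).fc (S.vth u.1) x)) with hPP
  have hPP0 : 0 ≤ PP := Finset.prod_nonneg fun _ _ => Real.sqrt_nonneg _
  have hPPS : PP ≤ PS := Finset.prod_le_prod (fun _ _ => Real.sqrt_nonneg _)
    fun j _ => Real.sqrt_le_sqrt (hnsq d' kap hkap j)
  have hPPl : PP ≤ (p.Ds : ℝ) ^ 5 * A1 := by
    calc PP ≤ ∏ j, ((p.Ds : ℝ) * (Ro j).a1) := Finset.prod_le_prod (fun _ _ => Real.sqrt_nonneg _)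
          fun j _ => (s9_nsq_le_l1 _ _).trans (s9c3_l1j Ro S.anc hRl (fun j hj => (hRo j hj).2.2) n7 j)
      _ = (p.Ds : ℝ) ^ 4 * A1 := by
          rw [Finset.prod_mul_distrib, Finset.prod_const, Finset.card_univ, Fintype.card_fin, hA1']
      _ ≤ (p.Ds : ℝ) ^ 5 * A1 := mul_le_mul_of_nonneg_right (pow_le_pow_right₀ n7 (by norm_num)) hA0
  set δ : ℝ := ((p.Ds : ℝ) ^ 240)⁻¹ with hδ
  have hδ0 : 0 ≤ δ := by positivity
  set E0 : ℝ := C1 * (p.tin + p.TT⁻¹ + p.U0⁻¹) * (p.Ds : ℝ) ^ 5 * A1 * nnorm 2 u.2 (S.Sq u) with hE0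
  have hE0le : E0 ≤ 6 * C1 * δ * (1 + nnorm 2 u.2 (S.Sd u)) * A1 := by
    calc E0 = C1 * ((p.tin + p.TT⁻¹ + p.U0⁻¹) * (p.Ds : ℝ) ^ 5) * A1 * nnorm 2 u.2 (S.Sq u) := by rw [hE0]; ring
      _ ≤ C1 * (3 * δ) * A1 * (2 * (1 + nnorm 2 u.2 (S.Sd u))) := by
          have h1 : nnorm 2 u.2 (S.Sq u) ≤ 2 * (1 + nnorm 2 u.2 (S.Sd u)) := by linarith [hSq.2]
          have h2 : 0 ≤ (p.tin + p.TT⁻¹ + p.U0⁻¹) * (p.Ds : ℝ) ^ 5 := by
            have g1 : 0 ≤ p.TT⁻¹ := inv_nonneg.2 (by linarith)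
            have g2 : 0 ≤ p.U0⁻¹ := inv_nonneg.2 (by linarith)
            exact mul_nonneg (add_nonneg (add_nonneg n1 g1) g2) (pow_nonneg hDs0.le 5)
          gcongr
      _ = 6 * C1 * δ * (1 + nnorm 2 u.2 (S.Sd u)) * A1 := by ring
  have hmain0 : 0 ≤ 20 * C1 * (S.kap0 p x u h a * S.sfac p x u h a) * PS := by positivity
  have hX0 : 0 ≤ C1 * δ * (1 + nnorm 2 u.2 (S.Sd u)) * A1 := by positivity
  rcases s9c3_ref hs p x u h a with ⟨m0, hm0, hmod, hcase⟩ | hno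
  · -- a moderate reference
    set kb : ℝ := min 1 |u.2.len * (S.Tv x a + s9dot m0 (S.xi u.1 h))| *
          (max 1 |u.2.len * (S.Tv x a + s9dot m0 (S.xi u.1 h))|)⁻¹ with hkb
    have hkb0 : 0 ≤ kb := mul_nonneg (le_min zero_le_one (abs_nonneg _)) (by positivity)
    have havg := s9c3_avg S.nof hV.nof_pos _
      (fun ρ f => s9bsq u.2 x (S.xi u.1 h) (S.Qv x a) (p.Bx h) ((2 : ℝ) ^ f) (S.Sp u ρ))
      (fun ρ f => s9c3_bsq_nonneg _ _ _ _ _ _ _) (C1 * kb * PP) E0 (by positivity) p.F0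
      (fun ρ => (hall ρ).1 m0 hm0 hmod)
    have hsf : S.sfac p x u h a = ∑ f ∈ Finset.range (p.F0 + 1), ((2 : ℝ) ^ f)⁻¹ *
        Real.sqrt ((S.nof : ℝ)⁻¹ * ∑ ρ, s9bsq u.2 x (S.xi u.1 h) (S.Qv x a) (p.Bx h) ((2 : ℝ) ^ f) (S.Sp u ρ)) := by
      unfold S9Sys.sfac S9Sys.bL
      rw [if_pos hs]
    rw [← hsf] at havg
    have htot := hsplit.trans havg
    rcases hcase with hk | hk
    · rw [hk]
      have h1 : C1 * kb * PP * S.sfac p x u h a ≤ 20 * C1 * (kb * S.sfac p x u h a) * PS := by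
        calc C1 * kb * PP * S.sfac p x u h a = (C1 * kb * S.sfac p x u h a) * PP := by ring
          _ ≤ (C1 * kb * S.sfac p x u h a) * PS := mul_le_mul_of_nonneg_left hPPS (by positivity)
          _ ≤ 20 * (C1 * kb * S.sfac p x u h a * PS) := by
              have : 0 ≤ C1 * kb * S.sfac p x u h a * PS := by positivity
              linarith
          _ = 20 * C1 * (kb * S.sfac p x u h a) * PS := by ring
      have h2 : 20 * C1 * δ * (1 + nnorm 2 u.2 (S.Sd u)) * A1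
          = 20 * (C1 * δ * (1 + nnorm 2 u.2 (S.Sd u)) * A1) := by ring
      have h3 : 6 * C1 * δ * (1 + nnorm 2 u.2 (S.Sd u)) * A1
          = 6 * (C1 * δ * (1 + nnorm 2 u.2 (S.Sd u)) * A1) := by ring
      linarith
    · have hkbU : kb ≤ p.U0⁻¹ := by
        have h1 : (max 1 |u.2.len * (S.Tv x a + s9dot m0 (S.xi u.1 h))|)⁻¹ ≤ 1 :=
          inv_le_one_of_one_le₀ (le_max_left _ _)
        calc kb ≤ min 1 |u.2.len * (S.Tv x a + s9dot m0 (S.xi u.1 h))| * 1 :=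
              mul_le_mul_of_nonneg_left h1 (le_min zero_le_one (abs_nonneg _))
          _ ≤ p.U0⁻¹ := by rw [mul_one]; exact hk.le
      have hsfle := s9c3_sfac_le (p := p) hV hs x u hu h a
      have hUD : p.U0⁻¹ * (p.Ds : ℝ) ^ 5 ≤ 3 * δ := by
        refine le_trans (mul_le_mul_of_nonneg_right ?_ (by positivity)) n9
        have : 0 ≤ p.TT⁻¹ := inv_nonneg.2 (by linarith)
        linarith
      have h1 : C1 * kb * PP * S.sfac p x u h a ≤ 12 * (C1 * δ * (1 + nnorm 2 u.2 (S.Sd u)) * A1) := by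
        calc C1 * kb * PP * S.sfac p x u h a
            ≤ C1 * p.U0⁻¹ * ((p.Ds : ℝ) ^ 5 * A1) * (4 * (1 + nnorm 2 u.2 (S.Sd u))) := by
              have h5 : S.sfac p x u h a ≤ 4 * (1 + nnorm 2 u.2 (S.Sd u)) := by linarith
              gcongr
          _ = C1 * (p.U0⁻¹ * (p.Ds : ℝ) ^ 5) * A1 * (4 * (1 + nnorm 2 u.2 (S.Sd u))) := by ring
          _ ≤ C1 * (3 * δ) * A1 * (4 * (1 + nnorm 2 u.2 (S.Sd u))) := by gcongr
          _ = 12 * (C1 * δ * (1 + nnorm 2 u.2 (S.Sd u)) * A1) := by ring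
      have h2 : 20 * C1 * δ * (1 + nnorm 2 u.2 (S.Sd u)) * A1
          = 20 * (C1 * δ * (1 + nnorm 2 u.2 (S.Sd u)) * A1) := by ring
      have h3 : 6 * C1 * δ * (1 + nnorm 2 u.2 (S.Sd u)) * A1
          = 6 * (C1 * δ * (1 + nnorm 2 u.2 (S.Sd u)) * A1) := by ring
      linarith
  · -- no reference
    have h1 : (S.nof : ℝ)⁻¹ * ∑ ρ : Fin S.nof, ‖form u.2 (S.w u.2) (fun j => if j = S.anc then
          (fun y => ((‖S.gauS u.1 ρ y‖ ^ 2 : ℝ) : ℂ) * S.Sq u y) else (Ro j).A)‖ ≤ E0 := by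
      calc _ ≤ (S.nof : ℝ)⁻¹ * ∑ _ρ : Fin S.nof, E0 :=
            mul_le_mul_of_nonneg_left (Finset.sum_le_sum fun ρ _ => (hall ρ).2 hno) (by positivity)
        _ = E0 := by
            rw [Finset.sum_const, Finset.card_univ, Fintype.card_fin, nsmul_eq_mul]
            field_simp
    have h2 : 20 * C1 * δ * (1 + nnorm 2 u.2 (S.Sd u)) * A1
        = 20 * (C1 * δ * (1 + nnorm 2 u.2 (S.Sd u)) * A1) := by ring
    have h3 : 6 * C1 * δ * (1 + nnorm 2 u.2 (S.Sd u)) * A1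
        = 6 * (C1 * δ * (1 + nnorm 2 u.2 (S.Sd u)) * A1) := by ring
    linarith [hsplit.trans h1]

theorem s9c_nu_pos (qt : ℝ × ℝ) : 0 < s9nu qt := lt_of_lt_of_le zero_lt_one (le_max_left _ _)

theorem s9c_sS_nonneg (S : S9Sys d) (Ds : ℕ) (j : Fin 4) (u : ℕ × Cell) (D : ℕ) : 0 ≤ S.sS Ds j u D := by
  unfold S9Sys.sS S9Sys.sz
  split_ifs
  · exact zero_le_one
  · exact add_nonneg (nnorm_nonneg _ _ _) (mul_nonneg (by positivity) (s9c_cD_nonneg j u D))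

/-- the total coefficient sum of a role -/
theorem s9c_cS_sum (hV : S.Valid c0 C0 p PC tys) (hP : S9ParOk p d) (u : ℕ × Cell) (hu : u ∈ S.uses) (j : Fin 4) :
    ∑ D ∈ S.ClS j u, S.cS j u D ≤ (p.Ds : ℝ) := by
  by_cases hj : S.sd j = true
  · have := s9c_Ds_ge hP
    simp only [S9Sys.ClS, S9Sys.cS, if_pos hj, Finset.sum_singleton]
    linarith
  · simp only [S9Sys.ClS, S9Sys.cS, if_neg hj]
    unfold S9Sys.cD
    have h1 := s9c_sum_sel (S := S) j u (S.clsOf j u) (fun m => ‖S.al j u m‖)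
    rw [← h1]
    have e : S.sel j u (S.clsOf j u) = S.md j u := by
      ext m
      simp only [S9Sys.sel, S9Sys.clsOf, Finset.mem_filter, Finset.mem_image]
      exact ⟨fun hm => hm.1, fun hm => ⟨hm, m, hm, rfl⟩⟩
    rw [e]
    exact hV.al_sum j u hu

/-- one factor of the main term -/
theorem s9c_factor (hV : S.Valid c0 C0 p PC tys) (u : ℕ × Cell) (hu : u ∈ S.uses) (h : ℕ) (hh : h ∈ p.up)
    (a : Fin 4 → ℕ) (j : Fin 4) :
    Real.sqrt (∑ D ∈ (S.ClS j u).filter (fun D => S.goodS j u h D ∧ S.compS j u h D = a j), S.sS p.Ds j u D ^ 2)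
      ≤ S.sgv u h a j := by
  by_cases hj : S.sd j = true
  · simp only [S9Sys.sgv, S9Sys.sS, S9Sys.ClS, if_pos hj, one_pow]
    refine Real.sqrt_le_one.2 ?_
    rw [Finset.sum_const, nsmul_eq_mul, mul_one]
    have : ((({0} : Finset ℕ).filter fun D => S.goodS j u h D ∧ S.compS j u h D = a j).card) ≤ 1 :=
      (Finset.card_filter_le _ _).trans (by simp)
    exact_mod_cast this
  · have hj' : S.sd j = false := by simpa using hj
    simp only [S9Sys.sgv, S9Sys.sS, S9Sys.ClS, S9Sys.goodS, S9Sys.compS, hj', Bool.false_eq_true, if_false,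
      false_or]
    rw [Real.sqrt_le_left (hV.sg_nonneg j u h (a j))]
    exact hV.size j hj' u hu h hh (a j)

/-- a label which does not come from a good class contributes nothing -/
theorem s9c_factor_zero (S : S9Sys d) (Ds : ℕ) (u : ℕ × Cell) (h : ℕ) (a : Fin 4 → ℕ) (j : Fin 4)
    (ha : a j ∉ (if S.sd j = true then ({0} : Finset ℕ) else S.lab j u h)) :
    Real.sqrt (∑ D ∈ (S.ClS j u).filter (fun D => S.goodS j u h D ∧ S.compS j u h D = a j), S.sS Ds j u D ^ 2) = 0 := by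
  have he : (S.ClS j u).filter (fun D => S.goodS j u h D ∧ S.compS j u h D = a j) = ∅ := by
    rw [Finset.filter_eq_empty_iff]
    rintro D hD ⟨hg, hc⟩
    apply ha
    by_cases hj : S.sd j = true
    · rw [if_pos hj]
      simp only [S9Sys.compS, if_pos hj] at hc
      rw [← hc]
      exact Finset.mem_singleton_self _
    · have hj' : S.sd j = false := by simpa using hj
      rw [if_neg hj]
      simp only [S9Sys.compS, S9Sys.goodS, S9Sys.ClS, hj', Bool.false_eq_true, if_false, false_or] at hc hg hD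
      rw [← hc]
      exact Finset.mem_image_of_mem _ (Finset.mem_filter.2 ⟨hD, hg⟩)
  rw [he, Finset.sum_empty, Real.sqrt_zero]

theorem s9c_sgv_nonneg (hV : S.Valid c0 C0 p PC tys) (u : ℕ × Cell) (h : ℕ) (a : Fin 4 → ℕ) (j : Fin 4) :
    0 ≤ S.sgv u h a j := by
  unfold S9Sys.sgv
  split_ifs
  · exact zero_le_one
  · exact hV.sg_nonneg _ _ _ _

/-- **the cell bound**: sampling of the heights.  LEAF P-S9-CELL-S -/
theorem s9c_cell (c0 C0 : ℝ) (hc0 : 0 < c0) (hC0 : 1 ≤ C0) : ∃ C : ℝ, 1 ≤ C ∧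
    ∀ (d : ℕ) (S : S9Sys d) (p : S8Par) (PC : ℝ) (tys : Finset (ℕ × ℕ)), S.Valid c0 C0 p PC tys → S9ParOk p d →
    ∀ u ∈ S.uses, ∀ x ∈ u.2.set,
      ‖form u.2 (S.w u.2) (S.arg u)‖ ≤ C * S.prin p x u + C * ((p.Ds : ℝ) ^ 236)⁻¹ * (1 + nnorm 2 u.2 (S.Sd u)) := by
  obtain ⟨C4, hC4, h4⟩ := s9c_hmain4 c0 C0 hc0 hC0
  obtain ⟨C3, hC3, h3⟩ := s9c_hmain3 c0 C0 hc0 hC0
  set C1 := max C4 C3 with hC1
  have hC1' : 1 ≤ C1 := hC4.trans (le_max_left _ _)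
  refine ⟨2 * C1, by linarith, ?_⟩
  intro d S p PC tys hV hP u hu x hx
  have hDs := s9c_Ds_ge hP
  have hDs0 : (0 : ℝ) < p.Ds := by linarith
  have hn0 : 0 ≤ nnorm 2 u.2 (S.Sd u) := nnorm_nonneg _ _ _
  set ε : ℝ := C1 * ((p.Ds : ℝ) ^ 240)⁻¹ * (1 + nnorm 2 u.2 (S.Sd u)) with hε
  have hε0 : 0 ≤ ε := by positivity
  have hκ0 : ∀ h a, 0 ≤ C1 * (S.kap0 p x u h a * S.sfac p x u h a) := fun h a =>
    mul_nonneg (by linarith) (mul_nonneg (s9c_kap0_nonneg S p x u h a) (s9c_sfac_nonneg S p x u h a))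
  -- the single-cell estimate with the common constant
  have hmain : ∀ h ∈ p.up, ∀ a : Fin 4 → ℕ, ∀ X : Fin 4 → Finset ℕ,
      (∀ j, X j ⊆ (S.ClS j u).filter fun D => S.goodS j u h D ∧ S.compS j u h D = a j) →
      ‖∑ D ∈ Fintype.piFinset X, S.phi u D‖
        ≤ C1 * (S.kap0 p x u h a * S.sfac p x u h a) * ∏ j, Real.sqrt (∑ D ∈ X j, S.sS p.Ds j u D ^ 2)
          + ε * ∏ j, ∑ D ∈ X j, S.cS j u D := by
    intro h hh a X hX
    have hA : 0 ≤ (S.kap0 p x u h a * S.sfac p x u h a) * ∏ j, Real.sqrt (∑ D ∈ X j, S.sS p.Ds j u D ^ 2) :=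
      mul_nonneg (mul_nonneg (s9c_kap0_nonneg S p x u h a) (s9c_sfac_nonneg S p x u h a))
        (Finset.prod_nonneg fun _ _ => Real.sqrt_nonneg _)
    have hB : 0 ≤ ((p.Ds : ℝ) ^ 240)⁻¹ * (1 + nnorm 2 u.2 (S.Sd u)) * ∏ j, ∑ D ∈ X j, S.cS j u D :=
      mul_nonneg (by positivity) (Finset.prod_nonneg fun j _ => Finset.sum_nonneg fun D _ => s9c_cS_nonneg S j u D)
    have hgen : ∀ C : ℝ, C ≤ C1 →
        C * (S.kap0 p x u h a * S.sfac p x u h a) * ∏ j, Real.sqrt (∑ D ∈ X j, S.sS p.Ds j u D ^ 2)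
          + C * ((p.Ds : ℝ) ^ 240)⁻¹ * (1 + nnorm 2 u.2 (S.Sd u)) * ∏ j, ∑ D ∈ X j, S.cS j u D ≤
        C1 * (S.kap0 p x u h a * S.sfac p x u h a) * ∏ j, Real.sqrt (∑ D ∈ X j, S.sS p.Ds j u D ^ 2)
          + ε * ∏ j, ∑ D ∈ X j, S.cS j u D := by
      intro C hC
      rw [hε]
      have e1 := mul_le_mul_of_nonneg_right hC hA
      have e2 := mul_le_mul_of_nonneg_right hC hB
      calc _ = C * ((S.kap0 p x u h a * S.sfac p x u h a) * ∏ j, Real.sqrt (∑ D ∈ X j, S.sS p.Ds j u D ^ 2)) +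
            C * (((p.Ds : ℝ) ^ 240)⁻¹ * (1 + nnorm 2 u.2 (S.Sd u)) * ∏ j, ∑ D ∈ X j, S.cS j u D) := by ring
        _ ≤ C1 * ((S.kap0 p x u h a * S.sfac p x u h a) * ∏ j, Real.sqrt (∑ D ∈ X j, S.sS p.Ds j u D ^ 2)) +
            C1 * (((p.Ds : ℝ) ^ 240)⁻¹ * (1 + nnorm 2 u.2 (S.Sd u)) * ∏ j, ∑ D ∈ X j, S.cS j u D) :=
            add_le_add e1 e2
        _ = _ := by ring
    by_cases hs : S.hasSide
    · exact (h3 d S p PC tys hV hP hs u hu x hx h hh a X hX).trans (hgen C3 (le_max_right _ _))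
    · have hs' : ∀ j, S.sd j = false := by
        intro j
        by_contra hj
        exact hs ⟨j, by simpa using hj⟩
      exact (h4 d S p PC tys hV hP hs' u hu x hx h hh a X hX).trans (hgen C4 (le_max_left _ _))
  have hδ : ((4 : ℕ) : ℝ) * Real.sqrt (2 * p.δs) ≤ 1 / 2 := by
    have h1 : Real.sqrt (2 * p.δs) ≤ 1 / 8 := by
      rw [Real.sqrt_le_left (by norm_num)]
      have := hP.δ_le
      norm_num
      linarith
    push_cast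
    linarith
  have hbad : ∀ j, ∀ D ∈ S.ClS j u, ((p.up.filter fun h => ¬ S.goodS j u h D).card : ℝ) ≤ 2 * p.δs * p.up.card := by
    intro j D hD
    by_cases hj : S.sd j = true
    · have : (p.up.filter fun h => ¬ S.goodS j u h D) = ∅ := by
        rw [Finset.filter_eq_empty_iff]
        intro h _ hn
        exact hn (Or.inl hj)
      rw [this, Finset.card_empty, Nat.cast_zero]
      have := hP.δ_pos
      positivity
    · have hj' : S.sd j = false := by simpa using hj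
      simp only [S9Sys.goodS, S9Sys.ClS, hj', Bool.false_eq_true, if_false, false_or] at hD ⊢
      exact hV.bad j hj' u hu D hD
  have key := s9_sample p.up hP.up_ne (fun j => S.ClS j u) (fun j h D => S.goodS j u h D)
    (fun j h D => S.compS j u h D) (2 * p.δs) (by have := hP.δ_pos; positivity) hδ hbad (S.phi u)
    (fun j D => S.sS p.Ds j u D) (fun j D => S.cS j u D) (fun j D => s9c_sS_nonneg S p.Ds j u D)
    (fun j D => s9c_cS_nonneg S j u D) (fun h a => C1 * (S.kap0 p x u h a * S.sfac p x u h a)) hκ0 ε hε0 hmain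
  -- the left side
  have hL : ∑ D ∈ Fintype.piFinset (fun j => S.ClS j u), S.phi u D = form u.2 (S.w u.2) (S.arg u) := by
    rw [s9c_phi_sum hc0 hV u hu (fun j => S.ClS j u) (fun j hj => by simp only [S9Sys.ClS, if_pos hj])]
    congr 1
    funext j
    exact (s9c_arg_eq u j).symm
  rw [hL] at key
  refine key.trans ?_
  -- the main term
  have hM : ∀ h ∈ p.up, ∑ a ∈ Fintype.piFinset (fun j => (S.ClS j u).image (fun D => S.compS j u h D)),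
      C1 * (S.kap0 p x u h a * S.sfac p x u h a) * ∏ j, Real.sqrt
        (∑ D ∈ (S.ClS j u).filter (fun D => S.goodS j u h D ∧ S.compS j u h D = a j), S.sS p.Ds j u D ^ 2) ≤
      C1 * ∑ a ∈ S.labT u h, S.kap0 p x u h a * S.sfac p x u h a * ∏ j, S.sgv u h a j := by
    intro h hh
    rw [Finset.mul_sum]
    set P := Fintype.piFinset (fun j => (S.ClS j u).image (fun D => S.compS j u h D)) with hPdef
    calc ∑ a ∈ P, C1 * (S.kap0 p x u h a * S.sfac p x u h a) * ∏ j, Real.sqrt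
          (∑ D ∈ (S.ClS j u).filter (fun D => S.goodS j u h D ∧ S.compS j u h D = a j), S.sS p.Ds j u D ^ 2)
        = ∑ a ∈ P.filter (fun a => a ∈ S.labT u h), C1 * (S.kap0 p x u h a * S.sfac p x u h a) * ∏ j, Real.sqrt
          (∑ D ∈ (S.ClS j u).filter (fun D => S.goodS j u h D ∧ S.compS j u h D = a j), S.sS p.Ds j u D ^ 2) := by
          rw [Finset.sum_filter]
          refine Finset.sum_congr rfl fun a _ => ?_
          split_ifs with ha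
          · rfl
          · unfold S9Sys.labT at ha
            rw [Fintype.mem_piFinset] at ha
            push Not at ha
            obtain ⟨j, hj⟩ := ha
            rw [Finset.prod_eq_zero (Finset.mem_univ j) (s9c_factor_zero S p.Ds u h a j hj), mul_zero]
      _ ≤ ∑ a ∈ P.filter (fun a => a ∈ S.labT u h),
            C1 * (S.kap0 p x u h a * S.sfac p x u h a * ∏ j, S.sgv u h a j) := by
          refine Finset.sum_le_sum fun a _ => ?_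
          rw [mul_assoc C1]
          refine mul_le_mul_of_nonneg_left ?_ (by linarith)
          refine mul_le_mul_of_nonneg_left ?_
            (mul_nonneg (s9c_kap0_nonneg S p x u h a) (s9c_sfac_nonneg S p x u h a))
          exact Finset.prod_le_prod (fun _ _ => Real.sqrt_nonneg _) fun j _ => s9c_factor hV u hu h hh a j
      _ ≤ ∑ a ∈ S.labT u h, C1 * (S.kap0 p x u h a * S.sfac p x u h a * ∏ j, S.sgv u h a j) := by
          refine Finset.sum_le_sum_of_subset_of_nonneg (fun a ha => (Finset.mem_filter.1 ha).2) fun a _ _ => ?_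
          exact mul_nonneg (by linarith) (mul_nonneg
            (mul_nonneg (s9c_kap0_nonneg S p x u h a) (s9c_sfac_nonneg S p x u h a))
            (Finset.prod_nonneg fun j _ => s9c_sgv_nonneg hV u h a j))
  have hM2 : (p.up.card : ℝ)⁻¹ * ∑ h ∈ p.up,
      ∑ a ∈ Fintype.piFinset (fun j => (S.ClS j u).image (fun D => S.compS j u h D)),
      C1 * (S.kap0 p x u h a * S.sfac p x u h a) * ∏ j, Real.sqrt
        (∑ D ∈ (S.ClS j u).filter (fun D => S.goodS j u h D ∧ S.compS j u h D = a j), S.sS p.Ds j u D ^ 2) ≤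
      C1 * S.prin p x u := by
    unfold S9Sys.prin
    rw [mul_left_comm C1]
    refine mul_le_mul_of_nonneg_left ?_ (by positivity)
    rw [Finset.mul_sum]
    exact Finset.sum_le_sum hM
  -- the error term
  have hE : ε * ∏ j, ∑ D ∈ S.ClS j u, S.cS j u D ≤
      C1 * ((p.Ds : ℝ) ^ 236)⁻¹ * (1 + nnorm 2 u.2 (S.Sd u)) := by
    have h1 : ∏ j : Fin 4, ∑ D ∈ S.ClS j u, S.cS j u D ≤ (p.Ds : ℝ) ^ 4 := by
      calc ∏ j : Fin 4, ∑ D ∈ S.ClS j u, S.cS j u D ≤ ∏ _j : Fin 4, (p.Ds : ℝ) :=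
            Finset.prod_le_prod (fun j _ => Finset.sum_nonneg fun D _ => s9c_cS_nonneg S j u D)
              fun j _ => s9c_cS_sum hV hP u hu j
        _ = (p.Ds : ℝ) ^ 4 := by simp
    calc ε * ∏ j, ∑ D ∈ S.ClS j u, S.cS j u D ≤ ε * (p.Ds : ℝ) ^ 4 := mul_le_mul_of_nonneg_left h1 hε0
      _ = C1 * ((p.Ds : ℝ) ^ 236)⁻¹ * (1 + nnorm 2 u.2 (S.Sd u)) := by
          rw [hε]
          have e : ((p.Ds : ℝ) ^ 240)⁻¹ * (p.Ds : ℝ) ^ 4 = ((p.Ds : ℝ) ^ 236)⁻¹ := by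
            have : (p.Ds : ℝ) ^ 240 = (p.Ds : ℝ) ^ 236 * (p.Ds : ℝ) ^ 4 := by rw [← pow_add]
            rw [this]
            field_simp
          calc _ = C1 * (((p.Ds : ℝ) ^ 240)⁻¹ * (p.Ds : ℝ) ^ 4) * (1 + nnorm 2 u.2 (S.Sd u)) := by ring
            _ = _ := by rw [e]
  have hpos : 0 ≤ C1 * ((p.Ds : ℝ) ^ 236)⁻¹ * (1 + nnorm 2 u.2 (S.Sd u)) := by positivity
  calc _ ≤ 2 * (C1 * S.prin p x u) + C1 * ((p.Ds : ℝ) ^ 236)⁻¹ * (1 + nnorm 2 u.2 (S.Sd u)) :=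
        add_le_add (mul_le_mul_of_nonneg_left hM2 (by norm_num)) hE
    _ ≤ 2 * C1 * S.prin p x u + 2 * C1 * ((p.Ds : ℝ) ^ 236)⁻¹ * (1 + nnorm 2 u.2 (S.Sd u)) := by
        nlinarith

end

end Claimed.Agent.R258
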