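/-
Row 258 (S0498), Sec. 9 (counting.tex).  HOME ARCHITECT: helper41.      ABSTRACT THIN COUNT: Lemma 9.1  ⟹  display (34) of Prop. 9.2.
No paper needed.  Imports only the export of block [S9a] (helper261): `ScParR`, `ScParR.Ok`, `ScParR.Ok.mono`, `sc_real_main` (black boxes).

* `s9Ns O s`         : number of occurrences of `O` at the scale `s`;
* `s9_thin_pow`      : sparse bound for all `δ`  ⟹  bound of `∑_s N_s^{p0}` (last paragraph of the proof of Prop. 9.2), Mathlib only;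
* `s9_thin_first`    : first line of (34) with individual label counts `Mi`;   `s9_thin_scale`: `N_s ≤ M²`;
* `s9_thin_sparse`   : `sc_real_main` in the form needed by `s9_thin_pow`;
* `s9_thin`          : both lines of (34), `p0 = 1 - 1/4160`.
-/
import Claimed.Agent.R258.Pack012

set_option autoImplicit false

namespace Claimed.Agent.R258

open Finset

/-- number of tuples at the scale `s` -/
noncomputable def s9Ns (O : Finset ScOccR) (s : ℤ) : ℕ := (O.filter fun o => o.1 = s).card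

/-- the weight of one term -/
theorem s9_thin_term {x M p0 : ℝ} (hp1 : p0 < 1) (hM : 0 < M) (hx0 : 0 < x) {j : ℕ}
    (hj : (1 / 2 : ℝ) ^ (j + 1) * M ^ 2 < x) :
    x ^ p0 ≤ (M ^ 2) ^ (p0 - 1) * ((2 : ℝ) ^ (1 - p0)) ^ (j + 1) * x := by
  have hy : 0 < (1 / 2 : ℝ) ^ (j + 1) * M ^ 2 := by positivity
  have h1 : x ^ p0 = x ^ (p0 - 1) * x := by
    rw [← Real.rpow_add_one hx0.ne']
    congr 1
    ring
  have h2 : x ^ (p0 - 1) ≤ ((1 / 2 : ℝ) ^ (j + 1) * M ^ 2) ^ (p0 - 1) :=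
    Real.rpow_le_rpow_of_nonpos hy hj.le (by linarith)
  have h3 : ((1 / 2 : ℝ) ^ (j + 1) * M ^ 2) ^ (p0 - 1) = (M ^ 2) ^ (p0 - 1) * ((2 : ℝ) ^ (1 - p0)) ^ (j + 1) := by
    rw [Real.mul_rpow (by positivity) (by positivity), mul_comm]
    congr 1
    rw [← Real.rpow_natCast, ← Real.rpow_natCast, ← Real.rpow_mul (by norm_num), ← Real.rpow_mul (by norm_num),
      one_div, Real.inv_rpow (by norm_num), ← Real.rpow_neg (by norm_num)]
    congr 1
    ring
  rw [h1]
  exact mul_le_mul_of_nonneg_right (h2.trans (le_of_eq h3)) hx0.le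

open Classical in
/-- dyadic summation: on `2^{-j-1} M² < N_s ≤ 2^{-j} M²` bound `N^{p0} ≤ (2^{j+1}/M²)^{1-p0} N`, use the hypothesis with `δ = 2^{-j}`;
geometric series of ratio `2^{1-p0-c'} < 1`. -/
theorem s9_thin_pow {ι : Type*} (S : Finset ι) (N : ι → ℝ) (c' p0 A M : ℝ) (hc : 0 < c') (hp : 1 - c' < p0)
    (hp0 : 0 < p0) (hp1 : p0 < 1) (hA : 0 ≤ A) (hM : 0 < M) (hN0 : ∀ s ∈ S, 0 ≤ N s) (hNM : ∀ s ∈ S, N s ≤ M ^ 2)
    (h : ∀ δ : ℝ, 0 < δ → δ ≤ 1 → ∑ s ∈ S.filter (fun s => N s ≤ δ * M ^ 2), N s ≤ A * δ ^ c' * M ^ 2) :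
    ∑ s ∈ S, N s ^ p0 ≤ A * (2 / (1 - (2 : ℝ) ^ (1 - p0 - c'))) * M ^ (2 * p0) := by
  have hM2 : 0 < M ^ 2 := by positivity
  set r : ℝ := (2 : ℝ) ^ (1 - p0) with hr
  set W : ℝ := (M ^ 2) ^ (p0 - 1) with hW
  set q : ℝ := (2 : ℝ) ^ (1 - p0 - c') with hq
  have hr0 : 0 < r := Real.rpow_pos_of_pos (by norm_num) _
  have hW0 : 0 < W := Real.rpow_pos_of_pos hM2 _
  have hq0 : 0 < q := Real.rpow_pos_of_pos (by norm_num) _
  have hq1 : q < 1 := Real.rpow_lt_one_of_one_lt_of_neg (by norm_num) (by linarith)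
  have hr2 : r ≤ 2 := by
    calc r ≤ (2 : ℝ) ^ (1 : ℝ) := Real.rpow_le_rpow_of_exponent_le (by norm_num) (by linarith)
      _ = 2 := Real.rpow_one _
  have hqr : q = r * (1 / 2 : ℝ) ^ c' := by
    rw [hq, hr, one_div, Real.inv_rpow (by norm_num), ← Real.rpow_neg (by norm_num),
      ← Real.rpow_add (by norm_num)]
    congr 1
  -- the layer of each term
  have hex : ∀ s ∈ S, ∃ j : ℕ, N s ^ p0 ≤ W * r ^ (j + 1) * N s ∧ N s ≤ (1 / 2 : ℝ) ^ j * M ^ 2 := by
    intro s hs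
    rcases (hN0 s hs).eq_or_lt with h0 | hpos
    · refine ⟨0, ?_, ?_⟩
      · rw [← h0, Real.zero_rpow hp0.ne']
        simp
      · rw [← h0]
        positivity
    · obtain ⟨j, hj1, hj2⟩ := exists_nat_pow_near_of_lt_one (x := N s / M ^ 2) (y := 1 / 2)
        (div_pos hpos hM2) ((div_le_one hM2).2 (hNM s hs)) (by norm_num) (by norm_num)
      rw [lt_div_iff₀ hM2] at hj1
      rw [div_le_iff₀ hM2] at hj2
      exact ⟨j, s9_thin_term hp1 hM hpos hj1, hj2⟩
  choose! jj hjj1 hjj2 using hex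
  set J : ℕ := S.sup jj + 1 with hJ
  have hjJ : ∀ s ∈ S, jj s ∈ range J := fun s hs =>
    Finset.mem_range.2 (Nat.lt_succ_of_le (Finset.le_sup hs))
  -- each term is bounded by the sum over the layers containing it
  have hterm : ∀ s ∈ S, N s ^ p0 ≤ ∑ j ∈ range J, W * r * (r ^ j * if N s ≤ (1 / 2 : ℝ) ^ j * M ^ 2 then N s else 0) := by
    intro s hs
    have h1 : W * r * (r ^ jj s * if N s ≤ (1 / 2 : ℝ) ^ jj s * M ^ 2 then N s else 0) ≤
        ∑ j ∈ range J, W * r * (r ^ j * if N s ≤ (1 / 2 : ℝ) ^ j * M ^ 2 then N s else 0) := by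
      refine Finset.single_le_sum (f := fun j => W * r * (r ^ j * if N s ≤ (1 / 2 : ℝ) ^ j * M ^ 2 then N s else 0))
        (fun j _ => ?_) (hjJ s hs)
      have := hN0 s hs
      split_ifs <;> positivity
    refine le_trans ?_ h1
    rw [if_pos (hjj2 s hs)]
    refine (hjj1 s hs).trans (le_of_eq ?_)
    ring
  have hlayer : ∀ j : ℕ, ∑ s ∈ S, (if N s ≤ (1 / 2 : ℝ) ^ j * M ^ 2 then N s else 0) ≤
      A * ((1 / 2 : ℝ) ^ c') ^ j * M ^ 2 := by
    intro j
    rw [← Finset.sum_filter]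
    refine (h ((1 / 2 : ℝ) ^ j) (by positivity) (pow_le_one₀ (by norm_num) (by norm_num))).trans (le_of_eq ?_)
    congr 2
    rw [← Real.rpow_natCast, ← Real.rpow_natCast, ← Real.rpow_mul (by norm_num), ← Real.rpow_mul (by norm_num),
      mul_comm]
  have hgeom : ∑ j ∈ range J, q ^ j ≤ 1 / (1 - q) := by
    rw [le_div_iff₀ (by linarith)]
    have := geom_sum_mul_neg q J
    have h2 : 0 ≤ q ^ J := by positivity
    linarith
  have hWM : W * M ^ 2 = M ^ (2 * p0) := by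
    rw [hW, ← Real.rpow_natCast M 2, ← Real.rpow_mul hM.le, ← Real.rpow_add hM]
    congr 1
    push_cast
    ring
  calc ∑ s ∈ S, N s ^ p0
      ≤ ∑ s ∈ S, ∑ j ∈ range J, W * r * (r ^ j * if N s ≤ (1 / 2 : ℝ) ^ j * M ^ 2 then N s else 0) :=
        Finset.sum_le_sum hterm
    _ = ∑ j ∈ range J, W * r * (r ^ j * ∑ s ∈ S, if N s ≤ (1 / 2 : ℝ) ^ j * M ^ 2 then N s else 0) := by
        rw [Finset.sum_comm]
        refine Finset.sum_congr rfl fun j _ => ?_
        rw [Finset.mul_sum, Finset.mul_sum]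
    _ ≤ ∑ j ∈ range J, W * r * (r ^ j * (A * ((1 / 2 : ℝ) ^ c') ^ j * M ^ 2)) := by
        refine Finset.sum_le_sum fun j _ => ?_
        exact mul_le_mul_of_nonneg_left (mul_le_mul_of_nonneg_left (hlayer j) (by positivity)) (by positivity)
    _ = (W * M ^ 2) * r * A * ∑ j ∈ range J, q ^ j := by
        rw [Finset.mul_sum]
        refine Finset.sum_congr rfl fun j _ => ?_
        rw [hqr, mul_pow]
        ring
    _ ≤ (W * M ^ 2) * 2 * A * (1 / (1 - q)) := by
        have h1 : 0 ≤ W * M ^ 2 := by positivity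
        have h2 : 0 ≤ ∑ j ∈ range J, q ^ j := Finset.sum_nonneg fun j _ => by positivity
        gcongr
    _ = A * (2 / (1 - q)) * M ^ (2 * p0) := by
        rw [hWM]
        ring

/-- occurrences with the same labels in two core roles -/
theorem s9_thin_pair_fibre {P : ScParR} {O : Finset ScOccR} (h : P.Ok O) {i j : Fin 4} (hi : i ∈ P.J)
    (hj : j ∈ P.J) (hij : i ≠ j) (x y : ℝ) :
    ((O.filter fun o => o.2 i = x ∧ o.2 j = y).card : ℝ) ≤ P.L := by
  rcases (O.filter fun o => o.2 i = x ∧ o.2 j = y).eq_empty_or_nonempty with he | ⟨o0, ho0⟩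
  · rw [he, Finset.card_empty, Nat.cast_zero]
    linarith [h.hL]
  · obtain ⟨ho0, hx, hy⟩ := Finset.mem_filter.1 ho0
    refine le_trans ?_ (h.mult o0.2)
    have : (O.filter fun o => o.2 i = x ∧ o.2 j = y) ⊆ O.filter fun o => o.2 = o0.2 := by
      intro o ho
      obtain ⟨ho, hx', hy'⟩ := Finset.mem_filter.1 ho
      exact Finset.mem_filter.2 ⟨ho, h.pair o ho o0 ho0 i hi j hj hij (hx'.trans hx.symm) (hy'.trans hy.symm)⟩
    exact_mod_cast Finset.card_le_card this

/-- a core role and the side role -/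
theorem s9_thin_first_side {P : ScParR} {O : Finset ScOccR} (h : P.Ok O) (Mi : Fin 4 → ℝ)
    (hcard : ∀ i ∈ P.J, ((O.image fun o => o.2 i).card : ℝ) ≤ Mi i)
    (hw : ∀ l, l ∉ P.J → ∑ s ∈ O.image Prod.fst, P.w s ≤ Mi l) {i j : Fin 4} (hi : i ∈ P.J) (hj : j ∉ P.J) :
    (O.card : ℝ) ≤ P.L * (Mi i * Mi j) := by
  have hJ3 := sc_side_card h.hJ hj
  set T := (O.image Prod.fst) ×ˢ (O.image fun o => o.2 i) with hT
  have hmaps : ∀ o ∈ O, (o.1, o.2 i) ∈ T := fun o ho =>
    Finset.mem_product.2 ⟨Finset.mem_image_of_mem _ ho, Finset.mem_image_of_mem _ ho⟩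
  have h1 : (O.card : ℝ) = ∑ z ∈ T, ((O.filter fun o => (o.1, o.2 i) = z).card : ℝ) := by
    rw [Finset.card_eq_sum_card_fiberwise (f := fun o : ScOccR => (o.1, o.2 i)) (t := T)
      (fun o ho => Finset.mem_coe.2 (hmaps o ho))]
    push_cast
    rfl
  have h2 : ∀ z ∈ T, ((O.filter fun o => (o.1, o.2 i) = z).card : ℝ) ≤ P.w z.1 := by
    intro z _
    refine le_trans (le_of_eq ?_) (h.side hJ3 z.1 i hi z.2)
    congr 2
    apply Finset.filter_congr
    intro o _
    exact Prod.ext_iff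
  have h3 : ∑ z ∈ T, P.w z.1 = (∑ s ∈ O.image Prod.fst, P.w s) * ((O.image fun o => o.2 i).card : ℝ) := by
    rw [hT, Finset.sum_product, Finset.sum_mul]
    refine Finset.sum_congr rfl fun s _ => ?_
    show ∑ _y ∈ O.image fun o => o.2 i, P.w s = P.w s * ((O.image fun o => o.2 i).card : ℝ)
    rw [Finset.sum_const, nsmul_eq_mul]
    ring
  have h4 : 0 ≤ ∑ s ∈ O.image Prod.fst, P.w s := Finset.sum_nonneg fun s _ => h.w_nonneg s
  have h5 : (0 : ℝ) ≤ ((O.image fun o => o.2 i).card : ℝ) := Nat.cast_nonneg _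
  have h6 := hcard i hi
  have h7 := hw j hj
  have hL := h.hL
  have h8 : (∑ s ∈ O.image Prod.fst, P.w s) * ((O.image fun o => o.2 i).card : ℝ) ≤ Mi j * Mi i :=
    mul_le_mul h7 h6 h5 (h4.trans h7)
  have h9 : 0 ≤ Mi i * Mi j := mul_nonneg (h5.trans h6) (h4.trans h7)
  calc (O.card : ℝ) ≤ ∑ z ∈ T, P.w z.1 := by rw [h1]; exact Finset.sum_le_sum h2
    _ ≤ Mi j * Mi i := by rw [h3]; exact h8
    _ ≤ P.L * (Mi i * Mi j) := by nlinarith

/-- first line of (34): a pair of core labels determines the tuple, which occurs at most `L` times; a core label and a scale have at most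
`w s` incident tuples (two side roles are impossible: `3 ≤ #J`). -/
theorem s9_thin_first {P : ScParR} {O : Finset ScOccR} (h : P.Ok O) (Mi : Fin 4 → ℝ)
    (hcard : ∀ i ∈ P.J, ((O.image fun o => o.2 i).card : ℝ) ≤ Mi i)
    (hw : ∀ l, l ∉ P.J → ∑ s ∈ O.image Prod.fst, P.w s ≤ Mi l) (i j : Fin 4) (hij : i ≠ j) :
    (O.card : ℝ) ≤ P.L * (Mi i * Mi j) := by
  by_cases hi : i ∈ P.J
  · by_cases hj : j ∈ P.J
    · have h1 := sc_card_le_fibre O ((O.image fun o => o.2 i) ×ˢ (O.image fun o => o.2 j))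
        (fun o => (o.2 i, o.2 j))
        (fun o ho => Finset.mem_product.2 ⟨Finset.mem_image_of_mem _ ho, Finset.mem_image_of_mem _ ho⟩) P.L
        (fun b _ => by
          have := s9_thin_pair_fibre h hi hj hij b.1 b.2
          simpa only [Prod.ext_iff] using this)
      rw [Finset.card_product] at h1
      push_cast at h1
      have h2 := hcard i hi
      have h3 := hcard j hj
      have h5 : (0 : ℝ) ≤ ((O.image fun o => o.2 i).card : ℝ) := Nat.cast_nonneg _
      have h4 : ((O.image fun o => o.2 i).card : ℝ) * ((O.image fun o => o.2 j).card : ℝ) ≤ Mi i * Mi j :=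
        mul_le_mul h2 h3 (Nat.cast_nonneg _) (h5.trans h2)
      exact h1.trans (mul_le_mul_of_nonneg_left h4 (by linarith [h.hL]))
    · exact s9_thin_first_side h Mi hcard hw hi hj
  · by_cases hj : j ∈ P.J
    · have := s9_thin_first_side h Mi hcard hw hj hi
      rwa [mul_comm (Mi j) (Mi i)] at this
    · exact absurd (sc_side_unique h.hJ hi hj) hij

/-- every scale carries at most `M²` tuples. -/
theorem s9_thin_scale {P : ScParR} {O : Finset ScOccR} (h : P.Ok O) (s : ℤ) : (s9Ns O s : ℝ) ≤ P.M ^ 2 := by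
  obtain ⟨i, hi, -⟩ := sc_exists_other h.hJ 0
  obtain ⟨j, hj, hji⟩ := sc_exists_other h.hJ i
  unfold s9Ns
  have hinj : Set.InjOn (fun o : ScOccR => (o.2 i, o.2 j)) ((O.filter fun o => o.1 = s : Finset ScOccR) : Set ScOccR) := by
    intro o ho o' ho' he
    obtain ⟨ho1, ho2⟩ := Finset.mem_filter.1 (Finset.mem_coe.1 ho)
    obtain ⟨ho1', ho2'⟩ := Finset.mem_filter.1 (Finset.mem_coe.1 ho')
    exact Prod.ext (ho2.trans ho2'.symm)
      (h.pair o ho1 o' ho1' i hi j hj hji.symm (congrArg Prod.fst he) (congrArg Prod.snd he))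
  have h1 : (O.filter fun o => o.1 = s).card ≤
      ((O.image fun o => o.2 i) ×ˢ (O.image fun o => o.2 j)).card :=
    Finset.card_le_card_of_injOn _ (fun o ho => by
      have ho1 := (Finset.mem_filter.1 ho).1
      exact Finset.mem_product.2 ⟨Finset.mem_image_of_mem _ ho1, Finset.mem_image_of_mem _ ho1⟩) hinj
  rw [Finset.card_product] at h1
  have h2 := h.card i hi
  have h3 := h.card j hj
  have hM := h.hM
  have h4 : ((O.image fun o => o.2 i).card : ℝ) * ((O.image fun o => o.2 j).card : ℝ) ≤ P.M * P.M :=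
    mul_le_mul h2 h3 (Nat.cast_nonneg _) (by linarith)
  have h5 : ((O.filter fun o => o.1 = s).card : ℝ) ≤
      ((O.image fun o => o.2 i).card : ℝ) * ((O.image fun o => o.2 j).card : ℝ) := by exact_mod_cast h1
  nlinarith

/-- the total mass is the sum of the scale counts -/
theorem s9_thin_card (O : Finset ScOccR) : (O.card : ℝ) = ∑ s ∈ O.image Prod.fst, (s9Ns O s : ℝ) := by
  rw [Finset.card_eq_sum_card_fiberwise (f := Prod.fst) (t := O.image Prod.fst)
    (fun o ho => Finset.mem_coe.2 (Finset.mem_image_of_mem _ ho))]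
  push_cast
  rfl

open Classical in
/-- Lemma 9.1 for the thin scales of `O` (restrict `O` to them: `ScParR.Ok.mono`, then `sc_real_main`). -/
theorem s9_thin_sparse {P : ScParR} {O : Finset ScOccR} (h : P.Ok O) (δ : ℝ) (hδ0 : 0 < δ) (hδ1 : δ ≤ 1) :
    ∑ s ∈ (O.image Prod.fst).filter (fun s => (s9Ns O s : ℝ) ≤ δ * P.M ^ 2), (s9Ns O s : ℝ)
      ≤ 22 * 10 ^ 25 * P.ell * P.L ^ 29 * δ ^ (1 / 2080 : ℝ) * P.M ^ 2 := by
  set O' := O.filter fun o => (s9Ns O o.1 : ℝ) ≤ δ * P.M ^ 2 with hO'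
  have hsub : O' ⊆ O := Finset.filter_subset _ _
  have hfib : ∀ s : ℤ, (O'.filter fun o => o.1 = s) =
      if (s9Ns O s : ℝ) ≤ δ * P.M ^ 2 then O.filter fun o => o.1 = s else ∅ := by
    intro s
    split_ifs with hs
    · ext o
      simp only [hO', Finset.mem_filter]
      constructor
      · rintro ⟨⟨h1, -⟩, h3⟩
        exact ⟨h1, h3⟩
      · rintro ⟨h1, h3⟩
        exact ⟨⟨h1, by rw [h3]; exact hs⟩, h3⟩
    · rw [Finset.filter_eq_empty_iff]
      intro o ho he
      apply hs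
      rw [← he]
      exact (Finset.mem_filter.1 ho).2
  have hM := h.hM
  have hbin : P.Bin O' δ := by
    intro s
    rw [hfib s]
    split_ifs with hs
    · exact hs
    · rw [Finset.card_empty, Nat.cast_zero]
      positivity
  have h1 := sc_real_main (h.mono hsub) hδ0 hδ1 hbin
  refine le_trans (le_of_eq ?_) h1
  rw [Finset.card_eq_sum_card_fiberwise (f := Prod.fst) (t := O.image Prod.fst)
    (fun o ho => Finset.mem_coe.2 (Finset.mem_image_of_mem _ (hsub ho)))]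
  push_cast
  rw [Finset.sum_filter]
  refine Finset.sum_congr rfl fun s _ => ?_
  rw [hfib s]
  split_ifs with hs
  · rfl
  · simp

/-- **display (34)** from Lemma 9.1, with `p0 = 1 - 1/4160`.  `P.M` is the least admissible `X ≥ 1` (`hM`); if `X < 1` then `O = ∅`.
(`C = 22·10^25 · 2 / (1 - 2^(-1/4160))`) -/
theorem s9_thin : ∃ C : ℝ, 1 ≤ C ∧
    ∀ (P : ScParR) (O : Finset ScOccR) (Mi : Fin 4 → ℝ), P.Ok O →
      (∀ i ∈ P.J, ((O.image fun o => o.2 i).card : ℝ) ≤ Mi i) →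
      (∀ l, l ∉ P.J → ∑ s ∈ O.image Prod.fst, P.w s ≤ Mi l) →
      (∀ X : ℝ, 1 ≤ X → (∀ i, Mi i ≤ X) → P.M ≤ X) →
      (∀ i j, i ≠ j → ∑ s ∈ O.image Prod.fst, (s9Ns O s : ℝ) ≤ P.L * (Mi i * Mi j)) ∧
      ∀ X : ℝ, (∀ i, Mi i ≤ X) →
        ∑ s ∈ O.image Prod.fst, (s9Ns O s : ℝ) ^ ((1 : ℝ) - 1 / 4160)
          ≤ C * P.ell * P.L ^ 29 * X ^ (2 * ((1 : ℝ) - 1 / 4160)) := by
  set q : ℝ := (2 : ℝ) ^ ((1 : ℝ) - (1 - 1 / 4160) - 1 / 2080) with hq
  have hq0 : 0 < q := Real.rpow_pos_of_pos (by norm_num) _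
  have hq1 : q < 1 := Real.rpow_lt_one_of_one_lt_of_neg (by norm_num) (by norm_num)
  have hc2 : 2 ≤ 2 / (1 - q) := by
    rw [le_div_iff₀ (by linarith)]
    linarith
  refine ⟨22 * 10 ^ 25 * (2 / (1 - q)), by nlinarith, ?_⟩
  intro P O Mi h hcard hw hMin
  refine ⟨fun i j hij => ?_, fun X hX => ?_⟩
  · rw [← s9_thin_card]
    exact s9_thin_first h Mi hcard hw i j hij
  · have hL := h.hL
    have hM := h.hM
    have hell : 0 ≤ P.ell := by
      unfold ScParR.ell
      have h1 : 0 ≤ Real.logb 2 (2 + ((P.d : ℝ) + 1) ^ 2 * P.ν / P.μ) := by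
        apply Real.logb_nonneg (by norm_num)
        have := h.hμ0
        have := h.hν
        have h2 : 0 ≤ ((P.d : ℝ) + 1) ^ 2 * P.ν / P.μ := by positivity
        linarith
      linarith
    obtain ⟨i0, hi0, -⟩ := sc_exists_other h.hJ 0
    have hX0 : 0 ≤ X := le_trans (le_trans (Nat.cast_nonneg _) (hcard i0 hi0)) (hX i0)
    by_cases hX1 : 1 ≤ X
    · have hMX := hMin X hX1 hX
      have h1 := s9_thin_pow (O.image Prod.fst) (fun s => (s9Ns O s : ℝ)) (1 / 2080) (1 - 1 / 4160)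
        (22 * 10 ^ 25 * P.ell * P.L ^ 29) P.M (by norm_num) (by norm_num) (by norm_num) (by norm_num)
        (by positivity) (by linarith) (fun s _ => Nat.cast_nonneg _) (fun s _ => s9_thin_scale h s)
        (fun δ hδ0 hδ1 => s9_thin_sparse h δ hδ0 hδ1)
      refine h1.trans ?_
      have h2 : P.M ^ (2 * ((1 : ℝ) - 1 / 4160)) ≤ X ^ (2 * ((1 : ℝ) - 1 / 4160)) :=
        Real.rpow_le_rpow (by linarith) hMX (by norm_num)
      calc 22 * 10 ^ 25 * P.ell * P.L ^ 29 * (2 / (1 - q)) * P.M ^ (2 * ((1 : ℝ) - 1 / 4160))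
          ≤ 22 * 10 ^ 25 * P.ell * P.L ^ 29 * (2 / (1 - q)) * X ^ (2 * ((1 : ℝ) - 1 / 4160)) := by
            have : 0 ≤ 2 / (1 - q) := by linarith
            gcongr
        _ = _ := by ring
    · have hlt : ((O.image fun o => o.2 i0).card : ℝ) < 1 :=
        lt_of_le_of_lt ((hcard i0 hi0).trans (hX i0)) (not_le.1 hX1)
      have hz : (O.image fun o => o.2 i0).card = 0 := by
        have : (O.image fun o => o.2 i0).card < 1 := by exact_mod_cast hlt
        omega
      have hO : O = ∅ := by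
        rw [Finset.card_eq_zero, Finset.image_eq_empty] at hz
        exact hz
      rw [hO]
      simp only [Finset.image_empty, Finset.sum_empty]
      have h3 : 0 ≤ X ^ (2 * ((1 : ℝ) - 1 / 4160)) := Real.rpow_nonneg hX0 _
      have : 0 ≤ 2 / (1 - q) := by linarith
      positivity

end Claimed.Agent.R258
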