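/-
Row 258 (S0498), Sec. 9.4 (counting.tex, Prop. 9.2) and the budgets used in Prop. 9.3.  HOME ARCHITECT: helper41.      THE COUNTS OF THE TESTED TUPLES.
Black boxes: S9/{Thin,CountAbs,Fser}.lean; definitions S9/{Sys,Test}.lean, S9a/GridDefs.lean (`ScParR`, `ScParR.Ok`).  NO paper needed.

Fix a point `x`, a configuration `cfg = ((h, ty), amp, b, c, f)` and a group `g`.
* `usesG x g` = the uses of `g` over `x` (a chain of cells: at most one per depth);  `occ` = the occurrences `(depth, val x a)`, `a ∈ tup x cfg u`;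
* `Nn` = `N_s^G`;  `Mm` = `M_i^G` (number of real labels, resp. `4 σ_l⁻² ∑_s ‖S‖²`);  `scP` = the parameters of Lemma 9.1:
  `ζ = ξ/36`, `J` = core roles, `M = max(1, max_i M_i)`, `L = (d+1)(W + b + c + 3)`, `B = 4 B'_h`, `μ = 2^{-b}`, `ν = 4·2^c`, `Q = E_h/6^8`, `Σ = Ξ/2`, `R0 = 1` (`R_s = 2^s = 1/|I|`).

PLANS (`u = (g, I)`, `r = I.len = 2^{-depth}`, so `P.R depth = r⁻¹`; `36 P.dot n = n·ξ`; `ξ = 6^10 ϑ/6^h`, `ζ = 6^8 ϑ/6^h`).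
* `s9k_bins`: `s9binB, s9binC, s9binA` are the dyadic bins: `2^{-b} ≤ μ`, `μ ≤ 2·2^{-b}`, `ν ≤ 2^c`, `2^c ≤ 2ν`, `2^a ≤ σ < 2^{a+1}` (`Nat.le_ceil`, `Nat.ceil_lt_add_one`, `Int.floor_le`, `Int.lt_floor_add_one`, `Real.rpow_logb`).
* `s9k_tests`: unfold `tup`, `ref`: the chosen reference `nm` satisfies `IsRef`; `qt = qtOf nm`; `s9mu ≤ |t' - (j - l') q'|` for all `j`, `|q'|, |t'| ≤ s9nu`.
* `s9k_val_inj`: labels of one role and type at uses of `g` over `x` with equal `om · x` are equal (field `sep` with `n = 0`).  Hence `a ↦ val x a` is injective on `⋃_u tup x cfg u` and `Nn = s9Ns occ`.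
* `s9k_sep`: `o.2 i ≠ o'.2 i` ⇒ the labels differ ⇒ field `sep` with the shift `6^8 n` (`|6^8 n| ≤ 6^8 Q = E_h`).
* `s9k_gap`: field `dich` at the use of the occurrence (its tuple consists of labels of GOOD classes): `r |n·ζ| = r |(6^8 n)·ϑ/6^h| ≤ 𝒯⁻¹ < μ/1000` or `≥ 𝒯 > 1000 ν` (`2^b, 2^c ≤ 2 U0`, `𝒯 ≥ D_*^1001`).
* `s9k_ann`: four cores: `scLinR l' a = Tv - l' Qv` (anchor `0`), witness `m0 - l' n0` (`|·| ≤ 4 B'_h`), `|t' - l' q'| ∈ [μ, 4ν]`.  Three cores: only `l' = l`, witness `m0`.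
* `s9k_side`: see the statement.  The windows `s9Win I ξ (Qv x a) B'_h 2^f` of different incident triples are disjoint (`s9k_win3`, `Λ0 = 2^f ≤ U0`); `∑_a bL(a)² ≤ nof⁻¹ ∑_ρ nnorm(Sp ρ)² ≤ 4 nnorm(Sd)²`
  (`s9_fc_bessel` on the disjoint union, `s9_nnorm_mono`, `|Sp| ≤ 2 |Sd|` since `cbar ≥ 1/2`); every counted triple has `bL(a) ≥ 2^{amp l} = σ_l`.
* `s9k_ok`: assembly (`s9k_pair4/3`, `s9k_mult` with `Bn = 4 B'_h`, numerics from `S9ParOk`).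
* `s9k_34`: `s9_thin` for `scP`, `occ`, `Mi = Mm`; `P.ell ≤ (4 + 2 log₂(d+1)) (1+b+c)`, `P.L ≤ (d+1)(W+3)(1+b+c)`, `1 + b + c ≤ 2^b + 2^c`.
* `s9k_28`: `I₀` = the smallest cell of the uses over `x`; the real labels of the role `i` of `occ x cfg g` are images of pairs `(g, a) ∈ usedLab i h (ty i) 2^{amp i} I₀`; fields `caps`, `Sd_cap`.
-/
import Claimed.Agent.R258.S9.Test
import Claimed.Agent.R258.S9.Thin
import Claimed.Agent.R258.S9.CountAbs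

set_option autoImplicit false
open MeasureTheory

namespace Claimed.Agent.R258

open scoped BigOperators
open Classical

noncomputable section

namespace S9Sys
variable {d : ℕ} (S : S9Sys d) (p : S8Par)

/-- the uses of the group `g` over the point `x` -/
def usesG (x : ℝ) (g : ℕ) : Finset (ℕ × Cell) := S.uses.filter fun u => u.1 = g ∧ x ∈ u.2.set

/-- the occurrences of the configuration -/
def occ (x : ℝ) (cfg : S9Cfg S9E) (g : ℕ) : Finset ScOccR :=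
  (S.usesG x g).biUnion fun u => (S.tup p x cfg u).image fun a => (u.2.depth, S.val x a)

/-- `N_s^G` -/
def Nn (x : ℝ) (cfg : S9Cfg S9E) (g : ℕ) (s : ℤ) : ℝ :=
  ∑ u ∈ (S.usesG x g).filter (fun u => u.2.depth = s), ((S.tup p x cfg u).card : ℝ)

/-- the side weight `w_s` -/
def wS (x : ℝ) (cfg : S9Cfg S9E) (g : ℕ) (s : ℤ) : ℝ :=
  ∑ u ∈ (S.usesG x g).filter (fun u => u.2.depth = s), 4 * (cfg.sg S.anc ^ 2)⁻¹ * nnorm 2 u.2 (S.Sd u) ^ 2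

/-- `M_i^G` -/
def Mm (x : ℝ) (cfg : S9Cfg S9E) (i : Fin 4) (g : ℕ) : ℝ :=
  if S.sd i = true then ∑ u ∈ S.usesG x g, 4 * (cfg.sg i ^ 2)⁻¹ * nnorm 2 u.2 (S.Sd u) ^ 2
  else (((S.occ p x cfg g).image fun o => o.2 i).card : ℝ)

/-- the parameters of Lemma 9.1 -/
def scP (x : ℝ) (cfg : S9Cfg S9E) (g : ℕ) : ScParR where
  d := d
  ζ := fun k => S.xi g cfg.1.1 k / 36
  J := Finset.univ.filter fun j => S.sd j = false
  M := max 1 (Finset.univ.sup' Finset.univ_nonempty fun i => S.Mm p x cfg i g)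
  L := ((d : ℝ) + 1) * (s9Wd d (4 * p.Bx cfg.1.1) + ((cfg.b : ℝ) + cfg.c + 2) + 1)
  B := ((4 * p.Bx cfg.1.1 : ℕ) : ℝ)
  μ := ((2 : ℝ) ^ cfg.b)⁻¹
  ν := 4 * (2 : ℝ) ^ cfg.c
  Q := (p.E cfg.1.1 : ℝ) / 6 ^ 8
  Sg := p.Xi / 2
  R0 := 1
  w := S.wS x cfg g

/-- all configurations occurring over the point `x` -/
def cfgs (x : ℝ) : Finset (S9Cfg S9E) := (S.uses.filter fun u => x ∈ u.2.set).biUnion fun u => S.cfgOf p x u

end S9Sys

/-- admissible configurations -/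
def S9CfgOk (p : S8Par) (cfg : S9Cfg S9E) : Prop :=
  cfg.1.1 ∈ p.up ∧ (2 : ℝ) ^ cfg.b ≤ 2 * p.U0 ∧ (2 : ℝ) ^ cfg.c ≤ 2 * p.U0 ∧ cfg.f ≤ p.F0

/-- the polynomial loss of Prop. 9.2 -/
def s9PL (p : S8Par) (d : ℕ) : ℝ := (((d : ℝ) + 1) * (s9Wd d (4 * p.Bx p.Js) + 5)) ^ 30

/-- the upper dyadic bin of a number `≥ 1` -/
theorem s9kc_ceil (y : ℝ) (hy : 1 ≤ y) :
    y ≤ (2 : ℝ) ^ ⌈Real.logb 2 y⌉₊ ∧ (2 : ℝ) ^ ⌈Real.logb 2 y⌉₊ ≤ 2 * y := by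
  have hy0 : 0 < y := by linarith
  have hl : 0 ≤ Real.logb 2 y := Real.logb_nonneg one_lt_two hy
  have e : (2 : ℝ) ^ Real.logb 2 y = y := Real.rpow_logb two_pos (by norm_num) hy0
  constructor
  · rw [← Real.rpow_natCast]
    calc y = (2 : ℝ) ^ Real.logb 2 y := e.symm
      _ ≤ (2 : ℝ) ^ ((⌈Real.logb 2 y⌉₊ : ℕ) : ℝ) :=
        Real.rpow_le_rpow_of_exponent_le one_le_two (Nat.le_ceil _)
  · rw [← Real.rpow_natCast]
    calc (2 : ℝ) ^ ((⌈Real.logb 2 y⌉₊ : ℕ) : ℝ) ≤ (2 : ℝ) ^ (Real.logb 2 y + 1) :=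
        Real.rpow_le_rpow_of_exponent_le one_le_two (Nat.ceil_lt_add_one hl).le
      _ = 2 * y := by rw [Real.rpow_add two_pos, e, Real.rpow_one, mul_comm]

/-- the dyadic bins.  LEAF P-S9-COUNT-C -/
theorem s9k_bins (l' : Fin 4) (qt : ℝ × ℝ) (hμ : 0 < s9mu l' qt) :
    ((2 : ℝ) ^ s9binB l' qt)⁻¹ ≤ s9mu l' qt ∧ s9mu l' qt ≤ 2 * ((2 : ℝ) ^ s9binB l' qt)⁻¹ ∧
    s9nu qt ≤ (2 : ℝ) ^ s9binC qt ∧ (2 : ℝ) ^ s9binC qt ≤ 2 * s9nu qt := by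
  have hμ1 : s9mu l' qt ≤ 1 := min_le_left _ _
  have hν1 : 1 ≤ s9nu qt := le_max_left _ _
  obtain ⟨h1, h2⟩ := s9kc_ceil (s9mu l' qt)⁻¹ ((one_le_inv₀ hμ).2 hμ1)
  rw [Real.logb_inv] at h1 h2
  obtain ⟨h3, h4⟩ := s9kc_ceil (s9nu qt) hν1
  have hp : 0 < (2 : ℝ) ^ s9binB l' qt := by positivity
  refine ⟨?_, ?_, h3, h4⟩
  · exact inv_le_of_inv_le₀ hμ h1
  · have h2' : (2 : ℝ) ^ s9binB l' qt ≤ 2 * (s9mu l' qt)⁻¹ := h2
    rw [← div_eq_mul_inv, le_div_iff₀ hμ] at h2'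
    rw [← div_eq_mul_inv, le_div_iff₀ hp]
    linarith

/-- LEAF P-S9-COUNT-C -/
theorem s9k_binA (σ : ℝ) (hσ : 0 < σ) : (2 : ℝ) ^ s9binA σ ≤ σ ∧ σ < 2 * (2 : ℝ) ^ s9binA σ := by
  have e : (2 : ℝ) ^ Real.logb 2 σ = σ := Real.rpow_logb two_pos (by norm_num) hσ
  unfold s9binA
  constructor
  · rw [← Real.rpow_intCast]
    calc (2 : ℝ) ^ ((⌊Real.logb 2 σ⌋ : ℤ) : ℝ) ≤ (2 : ℝ) ^ Real.logb 2 σ :=
        Real.rpow_le_rpow_of_exponent_le one_le_two (Int.floor_le _)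
      _ = σ := e
  · rw [← Real.rpow_intCast]
    calc σ = (2 : ℝ) ^ Real.logb 2 σ := e.symm
      _ < (2 : ℝ) ^ (((⌊Real.logb 2 σ⌋ : ℤ) : ℝ) + 1) :=
        Real.rpow_lt_rpow_of_exponent_lt one_lt_two (Int.lt_floor_add_one _)
      _ = 2 * (2 : ℝ) ^ ((⌊Real.logb 2 σ⌋ : ℤ) : ℝ) := by
        rw [Real.rpow_add two_pos, Real.rpow_one, mul_comm]

variable {d : ℕ} {S : S9Sys d} {c0 C0 PC : ℝ} {p : S8Par} {tys : Finset (ℕ × ℕ)}

/-- what a chosen reference pair is -/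
theorem s9kc_ref {x : ℝ} {u : ℕ × Cell} {h : ℕ} {a : Fin 4 → ℕ} {qt : ℝ × ℝ}
    (hr : S.ref p x u h a = some qt) :
    ∃ nm, S.IsRef p x u h a nm ∧ qt = S.qtOf x u h a nm ∧ p.U0⁻¹ ≤ s9mu S.anc qt := by
  unfold S9Sys.ref at hr
  split_ifs at hr with h1 h2
  · have e : S.qtOf x u h a h1.choose = qt := Option.some.inj hr
    exact ⟨h1.choose, h1.choose_spec, e.symm, e ▸ h2⟩

/-- the two entries of a reference pair -/
theorem s9kc_abs {x : ℝ} {u : ℕ × Cell} {h : ℕ} {a : Fin 4 → ℕ} (nm : (Fin d → ℤ) × (Fin d → ℤ)) :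
    |(S.qtOf x u h a nm).2| = u.2.len * |S.Tv x a + s9dot nm.2 (S.xi u.1 h)| ∧
    (S.hasSide → (S.qtOf x u h a nm).1 = 0) ∧
    (¬ S.hasSide → (S.qtOf x u h a nm).1 = u.2.len * (S.Qv x a + s9dot nm.1 (S.xi u.1 h))) := by
  refine ⟨?_, fun hs => ?_, fun hs => ?_⟩
  · simp only [S9Sys.qtOf]
    rw [abs_mul, abs_of_nonneg (cell_len_nonneg _)]
  · simp only [S9Sys.qtOf, if_pos hs]
  · simp only [S9Sys.qtOf, if_neg hs]

theorem s9kc_U0_ge (hD : 0 < p.Ds) : 1 ≤ p.U0 := by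
  unfold S8Par.U0
  exact one_le_pow₀ (by exact_mod_cast hD)

/-- `ν ≤ U0` for a reference -/
theorem s9kc_nu_le (hD : 0 < p.Ds) {x : ℝ} {u : ℕ × Cell} {h : ℕ} {a : Fin 4 → ℕ}
    {nm : (Fin d → ℤ) × (Fin d → ℤ)} (hr : S.IsRef p x u h a nm) : s9nu (S.qtOf x u h a nm) ≤ p.U0 := by
  obtain ⟨e2, e1, e1'⟩ := s9kc_abs (S := S) (x := x) (u := u) (h := h) (a := a) nm
  have hU := s9kc_U0_ge hD
  refine max_le hU (max_le ?_ ?_)
  · by_cases hs : S.hasSide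
    · rw [e1 hs, abs_zero]; linarith
    · rw [e1' hs, abs_mul, abs_of_nonneg (cell_len_nonneg _)]
      exact hr.2.2.1.resolve_left hs
  · rw [e2]
    exact hr.2.2.2

/-- configurations that occur are admissible.  LEAF P-S9-COUNT-C -/
theorem s9k_cfgOk (hP : S9ParOk p d) (x : ℝ) (cfg : S9Cfg S9E) (h : cfg ∈ S.cfgs p x) : S9CfgOk p cfg := by
  have hD : 0 < p.Ds := by have := hP.Ds_ge; omega
  have hU := s9kc_U0_ge hD
  have hU0 : 0 < p.U0 := by linarith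
  obtain ⟨u, -, hu⟩ := Finset.mem_biUnion.1 h
  obtain ⟨hh, hhup, h1⟩ := Finset.mem_biUnion.1 hu
  obtain ⟨a, -, h2⟩ := Finset.mem_biUnion.1 h1
  obtain ⟨f, hf, h3⟩ := Finset.mem_biUnion.1 h2
  cases hr : S.ref p x u hh a with
  | none =>
    rw [hr] at h3
    simp at h3
  | some qt =>
    rw [hr] at h3
    have h4 : cfg = ((hh, S.tyv u hh a), (fun j => s9binA (S.amp p x u hh a f j)), s9binB S.anc qt,
      s9binC qt, f) := Finset.mem_singleton.1 h3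
    obtain ⟨nm, hnm, hqt, hμ⟩ := s9kc_ref hr
    have hμ0 : 0 < s9mu S.anc qt := lt_of_lt_of_le (inv_pos.2 hU0) hμ
    obtain ⟨-, b2, -, b4⟩ := s9k_bins S.anc qt hμ0
    have hν : s9nu qt ≤ p.U0 := hqt ▸ s9kc_nu_le hD hnm
    rw [h4]
    refine ⟨hhup, ?_, ?_, ?_⟩
    · show (2 : ℝ) ^ s9binB S.anc qt ≤ 2 * p.U0
      have hp : 0 < (2 : ℝ) ^ s9binB S.anc qt := by positivity
      rw [← div_eq_mul_inv, le_div_iff₀ hp] at b2
      have h5 : p.U0⁻¹ * (2 : ℝ) ^ s9binB S.anc qt ≤ 2 :=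
        (mul_le_mul_of_nonneg_right hμ hp.le).trans b2
      rw [inv_mul_le_iff₀ hU0] at h5
      linarith
    · show (2 : ℝ) ^ s9binC qt ≤ 2 * p.U0
      linarith
    · show f ≤ p.F0
      have := Finset.mem_range.1 hf
      omega

/-- **the tests of a counted tuple** (`r = u.2.len`, `ξ = xi g h`).  LEAF P-S9-COUNT-C -/
theorem s9k_tests (hD : 0 < p.Ds) (x : ℝ) (cfg : S9Cfg S9E) (u : ℕ × Cell) (a : Fin 4 → ℕ) (ha : a ∈ S.tup p x cfg u) :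
    ∃ n0 m0 : Fin d → ℤ, S9Box (p.Bx cfg.1.1) n0 ∧ S9Box (p.Bx cfg.1.1) m0 ∧
      u.2.len * |S.Tv x a + s9dot m0 (S.xi u.1 cfg.1.1)| ≤ (2 : ℝ) ^ cfg.c ∧
      (S.hasSide → ((2 : ℝ) ^ cfg.b)⁻¹ ≤ u.2.len * |S.Tv x a + s9dot m0 (S.xi u.1 cfg.1.1)|) ∧
      (¬ S.hasSide → u.2.len * |S.Qv x a + s9dot n0 (S.xi u.1 cfg.1.1)| ≤ (2 : ℝ) ^ cfg.c ∧
        ∀ j : Fin 4, ((2 : ℝ) ^ cfg.b)⁻¹ ≤ u.2.len * |(S.Tv x a + s9dot m0 (S.xi u.1 cfg.1.1))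
            - (((j : ℕ) : ℝ)) * (S.Qv x a + s9dot n0 (S.xi u.1 cfg.1.1))|) := by
  have hU := s9kc_U0_ge hD
  have hU0 : 0 < p.U0 := by linarith
  obtain ⟨-, -, -, ⟨qt, hr, hb, hc⟩, -⟩ := Finset.mem_filter.1 ha
  obtain ⟨nm, hnm, hqt, hμ⟩ := s9kc_ref hr
  have hμ0 : 0 < s9mu S.anc qt := lt_of_lt_of_le (inv_pos.2 hU0) hμ
  obtain ⟨b1, -, b3, -⟩ := s9k_bins S.anc qt hμ0
  rw [hb] at b1
  rw [hc] at b3
  obtain ⟨e2, e1, e1'⟩ := s9kc_abs (S := S) (x := x) (u := u) (h := cfg.1.1) (a := a) nm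
  rw [← hqt] at e2 e1 e1'
  have hlen := cell_len_nonneg u.2
  have hq1 : |qt.1| ≤ s9nu qt := (le_max_left _ _).trans (le_max_right _ _)
  have hq2 : |qt.2| ≤ s9nu qt := (le_max_right _ _).trans (le_max_right _ _)
  have hmu : ∀ j : Fin 4, s9mu S.anc qt ≤ |qt.2 - (s9al S.anc j : ℝ) * qt.1| := fun j =>
    (min_le_right _ _).trans (Finset.inf'_le _ (Finset.mem_univ j))
  refine ⟨nm.1, nm.2, hnm.1, hnm.2.1, ?_, fun hs => ?_, fun hs => ⟨?_, fun j => ?_⟩⟩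
  · rw [← e2]
    exact hq2.trans b3
  · rw [← e2]
    have := hmu 0
    rw [e1 hs, mul_zero, sub_zero] at this
    exact b1.trans this
  · have : |qt.1| = u.2.len * |S.Qv x a + s9dot nm.1 (S.xi u.1 cfg.1.1)| := by
      rw [e1' hs, abs_mul, abs_of_nonneg hlen]
    rw [← this]
    exact hq1.trans b3
  · have hanc : S.anc = 0 := by
      unfold S9Sys.anc
      exact dif_neg hs
    have h1 := hmu j
    have h2 : qt.2 = u.2.len * (S.Tv x a + s9dot nm.2 (S.xi u.1 cfg.1.1)) := by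
      rw [hqt]; rfl
    have h3 : (s9al S.anc j : ℝ) = ((j : ℕ) : ℝ) := by
      rw [hanc]
      simp [s9al]
    rw [h3, e1' hs, h2] at h1
    have h4 : u.2.len * (S.Tv x a + s9dot nm.2 (S.xi u.1 cfg.1.1))
        - ((j : ℕ) : ℝ) * (u.2.len * (S.Qv x a + s9dot nm.1 (S.xi u.1 cfg.1.1)))
        = u.2.len * ((S.Tv x a + s9dot nm.2 (S.xi u.1 cfg.1.1))
          - ((j : ℕ) : ℝ) * (S.Qv x a + s9dot nm.1 (S.xi u.1 cfg.1.1))) := by ring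
    rw [h4, abs_mul, abs_of_nonneg hlen] at h1
    exact b1.trans h1

/-! ### auxiliary lemmas of LEAF P-S9-COUNT-D (helper197) -/

theorem s9kd_mem_occ {x : ℝ} {cfg : S9Cfg S9E} {g : ℕ} {o : ScOccR} :
    o ∈ S.occ p x cfg g ↔ ∃ u ∈ S.usesG x g, ∃ a ∈ S.tup p x cfg u, o = (u.2.depth, S.val x a) := by
  unfold S9Sys.occ
  simp only [Finset.mem_biUnion, Finset.mem_image]
  constructor
  · rintro ⟨u, hu, a, ha, rfl⟩; exact ⟨u, hu, a, ha, rfl⟩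
  · rintro ⟨u, hu, a, ha, rfl⟩; exact ⟨u, hu, a, ha, rfl⟩

theorem s9kd_mem_usesG {x : ℝ} {g : ℕ} {u : ℕ × Cell} : u ∈ S.usesG x g ↔ u ∈ S.uses ∧ u.1 = g ∧ x ∈ u.2.set := by
  unfold S9Sys.usesG
  rw [Finset.mem_filter]

theorem s9kd_R (x : ℝ) (cfg : S9Cfg S9E) (g : ℕ) (I : Cell) : (S.scP p x cfg g).R I.depth = I.len⁻¹ := by
  unfold ScParR.R S9Sys.scP Cell.len
  simp only [one_mul, zpow_neg, inv_inv]

theorem s9kd_dot36 (x : ℝ) (cfg : S9Cfg S9E) (g : ℕ) (n : Fin d → ℤ) :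
    36 * (S.scP p x cfg g).dot n = s9dot n (S.xi g cfg.1.1) := by
  unfold ScParR.dot s9dot S9Sys.scP
  simp only
  rw [Finset.mul_sum]
  refine Finset.sum_congr rfl fun k _ => ?_
  ring

theorem s9kd_dot68 (x : ℝ) (cfg : S9Cfg S9E) (g : ℕ) (h10 : 10 ≤ cfg.1.1) (n : Fin d → ℤ) :
    (S.scP p x cfg g).dot n = s9dot (fun k => 6 ^ 8 * n k) (S.vth g) / 6 ^ cfg.1.1 := by
  have e : (6 : ℝ) ^ cfg.1.1 = 6 ^ (cfg.1.1 - 10) * 6 ^ 10 := by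
    rw [← pow_add]; congr 1; omega
  unfold ScParR.dot s9dot S9Sys.scP S9Sys.xi
  simp only
  rw [e, Finset.sum_div]
  refine Finset.sum_congr rfl fun k _ => ?_
  have h6 : (6 : ℝ) ^ (cfg.1.1 - 10) ≠ 0 := by positivity
  push_cast
  field_simp
  ring

theorem s9kd_dot68' (x : ℝ) (cfg : S9Cfg S9E) (g : ℕ) (h10 : 10 ≤ cfg.1.1) (n : Fin d → ℤ) :
    (S.scP p x cfg g).dot n = s9dot (fun k => 6 ^ 8 * n k) (fun i => S.vth g i / 6 ^ cfg.1.1) := by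
  rw [s9kd_dot68 x cfg g h10]
  unfold s9dot
  rw [Finset.sum_div]
  refine Finset.sum_congr rfl fun k _ => ?_
  ring

theorem s9kd_box68 (E : ℕ) (n : Fin d → ℤ) (hn : ∀ k, |(n k : ℝ)| ≤ (E : ℝ) / 6 ^ 8) :
    S9Box E (fun k => 6 ^ 8 * n k) := by
  intro k
  have := hn k
  rw [le_div_iff₀ (by positivity)] at this
  have h2 : ((|6 ^ 8 * n k| : ℤ) : ℝ) ≤ ((E : ℤ) : ℝ) := by
    simp only [Int.cast_abs, Int.cast_mul, Int.cast_pow, Int.cast_ofNat, Int.cast_natCast]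
    rw [abs_mul, abs_of_pos (by positivity : (0 : ℝ) < 6 ^ 8)]
    linarith
  exact_mod_cast h2

theorem s9kd_tup_core {x : ℝ} {cfg : S9Cfg S9E} {u : ℕ × Cell} {a : Fin 4 → ℕ} (ha : a ∈ S.tup p x cfg u) (j : Fin 4)
    (hj : S.sd j = false) : a j ∈ S.lab j u cfg.1.1 ∧ S.typ j u cfg.1.1 (a j) = cfg.1.2 j := by
  unfold S9Sys.tup at ha
  rw [Finset.mem_filter] at ha
  obtain ⟨h1, h2, -⟩ := ha
  unfold S9Sys.labT at h1
  rw [Fintype.mem_piFinset] at h1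
  have h3 := h1 j
  have h4 := h2 j
  unfold S9Sys.tyv at h4
  simp only [hj, Bool.false_eq_true, if_false] at h3 h4
  exact ⟨h3, h4⟩

theorem s9kd_tup_side {x : ℝ} {cfg : S9Cfg S9E} {u : ℕ × Cell} {a : Fin 4 → ℕ} (ha : a ∈ S.tup p x cfg u) (j : Fin 4)
    (hj : S.sd j = true) : a j = 0 := by
  unfold S9Sys.tup at ha
  rw [Finset.mem_filter] at ha
  obtain ⟨h1, -⟩ := ha
  unfold S9Sys.labT at h1
  rw [Fintype.mem_piFinset] at h1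
  have h3 := h1 j
  simpa only [hj, if_true, Finset.mem_singleton] using h3

theorem s9kd_Xi_nonneg (p : S8Par) : 0 ≤ p.Xi := by
  unfold S8Par.Xi
  positivity

/-- there is a core role -/
theorem s9kd_core (hV : S.Valid c0 C0 p PC tys) : ∃ j, S.sd j = false := by
  by_contra hcon
  push Not at hcon
  have h1 : (Finset.univ.filter fun l => S.sd l = true) = Finset.univ := by
    ext l
    simp only [Finset.mem_filter, Finset.mem_univ, true_and, iff_true]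
    simpa using hcon l
  have h2 := hV.sd_le
  rw [h1] at h2
  simp at h2

/-- labels of one configuration are determined by their real values.  LEAF P-S9-COUNT-D -/
theorem s9k_val_inj (hV : S.Valid c0 C0 p PC tys) (x : ℝ) (cfg : S9Cfg S9E) (hc : cfg.1.1 ∈ p.up) (g : ℕ)
    (u u' : ℕ × Cell) (hu : u ∈ S.usesG x g) (hu' : u' ∈ S.usesG x g) (a a' : Fin 4 → ℕ) (ha : a ∈ S.tup p x cfg u)
    (ha' : a' ∈ S.tup p x cfg u') (j : Fin 4) (h : S.val x a j = S.val x a' j) : a j = a' j := by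
  rcases hj : S.sd j with _ | _
  · by_contra hne
    obtain ⟨hu1, hu2, hu3⟩ := s9kd_mem_usesG.1 hu
    obtain ⟨hv1, hv2, hv3⟩ := s9kd_mem_usesG.1 hu'
    obtain ⟨k1, k2⟩ := s9kd_tup_core ha j hj
    obtain ⟨k3, k4⟩ := s9kd_tup_core ha' j hj
    have := hV.sep j hj cfg.1.1 hc u hu1 u' hv1 (hu2.trans hv2.symm) (a j) k1 (a' j) k3 (k2.trans k4.symm) hne x ⟨hu3, hv3⟩
      (fun _ => 0) (fun i => by simp)
    unfold S9Sys.val at h
    simp only [hj, Bool.false_eq_true, if_false] at h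
    have e : s9dot (fun _ : Fin d => (0 : ℤ)) (S.vth u.1) = 0 := by
      unfold s9dot; simp
    rw [h, e] at this
    simp only [sub_self, zero_div, add_zero, abs_zero] at this
    have h0 : 0 ≤ p.Xi / 2 * max u.2.len⁻¹ u'.2.len⁻¹ :=
      mul_nonneg (by linarith [s9kd_Xi_nonneg p]) (le_max_of_le_left (inv_nonneg.2 (cell_len_nonneg _)))
    linarith
  · rw [s9kd_tup_side ha j hj, s9kd_tup_side ha' j hj]

/-- `N_s^G` is the number of occurrences at the scale `s`.  LEAF P-S9-COUNT-D -/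
theorem s9k_Nn_eq (hV : S.Valid c0 C0 p PC tys) (x : ℝ) (cfg : S9Cfg S9E) (hc : cfg.1.1 ∈ p.up) (g : ℕ) (s : ℤ) :
    S.Nn p x cfg g s = (s9Ns (S.occ p x cfg g) s : ℝ) := by
  unfold S9Sys.Nn s9Ns
  have e : (S.occ p x cfg g).filter (fun o => o.1 = s) =
      ((S.usesG x g).filter (fun u => u.2.depth = s)).biUnion fun u => (S.tup p x cfg u).image fun a => (u.2.depth, S.val x a) := by
    ext o
    simp only [Finset.mem_filter, s9kd_mem_occ, Finset.mem_biUnion, Finset.mem_image]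
    constructor
    · rintro ⟨⟨u, hu, a, ha, rfl⟩, hs⟩
      exact ⟨u, ⟨hu, hs⟩, a, ha, rfl⟩
    · rintro ⟨u, ⟨hu, hs⟩, a, ha, rfl⟩
      exact ⟨⟨u, hu, a, ha, rfl⟩, hs⟩
  rw [e, Finset.card_biUnion]
  · push_cast
    refine Finset.sum_congr rfl fun u hu => ?_
    rw [Finset.card_image_of_injOn]
    intro a ha a' ha' haa
    have hu' := (Finset.mem_filter.1 hu).1
    funext j
    exact s9k_val_inj hV x cfg hc g u u hu' hu' a a' ha ha' j (congrFun (Prod.ext_iff.1 haa).2 j)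
  · intro u hu u' hu' hne
    exfalso
    apply hne
    obtain ⟨h1, h2⟩ := Finset.mem_filter.1 hu
    obtain ⟨h3, h4⟩ := Finset.mem_filter.1 hu'
    obtain ⟨-, hu2, hu3⟩ := s9kd_mem_usesG.1 h1
    obtain ⟨-, hv2, hv3⟩ := s9kd_mem_usesG.1 h3
    exact Prod.ext (hu2.trans hv2.symm) (cell_eq_of_depth_of_mem (h2.trans h4.symm) hu3 hv3)

/-- hypothesis 3.  LEAF P-S9-COUNT-D -/
theorem s9k_sep (hV : S.Valid c0 C0 p PC tys) (hP : S9ParOk p d) (x : ℝ) (cfg : S9Cfg S9E) (hc : S9CfgOk p cfg) (g : ℕ) :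
    S9Sep (S.scP p x cfg g) (S.occ p x cfg g) := by
  intro o ho o' ho' i hi hne n hn
  obtain ⟨u, hu, a, ha, rfl⟩ := s9kd_mem_occ.1 ho
  obtain ⟨u', hu', a', ha', rfl⟩ := s9kd_mem_occ.1 ho'
  have hj : S.sd i = false := (Finset.mem_filter.1 hi).2
  obtain ⟨hu1, hu2, hu3⟩ := s9kd_mem_usesG.1 hu
  obtain ⟨hv1, hv2, hv3⟩ := s9kd_mem_usesG.1 hu'
  obtain ⟨k1, k2⟩ := s9kd_tup_core ha i hj
  obtain ⟨k3, k4⟩ := s9kd_tup_core ha' i hj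
  have h10 : 10 ≤ cfg.1.1 := hP.up_ge _ hc.1
  have hne' : a i ≠ a' i := by
    intro h
    apply hne
    show S.val x a i = S.val x a' i
    unfold S9Sys.val
    rw [h]
  have := hV.sep i hj cfg.1.1 hc.1 u hu1 u' hv1 (hu2.trans hv2.symm) (a i) k1 (a' i) k3 (k2.trans k4.symm) hne' x ⟨hu3, hv3⟩
    (fun k => 6 ^ 8 * n k) (s9kd_box68 _ n hn)
  rw [s9kd_R, s9kd_R, s9kd_dot68 (S := S) (p := p) x cfg g h10 n]
  show p.Xi / 2 * max u.2.len⁻¹ u'.2.len⁻¹ < |S.val x a i - S.val x a' i + _|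
  unfold S9Sys.val
  simp only [hj, Bool.false_eq_true, if_false]
  rw [← hu2]
  exact this

/-- hypothesis 5.  LEAF P-S9-COUNT-D -/
theorem s9k_gap (hV : S.Valid c0 C0 p PC tys) (hP : S9ParOk p d) (x : ℝ) (cfg : S9Cfg S9E) (hc : S9CfgOk p cfg) (g : ℕ) :
    ∀ o ∈ S.occ p x cfg g, ∀ n : Fin d → ℤ, (∀ k, |(n k : ℝ)| ≤ (S.scP p x cfg g).Q) →
      ¬ ((S.scP p x cfg g).μ * (S.scP p x cfg g).R o.1 / 1000 ≤ |(S.scP p x cfg g).dot n| ∧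
        |(S.scP p x cfg g).dot n| ≤ 1000 * (S.scP p x cfg g).ν * (S.scP p x cfg g).R o.1) := by
  intro o ho n hn
  obtain ⟨u, hu, a, ha, rfl⟩ := s9kd_mem_occ.1 ho
  obtain ⟨hu1, hu2, hu3⟩ := s9kd_mem_usesG.1 hu
  have h10 : 10 ≤ cfg.1.1 := hP.up_ge _ hc.1
  obtain ⟨j, hj⟩ := s9kd_core hV
  obtain ⟨k1, -⟩ := s9kd_tup_core ha j hj
  have hex : ∃ j, S.sd j = false ∧ ∃ D ∈ S.clsOf j u, S.good j u cfg.1.1 D := by
    unfold S9Sys.lab at k1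
    obtain ⟨D, hD, -⟩ := Finset.mem_image.1 k1
    obtain ⟨hD1, hD2⟩ := Finset.mem_filter.1 hD
    exact ⟨j, hj, D, hD1, hD2⟩
  obtain ⟨d', kap, hk⟩ := hV.dich u hu1 cfg.1.1 hc.1 hex
  obtain ⟨hk1, hk2⟩ := hk (fun k => 6 ^ 8 * n k) (s9kd_box68 _ n hn)
  rw [hu2, ← s9kd_dot68' (p := p) x cfg g h10 n] at hk1 hk2
  rw [s9kd_R]
  show ¬ (((2 : ℝ) ^ cfg.b)⁻¹ * u.2.len⁻¹ / 1000 ≤ _ ∧ _ ≤ 1000 * (4 * (2 : ℝ) ^ cfg.c) * u.2.len⁻¹)
  set D := |(S.scP p x cfg g).dot n| with hD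
  have hr := cell_len_pos u.2
  set r := u.2.len with hrdef
  rintro ⟨g1, g2⟩
  have hDs : (100 : ℝ) ≤ p.Ds := by exact_mod_cast hP.Ds_ge
  have hU0 : 0 < p.U0 := by unfold S8Par.U0; positivity
  have hTT : 8000 * p.U0 < p.TT := by
    refine lt_of_lt_of_le ?_ hP.TT_big
    unfold S8Par.U0
    have e : (p.Ds : ℝ) ^ 1001 = (p.Ds : ℝ) ^ 250 * (p.Ds : ℝ) ^ 751 := by rw [← pow_add]
    rw [e, mul_comm]
    apply mul_lt_mul_of_pos_left _ (by positivity)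
    calc (8000 : ℝ) < 100 ^ 2 := by norm_num
      _ ≤ (p.Ds : ℝ) ^ 2 := by gcongr
      _ ≤ (p.Ds : ℝ) ^ 751 := pow_le_pow_right₀ (by linarith) (by norm_num)
  have hTT0 : 0 < p.TT := by linarith
  have g1' : ((2 : ℝ) ^ cfg.b)⁻¹ / 1000 ≤ r * D := by
    have := mul_le_mul_of_nonneg_left g1 hr.le
    calc ((2 : ℝ) ^ cfg.b)⁻¹ / 1000 = r * (((2 : ℝ) ^ cfg.b)⁻¹ * r⁻¹ / 1000) := by field_simp
      _ ≤ r * D := this
  have g2' : r * D ≤ 1000 * (4 * (2 : ℝ) ^ cfg.c) := by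
    have := mul_le_mul_of_nonneg_left g2 hr.le
    calc r * D ≤ r * (1000 * (4 * (2 : ℝ) ^ cfg.c) * r⁻¹) := this
      _ = 1000 * (4 * (2 : ℝ) ^ cfg.c) := by field_simp
  by_cases hz : kap (fun k => 6 ^ 8 * n k) = 0
  · have h1 := hk1 hz
    have h2 : ((2 : ℝ) ^ cfg.b)⁻¹ / 1000 ≤ p.TT⁻¹ := g1'.trans h1
    have hb : (0 : ℝ) < 2 ^ cfg.b := by positivity
    have h3 : p.TT ≤ 1000 * 2 ^ cfg.b := by
      rw [div_le_iff₀ (by norm_num), inv_le_comm₀ hb (by positivity)] at h2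
      have e : (p.TT⁻¹ * 1000)⁻¹ = p.TT / 1000 := by
        rw [mul_inv, inv_inv]; ring
      rw [e] at h2
      linarith
    have := hc.2.1
    linarith
  · have h1 := hk2 hz
    have := hc.2.2.1
    linarith

/-- hypothesis 4.  LEAF P-S9-COUNT-D -/
theorem s9k_ann (hV : S.Valid c0 C0 p PC tys) (x : ℝ) (cfg : S9Cfg S9E) (g : ℕ) :
    ∀ l' : Fin 4, (∀ i, i ≠ l' → i ∈ (S.scP p x cfg g).J) → ∀ o ∈ S.occ p x cfg g,
      ∃ n : Fin d → ℤ, (∀ k, |(n k : ℝ)| ≤ (S.scP p x cfg g).B) ∧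
        (S.scP p x cfg g).μ * (S.scP p x cfg g).R o.1 ≤ |scLinR l' o.2 + 36 * (S.scP p x cfg g).dot n| ∧
        |scLinR l' o.2 + 36 * (S.scP p x cfg g).dot n| ≤ (S.scP p x cfg g).ν * (S.scP p x cfg g).R o.1 := by
  intro l' hl' o ho
  obtain ⟨u, hu, a, ha, rfl⟩ := s9kd_mem_occ.1 ho
  obtain ⟨hu1, hu2, hu3⟩ := s9kd_mem_usesG.1 hu
  have hDs : 0 < p.Ds := by
    obtain ⟨j, hj⟩ := s9kd_core hV
    obtain ⟨k1, -⟩ := s9kd_tup_core ha j hj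
    unfold S9Sys.lab at k1
    obtain ⟨D, hD, -⟩ := Finset.mem_image.1 k1
    obtain ⟨hD1, -⟩ := Finset.mem_filter.1 hD
    unfold S9Sys.clsOf at hD1
    obtain ⟨m, hm, -⟩ := Finset.mem_image.1 hD1
    exact lt_of_lt_of_le (Finset.card_pos.2 ⟨m, hm⟩) (hV.md_card j u hu1)
  obtain ⟨n0, m0, hn0, hm0, t1, t2, t3⟩ := s9k_tests hDs x cfg u a ha
  rw [hu2] at t1 t2 t3
  have hr := cell_len_pos u.2
  set r := u.2.len with hrdef
  have hc0 : (0 : ℝ) < 2 ^ cfg.c := by positivity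
  have hbox : ∀ (m : Fin d → ℤ), S9Box (p.Bx cfg.1.1) m → ∀ k, |(m k : ℝ)| ≤ (p.Bx cfg.1.1 : ℝ) := by
    intro m hm k
    have := hm k
    exact_mod_cast this
  have key : ∀ (n : Fin d → ℤ) (Y : ℝ), scLinR l' (S.val x a) + s9dot n (S.xi g cfg.1.1) = Y →
      (∀ k, |(n k : ℝ)| ≤ 4 * (p.Bx cfg.1.1 : ℝ)) → ((2 : ℝ) ^ cfg.b)⁻¹ ≤ r * |Y| → r * |Y| ≤ 4 * (2 : ℝ) ^ cfg.c →
      ∃ n : Fin d → ℤ, (∀ k, |(n k : ℝ)| ≤ (S.scP p x cfg g).B) ∧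
        (S.scP p x cfg g).μ * (S.scP p x cfg g).R u.2.depth ≤ |scLinR l' (S.val x a) + 36 * (S.scP p x cfg g).dot n| ∧
        |scLinR l' (S.val x a) + 36 * (S.scP p x cfg g).dot n| ≤ (S.scP p x cfg g).ν * (S.scP p x cfg g).R u.2.depth := by
    intro n Y hY hn h1 h2
    refine ⟨n, fun k => ?_, ?_, ?_⟩
    · show |(n k : ℝ)| ≤ ((4 * p.Bx cfg.1.1 : ℕ) : ℝ)
      push_cast
      exact hn k
    · rw [s9kd_R, s9kd_dot36, hY]
      show ((2 : ℝ) ^ cfg.b)⁻¹ * r⁻¹ ≤ |Y|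
      rw [← div_eq_mul_inv, div_le_iff₀ hr]
      linarith
    · rw [s9kd_R, s9kd_dot36, hY]
      show |Y| ≤ 4 * (2 : ℝ) ^ cfg.c * r⁻¹
      rw [← div_eq_mul_inv, le_div_iff₀ hr]
      linarith
  by_cases hs : S.hasSide
  · have hanc : S.anc = l' := by
      have h1 : S.sd S.anc = true := by
        have hs' : ∃ l, S.sd l = true := hs
        unfold S9Sys.anc
        rw [dif_pos hs']
        exact hs'.choose_spec
      by_contra hne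
      have := (Finset.mem_filter.1 (hl' _ hne)).2
      rw [h1] at this
      exact absurd this (by simp)
    refine key m0 (S.Tv x a + s9dot m0 (S.xi g cfg.1.1)) ?_ (fun k => ?_) (t2 hs) (by linarith)
    · congr 1
      unfold scLinR S9Sys.Tv
      rw [hanc]
      rfl
    · have := hbox m0 hm0 k
      have h0 : (0 : ℝ) ≤ (p.Bx cfg.1.1 : ℝ) := Nat.cast_nonneg _
      linarith
  · obtain ⟨t4, t5⟩ := t3 hs
    have hanc : S.anc = 0 := by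
      have hs' : ¬ ∃ l, S.sd l = true := hs
      unfold S9Sys.anc
      rw [dif_neg hs']
    have hl3 : (((l' : ℕ) : ℝ)) ≤ 3 := by
      have : (l' : ℕ) ≤ 3 := by omega
      exact_mod_cast this
    have hl0 : (0 : ℝ) ≤ (((l' : ℕ) : ℝ)) := Nat.cast_nonneg _
    refine key (fun k => m0 k - ((l' : ℕ) : ℤ) * n0 k)
      ((S.Tv x a + s9dot m0 (S.xi g cfg.1.1)) - (((l' : ℕ) : ℝ)) * (S.Qv x a + s9dot n0 (S.xi g cfg.1.1))) ?_ (fun k => ?_) (t5 l') ?_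
    · have eA : scLinR l' (S.val x a) = S.Tv x a - ((l' : ℕ) : ℝ) * S.Qv x a := by
        unfold scLinR S9Sys.Tv S9Sys.Qv scAl s9al
        rw [hanc, Finset.mul_sum, ← Finset.sum_sub_distrib]
        refine Finset.sum_congr rfl fun i _ => ?_
        push_cast
        simp only [Fin.val_zero, Nat.cast_zero, sub_zero]
        ring
      have eB : s9dot (fun k => m0 k - ((l' : ℕ) : ℤ) * n0 k) (S.xi g cfg.1.1) =
          s9dot m0 (S.xi g cfg.1.1) - ((l' : ℕ) : ℝ) * s9dot n0 (S.xi g cfg.1.1) := by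
        unfold s9dot
        rw [Finset.mul_sum, ← Finset.sum_sub_distrib]
        refine Finset.sum_congr rfl fun i _ => ?_
        push_cast
        ring
      rw [eA, eB]
      ring
    · have h1 := hbox m0 hm0 k
      have h2 := hbox n0 hn0 k
      push_cast
      calc |(m0 k : ℝ) - ((l' : ℕ) : ℝ) * (n0 k : ℝ)| ≤ |(m0 k : ℝ)| + |((l' : ℕ) : ℝ) * (n0 k : ℝ)| := abs_sub _ _
        _ = |(m0 k : ℝ)| + ((l' : ℕ) : ℝ) * |(n0 k : ℝ)| := by rw [abs_mul, abs_of_nonneg hl0]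
        _ ≤ (p.Bx cfg.1.1 : ℝ) + 3 * (p.Bx cfg.1.1 : ℝ) := by
            have : ((l' : ℕ) : ℝ) * |(n0 k : ℝ)| ≤ 3 * (p.Bx cfg.1.1 : ℝ) := mul_le_mul hl3 h2 (abs_nonneg _) (by norm_num)
            linarith
        _ = 4 * (p.Bx cfg.1.1 : ℝ) := by ring
    · set T := S.Tv x a + s9dot m0 (S.xi g cfg.1.1)
      set Q := S.Qv x a + s9dot n0 (S.xi g cfg.1.1)
      calc r * |T - ((l' : ℕ) : ℝ) * Q| ≤ r * (|T| + ((l' : ℕ) : ℝ) * |Q|) := by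
            apply mul_le_mul_of_nonneg_left _ hr.le
            calc |T - ((l' : ℕ) : ℝ) * Q| ≤ |T| + |((l' : ℕ) : ℝ) * Q| := abs_sub _ _
              _ = |T| + ((l' : ℕ) : ℝ) * |Q| := by rw [abs_mul, abs_of_nonneg hl0]
        _ = r * |T| + ((l' : ℕ) : ℝ) * (r * |Q|) := by ring
        _ ≤ 2 ^ cfg.c + 3 * 2 ^ cfg.c := by
            have : ((l' : ℕ) : ℝ) * (r * |Q|) ≤ 3 * 2 ^ cfg.c := mul_le_mul hl3 t4 (by positivity) (by norm_num)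
            linarith
        _ = 4 * 2 ^ cfg.c := by ring

/-! ### helpers of COUNT-E, COUNT-G (helper22) -/

theorem s9k_Sp_props (hV : S.Valid c0 C0 p PC tys) (u : ℕ × Cell) (hu : u ∈ S.uses) (ρ : Fin S.nof) :
    Measurable (S.Sp u ρ) ∧ IntegrableOn (fun y => ‖S.Sp u ρ y‖ ^ 2) u.2.set ∧
      nnorm 2 u.2 (S.Sp u ρ) ≤ 2 * nnorm 2 u.2 (S.Sd u) := by
  have hcm : Measurable (S.cbar u.1) := by
    unfold S9Sys.cbar
    exact measurable_const.mul (Finset.measurable_sum _ fun ρ _ => ((hV.gauS_meas u.1 ρ).norm.pow_const 2))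
  have hm : Measurable (S.Sp u ρ) := by
    unfold S9Sys.Sp S9Sys.Sq
    exact ((Complex.continuous_conj.measurable.comp (hV.gauS_meas u.1 ρ)).mul
      (Complex.measurable_ofReal.comp (hV.gauS_meas u.1 ρ).norm)).mul
      ((hV.Sd_meas u).div (Complex.measurable_ofReal.comp hcm))
  have hb : ∀ y ∈ u.2.set, ‖S.Sp u ρ y‖ ≤ 2 * ‖S.Sd u y‖ := by
    intro y _
    have h1 := hV.gauS_le u.1 ρ y
    have h2 : (1 : ℝ) / 2 ≤ S.cbar u.1 y := hV.gauS_avg u.1 y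
    unfold S9Sys.Sp S9Sys.Sq
    rw [norm_mul, norm_mul, RCLike.norm_conj, Complex.norm_real, norm_norm, norm_div, Complex.norm_real,
      Real.norm_of_nonneg (by linarith)]
    have h3 : ‖S.Sd u y‖ / S.cbar u.1 y ≤ 2 * ‖S.Sd u y‖ := by
      rw [div_le_iff₀ (by linarith)]; nlinarith [norm_nonneg (S.Sd u y)]
    have h4 : ‖S.gauS u.1 ρ y‖ * ‖S.gauS u.1 ρ y‖ ≤ 1 := by nlinarith [norm_nonneg (S.gauS u.1 ρ y)]
    calc ‖S.gauS u.1 ρ y‖ * ‖S.gauS u.1 ρ y‖ * (‖S.Sd u y‖ / S.cbar u.1 y) ≤ 1 * (2 * ‖S.Sd u y‖) :=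
          mul_le_mul h4 h3 (div_nonneg (norm_nonneg _) (by linarith)) (by norm_num)
      _ = _ := one_mul _
  obtain ⟨h1, h2⟩ := s9_nnorm_mono u.2 (S.Sd u) (S.Sp u ρ) 2 (by norm_num) hm (hV.Sd_int u hu) hb
  exact ⟨hm, h1, h2⟩

/-- disjoint windows + Bessel -/
theorem s9k_bL_sum (hV : S.Valid c0 C0 p PC tys) (x : ℝ) (u : ℕ × Cell) (hu : u ∈ S.uses) (h f : ℕ) {α : Type}
    (T : Finset α) (a : α → Fin 4 → ℕ)
    (hdis : (T : Set α).PairwiseDisjoint fun t => s9Win u.2 (S.xi u.1 h) (S.Qv x (a t)) (p.Bx h) ((2 : ℝ) ^ f)) :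
    ∑ t ∈ T, S.bL p x u h (a t) f ^ 2 ≤ 4 * nnorm 2 u.2 (S.Sd u) ^ 2 := by
  have hnof : (0 : ℝ) < S.nof := by exact_mod_cast hV.nof_pos
  have hsq : ∀ t, S.bL p x u h (a t) f ^ 2 = (S.nof : ℝ)⁻¹ *
      ∑ ρ, s9bsq u.2 x (S.xi u.1 h) (S.Qv x (a t)) (p.Bx h) ((2 : ℝ) ^ f) (S.Sp u ρ) := by
    intro t
    unfold S9Sys.bL
    rw [Real.sq_sqrt]
    refine mul_nonneg (by positivity) (Finset.sum_nonneg fun ρ _ => ?_)
    unfold s9bsq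
    exact Finset.sum_nonneg fun k _ => by positivity
  simp only [hsq]
  rw [← Finset.mul_sum, Finset.sum_comm]
  have hρ : ∀ ρ, ∑ t ∈ T, s9bsq u.2 x (S.xi u.1 h) (S.Qv x (a t)) (p.Bx h) ((2 : ℝ) ^ f) (S.Sp u ρ)
      ≤ 4 * nnorm 2 u.2 (S.Sd u) ^ 2 := by
    intro ρ
    obtain ⟨hm, hi, hn⟩ := s9k_Sp_props hV u hu ρ
    unfold s9bsq
    rw [← Finset.sum_biUnion hdis]
    refine (s9_fc_bessel u.2 x (S.Sp u ρ) hm hi _).trans ?_
    calc nnorm 2 u.2 (S.Sp u ρ) ^ 2 ≤ (2 * nnorm 2 u.2 (S.Sd u)) ^ 2 := pow_le_pow_left₀ (nnorm_nonneg _ _ _) hn 2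
      _ = _ := by ring
  calc (S.nof : ℝ)⁻¹ * ∑ ρ, ∑ t ∈ T, s9bsq u.2 x (S.xi u.1 h) (S.Qv x (a t)) (p.Bx h) ((2 : ℝ) ^ f) (S.Sp u ρ)
      ≤ (S.nof : ℝ)⁻¹ * ∑ _ρ : Fin S.nof, 4 * nnorm 2 u.2 (S.Sd u) ^ 2 :=
        mul_le_mul_of_nonneg_left (Finset.sum_le_sum fun ρ _ => hρ ρ) (by positivity)
    _ = 4 * nnorm 2 u.2 (S.Sd u) ^ 2 := by
        rw [Finset.sum_const, Finset.card_univ, Fintype.card_fin, nsmul_eq_mul]
        field_simp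

theorem s9k_mem_usesG {x : ℝ} {g : ℕ} {u : ℕ × Cell} : u ∈ S.usesG x g ↔ u ∈ S.uses ∧ u.1 = g ∧ x ∈ u.2.set := by
  unfold S9Sys.usesG
  rw [Finset.mem_filter]

theorem s9k_mem_occ {x : ℝ} {cfg : S9Cfg S9E} {g : ℕ} {o : ScOccR} :
    o ∈ S.occ p x cfg g ↔ ∃ u ∈ S.usesG x g, ∃ a ∈ S.tup p x cfg u, o = (u.2.depth, S.val x a) := by
  unfold S9Sys.occ
  simp only [Finset.mem_biUnion, Finset.mem_image]
  constructor
  · rintro ⟨u, hu, a, ha, rfl⟩; exact ⟨u, hu, a, ha, rfl⟩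
  · rintro ⟨u, hu, a, ha, rfl⟩; exact ⟨u, hu, a, ha, rfl⟩

theorem s9k_anc (hs : S.hasSide) : S.sd S.anc = true := by
  have hs' : ∃ l, S.sd l = true := hs
  unfold S9Sys.anc
  rw [dif_pos hs']
  exact hs'.choose_spec

theorem s9k_core_iff (hV : S.Valid c0 C0 p PC tys) (hs : S.hasSide) (j : Fin 4) : S.sd j = false ↔ j ≠ S.anc := by
  constructor
  · intro h he
    rw [he, s9k_anc hs] at h
    exact Bool.noConfusion h
  · intro hne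
    by_contra hj
    have hj' : S.sd j = true := by simpa using hj
    have hsub : ({j, S.anc} : Finset (Fin 4)) ⊆ Finset.univ.filter fun l => S.sd l = true := by
      intro k hk
      rw [Finset.mem_insert, Finset.mem_singleton] at hk
      rcases hk with rfl | rfl
      · simp [hj']
      · simp [s9k_anc hs]
    have h2 := Finset.card_le_card hsub
    rw [Finset.card_pair hne] at h2
    have := hV.sd_le
    omega

theorem s9k_num_Q (hP : S9ParOk p d) {h : ℕ} (hh : 10 ≤ h) : 288 * ((p.Bx h : ℕ) : ℝ) ≤ (p.E h : ℝ) / 6 ^ 8 := by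
  have hA := hP.A0_big
  have e : p.E h = p.A0 ^ 10 * p.A0 ^ (h - 10 + 1) := by
    unfold S8Par.E; rw [← pow_add]; congr 1; omega
  rw [le_div_iff₀ (by positivity), e]
  unfold S8Par.Bx S8Par.E
  push_cast
  have hA' : (6 : ℝ) ^ 10 * 10 ^ 9 * ((d : ℝ) + 1) ^ 2 * (p.Ds : ℝ) ^ 5 ≤ (p.A0 : ℝ) ^ 10 := by exact_mod_cast hA
  have h1 : 288 * (6 : ℝ) ^ 8 * (p.Ds : ℝ) ^ 5 ≤ (p.A0 : ℝ) ^ 10 := by
    refine le_trans ?_ hA'
    have h2 : (1 : ℝ) ≤ ((d : ℝ) + 1) ^ 2 := one_le_pow₀ (by linarith [(Nat.cast_nonneg d : (0 : ℝ) ≤ d)])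
    have h5 : 0 ≤ (p.Ds : ℝ) ^ 5 := by positivity
    have h3 : 288 * (6 : ℝ) ^ 8 ≤ (6 : ℝ) ^ 10 * 10 ^ 9 * ((d : ℝ) + 1) ^ 2 := by nlinarith
    exact mul_le_mul_of_nonneg_right h3 h5
  calc 288 * ((p.Ds : ℝ) ^ 5 * (p.A0 : ℝ) ^ (h - 10 + 1)) * 6 ^ 8
      = (288 * (6 : ℝ) ^ 8 * (p.Ds : ℝ) ^ 5) * (p.A0 : ℝ) ^ (h - 10 + 1) := by ring
    _ ≤ (p.A0 : ℝ) ^ 10 * (p.A0 : ℝ) ^ (h - 10 + 1) := mul_le_mul_of_nonneg_right h1 (by positivity)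

theorem s9k_num_Sg (hP : S9ParOk p d) {cfg : S9Cfg S9E} (hc : S9CfgOk p cfg) :
    12 * (2 : ℝ) ^ cfg.f + 2 * (2 : ℝ) ^ cfg.c ≤ p.Xi / 2 := by
  obtain ⟨_, _, hc2, hf⟩ := hc
  have hD : (100 : ℝ) ≤ p.Ds := by exact_mod_cast hP.Ds_ge
  have hf2 : (2 : ℝ) ^ cfg.f ≤ p.U0 := by
    have h1 : 2 ^ cfg.f ≤ 2 ^ p.F0 := Nat.pow_le_pow_right (by norm_num) hf
    have hne : p.Ds ^ 250 ≠ 0 := by
      have := hP.Ds_ge
      positivity
    have h2 : 2 ^ p.F0 ≤ p.Ds ^ 250 := Nat.pow_log_le_self 2 hne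
    unfold S8Par.U0
    exact_mod_cast h1.trans h2
  unfold S8Par.Xi
  unfold S8Par.U0 at hc2 hf2
  have e : (p.Ds : ℝ) ^ 1000 = (p.Ds : ℝ) ^ 250 * (p.Ds : ℝ) ^ 750 := by rw [← pow_add]
  have h750 : (32 : ℝ) ≤ (p.Ds : ℝ) ^ 750 := by
    calc (32 : ℝ) ≤ p.Ds := by linarith
      _ = (p.Ds : ℝ) ^ 1 := (pow_one _).symm
      _ ≤ (p.Ds : ℝ) ^ 750 := pow_le_pow_right₀ (by linarith) (by norm_num)
  have hU : 0 ≤ (p.Ds : ℝ) ^ 250 := by positivity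
  rw [e]
  nlinarith

theorem s9k_dot36 (x : ℝ) (cfg : S9Cfg S9E) (g : ℕ) (m : Fin d → ℤ) :
    36 * (S.scP p x cfg g).dot m = s9dot m (S.xi g cfg.1.1) := by
  unfold ScParR.dot s9dot S9Sys.scP
  rw [Finset.mul_sum]
  refine Finset.sum_congr rfl fun k _ => ?_
  simp only
  ring

theorem s9k_dot_sub (n n' : Fin d → ℤ) (ξ : Fin d → ℝ) : s9dot (n - n') ξ = s9dot n ξ - s9dot n' ξ := by
  unfold s9dot
  rw [← Finset.sum_sub_distrib]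
  refine Finset.sum_congr rfl fun k _ => ?_
  simp only [Pi.sub_apply]
  push_cast
  ring

theorem s9k_R (x : ℝ) (cfg : S9Cfg S9E) (g : ℕ) (I : Cell) : I.len * (S.scP p x cfg g).R I.depth = 1 := by
  unfold ScParR.R S9Sys.scP Cell.len
  simp only [one_mul]
  rw [← zpow_add₀ (by norm_num)]
  simp

/-- the upper half of the test, three cores -/
theorem s9k_up3 (hD : 0 < p.Ds) (x : ℝ) (cfg : S9Cfg S9E) (g : ℕ) :
    S9Up3 (S.scP p x cfg g) (S.occ p x cfg g) S.anc ((2 : ℝ) ^ cfg.c) ((p.Bx cfg.1.1 : ℕ) : ℝ) := by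
  intro o ho
  obtain ⟨u, hu, a, ha, rfl⟩ := s9k_mem_occ.1 ho
  obtain ⟨_, hug, _⟩ := s9k_mem_usesG.1 hu
  obtain ⟨n0, m0, _, hm0, h1, _⟩ := s9k_tests hD x cfg u a ha
  refine ⟨m0, fun k => ?_, ?_⟩
  · have := hm0 k
    exact_mod_cast this
  · have hr := cell_len_pos u.2
    have hR := s9k_R (S := S) (p := p) x cfg g u.2
    have e1 : scLinR S.anc (S.val x a) = S.Tv x a := rfl
    simp only
    rw [e1, s9k_dot36, ← hug]
    have hRpos : 0 < (S.scP p x cfg g).R u.2.depth := by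
      by_contra hn
      push Not at hn
      nlinarith
    calc |S.Tv x a + s9dot m0 (S.xi u.1 cfg.1.1)|
        = (u.2.len * |S.Tv x a + s9dot m0 (S.xi u.1 cfg.1.1)|) * (S.scP p x cfg g).R u.2.depth := by
          rw [mul_comm u.2.len, mul_assoc, hR, mul_one]
      _ ≤ (2 : ℝ) ^ cfg.c * (S.scP p x cfg g).R u.2.depth := mul_le_mul_of_nonneg_right h1 hRpos.le

/-- hypothesis 2: **the side budget** (disjoint windows + Bessel).  LEAF P-S9-COUNT-E -/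
theorem s9k_side (hV : S.Valid c0 C0 p PC tys) (hP : S9ParOk p d) (x : ℝ) (cfg : S9Cfg S9E) (hc : S9CfgOk p cfg) (g : ℕ)
    (hs : S.hasSide) (s : ℤ) (i : Fin 4) (hi : S.sd i = false) (x' : ℝ) :
    (((S.occ p x cfg g).filter fun o => o.1 = s ∧ o.2 i = x').card : ℝ) ≤ S.wS x cfg g s := by
  obtain ⟨O', hO'⟩ : ∃ O' : Finset ScOccR, O' = (S.occ p x cfg g).filter fun o => o.1 = s ∧ o.2 i = x' := ⟨_, rfl⟩
  rw [← hO']
  have hσ : 0 < cfg.sg S.anc := by unfold S9Cfg.sg; positivity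
  have hw0 : ∀ u : ℕ × Cell, 0 ≤ 4 * (cfg.sg S.anc ^ 2)⁻¹ * nnorm 2 u.2 (S.Sd u) ^ 2 := fun u => by positivity
  rcases O'.eq_empty_or_nonempty with he | ⟨o₀, ho₀⟩
  · rw [he]
    simp only [Finset.card_empty, Nat.cast_zero]
    unfold S9Sys.wS
    exact Finset.sum_nonneg fun u _ => hw0 u
  have hmem : ∀ o ∈ O', o ∈ S.occ p x cfg g ∧ o.1 = s ∧ o.2 i = x' := fun o ho => by
    rw [hO'] at ho; exact Finset.mem_filter.1 ho
  obtain ⟨u, hu, a₀, ha₀, ho₀'⟩ := s9k_mem_occ.1 (hmem o₀ ho₀).1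
  have hud : u.2.depth = s := by
    have := (hmem o₀ ho₀).2.1
    rw [ho₀'] at this
    exact this
  obtain ⟨huS, hug, hux⟩ := s9k_mem_usesG.1 hu
  have hrep : ∀ o, o ∈ O' → ∃ a, a ∈ S.tup p x cfg u ∧ o = (s, S.val x a) := by
    intro o ho
    obtain ⟨u', hu', a, ha, hoa⟩ := s9k_mem_occ.1 (hmem o ho).1
    obtain ⟨_, hug', hux'⟩ := s9k_mem_usesG.1 hu'
    have hd' : u'.2.depth = s := by
      have := (hmem o ho).2.1
      rw [hoa] at this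
      exact this
    have hcell : u'.2 = u.2 := cell_eq_of_depth_of_mem (hd'.trans hud.symm) hux' hux
    have huu : u' = u := Prod.ext (hug'.trans hug.symm) hcell
    rw [huu] at ha
    exact ⟨a, ha, by rw [hoa, hd']⟩
  choose! rep hrep1 hrep2 using hrep
  have hr := cell_len_pos u.2
  have hR := s9k_R (S := S) (p := p) x cfg g u.2
  rw [hud] at hR
  have hh10 : 10 ≤ cfg.1.1 := hP.up_ge _ hc.1
  -- the windows are disjoint
  have hdis : (O' : Set ScOccR).PairwiseDisjoint fun o =>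
      s9Win u.2 (S.xi u.1 cfg.1.1) (S.Qv x (rep o)) (p.Bx cfg.1.1) ((2 : ℝ) ^ cfg.f) := by
    intro o ho o' ho' hne
    rw [Function.onFun, Finset.disjoint_left]
    intro k hk hk'
    apply hne
    obtain ⟨n, hn, hkn⟩ := s9_mem_Win.1 hk
    obtain ⟨n', hn', hkn'⟩ := s9_mem_Win.1 hk'
    have ho1 : o.1 = s := (hmem o ho).2.1
    have ho1' : o'.1 = s := (hmem o' ho').2.1
    have hnn : ∀ k, |(((n - n') k : ℤ) : ℝ)| ≤ 2 * ((p.Bx cfg.1.1 : ℕ) : ℝ) := by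
      intro k
      have h1 : |((n k : ℤ) : ℝ)| ≤ ((p.Bx cfg.1.1 : ℕ) : ℝ) := by exact_mod_cast hn k
      have h2 : |((n' k : ℤ) : ℝ)| ≤ ((p.Bx cfg.1.1 : ℕ) : ℝ) := by exact_mod_cast hn' k
      simp only [Pi.sub_apply]
      push_cast
      exact (abs_sub _ _).trans (by linarith)
    have hq : |∑ k, o.2 k - ∑ k, o'.2 k + 36 * (S.scP p x cfg g).dot (n - n')|
        ≤ 4 * (2 : ℝ) ^ cfg.f * (S.scP p x cfg g).R o.1 := by
      have e1 : ∑ k, o.2 k = S.Qv x (rep o) := by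
        have : o.2 = S.val x (rep o) := congrArg Prod.snd (hrep2 o ho)
        rw [this]; rfl
      have e2 : ∑ k, o'.2 k = S.Qv x (rep o') := by
        have : o'.2 = S.val x (rep o') := congrArg Prod.snd (hrep2 o' ho')
        rw [this]; rfl
      rw [e1, e2, s9k_dot36, s9k_dot_sub, ho1, ← hug]
      have hRpos : 0 < (S.scP p x cfg g).R s := by
        by_contra hn
        push Not at hn
        nlinarith
      have h3 : u.2.len * |S.Qv x (rep o) - S.Qv x (rep o') + (s9dot n (S.xi u.1 cfg.1.1) - s9dot n' (S.xi u.1 cfg.1.1))|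
          ≤ 4 * (2 : ℝ) ^ cfg.f := by
        rw [← abs_of_pos hr, ← abs_mul]
        have e3 : u.2.len * (S.Qv x (rep o) - S.Qv x (rep o') + (s9dot n (S.xi u.1 cfg.1.1) - s9dot n' (S.xi u.1 cfg.1.1)))
            = ((k : ℝ) + u.2.len * (S.Qv x (rep o) + s9dot n (S.xi u.1 cfg.1.1)))
              - ((k : ℝ) + u.2.len * (S.Qv x (rep o') + s9dot n' (S.xi u.1 cfg.1.1))) := by ring
        rw [e3]
        exact (abs_sub _ _).trans (by linarith)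
      calc |S.Qv x (rep o) - S.Qv x (rep o') + (s9dot n (S.xi u.1 cfg.1.1) - s9dot n' (S.xi u.1 cfg.1.1))|
          = (u.2.len * |S.Qv x (rep o) - S.Qv x (rep o') + (s9dot n (S.xi u.1 cfg.1.1) - s9dot n' (S.xi u.1 cfg.1.1))|)
              * (S.scP p x cfg g).R s := by rw [mul_comm u.2.len, mul_assoc, hR, mul_one]
        _ ≤ 4 * (2 : ℝ) ^ cfg.f * (S.scP p x cfg g).R s := mul_le_mul_of_nonneg_right h3 hRpos.le
    have h2 : o.2 = o'.2 := s9k_win3 (S.scP p x cfg g) (S.occ p x cfg g) S.anc ((2 : ℝ) ^ cfg.c) ((p.Bx cfg.1.1 : ℕ) : ℝ)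
      ((2 : ℝ) ^ cfg.f)
      (fun j => by
        rw [← s9k_core_iff hV hs j]
        unfold S9Sys.scP
        simp)
      (by unfold S9Sys.scP; norm_num) (by positivity) (by positivity) (by positivity)
      (fun o ho => by
        obtain ⟨u, _, a, _, rfl⟩ := s9k_mem_occ.1 ho
        simp only
        unfold S9Sys.val
        rw [if_pos (s9k_anc hs)])
      (s9k_sep hV hP x cfg hc g) (s9k_up3 (lt_of_lt_of_le (by norm_num) hP.Ds_ge) x cfg g) (s9k_num_Q hP hh10) (s9k_num_Sg hP hc)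
      o o' (hmem o ho).1 (hmem o' ho').1 (ho1.trans ho1'.symm) i
      (by unfold S9Sys.scP; simp [hi])
      ((hmem o ho).2.2.trans (hmem o' ho').2.2.symm) (n - n') hnn hq
    exact Prod.ext (ho1.trans ho1'.symm) h2
  have hsum := s9k_bL_sum hV x u huS cfg.1.1 cfg.f O' rep hdis
  -- every counted triple is large
  have hbig : ∀ o ∈ O', cfg.sg S.anc ^ 2 ≤ S.bL p x u cfg.1.1 (rep o) cfg.f ^ 2 := by
    intro o ho
    have h1 := (Finset.mem_filter.1 (hrep1 o ho)).2.2.1 S.anc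
    have e : S.amp p x u cfg.1.1 (rep o) cfg.f S.anc = S.bL p x u cfg.1.1 (rep o) cfg.f := by
      unfold S9Sys.amp
      rw [if_pos (s9k_anc hs)]
    rw [e] at h1
    have h2 := (s9k_binA _ h1.1).1
    rw [h1.2] at h2
    exact pow_le_pow_left₀ hσ.le h2 2
  have hcard : (O'.card : ℝ) * cfg.sg S.anc ^ 2 ≤ 4 * nnorm 2 u.2 (S.Sd u) ^ 2 := by
    calc (O'.card : ℝ) * cfg.sg S.anc ^ 2 = ∑ _o ∈ O', cfg.sg S.anc ^ 2 := by rw [Finset.sum_const, nsmul_eq_mul]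
      _ ≤ ∑ o ∈ O', S.bL p x u cfg.1.1 (rep o) cfg.f ^ 2 := Finset.sum_le_sum hbig
      _ ≤ _ := hsum
  have hterm : (O'.card : ℝ) ≤ 4 * (cfg.sg S.anc ^ 2)⁻¹ * nnorm 2 u.2 (S.Sd u) ^ 2 := by
    have hσ2 : 0 < cfg.sg S.anc ^ 2 := by positivity
    calc (O'.card : ℝ) = ((O'.card : ℝ) * cfg.sg S.anc ^ 2) * (cfg.sg S.anc ^ 2)⁻¹ := by field_simp
      _ ≤ (4 * nnorm 2 u.2 (S.Sd u) ^ 2) * (cfg.sg S.anc ^ 2)⁻¹ := mul_le_mul_of_nonneg_right hcard (by positivity)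
      _ = _ := by ring
  refine hterm.trans ?_
  unfold S9Sys.wS
  exact Finset.single_le_sum (f := fun u : ℕ × Cell => 4 * (cfg.sg S.anc ^ 2)⁻¹ * nnorm 2 u.2 (S.Sd u) ^ 2)
    (fun u _ => hw0 u) (Finset.mem_filter.2 ⟨hu, hud⟩)

/-! ### auxiliary facts for `s9k_ok` -/

theorem s9kf_R (x : ℝ) (cfg : S9Cfg S9E) (g : ℕ) (I : Cell) : (S.scP p x cfg g).R I.depth = I.len⁻¹ := by
  show (1 : ℝ) * (2 : ℝ) ^ I.depth = ((2 : ℝ) ^ (-I.depth))⁻¹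
  rw [one_mul, zpow_neg, inv_inv]

theorem s9kf_dot (x : ℝ) (cfg : S9Cfg S9E) (g : ℕ) (n : Fin d → ℤ) :
    36 * (S.scP p x cfg g).dot n = s9dot n (S.xi g cfg.1.1) := by
  show 36 * ∑ k, (n k : ℝ) * (S.xi g cfg.1.1 k / 36) = ∑ k, (n k : ℝ) * S.xi g cfg.1.1 k
  rw [Finset.mul_sum]
  exact Finset.sum_congr rfl fun k _ => by ring

theorem s9kf_side_unique (hV : S.Valid c0 C0 p PC tys) {l l' : Fin 4} (h : S.sd l = true) (h' : S.sd l' = true) : l = l' :=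
  Finset.card_le_one.1 hV.sd_le l (by simp [h]) l' (by simp [h'])

theorem s9kf_anc_sd (hs : S.hasSide) : S.sd S.anc = true := by
  have hs' : ∃ l, S.sd l = true := hs
  unfold S9Sys.anc
  rw [dif_pos hs']
  exact hs'.choose_spec

theorem s9kf_anc_zero (hs : ¬ S.hasSide) : S.anc = 0 := by
  have hs' : ¬ ∃ l, S.sd l = true := hs
  unfold S9Sys.anc
  rw [dif_neg hs']

theorem s9kf_J_mem (x : ℝ) (cfg : S9Cfg S9E) (g : ℕ) (i : Fin 4) : i ∈ (S.scP p x cfg g).J ↔ S.sd i = false := by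
  show i ∈ Finset.univ.filter (fun j => S.sd j = false) ↔ _
  simp

theorem s9kf_J_card (x : ℝ) (cfg : S9Cfg S9E) (g : ℕ) :
    (S.scP p x cfg g).J.card + (Finset.univ.filter fun l => S.sd l = true).card = 4 := by
  show (Finset.univ.filter (fun j => S.sd j = false)).card + _ = 4
  have h := Finset.card_filter_add_card_filter_not (s := (Finset.univ : Finset (Fin 4))) (fun j => S.sd j = false)
  have e : (Finset.univ.filter fun l => ¬ S.sd l = false) = Finset.univ.filter fun l => S.sd l = true := by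
    apply Finset.filter_congr
    intro l _
    simp
  rw [e] at h
  simpa using h

theorem s9kf_hasSide_of_card {x : ℝ} {cfg : S9Cfg S9E} {g : ℕ} (h : (S.scP p x cfg g).J.card = 3) : S.hasSide := by
  have h1 := s9kf_J_card (S := S) (p := p) x cfg g
  rw [h] at h1
  have h2 : 0 < (Finset.univ.filter fun l => S.sd l = true).card := by omega
  obtain ⟨l, hl⟩ := Finset.card_pos.1 h2
  exact ⟨l, (Finset.mem_filter.1 hl).2⟩

theorem s9kf_J_iff_side (hV : S.Valid c0 C0 p PC tys) (hs : S.hasSide) (x : ℝ) (cfg : S9Cfg S9E) (g : ℕ) (i : Fin 4) :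
    i ∈ (S.scP p x cfg g).J ↔ i ≠ S.anc := by
  rw [s9kf_J_mem]
  constructor
  · intro h e
    rw [e, s9kf_anc_sd hs] at h
    exact absurd h (by simp)
  · intro h
    by_contra h2
    have h3 : S.sd i = true := by simpa using h2
    exact h (s9kf_side_unique hV h3 (s9kf_anc_sd hs))

theorem s9kf_J_all (hs : ¬ S.hasSide) (x : ℝ) (cfg : S9Cfg S9E) (g : ℕ) (i : Fin 4) : i ∈ (S.scP p x cfg g).J := by
  rw [s9kf_J_mem]
  by_contra h2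
  have h3 : S.sd i = true := by simpa using h2
  exact hs ⟨i, h3⟩

theorem s9kf_J_anc (hV : S.Valid c0 C0 p PC tys) (x : ℝ) (cfg : S9Cfg S9E) (g : ℕ) (i : Fin 4) (hi : i ≠ S.anc) :
    i ∈ (S.scP p x cfg g).J := by
  by_cases hs : S.hasSide
  · exact (s9kf_J_iff_side hV hs x cfg g i).2 hi
  · exact s9kf_J_all hs x cfg g i

theorem s9kf_mem_occ {x : ℝ} {cfg : S9Cfg S9E} {g : ℕ} {o : ScOccR} :
    o ∈ S.occ p x cfg g ↔ ∃ u ∈ S.usesG x g, ∃ a ∈ S.tup p x cfg u, (u.2.depth, S.val x a) = o := by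
  unfold S9Sys.occ
  simp only [Finset.mem_biUnion, Finset.mem_image]

theorem s9kf_mem_usesG {x : ℝ} {g : ℕ} {u : ℕ × Cell} : u ∈ S.usesG x g ↔ u ∈ S.uses ∧ u.1 = g ∧ x ∈ u.2.set := by
  unfold S9Sys.usesG
  simp only [Finset.mem_filter]

/-! numerics -/

theorem s9kf_Bx_pos (hP : S9ParOk p d) (h : ℕ) : 1 ≤ p.Bx h := by
  unfold S8Par.Bx S8Par.E
  have h1 : 1 ≤ p.Ds := le_trans (by norm_num) hP.Ds_ge
  have h2 : 1 ≤ p.A0 := le_trans (by norm_num) hP.A0_ge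
  exact Nat.one_le_iff_ne_zero.2 (Nat.mul_ne_zero (pow_ne_zero _ (by omega)) (pow_ne_zero _ (by omega)))

theorem s9kf_num_Q (hP : S9ParOk p d) (h : ℕ) (hh : 10 ≤ h) :
    4 * 10 ^ 6 * ((d : ℝ) + 1) ^ 2 * ((4 * p.Bx h : ℕ) : ℝ) ≤ (p.E h : ℝ) / 6 ^ 8 := by
  rw [le_div_iff₀ (by positivity)]
  have hE : (p.E h : ℝ) = (p.A0 : ℝ) ^ (h - 10 + 1) * (p.A0 : ℝ) ^ 10 := by
    unfold S8Par.E
    rw [← pow_add]
    have e : h - 10 + 1 + 10 = h + 1 := by omega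
    rw [e]
    push_cast
    rfl
  have hB : ((4 * p.Bx h : ℕ) : ℝ) = 4 * ((p.Ds : ℝ) ^ 5 * (p.A0 : ℝ) ^ (h - 10 + 1)) := by
    unfold S8Par.Bx S8Par.E
    push_cast
    rfl
  have hb : (6 : ℝ) ^ 10 * 10 ^ 9 * ((d : ℝ) + 1) ^ 2 * (p.Ds : ℝ) ^ 5 ≤ (p.A0 : ℝ) ^ 10 := by
    exact_mod_cast hP.A0_big
  rw [hE, hB]
  generalize (p.A0 : ℝ) ^ 10 = Y at hb
  have hX : (0 : ℝ) ≤ (p.A0 : ℝ) ^ (h - 10 + 1) := by positivity
  generalize (p.A0 : ℝ) ^ (h - 10 + 1) = X at hX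
  have hZ : (0 : ℝ) ≤ ((d : ℝ) + 1) ^ 2 * (p.Ds : ℝ) ^ 5 := by positivity
  have hb' : (6 : ℝ) ^ 10 * 10 ^ 9 * (((d : ℝ) + 1) ^ 2 * (p.Ds : ℝ) ^ 5) ≤ Y := by linarith
  have e1 : 4 * 10 ^ 6 * ((d : ℝ) + 1) ^ 2 * (4 * ((p.Ds : ℝ) ^ 5 * X)) * 6 ^ 8 =
      (16 * 10 ^ 6 * 6 ^ 8 * (((d : ℝ) + 1) ^ 2 * (p.Ds : ℝ) ^ 5)) * X := by ring
  rw [e1]
  generalize ((d : ℝ) + 1) ^ 2 * (p.Ds : ℝ) ^ 5 = Z at hZ hb'
  have h2 : 16 * 10 ^ 6 * 6 ^ 8 * Z ≤ Y := by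
    refine le_trans ?_ hb'
    apply mul_le_mul_of_nonneg_right _ hZ
    norm_num
  calc 16 * 10 ^ 6 * 6 ^ 8 * Z * X ≤ Y * X := mul_le_mul_of_nonneg_right h2 hX
    _ = X * Y := mul_comm _ _

theorem s9kf_num_Sg (hP : S9ParOk p d) (c : ℕ) (hc : (2 : ℝ) ^ c ≤ 2 * p.U0) :
    4 * 10 ^ 6 * ((d : ℝ) + 1) ^ 2 * (4 * (2 : ℝ) ^ c) ≤ p.Xi / 2 := by
  unfold S8Par.U0 at hc
  unfold S8Par.Xi
  have hD : (100 : ℝ) ≤ (p.Ds : ℝ) := by exact_mod_cast hP.Ds_ge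
  have hd : (d : ℝ) + 1 ≤ (p.Ds : ℝ) := by exact_mod_cast hP.d_le
  generalize (p.Ds : ℝ) = D at hc hD hd
  have hd0 : (0 : ℝ) ≤ (d : ℝ) + 1 := by positivity
  have h1 : ((d : ℝ) + 1) ^ 2 ≤ D ^ 2 := pow_le_pow_left₀ hd0 hd 2
  have h2 : (10 : ℝ) ^ 8 ≤ D ^ 748 := by
    calc (10 : ℝ) ^ 8 = 100 ^ 4 := by norm_num
      _ ≤ D ^ 4 := pow_le_pow_left₀ (by norm_num) hD 4
      _ ≤ D ^ 748 := pow_le_pow_right₀ (by linarith) (by norm_num)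
  have h3 : (0 : ℝ) < D ^ 252 := by positivity
  calc 4 * 10 ^ 6 * ((d : ℝ) + 1) ^ 2 * (4 * (2 : ℝ) ^ c) ≤ 4 * 10 ^ 6 * D ^ 2 * (4 * (2 * D ^ 250)) := by gcongr
    _ = 32 * 10 ^ 6 * D ^ 252 := by ring
    _ ≤ (10 ^ 8 / 2) * D ^ 252 := by
        apply mul_le_mul_of_nonneg_right _ h3.le
        norm_num
    _ ≤ (D ^ 748 / 2) * D ^ 252 := by gcongr
    _ = D ^ 1000 / 2 := by ring

theorem s9kf_Wd_nonneg (d Bn : ℕ) : 0 ≤ s9Wd d Bn := by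
  unfold s9Wd
  apply Real.logb_nonneg (by norm_num)
  have : (0 : ℝ) ≤ ((d + 1 : ℕ) : ℝ) * (s8cCr (d + 1) Bn : ℝ) := by positivity
  linarith

theorem s9kf_Wd_mono (d : ℕ) {Bn Bn' : ℕ} (h : Bn ≤ Bn') : s9Wd d Bn ≤ s9Wd d Bn' := by
  unfold s9Wd
  apply Real.logb_le_logb_of_le (by norm_num)
  · have : (0 : ℝ) ≤ ((d + 1 : ℕ) : ℝ) * (s8cCr (d + 1) Bn : ℝ) := by positivity
    linarith
  · have h1 : s8cCr (d + 1) Bn ≤ s8cCr (d + 1) Bn' := by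
      unfold s8cCr
      exact Nat.pow_le_pow_left (Nat.mul_le_mul_left _ h) _
    have h2 : (s8cCr (d + 1) Bn : ℝ) ≤ (s8cCr (d + 1) Bn' : ℝ) := by exact_mod_cast h1
    gcongr

theorem s9kf_box_cast {B : ℕ} {n : Fin d → ℤ} (h : S9Box B n) (k : Fin d) : |(n k : ℝ)| ≤ (B : ℝ) := by
  have := h k
  exact_mod_cast this

/-- the linear forms -/
theorem s9kf_lin (x : ℝ) (a : Fin 4 → ℕ) : scLinR S.anc (S.val x a) = S.Tv x a := rfl

/-- multiplication by `len` -/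
theorem s9kf_len_le {I : Cell} {X Y : ℝ} (h : I.len * X ≤ Y) : X ≤ Y * I.len⁻¹ := by
  have hr := cell_len_pos I
  rw [← div_eq_mul_inv, le_div_iff₀ hr]
  linarith

theorem s9kf_le_len {I : Cell} {X Y : ℝ} (h : Y ≤ I.len * X) : Y * I.len⁻¹ ≤ X := by
  have hr := cell_len_pos I
  rw [← div_eq_mul_inv, div_le_iff₀ hr]
  linarith

theorem s9kf_up4 (hD : 0 < p.Ds) (hs : ¬ S.hasSide) (x : ℝ) (cfg : S9Cfg S9E) (g : ℕ) :
    S9Up4 (S.scP p x cfg g) (S.occ p x cfg g) ((2 : ℝ) ^ cfg.c) (p.Bx cfg.1.1 : ℝ) := by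
  intro o ho
  obtain ⟨u, hu, a, ha, rfl⟩ := s9kf_mem_occ.1 ho
  obtain ⟨n0, m0, hn0, hm0, h1, -, h3⟩ := s9k_tests hD x cfg u a ha
  obtain ⟨h4, -⟩ := h3 hs
  have hg : u.1 = g := (s9kf_mem_usesG.1 hu).2.1
  rw [hg] at h1 h4
  refine ⟨n0, m0, s9kf_box_cast hn0, s9kf_box_cast hm0, ?_, ?_⟩
  · rw [s9kf_dot, s9kf_R]
    exact s9kf_len_le h4
  · rw [s9kf_dot, s9kf_R, ← s9kf_anc_zero hs, s9kf_lin]
    exact s9kf_len_le h1

theorem s9kf_up3 (hD : 0 < p.Ds) (x : ℝ) (cfg : S9Cfg S9E) (g : ℕ) :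
    S9Up3 (S.scP p x cfg g) (S.occ p x cfg g) S.anc ((2 : ℝ) ^ cfg.c) (p.Bx cfg.1.1 : ℝ) := by
  intro o ho
  obtain ⟨u, hu, a, ha, rfl⟩ := s9kf_mem_occ.1 ho
  obtain ⟨n0, m0, hn0, hm0, h1, -, -⟩ := s9k_tests hD x cfg u a ha
  have hg : u.1 = g := (s9kf_mem_usesG.1 hu).2.1
  rw [hg] at h1
  refine ⟨m0, s9kf_box_cast hm0, ?_⟩
  rw [s9kf_dot, s9kf_R, s9kf_lin]
  exact s9kf_len_le h1

theorem s9kf_zero (x : ℝ) (cfg : S9Cfg S9E) (g : ℕ) (o : ScOccR) (ho : o ∈ S.occ p x cfg g) (i : Fin 4)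
    (hi : S.sd i = true) : o.2 i = 0 := by
  obtain ⟨u, hu, a, ha, rfl⟩ := s9kf_mem_occ.1 ho
  show S.val x a i = 0
  unfold S9Sys.val
  rw [if_pos hi]

theorem s9kf_Mm_core (x : ℝ) (cfg : S9Cfg S9E) (g : ℕ) (i : Fin 4) (hi : S.sd i = false) :
    S.Mm p x cfg i g = (((S.occ p x cfg g).image fun o => o.2 i).card : ℝ) := by
  unfold S9Sys.Mm
  rw [if_neg (by simp [hi])]

theorem s9kf_Mm_side (x : ℝ) (cfg : S9Cfg S9E) (g : ℕ) (i : Fin 4) (hi : S.sd i = true) :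
    S.Mm p x cfg i g = ∑ u ∈ S.usesG x g, 4 * (cfg.sg i ^ 2)⁻¹ * nnorm 2 u.2 (S.Sd u) ^ 2 := by
  unfold S9Sys.Mm
  rw [if_pos hi]

theorem s9kf_Mm_nonneg (x : ℝ) (cfg : S9Cfg S9E) (g : ℕ) (i : Fin 4) : 0 ≤ S.Mm p x cfg i g := by
  by_cases hi : S.sd i = true
  · rw [s9kf_Mm_side x cfg g i hi]
    exact Finset.sum_nonneg fun u _ => by positivity
  · rw [s9kf_Mm_core x cfg g i (by simpa using hi)]
    positivity

theorem s9kf_Mm_le_M (x : ℝ) (cfg : S9Cfg S9E) (g : ℕ) (i : Fin 4) : S.Mm p x cfg i g ≤ (S.scP p x cfg g).M := by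
  show _ ≤ max 1 (Finset.univ.sup' Finset.univ_nonempty fun i => S.Mm p x cfg i g)
  exact le_trans (Finset.le_sup' (fun i => S.Mm p x cfg i g) (Finset.mem_univ i)) (le_max_right _ _)

theorem s9kf_wS_nonneg (x : ℝ) (cfg : S9Cfg S9E) (g : ℕ) (s : ℤ) : 0 ≤ S.wS x cfg g s := by
  unfold S9Sys.wS
  exact Finset.sum_nonneg fun u _ => by positivity

theorem s9kf_wS_sum (hs : S.hasSide) (x : ℝ) (cfg : S9Cfg S9E) (g : ℕ) (T : Finset ℤ) :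
    ∑ s ∈ T, S.wS x cfg g s ≤ S.Mm p x cfg S.anc g := by
  rw [s9kf_Mm_side x cfg g _ (s9kf_anc_sd hs)]
  unfold S9Sys.wS
  exact Finset.sum_fiberwise_le_sum_of_sum_fiber_nonneg (fun s _ => Finset.sum_nonneg fun u _ => by positivity)

theorem s9kf_logb (b c : ℕ) : Real.logb 2 (4 * (2 : ℝ) ^ c / ((2 : ℝ) ^ b)⁻¹) = (b : ℝ) + c + 2 := by
  have e : 4 * (2 : ℝ) ^ c / ((2 : ℝ) ^ b)⁻¹ = (2 : ℝ) ^ (b + c + 2) := by
    rw [div_inv_eq_mul, pow_add, pow_add]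
    ring
  rw [e, Real.logb_pow, Real.logb_self_eq_one (by norm_num)]
  push_cast
  ring

/-- **all hypotheses of Lemma 9.1.**  LEAF P-S9-COUNT-F -/
theorem s9k_ok (hV : S.Valid c0 C0 p PC tys) (hP : S9ParOk p d) (x : ℝ) (cfg : S9Cfg S9E) (hc : S9CfgOk p cfg) (g : ℕ) :
    (S.scP p x cfg g).Ok (S.occ p x cfg g) := by
  have hh : 10 ≤ cfg.1.1 := hP.up_ge _ hc.1
  have hD : 0 < p.Ds := lt_of_lt_of_le (by norm_num) hP.Ds_ge
  have hQ := s9kf_num_Q hP cfg.1.1 hh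
  have hSg := s9kf_num_Sg hP cfg.c hc.2.2.1
  have hBx : (1 : ℝ) ≤ (p.Bx cfg.1.1 : ℝ) := by exact_mod_cast s9kf_Bx_pos hP cfg.1.1
  have hd1 : (1 : ℝ) ≤ ((d : ℝ) + 1) ^ 2 := one_le_pow₀ (by linarith [Nat.cast_nonneg (α := ℝ) d])
  have h2c : (1 : ℝ) ≤ (2 : ℝ) ^ cfg.c := one_le_pow₀ (by norm_num)
  have h2b : (1 : ℝ) ≤ (2 : ℝ) ^ cfg.b := one_le_pow₀ (by norm_num)
  have hQ' : 288 * (p.Bx cfg.1.1 : ℝ) ≤ (S.scP p x cfg g).Q := by
    refine le_trans ?_ hQ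
    push_cast
    nlinarith
  have hSg' : 8 * (2 : ℝ) ^ cfg.c ≤ (S.scP p x cfg g).Sg := by
    refine le_trans ?_ hSg
    nlinarith
  have hsep := s9k_sep hV hP x cfg hc g
  have hann := s9k_ann hV x cfg g
  have hμν : (S.scP p x cfg g).μ ≤ (S.scP p x cfg g).ν := by
    show ((2 : ℝ) ^ cfg.b)⁻¹ ≤ 4 * (2 : ℝ) ^ cfg.c
    have : ((2 : ℝ) ^ cfg.b)⁻¹ ≤ 1 := inv_le_one_of_one_le₀ h2b
    linarith
  refine
    { hJ := ?_, hM := le_max_left _ _, hL := ?_, hB := ?_, hμ0 := ?_, hμ1 := ?_, hν := ?_, hR0 := one_pos, hQ := hQ,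
      hSg := hSg, zero := ?_, card := ?_, pair := ?_, mult := ?_, w_nonneg := s9kf_wS_nonneg x cfg g, w_sum := ?_,
      side := ?_, sep := hsep, ann := hann, gap := s9k_gap hV hP x cfg hc g }
  · have h1 := s9kf_J_card (S := S) (p := p) x cfg g
    have h2 := hV.sd_le
    omega
  · show 1 ≤ ((d : ℝ) + 1) * (s9Wd d (4 * p.Bx cfg.1.1) + ((cfg.b : ℝ) + cfg.c + 2) + 1)
    have h1 := s9kf_Wd_nonneg d (4 * p.Bx cfg.1.1)
    have h2 : (0 : ℝ) ≤ (cfg.b : ℝ) := Nat.cast_nonneg _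
    have h3 : (0 : ℝ) ≤ (cfg.c : ℝ) := Nat.cast_nonneg _
    have h4 : (0 : ℝ) ≤ (d : ℝ) := Nat.cast_nonneg _
    nlinarith
  · show (1 : ℝ) ≤ ((4 * p.Bx cfg.1.1 : ℕ) : ℝ)
    push_cast
    linarith
  · show 0 < ((2 : ℝ) ^ cfg.b)⁻¹
    positivity
  · show ((2 : ℝ) ^ cfg.b)⁻¹ ≤ 1
    exact inv_le_one_of_one_le₀ h2b
  · show 1 ≤ 4 * (2 : ℝ) ^ cfg.c
    linarith
  · intro o ho i hi
    apply s9kf_zero x cfg g o ho i
    rw [s9kf_J_mem] at hi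
    simpa using hi
  · intro i hi
    rw [s9kf_J_mem] at hi
    rw [← s9kf_Mm_core x cfg g i hi]
    exact s9kf_Mm_le_M x cfg g i
  · by_cases hs : S.hasSide
    · exact s9k_pair3 _ _ S.anc _ _ (s9kf_J_iff_side hV hs x cfg g) one_pos (by positivity) (by positivity)
        (fun o ho => s9kf_zero x cfg g o ho _ (s9kf_anc_sd hs)) hsep (s9kf_up3 hD x cfg g) hQ' hSg'
    · exact s9k_pair4 _ _ _ _ (s9kf_J_all hs x cfg g) one_pos (by positivity) (by positivity) hsep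
        (s9kf_up4 hD hs x cfg g) hQ' hSg'
  · intro a
    have h1 := s9k_mult (S.scP p x cfg g) (S.occ p x cfg g) S.anc (4 * p.Bx cfg.1.1)
      (by have := s9kf_Bx_pos hP cfg.1.1; omega) le_rfl one_pos (by show 0 < ((2 : ℝ) ^ cfg.b)⁻¹; positivity) hμν
      (hann S.anc (fun i hi => s9kf_J_anc hV x cfg g i hi)) a
    refine le_trans h1 (le_of_eq ?_)
    show ((d : ℝ) + 1) * (s9Wd d (4 * p.Bx cfg.1.1) + Real.logb 2 (4 * (2 : ℝ) ^ cfg.c / ((2 : ℝ) ^ cfg.b)⁻¹) + 1) =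
      ((d : ℝ) + 1) * (s9Wd d (4 * p.Bx cfg.1.1) + ((cfg.b : ℝ) + cfg.c + 2) + 1)
    rw [s9kf_logb]
  · intro h3
    exact le_trans (s9kf_wS_sum (p := p) (s9kf_hasSide_of_card h3) x cfg g _) (s9kf_Mm_le_M x cfg g _)
  · intro h3 s i hi x'
    rw [s9kf_J_mem] at hi
    exact s9k_side hV hP x cfg hc g (s9kf_hasSide_of_card h3) s i hi x'

/-! ### auxiliary facts for `s9k_34` -/

theorem s9kf_Ns_zero (O : Finset ScOccR) (s : ℤ) (hs : s ∉ O.image Prod.fst) : s9Ns O s = 0 := by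
  unfold s9Ns
  rw [Finset.card_eq_zero, Finset.filter_eq_empty_iff]
  intro o ho h
  exact hs (Finset.mem_image.2 ⟨o, ho, h⟩)

theorem s9kf_sum_le (O : Finset ScOccR) (Sc : Finset ℤ) (F : ℝ → ℝ) (hF0 : F 0 = 0) (hF : ∀ y, 0 ≤ y → 0 ≤ F y) :
    ∑ s ∈ Sc, F (s9Ns O s : ℝ) ≤ ∑ s ∈ O.image Prod.fst, F (s9Ns O s : ℝ) := by
  have h1 : ∑ s ∈ Sc, F (s9Ns O s : ℝ) = ∑ s ∈ Sc.filter (fun s => s ∈ O.image Prod.fst), F (s9Ns O s : ℝ) := by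
    rw [Finset.sum_filter_of_ne]
    intro s _ hne
    by_contra hs
    apply hne
    rw [s9kf_Ns_zero O s hs, Nat.cast_zero, hF0]
  rw [h1]
  apply Finset.sum_le_sum_of_subset_of_nonneg
  · intro s hs
    exact (Finset.mem_filter.1 hs).2
  · intro s _ _
    exact hF _ (Nat.cast_nonneg _)

theorem s9kf_Bx_mono (hP : S9ParOk p d) {h h' : ℕ} (hh : h ≤ h') : p.Bx h ≤ p.Bx h' := by
  unfold S8Par.Bx S8Par.E
  apply Nat.mul_le_mul_left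
  exact Nat.pow_le_pow_right (le_trans (by norm_num) hP.A0_ge) (by omega)

theorem s9kf_up_le {h : ℕ} (hh : h ∈ p.up) : h ≤ p.Js := by
  unfold S8Par.up S8cTower.s8cUp at hh
  have := (Finset.mem_filter.1 hh).1
  rw [Finset.mem_range] at this
  omega

/-- `L ≤ A (1+b+c)` -/
theorem s9kf_L_le (hP : S9ParOk p d) (x : ℝ) (cfg : S9Cfg S9E) (hc : S9CfgOk p cfg) (g : ℕ) :
    (S.scP p x cfg g).L ≤ (((d : ℝ) + 1) * (s9Wd d (4 * p.Bx p.Js) + 5)) * (1 + (cfg.b : ℝ) + cfg.c) := by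
  show ((d : ℝ) + 1) * (s9Wd d (4 * p.Bx cfg.1.1) + ((cfg.b : ℝ) + cfg.c + 2) + 1) ≤ _
  have h1 : s9Wd d (4 * p.Bx cfg.1.1) ≤ s9Wd d (4 * p.Bx p.Js) :=
    s9kf_Wd_mono d (Nat.mul_le_mul_left _ (s9kf_Bx_mono hP (s9kf_up_le hc.1)))
  have h0 := s9kf_Wd_nonneg d (4 * p.Bx p.Js)
  generalize s9Wd d (4 * p.Bx cfg.1.1) = W' at h1
  generalize s9Wd d (4 * p.Bx p.Js) = W at h1 h0
  have h2 : (0 : ℝ) ≤ (cfg.b : ℝ) := Nat.cast_nonneg _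
  have h3 : (0 : ℝ) ≤ (cfg.c : ℝ) := Nat.cast_nonneg _
  have h4 : (0 : ℝ) ≤ (d : ℝ) := Nat.cast_nonneg _
  rw [mul_assoc]
  apply mul_le_mul_of_nonneg_left _ (by linarith)
  nlinarith [mul_nonneg h0 h2, mul_nonneg h0 h3]

/-- `ℓ ≤ A (1+b+c)` -/
theorem s9kf_ell_le (x : ℝ) (cfg : S9Cfg S9E) (g : ℕ) :
    (S.scP p x cfg g).ell ≤ (((d : ℝ) + 1) * (s9Wd d (4 * p.Bx p.Js) + 5)) * (1 + (cfg.b : ℝ) + cfg.c) := by
  show 1 + Real.logb 2 (2 + ((d : ℝ) + 1) ^ 2 * (4 * (2 : ℝ) ^ cfg.c) / ((2 : ℝ) ^ cfg.b)⁻¹) ≤ _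
  have h0 := s9kf_Wd_nonneg d (4 * p.Bx p.Js)
  generalize s9Wd d (4 * p.Bx p.Js) = W at h0
  have h2 : (0 : ℝ) ≤ (cfg.b : ℝ) := Nat.cast_nonneg _
  have h3 : (0 : ℝ) ≤ (cfg.c : ℝ) := Nat.cast_nonneg _
  have h4 : (0 : ℝ) ≤ (d : ℝ) := Nat.cast_nonneg _
  have hd : (d : ℝ) + 1 ≤ (2 : ℝ) ^ d := by
    have : d + 1 ≤ 2 ^ d := Nat.lt_two_pow_self
    exact_mod_cast this
  have harg : 2 + ((d : ℝ) + 1) ^ 2 * (4 * (2 : ℝ) ^ cfg.c) / ((2 : ℝ) ^ cfg.b)⁻¹ ≤ (2 : ℝ) ^ (2 * d + cfg.b + cfg.c + 3) := by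
    rw [div_inv_eq_mul]
    have e : (2 : ℝ) ^ (2 * d + cfg.b + cfg.c + 3) = ((2 : ℝ) ^ d) ^ 2 * (8 * (2 : ℝ) ^ cfg.c) * (2 : ℝ) ^ cfg.b := by
      rw [pow_add, pow_add, pow_add, pow_mul', ]
      ring
    rw [e]
    have h5 : ((d : ℝ) + 1) ^ 2 ≤ ((2 : ℝ) ^ d) ^ 2 := pow_le_pow_left₀ (by linarith) hd 2
    have h6 : (1 : ℝ) ≤ (2 : ℝ) ^ cfg.c := one_le_pow₀ (by norm_num)
    have h7 : (1 : ℝ) ≤ (2 : ℝ) ^ cfg.b := one_le_pow₀ (by norm_num)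
    have h8 : (1 : ℝ) ≤ ((2 : ℝ) ^ d) ^ 2 := one_le_pow₀ (one_le_pow₀ (by norm_num))
    have h9 : (1 : ℝ) ≤ (2 : ℝ) ^ cfg.c * (2 : ℝ) ^ cfg.b := by nlinarith
    have h10 : (1 : ℝ) ≤ ((2 : ℝ) ^ d) ^ 2 * ((2 : ℝ) ^ cfg.c * (2 : ℝ) ^ cfg.b) := by nlinarith
    calc 2 + ((d : ℝ) + 1) ^ 2 * (4 * (2 : ℝ) ^ cfg.c) * (2 : ℝ) ^ cfg.b
        ≤ 2 + ((2 : ℝ) ^ d) ^ 2 * (4 * (2 : ℝ) ^ cfg.c) * (2 : ℝ) ^ cfg.b := by gcongr
      _ = 2 + 4 * (((2 : ℝ) ^ d) ^ 2 * ((2 : ℝ) ^ cfg.c * (2 : ℝ) ^ cfg.b)) := by ring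
      _ ≤ 8 * (((2 : ℝ) ^ d) ^ 2 * ((2 : ℝ) ^ cfg.c * (2 : ℝ) ^ cfg.b)) := by linarith
      _ = _ := by ring
  have hlog : Real.logb 2 (2 + ((d : ℝ) + 1) ^ 2 * (4 * (2 : ℝ) ^ cfg.c) / ((2 : ℝ) ^ cfg.b)⁻¹) ≤
      2 * (d : ℝ) + cfg.b + cfg.c + 3 := by
    refine le_trans (Real.logb_le_logb_of_le (by norm_num) (by positivity) harg) (le_of_eq ?_)
    rw [Real.logb_pow, Real.logb_self_eq_one (by norm_num)]
    push_cast
    ring
  nlinarith [mul_nonneg h0 h2, mul_nonneg h0 h3, mul_nonneg h4 h2, mul_nonneg h4 h3, mul_nonneg h4 h0,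
    mul_nonneg (mul_nonneg h4 h0) h2, mul_nonneg (mul_nonneg h4 h0) h3]

theorem s9kf_rpow30 (y : ℝ) : y ^ (30 : ℝ) = y ^ (30 : ℕ) := by
  rw [← Real.rpow_natCast]
  norm_num

theorem s9kf_final1 (C A t L : ℝ) (hC1 : 1 ≤ C) (hL1 : 1 ≤ L) (hL : L ≤ A * t) : L ≤ C * A ^ 30 * t ^ 30 := by
  have hAt1 : 1 ≤ A * t := le_trans hL1 hL
  calc L ≤ A * t := hL
    _ ≤ (A * t) ^ 30 := le_self_pow₀ hAt1 (by norm_num)
    _ = 1 * (A * t) ^ 30 := (one_mul _).symm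
    _ ≤ C * (A * t) ^ 30 := mul_le_mul_of_nonneg_right hC1 (by positivity)
    _ = C * A ^ 30 * t ^ 30 := by rw [mul_pow]; ring

theorem s9kf_final2 (C A t T ell L : ℝ) (hC1 : 1 ≤ C) (hL1 : 1 ≤ L) (hL : L ≤ A * t) (_hell0 : 0 ≤ ell)
    (hell : ell ≤ A * t) (ht : 1 ≤ t) (htT : t ≤ T) : C * ell * L ^ 29 ≤ C * A ^ 30 * T ^ 30 := by
  have hAt1 : 1 ≤ A * t := le_trans hL1 hL
  have hA0 : 0 ≤ A := by
    by_contra hneg
    push Not at hneg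
    have : A * t ≤ 0 := mul_nonpos_of_nonpos_of_nonneg hneg.le (by linarith)
    linarith
  calc C * ell * L ^ 29 = C * (ell * L ^ 29) := by ring
    _ ≤ C * ((A * t) * (A * t) ^ 29) := by
        apply mul_le_mul_of_nonneg_left _ (by linarith)
        exact mul_le_mul hell (pow_le_pow_left₀ (by linarith) hL 29) (by positivity) (by linarith)
    _ = C * (A ^ 30 * t ^ 30) := by ring
    _ ≤ C * (A ^ 30 * T ^ 30) := by
        apply mul_le_mul_of_nonneg_left _ (by linarith)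
        apply mul_le_mul_of_nonneg_left _ (by positivity)
        exact pow_le_pow_left₀ (by linarith) htT 30
    _ = _ := by ring

theorem s9kf_bc_le (b c f : ℕ) : 1 + (b : ℝ) + c ≤ (2 : ℝ) ^ b + 2 ^ c + 2 ^ f := by
  have e1 : (b : ℝ) + 1 ≤ (2 : ℝ) ^ b := by
    have : b + 1 ≤ 2 ^ b := Nat.lt_two_pow_self
    exact_mod_cast this
  have e2 : (c : ℝ) + 1 ≤ (2 : ℝ) ^ c := by
    have : c + 1 ≤ 2 ^ c := Nat.lt_two_pow_self
    exact_mod_cast this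
  have e3 : (0 : ℝ) ≤ (2 : ℝ) ^ f := by positivity
  linarith

/-- **Prop. 9.2 = display (34)** in the form consumed by `s9i_main` (`p0 = 1 - 1/4160`, `C1 = 30`).  LEAF P-S9-COUNT-F -/
theorem s9k_34 : ∃ C : ℝ, 1 ≤ C ∧ ∀ (d : ℕ) (S : S9Sys d) (c0 C0 PC : ℝ) (p : S8Par) (tys : Finset (ℕ × ℕ)),
    S.Valid c0 C0 p PC tys → S9ParOk p d → ∀ (x : ℝ) (cfg : S9Cfg S9E), S9CfgOk p cfg → ∀ (g : ℕ) (Sc : Finset ℤ),
      (∀ i j, i ≠ j → ∑ s ∈ Sc, S.Nn p x cfg g s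
          ≤ C * s9PL p d * (1 + (cfg.b : ℝ) + cfg.c) ^ (30 : ℝ) * (S.Mm p x cfg i g * S.Mm p x cfg j g)) ∧
      ∀ X : ℝ, (∀ i, S.Mm p x cfg i g ≤ X) →
        ∑ s ∈ Sc, S.Nn p x cfg g s ^ ((1 : ℝ) - 1 / 4160)
          ≤ C * s9PL p d * ((2 : ℝ) ^ cfg.b + 2 ^ cfg.c + 2 ^ cfg.f) ^ (30 : ℝ) * X ^ (2 * ((1 : ℝ) - 1 / 4160)) := by
  obtain ⟨C, hC1, hthin⟩ := s9_thin
  refine ⟨C, hC1, ?_⟩
  intro d S c0 C0 PC p tys hV hP x cfg hc g Sc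
  have hok := s9k_ok hV hP x cfg hc g
  obtain ⟨t1, t2⟩ := hthin (S.scP p x cfg g) (S.occ p x cfg g) (fun i => S.Mm p x cfg i g) hok
    (fun i hi => by
      rw [s9kf_J_mem] at hi
      exact le_of_eq (s9kf_Mm_core x cfg g i hi).symm)
    (fun l hl => by
      rw [s9kf_J_mem] at hl
      have hl' : S.sd l = true := by simpa using hl
      have hs : S.hasSide := ⟨l, hl'⟩
      have e : l = S.anc := s9kf_side_unique hV hl' (s9kf_anc_sd hs)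
      rw [e]
      exact s9kf_wS_sum hs x cfg g _)
    (fun X hX1 hX => by
      show max 1 (Finset.univ.sup' Finset.univ_nonempty fun i => S.Mm p x cfg i g) ≤ X
      exact max_le hX1 (Finset.sup'_le _ _ fun i _ => hX i))
  have hL := s9kf_L_le (S := S) hP x cfg hc g
  have hell := s9kf_ell_le (S := S) (p := p) x cfg g
  have hL1 := hok.hL
  have hell0 : 0 ≤ (S.scP p x cfg g).ell := by
    unfold ScParR.ell
    have h1 : 0 ≤ Real.logb 2 (2 + (((S.scP p x cfg g).d : ℝ) + 1) ^ 2 * (S.scP p x cfg g).ν / (S.scP p x cfg g).μ) := by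
      apply Real.logb_nonneg (by norm_num)
      have := hok.hμ0
      have := hok.hν
      have h2 : 0 ≤ (((S.scP p x cfg g).d : ℝ) + 1) ^ 2 * (S.scP p x cfg g).ν / (S.scP p x cfg g).μ := by positivity
      linarith
    linarith
  have hPL : s9PL p d = (((d : ℝ) + 1) * (s9Wd d (4 * p.Bx p.Js) + 5)) ^ 30 := rfl
  rw [hPL, s9kf_rpow30, s9kf_rpow30]
  generalize (S.scP p x cfg g).L = L at t1 t2 hL hL1
  generalize (S.scP p x cfg g).ell = ell at t2 hell hell0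
  generalize ((d : ℝ) + 1) * (s9Wd d (4 * p.Bx p.Js) + 5) = A at hL hell
  have hb0 : (0 : ℝ) ≤ (cfg.b : ℝ) := Nat.cast_nonneg _
  have hc0 : (0 : ℝ) ≤ (cfg.c : ℝ) := Nat.cast_nonneg _
  have hNn : ∀ s, S.Nn p x cfg g s = (s9Ns (S.occ p x cfg g) s : ℝ) := fun s => s9k_Nn_eq hV x cfg hc.1 g s
  simp only [hNn]
  constructor
  · intro i j hij
    have h1 := s9kf_sum_le (S.occ p x cfg g) Sc (fun y => y) rfl (fun y hy => hy)
    refine le_trans h1 (le_trans (t1 i j hij) ?_)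
    exact mul_le_mul_of_nonneg_right (s9kf_final1 C A _ L hC1 hL1 hL)
      (mul_nonneg (s9kf_Mm_nonneg x cfg g i) (s9kf_Mm_nonneg x cfg g j))
  · intro X hX
    have h1 := s9kf_sum_le (S.occ p x cfg g) Sc (fun y => y ^ ((1 : ℝ) - 1 / 4160))
      (Real.zero_rpow (by norm_num)) (fun y hy => Real.rpow_nonneg hy _)
    refine le_trans h1 (le_trans (t2 X hX) ?_)
    have hX0 : 0 ≤ X := le_trans (s9kf_Mm_nonneg x cfg g 0) (hX 0)
    exact mul_le_mul_of_nonneg_right (s9kf_final2 C A _ _ ell L hC1 hL1 hL hell0 hell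
      (by clear t1 t2 hthin h1; linarith) (s9kf_bc_le cfg.b cfg.c cfg.f)) (Real.rpow_nonneg hX0 _)

/-! ### helpers of COUNT-G (helper22) -/

/-- unpacking a configuration that occurs -/
theorem s9kg_cfg {x : ℝ} {cfg : S9Cfg S9E} (hc : cfg ∈ S.cfgs p x) :
    ∃ u ∈ S.uses, x ∈ u.2.set ∧ ∃ h ∈ p.up, ∃ a ∈ S.labT u h, ∃ f : ℕ,
      cfg.1 = (h, S.tyv u h a) ∧ cfg.2.1 = fun j => s9binA (S.amp p x u h a f j) := by
  obtain ⟨u, hu, hu2⟩ := Finset.mem_biUnion.1 hc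
  obtain ⟨huS, hux⟩ := Finset.mem_filter.1 hu
  obtain ⟨hh, hhup, h1⟩ := Finset.mem_biUnion.1 hu2
  obtain ⟨a, ha, h2⟩ := Finset.mem_biUnion.1 h1
  obtain ⟨f, hf, h3⟩ := Finset.mem_biUnion.1 h2
  cases hr : S.ref p x u hh a with
  | none =>
    rw [hr] at h3
    simp at h3
  | some qt =>
    rw [hr] at h3
    have h4 : cfg = ((hh, S.tyv u hh a), (fun j => s9binA (S.amp p x u hh a f j)), s9binB S.anc qt,
      s9binC qt, f) := Finset.mem_singleton.1 h3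
    exact ⟨u, huS, hux, hh, hhup, a, ha, f, by rw [h4], by rw [h4]⟩

/-- the smallest cell of the uses over `x` -/
theorem s9kg_I0 (hV : S.Valid c0 C0 p PC tys) {x : ℝ} {u0 : ℕ × Cell} (hu0 : u0 ∈ S.uses) (hx0 : x ∈ u0.2.set) :
    ∃ I₀ ∈ S.cells, ∀ u ∈ S.uses, x ∈ u.2.set → I₀ ≤ u.2 := by
  have hne : (S.uses.filter fun u => x ∈ u.2.set).Nonempty := ⟨u0, Finset.mem_filter.2 ⟨hu0, hx0⟩⟩
  obtain ⟨u1, hu1, hmax⟩ := Finset.exists_max_image _ (fun u : ℕ × Cell => u.2.depth) hne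
  obtain ⟨h1, h2⟩ := Finset.mem_filter.1 hu1
  exact ⟨u1.2, hV.uses_sub u1 h1, fun u hu hx =>
    cell_le_of_mem_of_depth h2 hx (hmax u (Finset.mem_filter.2 ⟨hu, hx⟩))⟩

theorem s9kg_lab {u : ℕ × Cell} {h : ℕ} {a : Fin 4 → ℕ} (ha : a ∈ S.labT u h) {i : Fin 4} (hi : S.sd i = false) :
    a i ∈ S.lab i u h := by
  have h1 := Fintype.mem_piFinset.1 ha i
  rwa [if_neg (by rw [hi]; exact Bool.false_ne_true)] at h1

theorem s9kg_sg_pos (cfg : S9Cfg S9E) (i : Fin 4) : 0 < cfg.sg i := by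
  unfold S9Cfg.sg
  positivity

/-- side role -/
theorem s9kg_side (hV : S.Valid c0 C0 p PC tys) (x : ℝ) (cfg : S9Cfg S9E) {I₀ : Cell} (hI₀ : I₀ ∈ S.cells)
    (hle : ∀ u ∈ S.uses, x ∈ u.2.set → I₀ ≤ u.2) (Gs : Finset ℕ) (i : Fin 4) (hi : S.sd i = true) :
    ∑ g ∈ Gs, S.Mm p x cfg i g ≤ 4 * PC * (cfg.sg i ^ 2)⁻¹ := by
  have hσ := s9kg_sg_pos cfg i
  have e : ∀ g, S.Mm p x cfg i g = ∑ u ∈ S.usesG x g, 4 * (cfg.sg i ^ 2)⁻¹ * nnorm 2 u.2 (S.Sd u) ^ 2 := by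
    intro g
    unfold S9Sys.Mm
    rw [if_pos hi]
  simp only [e]
  have hdis : (Gs : Set ℕ).PairwiseDisjoint fun g => S.usesG x g := by
    intro g _ g' _ hgg
    refine Finset.disjoint_left.2 fun u hu hu' => hgg ?_
    exact (s9k_mem_usesG.1 hu).2.1.symm.trans (s9k_mem_usesG.1 hu').2.1
  rw [← Finset.sum_biUnion hdis]
  calc ∑ u ∈ Gs.biUnion (fun g => S.usesG x g), 4 * (cfg.sg i ^ 2)⁻¹ * nnorm 2 u.2 (S.Sd u) ^ 2
      ≤ ∑ u ∈ S.uses.filter (fun u => I₀ ≤ u.2), 4 * (cfg.sg i ^ 2)⁻¹ * nnorm 2 u.2 (S.Sd u) ^ 2 := by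
        refine Finset.sum_le_sum_of_subset_of_nonneg ?_ fun u _ _ => by positivity
        intro u hu
        obtain ⟨g, _, hug⟩ := Finset.mem_biUnion.1 hu
        obtain ⟨h1, _, h3⟩ := s9k_mem_usesG.1 hug
        exact Finset.mem_filter.2 ⟨h1, hle u h1 h3⟩
    _ = 4 * (cfg.sg i ^ 2)⁻¹ * ∑ u ∈ S.uses.filter (fun u => I₀ ≤ u.2), nnorm 2 u.2 (S.Sd u) ^ 2 := by
        rw [Finset.mul_sum]
    _ ≤ 4 * (cfg.sg i ^ 2)⁻¹ * PC := mul_le_mul_of_nonneg_left (hV.Sd_cap I₀ hI₀) (by positivity)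
    _ = 4 * PC * (cfg.sg i ^ 2)⁻¹ := by ring

/-- core role -/
theorem s9kg_core (hV : S.Valid c0 C0 p PC tys) (x : ℝ) (cfg : S9Cfg S9E) (hh : cfg.1.1 ∈ p.up) {I₀ : Cell} (hI₀ : I₀ ∈ S.cells)
    (hle : ∀ u ∈ S.uses, x ∈ u.2.set → I₀ ≤ u.2) (Gs : Finset ℕ) (i : Fin 4) (hi : S.sd i = false) :
    ∑ g ∈ Gs, S.Mm p x cfg i g ≤ min (p.Ds : ℝ) (PC * (cfg.sg i ^ 2)⁻¹) := by
  have hσ := s9kg_sg_pos cfg i
  have e : ∀ g, S.Mm p x cfg i g = (((S.occ p x cfg g).image fun o => o.2 i).card : ℝ) := by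
    intro g
    unfold S9Sys.Mm
    rw [if_neg (by rw [hi]; exact Bool.false_ne_true)]
  simp only [e]
  refine le_trans ?_ (hV.caps I₀ hI₀ i hi cfg.1.1 hh (cfg.1.2 i) (cfg.sg i) hσ)
  rw [← Nat.cast_sum, ← Finset.card_sigma]
  refine Nat.cast_le.2 ?_
  have hsub : (Gs.sigma fun g => (S.occ p x cfg g).image fun o => o.2 i) ⊆
      (S.usedLab i cfg.1.1 (cfg.1.2 i) (cfg.sg i) I₀).image fun q => (⟨q.1, S.om q.2 x⟩ : Σ _ : ℕ, ℝ) := by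
    rintro ⟨g, y⟩ hgy
    obtain ⟨_, hy⟩ := Finset.mem_sigma.1 hgy
    obtain ⟨o, ho, hoy⟩ := Finset.mem_image.1 hy
    obtain ⟨u, hu, a, ha, rfl⟩ := s9k_mem_occ.1 ho
    obtain ⟨h1, h2, h3⟩ := s9k_mem_usesG.1 hu
    obtain ⟨haL, hty, hamp, -, -⟩ := Finset.mem_filter.1 ha
    refine Finset.mem_image.2 ⟨(g, a i), ?_, ?_⟩
    · unfold S9Sys.usedLab
      refine Finset.mem_biUnion.2 ⟨u, Finset.mem_filter.2 ⟨h1, hle u h1 h3⟩, Finset.mem_image.2 ⟨a i, ?_, by rw [h2]⟩⟩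
      have t1 := hty i
      have t2 := hamp i
      unfold S9Sys.tyv at t1
      unfold S9Sys.amp at t2
      rw [if_neg (by rw [hi]; exact Bool.false_ne_true)] at t1 t2
      obtain ⟨b1, b2⟩ := s9k_binA _ t2.1
      rw [t2.2] at b1 b2
      exact Finset.mem_filter.2 ⟨s9kg_lab haL hi, t1, b1, b2⟩
    · have : S.val x a i = S.om (a i) x := by
        unfold S9Sys.val
        rw [if_neg (by rw [hi]; exact Bool.false_ne_true)]
      simp only at hoy ⊢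
      rw [← hoy, this]
  exact (Finset.card_le_card hsub).trans Finset.card_image_le

/-- the amplitude cap -/
theorem s9kg_amp (hV : S.Valid c0 C0 p PC tys) (x : ℝ) (cfg : S9Cfg S9E) (hc : cfg ∈ S.cfgs p x) (i : Fin 4) :
    cfg.sg i ≤ 2 * PC := by
  obtain ⟨u, hu, hux, h, hh, a, ha, f, e1, e2⟩ := s9kg_cfg hc
  have hPC := hV.PC_ge
  have hσ := s9kg_sg_pos cfg i
  have e : cfg.sg i = (2 : ℝ) ^ s9binA (S.amp p x u h a f i) := by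
    unfold S9Cfg.sg
    rw [e2]
  have hamp0 : 0 ≤ S.amp p x u h a f i := by
    unfold S9Sys.amp
    split_ifs
    · exact Real.sqrt_nonneg _
    · exact hV.sg_nonneg _ _ _ _
  rcases hamp0.eq_or_lt with h0 | h0
  · rw [e, ← h0]
    unfold s9binA
    simp
    linarith
  obtain ⟨b1, b2⟩ := s9k_binA _ h0
  rw [← e] at b1 b2
  cases hi : S.sd i with
  | false =>
    have ea : S.amp p x u h a f i = S.sg i u h (a i) := by
      unfold S9Sys.amp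
      rw [if_neg (by rw [hi]; exact Bool.false_ne_true)]
    rw [ea] at b1 b2
    have hmem : (u.1, a i) ∈ S.usedLab i h (S.typ i u h (a i)) (cfg.sg i) u.2 := by
      unfold S9Sys.usedLab
      exact Finset.mem_biUnion.2 ⟨u, Finset.mem_filter.2 ⟨hu, le_refl _⟩, Finset.mem_image.2 ⟨a i,
        Finset.mem_filter.2 ⟨s9kg_lab ha hi, rfl, b1, b2⟩, rfl⟩⟩
    have h1 := hV.caps u.2 (hV.uses_sub u hu) i hi h hh (S.typ i u h (a i)) (cfg.sg i) hσ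
    have h2 : (1 : ℝ) ≤ ((S.usedLab i h (S.typ i u h (a i)) (cfg.sg i) u.2).card : ℝ) := by
      exact_mod_cast Finset.card_pos.2 ⟨_, hmem⟩
    have h3 : (1 : ℝ) ≤ PC * (cfg.sg i ^ 2)⁻¹ := h2.trans (h1.trans (min_le_right _ _))
    rw [← div_eq_mul_inv, le_div_iff₀ (by positivity)] at h3
    nlinarith [sq_nonneg (cfg.sg i - 1)]
  | true =>
    have ea : S.amp p x u h a f i = S.bL p x u h a f := by
      unfold S9Sys.amp
      rw [if_pos hi]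
    rw [ea] at b1
    have h1 := s9k_bL_sum hV x u hu h f ({()} : Finset Unit) (fun _ => a) (by simp)
    rw [Finset.sum_singleton] at h1
    have h2 : nnorm 2 u.2 (S.Sd u) ^ 2 ≤ PC :=
      le_trans (Finset.single_le_sum (s := S.uses.filter fun v => u.2 ≤ v.2)
        (f := fun u : ℕ × Cell => nnorm 2 u.2 (S.Sd u) ^ 2) (fun u _ => by positivity)
        (Finset.mem_filter.2 ⟨hu, le_refl _⟩)) (hV.Sd_cap u.2 (hV.uses_sub u hu))
    have h3 : cfg.sg i ^ 2 ≤ S.bL p x u h a f ^ 2 := pow_le_pow_left₀ hσ.le b1 2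
    nlinarith [sq_nonneg (cfg.sg i - 2)]

/-- **the budgets (28)** along the path through `x`, and the amplitude caps.  LEAF P-S9-COUNT-G -/
theorem s9k_28 (hV : S.Valid c0 C0 p PC tys) (hP : S9ParOk p d) (x : ℝ) (cfg : S9Cfg S9E) (hc : cfg ∈ S.cfgs p x)
    (Gs : Finset ℕ) (i : Fin 4) :
    ∑ g ∈ Gs, S.Mm p x cfg i g ≤ 4 * PC * (cfg.sg i ^ 2)⁻¹ ∧
    (S.sd i = false → ∑ g ∈ Gs, S.Mm p x cfg i g ≤ p.Ds) ∧ cfg.sg i ≤ 2 * PC := by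
  obtain ⟨u0, hu0, hx0, -⟩ := s9kg_cfg hc
  obtain ⟨I₀, hI₀, hle⟩ := s9kg_I0 hV hu0 hx0
  have hh := (s9k_cfgOk hP x cfg hc).1
  have hσ := s9kg_sg_pos cfg i
  have hPC := hV.PC_ge
  refine ⟨?_, fun hi => (s9kg_core hV x cfg hh hI₀ hle Gs i hi).trans (min_le_left _ _), s9kg_amp hV x cfg hc i⟩
  cases hi : S.sd i with
  | true => exact s9kg_side hV x cfg hI₀ hle Gs i hi
  | false =>
    refine (s9kg_core hV x cfg hh hI₀ hle Gs i hi).trans ((min_le_right _ _).trans ?_)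
    have : 0 ≤ PC * (cfg.sg i ^ 2)⁻¹ := by positivity
    nlinarith

/-- the number of discrete parts.  LEAF P-S9-COUNT-G -/
theorem s9k_nE (hV : S.Valid c0 C0 p PC tys) (x : ℝ) :
    (((S.cfgs p x).image Prod.fst).card : ℝ) ≤ (p.up.card : ℝ) * ((tys.card : ℝ) + 1) ^ 4 := by
  have hsub : (S.cfgs p x).image Prod.fst ⊆ p.up ×ˢ Fintype.piFinset (fun _ : Fin 4 => insert ((0 : ℕ), (0 : ℕ)) tys) := by
    intro e he
    obtain ⟨cfg, hc, rfl⟩ := Finset.mem_image.1 he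
    obtain ⟨u, hu, hux, h, hh, a, ha, f, e1, e2⟩ := s9kg_cfg hc
    rw [e1]
    refine Finset.mem_product.2 ⟨hh, Fintype.mem_piFinset.2 fun j => ?_⟩
    show S.tyv u h a j ∈ _
    unfold S9Sys.tyv
    cases hj : S.sd j with
    | true => simp
    | false =>
      rw [if_neg Bool.false_ne_true]
      exact Finset.mem_insert_of_mem (hV.typ_mem j hj u hu h hh _ (s9kg_lab ha hj))
  have h1 := Finset.card_le_card hsub
  rw [Finset.card_product, Fintype.card_piFinset_const] at h1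
  have h2 : (insert ((0 : ℕ), (0 : ℕ)) tys).card ≤ tys.card + 1 := Finset.card_insert_le _ _
  have h3 : ((S.cfgs p x).image Prod.fst).card ≤ p.up.card * (tys.card + 1) ^ 4 :=
    h1.trans (Nat.mul_le_mul_left _ (Nat.pow_le_pow_left h2 4))
  exact_mod_cast h3

end

end Claimed.Agent.R258
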