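/-
Row 258 (S0498), Sec. 9.4 (counting.tex, proof of Prop. 9.2).  HOME ARCHITECT: helper41.      PAIR DETERMINATION, DISJOINT WINDOWS, SCALE MULTIPLICITY: ABSTRACT FORM.
Pure arithmetic of real numbers.  Definitions: `ScParR`, `ScOccR`, `scLinR`, `scAl` (S9a/GridDefs.lean, S9a/Defs.lean); `s8c_packets` (S8c/Exc.lean) as a black box.  NO paper needed.

An occurrence is `o = (s, a)`, `a : Fin 4 → ℝ`, `R_s = P.R s = R0 2^s`, `P.dot n = n·ζ`; the shifts of the tests are `n·ξ = 36 n·ζ`.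
`S9Sep P O` = hypothesis 3 of Lemma 9.1 (separation modulo the shifts `n·ζ`, `|n|_∞ ≤ Q`, threshold `Σ max(R_s, R_t)`).

PLANS.  Write `Δ_k = o.2 k - o'.2 k`, `R = max (P.R o.1) (P.R o'.1)`.
* `s9k_pair4`: the roles are `{i, j, u, v}`; `Δ_i = Δ_j = 0`.  Subtract the tests: `e1 = Δ_u + Δ_v + 36 (n0 - n0')·ζ`, `e2 = u Δ_u + v Δ_v + 36 (m0 - m0')·ζ`, `|e1|, |e2| ≤ 2 ν0 R`.
  `v e1 - e2 = (v - u) Δ_u + 36 (v (n0-n0') - (m0-m0'))·ζ`;  `v - u ∈ {±1, ±2, ±3}` divides `36`:  `Δ_u + n''·ζ = (v e1 - e2)/(v-u)`, `n'' = (36/(v-u)) (v Δn - Δm)`, `|n''|_∞ ≤ 288 B0`,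
  `|…| ≤ 8 ν0 R ≤ Σ R`: by `S9Sep`, `Δ_u = 0`; symmetric for `v`.  (`fin_cases`/`decide` over the 12 ordered pairs, or argue with general `u ≠ v`.)
* `s9k_pair3`: the core roles are `{i, j, u}`, `a_l = 0`: `e = (u - l) Δ_u + 36 (m0 - m0')·ζ`, `|e| ≤ 2 ν0 R`.
* `s9k_win3`: same scale; the core roles are `{i, u, v}`, `Δ_i = 0`: `e1 = Δ_u + Δ_v + 36 n·ζ` (`|e1| ≤ 4 Λ0 R`), `e2 = (u-l) Δ_u + (v-l) Δ_v + 36 (m0-m0')·ζ`; `(v-l) e1 - e2 = (v-u) Δ_u + 36 ((v-l) n - Δm)·ζ`.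
* `s9k_mult`: fix the tuple `a`; `Θ : Option (Fin d) → ℝ`, `Θ none = scLinR l' a`, `Θ (some k) = 36 ζ_k`; the vector `(1, n)` has height `≤ Bn`; `v = |Θ·(1,n)| ≥ μ R_s > 0`.
  `s8c_packets` (`r0 = 1`): `log₂ v ∈ [α, α + W]` for one of `≤ d + 1` packets; `μ R0 2^s ≤ v ≤ ν R0 2^s` confines `s` to an interval of length `W + log₂(ν/μ)`, which contains at most `W + log₂(ν/μ) + 1` integers.
  The occurrences with `o.2 = a` are determined by `o.1`.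
-/
import Claimed.Agent.R258.Pack012
import Claimed.Agent.R258.S8c.Exc

set_option autoImplicit false

namespace Claimed.Agent.R258

open scoped BigOperators
open Classical

/-- hypothesis 3 of Lemma 9.1 -/
def S9Sep (P : ScParR) (O : Finset ScOccR) : Prop :=
  ∀ o ∈ O, ∀ o' ∈ O, ∀ i ∈ P.J, o.2 i ≠ o'.2 i → ∀ n : Fin P.d → ℤ, (∀ k, |(n k : ℝ)| ≤ P.Q) →
    P.Sg * max (P.R o.1) (P.R o'.1) < |o.2 i - o'.2 i + P.dot n|

/-- the upper halves of the two frequency tests of a four-core tuple -/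
def S9Up4 (P : ScParR) (O : Finset ScOccR) (ν0 B0 : ℝ) : Prop :=
  ∀ o ∈ O, ∃ n0 m0 : Fin P.d → ℤ, (∀ k, |(n0 k : ℝ)| ≤ B0) ∧ (∀ k, |(m0 k : ℝ)| ≤ B0) ∧
    |∑ i, o.2 i + 36 * P.dot n0| ≤ ν0 * P.R o.1 ∧ |scLinR 0 o.2 + 36 * P.dot m0| ≤ ν0 * P.R o.1

/-- the upper half of the frequency test of a three-core tuple, side role `l` -/
def S9Up3 (P : ScParR) (O : Finset ScOccR) (l : Fin 4) (ν0 B0 : ℝ) : Prop :=
  ∀ o ∈ O, ∃ m0 : Fin P.d → ℤ, (∀ k, |(m0 k : ℝ)| ≤ B0) ∧ |scLinR l o.2 + 36 * P.dot m0| ≤ ν0 * P.R o.1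

theorem s9k_dot_lin (P : ScParR) (c1 c2 c3 c4 : ℤ) (n1 n2 n3 n4 : Fin P.d → ℤ) :
    P.dot (fun k => c1 * n1 k + c2 * n2 k + c3 * n3 k + c4 * n4 k)
      = c1 * P.dot n1 + c2 * P.dot n2 + c3 * P.dot n3 + c4 * P.dot n4 := by
  unfold ScParR.dot
  simp only [Finset.mul_sum, ← Finset.sum_add_distrib]
  refine Finset.sum_congr rfl fun k _ => ?_
  push_cast
  ring

theorem s9k_dot_smul (P : ScParR) (q : ℤ) (N : Fin P.d → ℤ) :
    P.dot (fun k => q * N k) = q * P.dot N := by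
  unfold ScParR.dot
  rw [Finset.mul_sum]
  refine Finset.sum_congr rfl fun k _ => ?_
  push_cast
  ring

theorem s9k_abs4 {c1 c2 c3 c4 x1 x2 x3 x4 b1 b2 b3 b4 y1 y2 y3 y4 : ℝ}
    (h1 : |c1| ≤ b1) (h2 : |c2| ≤ b2) (h3 : |c3| ≤ b3) (h4 : |c4| ≤ b4)
    (g1 : |x1| ≤ y1) (g2 : |x2| ≤ y2) (g3 : |x3| ≤ y3) (g4 : |x4| ≤ y4) :
    |c1 * x1 + c2 * x2 + c3 * x3 + c4 * x4| ≤ b1 * y1 + b2 * y2 + b3 * y3 + b4 * y4 := by
  have m : ∀ {c x b y : ℝ}, |c| ≤ b → |x| ≤ y → |c * x| ≤ b * y := fun {c x b y} hc hx => by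
    rw [abs_mul]
    exact mul_le_mul hc hx (abs_nonneg _) ((abs_nonneg _).trans hc)
  have a1 := abs_add_le (c1 * x1 + c2 * x2 + c3 * x3) (c4 * x4)
  have a2 := abs_add_le (c1 * x1 + c2 * x2) (c3 * x3)
  have a3 := abs_add_le (c1 * x1) (c2 * x2)
  linarith [m h1 g1, m h2 g2, m h3 g3, m h4 g4]

/-- the core of all three statements: an integer relation with a coefficient dividing `36` contradicts the separation -/
theorem s9k_core (P : ScParR) (O : Finset ScOccR) (B0 : ℝ) (hsep : S9Sep P O) (hQ : 288 * B0 ≤ P.Q)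
    (o o' : ScOccR) (ho : o ∈ O) (ho' : o' ∈ O) (u : Fin 4) (hu : u ∈ P.J) (D q : ℤ) (hDq : D * q = 36)
    (hq : |q| ≤ 36) (N : Fin P.d → ℤ) (hN : ∀ k, |(N k : ℝ)| ≤ 8 * B0)
    (he : |(D : ℝ) * (o.2 u - o'.2 u) + 36 * P.dot N| ≤ P.Sg * max (P.R o.1) (P.R o'.1)) :
    o.2 u = o'.2 u := by
  by_contra hne
  have hqR : |(q : ℝ)| ≤ 36 := by exact_mod_cast hq
  have h := hsep o ho o' ho' u hu hne (fun k => q * N k) (fun k => by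
    push_cast
    rw [abs_mul]
    calc |(q : ℝ)| * |(N k : ℝ)| ≤ 36 * (8 * B0) :=
          mul_le_mul hqR (hN k) (abs_nonneg _) (by norm_num)
      _ = 288 * B0 := by ring
      _ ≤ P.Q := hQ)
  rw [s9k_dot_smul] at h
  have hD0 : D ≠ 0 := by
    rintro rfl
    simp at hDq
  have hD1 : (1 : ℝ) ≤ |(D : ℝ)| := by
    have : (1 : ℤ) ≤ |D| := Int.one_le_abs hD0
    exact_mod_cast this
  have hDqR : (D : ℝ) * (q : ℝ) = 36 := by exact_mod_cast hDq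
  have e : (D : ℝ) * (o.2 u - o'.2 u) + 36 * P.dot N = (D : ℝ) * (o.2 u - o'.2 u + (q : ℝ) * P.dot N) := by
    rw [← hDqR]; ring
  rw [e, abs_mul] at he
  have h2 : |o.2 u - o'.2 u + (q : ℝ) * P.dot N| ≤ |(D : ℝ)| * |o.2 u - o'.2 u + (q : ℝ) * P.dot N| :=
    le_mul_of_one_le_left (abs_nonneg _) hD1
  linarith

theorem s9k_exh (z1 z2 u v k : Fin 4) (h12 : z1 ≠ z2) (h1u : z1 ≠ u) (h1v : z1 ≠ v)
    (h2u : z2 ≠ u) (h2v : z2 ≠ v) (huv : u ≠ v) (hk : k ≠ u) : k = z1 ∨ k = z2 ∨ k = v := by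
  simp only [ne_eq, Fin.ext_iff] at *
  omega

theorem s9k_sum4 (Δ : Fin 4 → ℝ) (z1 z2 u v : Fin 4) (h12 : z1 ≠ z2) (h1u : z1 ≠ u) (h1v : z1 ≠ v)
    (h2u : z2 ≠ u) (h2v : z2 ≠ v) (huv : u ≠ v) (hz1 : Δ z1 = 0) (hz2 : Δ z2 = 0) :
    ∑ k : Fin 4, (((v : ℕ) : ℝ) - ((k : ℕ) : ℝ)) * Δ k = (((v : ℕ) : ℝ) - ((u : ℕ) : ℝ)) * Δ u := by
  rw [Finset.sum_eq_single u]
  · intro k _ hk
    have : k = z1 ∨ k = z2 ∨ k = v := s9k_exh z1 z2 u v k h12 h1u h1v h2u h2v huv hk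
    rcases this with rfl | rfl | rfl
    · rw [hz1, mul_zero]
    · rw [hz2, mul_zero]
    · rw [sub_self, zero_mul]
  · intro h
    exact absurd (Finset.mem_univ _) h

theorem s9k_div36 : ∀ u v : Fin 4, u ≠ v →
    (((v : ℕ) : ℤ) - ((u : ℕ) : ℤ)) * (36 / (((v : ℕ) : ℤ) - ((u : ℕ) : ℤ))) = 36 ∧
      |36 / (((v : ℕ) : ℤ) - ((u : ℕ) : ℤ))| ≤ 36 := by
  decide

theorem s9k_fourth : ∀ i j u : Fin 4, ∃ v : Fin 4, v ≠ i ∧ v ≠ j ∧ v ≠ u := by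
  decide

theorem s9k_sum_exp (a a' : Fin 4 → ℝ) (c : ℝ) :
    ∑ k : Fin 4, (c - ((k : ℕ) : ℝ)) * (a k - a' k)
      = c * ∑ k, a k - c * ∑ k, a' k - ∑ k : Fin 4, ((k : ℕ) : ℝ) * a k + ∑ k : Fin 4, ((k : ℕ) : ℝ) * a' k := by
  simp only [sub_mul, mul_sub, Finset.sum_sub_distrib, ← Finset.mul_sum]
  ring

theorem s9k_lin_exp (l : Fin 4) (a : Fin 4 → ℝ) :
    scLinR l a = ∑ k : Fin 4, ((k : ℕ) : ℝ) * a k - ((l : ℕ) : ℝ) * ∑ k, a k := by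
  unfold scLinR scAl
  push_cast
  simp only [sub_mul, Finset.sum_sub_distrib, ← Finset.mul_sum]

theorem s9k_val_le3 (v : Fin 4) : |((v : ℕ) : ℝ)| ≤ 3 := by
  rw [abs_of_nonneg (Nat.cast_nonneg _)]
  have : (v : ℕ) ≤ 3 := by omega
  exact_mod_cast this

theorem s9k_valsub_le3 (v l : Fin 4) : |((v : ℕ) : ℝ) - ((l : ℕ) : ℝ)| ≤ 3 := by
  have h1 : (v : ℕ) ≤ 3 := by omega
  have h2 : (l : ℕ) ≤ 3 := by omega
  have h1' : ((v : ℕ) : ℝ) ≤ 3 := by exact_mod_cast h1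
  have h2' : ((l : ℕ) : ℝ) ≤ 3 := by exact_mod_cast h2
  have h3 : (0 : ℝ) ≤ ((v : ℕ) : ℝ) := Nat.cast_nonneg _
  have h4 : (0 : ℝ) ≤ ((l : ℕ) : ℝ) := Nat.cast_nonneg _
  rw [abs_le]
  constructor <;> linarith

theorem s9k_R_nonneg (P : ScParR) (hR0 : 0 < P.R0) (s : ℤ) : 0 ≤ P.R s := by
  unfold ScParR.R
  positivity

/-- **pair determination, four cores.**  LEAF P-S9-COUNT-A -/
theorem s9k_pair4 (P : ScParR) (O : Finset ScOccR) (ν0 B0 : ℝ) (hJ : ∀ i, i ∈ P.J) (hR0 : 0 < P.R0) (hν0 : 0 ≤ ν0)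
    (hB0 : 0 ≤ B0) (hsep : S9Sep P O) (hup : S9Up4 P O ν0 B0) (hQ : 288 * B0 ≤ P.Q) (hSg : 8 * ν0 ≤ P.Sg) :
    ∀ o ∈ O, ∀ o' ∈ O, ∀ i ∈ P.J, ∀ j ∈ P.J, i ≠ j → o.2 i = o'.2 i → o.2 j = o'.2 j → o.2 = o'.2 := by
  intro o ho o' ho' i _ j _ hij hi hj
  obtain ⟨n0, m0, hn0, hm0, hE1, hE2⟩ := hup o ho
  obtain ⟨n0', m0', hn0', hm0', hE1', hE2'⟩ := hup o' ho'
  have hR1 : P.R o.1 ≤ max (P.R o.1) (P.R o'.1) := le_max_left _ _
  have hR2 : P.R o'.1 ≤ max (P.R o.1) (P.R o'.1) := le_max_right _ _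
  have hRpos : 0 ≤ max (P.R o.1) (P.R o'.1) := (s9k_R_nonneg P hR0 _).trans hR1
  funext u
  by_cases hui : u = i
  · rw [hui]; exact hi
  by_cases huj : u = j
  · rw [huj]; exact hj
  obtain ⟨v, hvi, hvj, hvu⟩ := s9k_fourth i j u
  obtain ⟨hDq, hq⟩ := s9k_div36 u v (Ne.symm hvu)
  have hv3 := s9k_val_le3 v
  have hv3' : |-((v : ℕ) : ℝ)| ≤ 3 := by rw [abs_neg]; exact hv3
  have h1 : |(-1 : ℝ)| ≤ 1 := by norm_num
  have h1' : |(1 : ℝ)| ≤ 1 := by norm_num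
  refine s9k_core P O B0 hsep hQ o o' ho ho' u (hJ u) _ _ hDq hq
    (fun k => ((v : ℕ) : ℤ) * n0 k + (-((v : ℕ) : ℤ)) * n0' k + (-1) * m0 k + 1 * m0' k) (fun k => ?_) ?_
  · push_cast
    have := s9k_abs4 hv3 hv3' h1 h1' (hn0 k) (hn0' k) (hm0 k) (hm0' k)
    linarith
  · rw [s9k_dot_lin]
    have hs := s9k_sum4 (fun k => o.2 k - o'.2 k) i j u v hij (Ne.symm hui) (Ne.symm hvi) (Ne.symm huj)
      (Ne.symm hvj) (Ne.symm hvu) (by simp [hi]) (by simp [hj])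
    rw [s9k_sum_exp] at hs
    have key : (((((v : ℕ) : ℤ) - ((u : ℕ) : ℤ) : ℤ) : ℝ)) * (o.2 u - o'.2 u)
        + 36 * ((((v : ℕ) : ℤ) : ℝ) * P.dot n0 + ((-((v : ℕ) : ℤ) : ℤ) : ℝ) * P.dot n0'
          + ((-1 : ℤ) : ℝ) * P.dot m0 + ((1 : ℤ) : ℝ) * P.dot m0')
        = ((v : ℕ) : ℝ) * (∑ i, o.2 i + 36 * P.dot n0) + (-((v : ℕ) : ℝ)) * (∑ i, o'.2 i + 36 * P.dot n0')
          + (-1) * (scLinR 0 o.2 + 36 * P.dot m0) + 1 * (scLinR 0 o'.2 + 36 * P.dot m0') := by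
      rw [s9k_lin_exp, s9k_lin_exp]
      push_cast
      simp only [Fin.val_zero, Nat.cast_zero, zero_mul, sub_zero]
      linear_combination -hs
    rw [key]
    have h5 := s9k_abs4 hv3 hv3' h1 h1' hE1 hE1' hE2 hE2'
    have h6 : ν0 * P.R o.1 ≤ ν0 * max (P.R o.1) (P.R o'.1) := mul_le_mul_of_nonneg_left hR1 hν0
    have h7 : ν0 * P.R o'.1 ≤ ν0 * max (P.R o.1) (P.R o'.1) := mul_le_mul_of_nonneg_left hR2 hν0
    have h8 : 8 * ν0 * max (P.R o.1) (P.R o'.1) ≤ P.Sg * max (P.R o.1) (P.R o'.1) :=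
      mul_le_mul_of_nonneg_right hSg hRpos
    linarith

/-- **pair determination, three cores.**  LEAF P-S9-COUNT-A -/
theorem s9k_pair3 (P : ScParR) (O : Finset ScOccR) (l : Fin 4) (ν0 B0 : ℝ) (hJ : ∀ i, i ∈ P.J ↔ i ≠ l) (hR0 : 0 < P.R0)
    (hν0 : 0 ≤ ν0) (hB0 : 0 ≤ B0) (hzero : ∀ o ∈ O, o.2 l = 0) (hsep : S9Sep P O) (hup : S9Up3 P O l ν0 B0)
    (hQ : 288 * B0 ≤ P.Q) (hSg : 8 * ν0 ≤ P.Sg) :
    ∀ o ∈ O, ∀ o' ∈ O, ∀ i ∈ P.J, ∀ j ∈ P.J, i ≠ j → o.2 i = o'.2 i → o.2 j = o'.2 j → o.2 = o'.2 := by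
  intro o ho o' ho' i hiJ j hjJ hij hi hj
  obtain ⟨m0, hm0, hE2⟩ := hup o ho
  obtain ⟨m0', hm0', hE2'⟩ := hup o' ho'
  have hR1 : P.R o.1 ≤ max (P.R o.1) (P.R o'.1) := le_max_left _ _
  have hR2 : P.R o'.1 ≤ max (P.R o.1) (P.R o'.1) := le_max_right _ _
  have hRpos : 0 ≤ max (P.R o.1) (P.R o'.1) := (s9k_R_nonneg P hR0 _).trans hR1
  have hil : i ≠ l := (hJ i).1 hiJ
  have hjl : j ≠ l := (hJ j).1 hjJ
  funext u
  by_cases hui : u = i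
  · rw [hui]; exact hi
  by_cases huj : u = j
  · rw [huj]; exact hj
  by_cases hul : u = l
  · rw [hul, hzero o ho, hzero o' ho']
  obtain ⟨hDq, hq⟩ := s9k_div36 u l hul
  have h0 : |(0 : ℝ)| ≤ 0 := by norm_num
  have h1 : |(-1 : ℝ)| ≤ 1 := by norm_num
  have h1' : |(1 : ℝ)| ≤ 1 := by norm_num
  refine s9k_core P O B0 hsep hQ o o' ho ho' u ((hJ u).2 hul) _ _ hDq hq
    (fun k => (-1) * m0 k + 1 * m0' k + 0 * m0 k + 0 * m0 k) (fun k => ?_) ?_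
  · push_cast
    have := s9k_abs4 h1 h1' h0 h0 (hm0 k) (hm0' k) (hm0 k) (hm0 k)
    linarith
  · rw [s9k_dot_lin]
    have hs := s9k_sum4 (fun k => o.2 k - o'.2 k) i j u l hij (Ne.symm hui) hil (Ne.symm huj)
      hjl hul (by simp [hi]) (by simp [hj])
    rw [s9k_sum_exp] at hs
    have key : (((((l : ℕ) : ℤ) - ((u : ℕ) : ℤ) : ℤ) : ℝ)) * (o.2 u - o'.2 u)
        + 36 * (((-1 : ℤ) : ℝ) * P.dot m0 + ((1 : ℤ) : ℝ) * P.dot m0' + ((0 : ℤ) : ℝ) * P.dot m0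
          + ((0 : ℤ) : ℝ) * P.dot m0)
        = (-1) * (scLinR l o.2 + 36 * P.dot m0) + 1 * (scLinR l o'.2 + 36 * P.dot m0')
          + 0 * (scLinR l o.2 + 36 * P.dot m0) + 0 * (scLinR l o.2 + 36 * P.dot m0) := by
      rw [s9k_lin_exp, s9k_lin_exp]
      push_cast
      linear_combination -hs
    rw [key]
    have h5 := s9k_abs4 h1 h1' h0 h0 hE2 hE2' hE2 hE2
    have h6 : ν0 * P.R o.1 ≤ ν0 * max (P.R o.1) (P.R o'.1) := mul_le_mul_of_nonneg_left hR1 hν0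
    have h7 : ν0 * P.R o'.1 ≤ ν0 * max (P.R o.1) (P.R o'.1) := mul_le_mul_of_nonneg_left hR2 hν0
    have h8 : 8 * ν0 * max (P.R o.1) (P.R o'.1) ≤ P.Sg * max (P.R o.1) (P.R o'.1) :=
      mul_le_mul_of_nonneg_right hSg hRpos
    have h9 : 0 ≤ ν0 * max (P.R o.1) (P.R o'.1) := mul_nonneg hν0 hRpos
    linarith

/-- **overlapping windows determine the triple** (three cores, one scale, one common core label).  LEAF P-S9-COUNT-A -/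
theorem s9k_win3 (P : ScParR) (O : Finset ScOccR) (l : Fin 4) (ν0 B0 Λ0 : ℝ) (hJ : ∀ i, i ∈ P.J ↔ i ≠ l) (hR0 : 0 < P.R0)
    (hν0 : 0 ≤ ν0) (hB0 : 0 ≤ B0) (hΛ0 : 0 ≤ Λ0) (hzero : ∀ o ∈ O, o.2 l = 0) (hsep : S9Sep P O) (hup : S9Up3 P O l ν0 B0)
    (hQ : 288 * B0 ≤ P.Q) (hSg : 12 * Λ0 + 2 * ν0 ≤ P.Sg)
    (o o' : ScOccR) (ho : o ∈ O) (ho' : o' ∈ O) (hs : o.1 = o'.1) (i : Fin 4) (hi : i ∈ P.J) (hii : o.2 i = o'.2 i)
    (n : Fin P.d → ℤ) (hn : ∀ k, |(n k : ℝ)| ≤ 2 * B0)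
    (hq : |∑ k, o.2 k - ∑ k, o'.2 k + 36 * P.dot n| ≤ 4 * Λ0 * P.R o.1) : o.2 = o'.2 := by
  obtain ⟨m0, hm0, hE2⟩ := hup o ho
  obtain ⟨m0', hm0', hE2'⟩ := hup o' ho'
  have hmax : max (P.R o.1) (P.R o'.1) = P.R o.1 := by rw [← hs, max_self]
  have hRpos : 0 ≤ P.R o.1 := s9k_R_nonneg P hR0 _
  rw [← hs] at hE2'
  have hil : i ≠ l := (hJ i).1 hi
  funext u
  by_cases hui : u = i
  · rw [hui]; exact hii
  by_cases hul : u = l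
  · rw [hul, hzero o ho, hzero o' ho']
  obtain ⟨v, hvi, hvl, hvu⟩ := s9k_fourth i l u
  obtain ⟨hDq, hq'⟩ := s9k_div36 u v (Ne.symm hvu)
  have h0 : |(0 : ℝ)| ≤ 0 := by norm_num
  have h1 : |(-1 : ℝ)| ≤ 1 := by norm_num
  have h1' : |(1 : ℝ)| ≤ 1 := by norm_num
  have hvl3 := s9k_valsub_le3 v l
  refine s9k_core P O B0 hsep hQ o o' ho ho' u ((hJ u).2 hul) _ _ hDq hq'
    (fun k => (((v : ℕ) : ℤ) - ((l : ℕ) : ℤ)) * n k + (-1) * m0 k + 1 * m0' k + 0 * m0 k) (fun k => ?_) ?_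
  · push_cast
    have := s9k_abs4 hvl3 h1 h1' h0 (hn k) (hm0 k) (hm0' k) (hm0 k)
    linarith
  · rw [s9k_dot_lin, hmax]
    have hs4 := s9k_sum4 (fun k => o.2 k - o'.2 k) i l u v hil (Ne.symm hui) (Ne.symm hvi) (Ne.symm hul)
      (Ne.symm hvl) (Ne.symm hvu) (by simp [hii]) (by simp [hzero o ho, hzero o' ho'])
    rw [s9k_sum_exp] at hs4
    have key : (((((v : ℕ) : ℤ) - ((u : ℕ) : ℤ) : ℤ) : ℝ)) * (o.2 u - o'.2 u)
        + 36 * ((((((v : ℕ) : ℤ) - ((l : ℕ) : ℤ) : ℤ)) : ℝ) * P.dot n + ((-1 : ℤ) : ℝ) * P.dot m0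
          + ((1 : ℤ) : ℝ) * P.dot m0' + ((0 : ℤ) : ℝ) * P.dot m0)
        = (((v : ℕ) : ℝ) - ((l : ℕ) : ℝ)) * (∑ k, o.2 k - ∑ k, o'.2 k + 36 * P.dot n)
          + (-1) * (scLinR l o.2 + 36 * P.dot m0) + 1 * (scLinR l o'.2 + 36 * P.dot m0')
          + 0 * (scLinR l o.2 + 36 * P.dot m0) := by
      rw [s9k_lin_exp, s9k_lin_exp]
      push_cast
      linear_combination -hs4
    rw [key]
    have h5 := s9k_abs4 hvl3 h1 h1' h0 hq hE2 hE2' hE2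
    have h8 : (12 * Λ0 + 2 * ν0) * P.R o.1 ≤ P.Sg * P.R o.1 := mul_le_mul_of_nonneg_right hSg hRpos
    linarith

/-- the packet width of Lemma 3.5 in dimension `d + 1` at the height `Bn` -/
noncomputable def s9Wd (d Bn : ℕ) : ℝ := Real.logb 2 (((d + 1 : ℕ) : ℝ) * (s8cCr (d + 1) Bn : ℝ) + 1)

/-- the number of integers in an interval of length `T` -/
theorem s9kb_card_Icc (x T : ℝ) (hT : 0 ≤ T) : ((Finset.Icc ⌈x⌉ ⌊x + T⌋).card : ℝ) ≤ T + 1 := by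
  rw [Int.card_Icc]
  have h1 : (⌊x + T⌋ : ℝ) ≤ x + T := Int.floor_le _
  have h2 : x ≤ (⌈x⌉ : ℝ) := Int.le_ceil _
  rcases le_total 0 (⌊x + T⌋ + 1 - ⌈x⌉) with h | h
  · have h3 : (((⌊x + T⌋ + 1 - ⌈x⌉).toNat : ℕ) : ℝ) = ((⌊x + T⌋ + 1 - ⌈x⌉ : ℤ) : ℝ) := by
      rw [← Int.cast_natCast, Int.toNat_of_nonneg h]
    rw [h3]
    push_cast
    linarith
  · rw [Int.toNat_of_nonpos h]
    simp only [Nat.cast_zero]
    linarith

/-- **scale multiplicity of a fixed tuple** (height bins).  LEAF P-S9-COUNT-B -/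
theorem s9k_mult (P : ScParR) (O : Finset ScOccR) (l' : Fin 4) (Bn : ℕ) (hBn : 1 ≤ Bn) (hB : P.B ≤ Bn) (hR0 : 0 < P.R0)
    (hμ : 0 < P.μ) (hμν : P.μ ≤ P.ν)
    (hann : ∀ o ∈ O, ∃ n : Fin P.d → ℤ, (∀ k, |(n k : ℝ)| ≤ P.B) ∧
      P.μ * P.R o.1 ≤ |scLinR l' o.2 + 36 * P.dot n| ∧ |scLinR l' o.2 + 36 * P.dot n| ≤ P.ν * P.R o.1)
    (a : Fin 4 → ℝ) :
    ((O.filter fun o => o.2 = a).card : ℝ) ≤ ((P.d : ℝ) + 1) * (s9Wd P.d Bn + Real.logb 2 (P.ν / P.μ) + 1) := by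
  have hν : 0 < P.ν := lt_of_lt_of_le hμ hμν
  obtain ⟨Θ, hΘ⟩ : ∃ Θ : Option (Fin P.d) → ℝ,
      Θ = fun o => Option.elim o (scLinR l' a) (fun k => 36 * P.ζ k) := ⟨_, rfl⟩
  obtain ⟨packets, hcard, hpk⟩ := s8c_packets Θ Bn hBn 1 one_pos
  simp only [Fintype.card_option, Fintype.card_fin, mul_one] at hcard hpk
  have hW : 0 ≤ s9Wd P.d Bn := by
    unfold s9Wd
    apply Real.logb_nonneg one_lt_two
    have : (0 : ℝ) ≤ ((P.d + 1 : ℕ) : ℝ) * (s8cCr (P.d + 1) Bn : ℝ) := by positivity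
    linarith
  have hT : 0 ≤ Real.logb 2 (P.ν / P.μ) :=
    Real.logb_nonneg one_lt_two ((one_le_div hμ).2 hμν)
  obtain ⟨T, hTd⟩ : ∃ T : ℝ, T = s9Wd P.d Bn + Real.logb 2 (P.ν / P.μ) := ⟨_, rfl⟩
  have hT0 : 0 ≤ T := by rw [hTd]; linarith
  rw [← hTd]
  have hsub : (O.filter fun o => o.2 = a).image Prod.fst ⊆
      packets.biUnion fun α => Finset.Icc ⌈α - Real.logb 2 (P.ν * P.R0)⌉
        ⌊α - Real.logb 2 (P.ν * P.R0) + T⌋ := by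
    intro s hs
    obtain ⟨o, ho, rfl⟩ := Finset.mem_image.1 hs
    obtain ⟨hoO, hoa⟩ := Finset.mem_filter.1 ho
    obtain ⟨n, hn, hlo, hhi⟩ := hann o hoO
    rw [hoa] at hlo hhi
    obtain ⟨q, hq⟩ : ∃ q : Option (Fin P.d) → ℚ,
      q = fun o => Option.elim o 1 (fun k => (n k : ℚ)) := ⟨_, rfl⟩
    have hev : s8cEv q Θ = scLinR l' a + 36 * P.dot n := by
      rw [s8cEv, Fintype.sum_option, hq, hΘ]
      simp only [Option.elim_none, Option.elim_some, Rat.cast_one, one_mul, Rat.cast_intCast]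
      rw [ScParR.dot, Finset.mul_sum]
      congr 1
      refine Finset.sum_congr rfl fun k _ => ?_
      ring
    have hht : s8cHtLe Bn q := by
      intro i
      rw [hq]
      cases i with
      | none =>
        simp only [Option.elim_none, s8cHt]
        simpa using hBn
      | some k =>
        simp only [Option.elim_some, s8cHt, Rat.num_intCast, Rat.den_intCast]
        refine max_le ?_ hBn
        have h1 : (((n k).natAbs : ℕ) : ℝ) ≤ (Bn : ℝ) := by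
          rw [Nat.cast_natAbs, Int.cast_abs]
          exact (hn k).trans hB
        exact_mod_cast h1
    have hRs : 0 < P.R o.1 := by
      unfold ScParR.R
      positivity
    have hvpos : 0 < |scLinR l' a + 36 * P.dot n| := lt_of_lt_of_le (mul_pos hμ hRs) hlo
    have hne : s8cEv q Θ ≠ 0 := by
      rw [hev]
      exact abs_pos.1 hvpos
    obtain ⟨α, hα, h1, h2⟩ := hpk q hht hne
    rw [hev] at h1 h2
    have hlog : ∀ c : ℝ, 0 < c → Real.logb 2 (c * P.R o.1) = Real.logb 2 (c * P.R0) + (o.1 : ℝ) := by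
      intro c hc
      unfold ScParR.R
      rw [← mul_assoc, Real.logb_mul (by positivity) (by positivity), ← Real.rpow_intCast,
        Real.logb_rpow (by norm_num) (by norm_num)]
    have h3 : Real.logb 2 (P.μ * P.R0) + (o.1 : ℝ) ≤ Real.logb 2 |scLinR l' a + 36 * P.dot n| := by
      rw [← hlog _ hμ]
      exact Real.logb_le_logb_of_le one_lt_two (mul_pos hμ hRs) hlo
    have h4 : Real.logb 2 |scLinR l' a + 36 * P.dot n| ≤ Real.logb 2 (P.ν * P.R0) + (o.1 : ℝ) := by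
      rw [← hlog _ hν]
      exact Real.logb_le_logb_of_le one_lt_two hvpos hhi
    have h5 : Real.logb 2 (P.ν / P.μ) = Real.logb 2 (P.ν * P.R0) - Real.logb 2 (P.μ * P.R0) := by
      rw [← Real.logb_div (by positivity) (by positivity)]
      congr 1
      field_simp
    refine Finset.mem_biUnion.2 ⟨α, hα, Finset.mem_Icc.2 ⟨Int.ceil_le.2 ?_, Int.le_floor.2 ?_⟩⟩
    · linarith
    · have h2' : Real.logb 2 |scLinR l' a + 36 * P.dot n| ≤ α + s9Wd P.d Bn := h2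
      rw [hTd]
      linarith
  have hinj : ((O.filter fun o => o.2 = a).image Prod.fst).card = (O.filter fun o => o.2 = a).card := by
    apply Finset.card_image_of_injOn
    intro o ho o' ho' h
    have h1 : o.2 = a := (Finset.mem_filter.1 ho).2
    have h2 : o'.2 = a := (Finset.mem_filter.1 ho').2
    exact Prod.ext h (h1.trans h2.symm)
  have hc1 : ((O.filter fun o => o.2 = a).card : ℝ) ≤
      ∑ α ∈ packets, ((Finset.Icc ⌈α - Real.logb 2 (P.ν * P.R0)⌉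
        ⌊α - Real.logb 2 (P.ν * P.R0) + T⌋).card : ℝ) := by
    rw [← hinj]
    have := (Finset.card_le_card hsub).trans Finset.card_biUnion_le
    exact_mod_cast this
  have hc2 : ∑ α ∈ packets, ((Finset.Icc ⌈α - Real.logb 2 (P.ν * P.R0)⌉
        ⌊α - Real.logb 2 (P.ν * P.R0) + T⌋).card : ℝ) ≤ ∑ _α ∈ packets, (T + 1) :=
    Finset.sum_le_sum fun α _ => s9kb_card_Icc _ T hT0
  rw [Finset.sum_const, nsmul_eq_mul] at hc2
  have hc3 : (packets.card : ℝ) ≤ (P.d : ℝ) + 1 := by exact_mod_cast hcard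
  calc ((O.filter fun o => o.2 = a).card : ℝ) ≤ (packets.card : ℝ) * (T + 1) := hc1.trans hc2
    _ ≤ ((P.d : ℝ) + 1) * (T + 1) := by gcongr

end Claimed.Agent.R258
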