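/-
Row 258 (S0498), Sec. 9.5 (counting.tex, Prop. 9.3).  HOME ARCHITECT: helper41.      **THE RESULT OF SEC. 9**:  `s9_main`.
Black boxes: S9/{Cell,Count,Ineq}.lean, `cell_path_bound` (CellApi/Pack.lean).  NO paper needed.

`s9_main`: for a valid `S9Sys` the quantity `S.tot I = ∑_{u = (G,I) ∈ uses} ‖H_I(arguments of u)‖` splits on the cells as `tot ≤ uu + vv`, `uu` absolutely summable with the tiny constant
`C D_*^{-200}`, `vv` summable at the ABSOLUTE power `s9pw = 1 - θ'(1 - p0) ∈ [7/8, 1)` with a polynomial constant `s9X`.   No stops are created here.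

PLANS.
* `s9m_bin` (binning, display (33)): `prin = W⁻¹ ∑_h ∑_a kap0 · sfac · ∏ sgv`.  Expand `sfac` (`f = 0` only, for four cores): terms indexed by `(h, a, f)`, each equal to `kap0 · 2^{-f} ∏_j amp_j`.
  A term vanishes if `ref = none` or some `amp_j = 0`; otherwise `a ∈ tup x cfg u` for `cfg = cfg(h,a,f) ∈ cfgOf`, `kap0 = μ/ν ≤ 4·2^{-(b+c)}` (`s9k_bins`), `amp_j < 2·2^{amp bin}` (`s9k_binA`):
  term `≤ 64 cfg.ker ∏ cfg.sg`.  Sum over the fibres of `(h,a,f) ↦ cfg` (`h, f` are read off from `cfg`): fibre `= tup x cfg u`.  `W⁻¹ ≤ 1`.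
* `s9m_path` (path sum at a fixed `x`): by `s9m_bin`, subadditivity of `t ↦ t^pw` (`Real.add_rpow_le_rpow_add`-type inequality for finite sums, `0 < pw ≤ 1`):
  `∑_{I ∋ x} (∑_{u at I} prin x u)^pw ≤ 64 ∑_{cfg ∈ cfgs x} ∑_{g} ∑_{s} (ker ∏σ · Nn x cfg g s)^pw`  (`g` over the groups, `s` over the depths of the uses over `x`; the use `(g, I)`, `x ∈ I`, `depth I = s` is unique),
  then `s9i_main` (`p0 = 1 - 1/4160`, `C1 = 30`, `E = S9E`, `isCore e i := S.sd i = false`, `PL = C s9PL`, `PC := 4 PC`, `PA := 2 PC`, `Ds`) with `s9k_34`, `s9k_28`, `s9k_nE`, `s9k_cfgOk`.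
* `s9_main`: `C1` from `s9c_cell`, `n_u = nnorm 2 u.2 (Sd u)`.  `uu I = ∑_{u at I} C1 D_*^{-236}`, `b I = ∑_{u at I} C1 D_*^{-200} (1 + n_u²)`, `vv I = max 0 (tot I - uu I)`.
  `∑ |I| uu I = C1 D_*^{-236} ∑_u |u.2| ≤ C1 D_*^{-235} |R|` (field `use_len`).
  For every `x ∈ I`: `vv I ≤ C1 ∑_{u at I} prin x u + ∑_{u at I} C1 D_*^{-236} n_u`, so by subadditivity of `t ↦ t^pw` (`Real.rpow_add_le_add_rpow`, finite sums by induction)
  `vv I^pw ≤ C1 (∑_{u at I} prin x u)^pw + b I`:  `(C1 D_*^{-236} n)^pw ≤ C1 D_*^{-200} (1 + n²)` because `C1^pw ≤ C1`, `(D_*^{-236})^pw ≤ D_*^{-236·7/8} ≤ D_*^{-200}`, `n^pw ≤ max 1 n² `.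
  Put `v1 I = max 0 (vv I^pw - b I) ≤ C1 (∑ prin x u)^pw` for all `x ∈ I`:  `∑ |I| v1 I ≤ C1 C X |R|` by `cell_path_bound` from `s9m_path`;
  `∑ |I| b I = C1 D_*^{-200} ∑_u |u.2| (1 + n_u²) ≤ C1 D_*^{-200} (D_* + PC) |R| ≤ C1 (1 + PC) |R|`:  `use_len`, and `∑_u |u.2| n_u² ≤ PC |R|` by `cell_chain_bound` (`S` = the cells of the uses,
  `a I = ∑_{u at I} n_u²`, field `Sd_cap` at `I₀ = L`).   Finally `1 + PC ≤ s9X` (`up.card ≥ 1`, `s9PL ≥ 1`, `PC² ≥ PC ≥ 1`, last factor `≥ 3`).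
-/
import Claimed.Agent.R258.S9.Cell
import Claimed.Agent.R258.S9.Count
import Claimed.Agent.R258.CellApi.Pack

set_option autoImplicit false
open MeasureTheory

namespace Claimed.Agent.R258

open scoped BigOperators
open Classical

noncomputable section

/-- **the absolute power of Prop. 9.3** -/
def s9pw : ℝ := s9iPw (1 - 1 / 4160) 30

/-- `7/8 ≤ s9pw < 1`.  LEAF P-S9-MAIN-A -/
theorem s9pw_bounds : 7 / 8 ≤ s9pw ∧ s9pw < 1 := by
  have h : s9iTh 30 = 1 / 124 := by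
    unfold s9iTh
    norm_num
  unfold s9pw s9iPw
  rw [h]
  norm_num

/-- the polynomial cost of Prop. 9.3 (up to an absolute constant) -/
def s9X (p : S8Par) (d : ℕ) (PC : ℝ) (tys : Finset (ℕ × ℕ)) : ℝ :=
  (p.up.card : ℝ) * ((tys.card : ℝ) + 1) ^ 4 * s9PL p d * PC ^ 2 * (3 + Real.logb 2 (2 * PC) + Real.logb 2 p.Ds)

variable {d : ℕ} {S : S9Sys d} {c0 C0 PC : ℝ} {p : S8Par} {tys : Finset (ℕ × ℕ)}

/-! ### helpers of `s9m_bin` (LEAF P-S9-MAIN-A) -/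

theorem s9ma_mu_nonneg (l' : Fin 4) (qt : ℝ × ℝ) : 0 ≤ s9mu l' qt := by
  unfold s9mu
  refine le_min zero_le_one ?_
  rw [Finset.le_inf'_iff]
  intro j _
  exact abs_nonneg _

theorem s9ma_nu_ge (qt : ℝ × ℝ) : 1 ≤ s9nu qt := le_max_left _ _

theorem s9ma_kap0_nonneg (x : ℝ) (u : ℕ × Cell) (h : ℕ) (a : Fin 4 → ℕ) : 0 ≤ S.kap0 p x u h a := by
  unfold S9Sys.kap0
  split
  · exact le_rfl
  · exact mul_nonneg (s9ma_mu_nonneg _ _) (inv_nonneg.2 (zero_le_one.trans (s9ma_nu_ge _)))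

theorem s9ma_bL_nonneg (x : ℝ) (u : ℕ × Cell) (h : ℕ) (a : Fin 4 → ℕ) (f : ℕ) : 0 ≤ S.bL p x u h a f :=
  Real.sqrt_nonneg _

/-- comparison of two finite sums along a map which is injective on the positive terms -/
theorem s9m_sum_le_of_inj {α β : Type*} (s : Finset α) (t : Finset β) (f : α → ℝ) (g : β → ℝ) (e : α → β)
    (hg : ∀ j ∈ t, 0 ≤ g j) (hmap : ∀ i ∈ s, 0 < f i → e i ∈ t ∧ f i ≤ g (e i))
    (hinj : ∀ i ∈ s, ∀ i' ∈ s, 0 < f i → 0 < f i' → e i = e i' → i = i') : ∑ i ∈ s, f i ≤ ∑ j ∈ t, g j := by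
  calc ∑ i ∈ s, f i ≤ ∑ i ∈ s.filter (fun i => 0 < f i), f i := by
        rw [Finset.sum_filter]
        refine Finset.sum_le_sum fun i _ => ?_
        split_ifs with h
        · exact le_rfl
        · exact not_lt.1 h
    _ ≤ ∑ i ∈ s.filter (fun i => 0 < f i), g (e i) :=
        Finset.sum_le_sum fun i hi => (hmap i (Finset.mem_filter.1 hi).1 (Finset.mem_filter.1 hi).2).2
    _ = ∑ j ∈ (s.filter (fun i => 0 < f i)).image e, g j := by
        rw [Finset.sum_image]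
        intro i hi i' hi' hii
        have hi := Finset.mem_filter.1 (Finset.mem_coe.1 hi)
        have hi' := Finset.mem_filter.1 (Finset.mem_coe.1 hi')
        exact hinj i hi.1 i' hi'.1 hi.2 hi'.2 hii
    _ ≤ ∑ j ∈ t, g j := by
        refine Finset.sum_le_sum_of_subset_of_nonneg ?_ fun j hj _ => hg j hj
        intro j hj
        obtain ⟨i, hi, rfl⟩ := Finset.mem_image.1 hj
        exact (hmap i (Finset.mem_filter.1 hi).1 (Finset.mem_filter.1 hi).2).1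

/-- the shells of a tuple -/
def s9mFs (S : S9Sys d) (p : S8Par) : Finset ℕ := if S.hasSide then Finset.range (p.F0 + 1) else {0}

/-- one term of the expanded principal part -/
def s9mTm (S : S9Sys d) (p : S8Par) (x : ℝ) (u : ℕ × Cell) (h : ℕ) (a : Fin 4 → ℕ) (f : ℕ) : ℝ :=
  S.kap0 p x u h a * ((2 : ℝ) ^ f)⁻¹ * ∏ j, S.amp p x u h a f j

/-- the configuration of a term with the reference pair `qt` -/
def s9mCf (S : S9Sys d) (p : S8Par) (x : ℝ) (u : ℕ × Cell) (h : ℕ) (a : Fin 4 → ℕ) (f : ℕ) (qt : ℝ × ℝ) : S9Cfg S9E :=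
  ((h, S.tyv u h a), (fun j => s9binA (S.amp p x u h a f j)), s9binB S.anc qt, s9binC qt, f)

theorem s9m_amp_nonneg (hV : S.Valid c0 C0 p PC tys) (x : ℝ) (u : ℕ × Cell) (h : ℕ) (a : Fin 4 → ℕ) (f : ℕ) (j : Fin 4) :
    0 ≤ S.amp p x u h a f j := by
  unfold S9Sys.amp
  split_ifs
  · exact s9ma_bL_nonneg _ _ _ _ _
  · exact hV.sg_nonneg _ _ _ _

theorem s9m_expand (hV : S.Valid c0 C0 p PC tys) (x : ℝ) (u : ℕ × Cell) (h : ℕ) (a : Fin 4 → ℕ) :
    S.kap0 p x u h a * S.sfac p x u h a * ∏ j, S.sgv u h a j = ∑ f ∈ s9mFs S p, s9mTm S p x u h a f := by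
  unfold s9mFs s9mTm S9Sys.sfac
  by_cases hs : S.hasSide
  · rw [if_pos hs, if_pos hs]
    obtain ⟨l, hl⟩ := hs
    have huniq : ∀ j, S.sd j = true → j = l := fun j hj =>
      Finset.card_le_one.1 hV.sd_le j (Finset.mem_filter.2 ⟨Finset.mem_univ _, hj⟩) l
        (Finset.mem_filter.2 ⟨Finset.mem_univ _, hl⟩)
    have hprod : ∀ f, ∏ j, S.amp p x u h a f j = S.bL p x u h a f * ∏ j, S.sgv u h a j := by
      intro f
      have e : ∀ j, S.amp p x u h a f j = (if j = l then S.bL p x u h a f else 1) * S.sgv u h a j := by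
        intro j
        unfold S9Sys.amp S9Sys.sgv
        by_cases hj : S.sd j = true
        · rw [if_pos hj, if_pos hj, if_pos (huniq j hj), mul_one]
        · have hjl : j ≠ l := fun hjl => hj (hjl ▸ hl)
          rw [if_neg hj, if_neg hj, if_neg hjl, one_mul]
      rw [Finset.prod_congr rfl fun j _ => e j, Finset.prod_mul_distrib, Finset.prod_ite_eq' Finset.univ l,
        if_pos (Finset.mem_univ _)]
    rw [Finset.mul_sum, Finset.sum_mul]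
    refine Finset.sum_congr rfl fun f _ => ?_
    rw [hprod f]
    ring
  · rw [if_neg hs, if_neg hs, Finset.sum_singleton, pow_zero, inv_one, mul_one]
    congr 1
    refine Finset.prod_congr rfl fun j _ => ?_
    have hj : ¬ S.sd j = true := fun hj => hs ⟨j, hj⟩
    unfold S9Sys.amp S9Sys.sgv
    rw [if_neg hj, if_neg hj]

theorem s9m_ref_mu {x : ℝ} {u : ℕ × Cell} {h : ℕ} {a : Fin 4 → ℕ} {qt : ℝ × ℝ} (hr : S.ref p x u h a = some qt) :
    p.U0⁻¹ ≤ s9mu S.anc qt := by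
  unfold S9Sys.ref at hr
  split_ifs at hr with h1 h2
  rw [← Option.some.inj hr]
  exact h2

theorem s9m_ker_eq (cfg : S9Cfg S9E) : cfg.ker = ((2 : ℝ) ^ cfg.b)⁻¹ * ((2 : ℝ) ^ cfg.c)⁻¹ * ((2 : ℝ) ^ cfg.f)⁻¹ := by
  unfold S9Cfg.ker
  rw [Real.rpow_neg (by norm_num), Real.rpow_add (by norm_num), Real.rpow_add (by norm_num), Real.rpow_natCast,
    Real.rpow_natCast, Real.rpow_natCast, mul_inv, mul_inv]

theorem s9m_c_nonneg (cfg : S9Cfg S9E) : 0 ≤ cfg.ker * ∏ i, cfg.sg i := by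
  refine mul_nonneg (Real.rpow_nonneg (by norm_num) _) (Finset.prod_nonneg fun i _ => ?_)
  unfold S9Cfg.sg
  positivity

/-- a positive term: its configuration occurs, its tuple is counted, and it is bounded by `64 ker ∏ σ` -/
theorem s9m_term (hV : S.Valid c0 C0 p PC tys) (hP : S9ParOk p d) (x : ℝ) (u : ℕ × Cell) (h : ℕ) (hh : h ∈ p.up)
    (a : Fin 4 → ℕ) (ha : a ∈ S.labT u h) (f : ℕ) (hf : f ∈ s9mFs S p) (hpos : 0 < s9mTm S p x u h a f) :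
    ∃ qt, S.ref p x u h a = some qt ∧ s9mCf S p x u h a f qt ∈ S.cfgOf p x u ∧ a ∈ S.tup p x (s9mCf S p x u h a f qt) u ∧
      s9mTm S p x u h a f ≤ 64 * ((s9mCf S p x u h a f qt).ker * ∏ i, (s9mCf S p x u h a f qt).sg i) := by
  have hk0 := s9ma_kap0_nonneg (S := S) (p := p) x u h a
  have hA0 : ∀ j, 0 ≤ S.amp p x u h a f j := s9m_amp_nonneg hV x u h a f
  have hne : s9mTm S p x u h a f ≠ 0 := hpos.ne'
  unfold s9mTm at hne
  have hk : S.kap0 p x u h a ≠ 0 := fun h0 => hne (by rw [h0]; ring)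
  have hpr : ∏ j, S.amp p x u h a f j ≠ 0 := fun h0 => hne (by rw [h0]; ring)
  have hA : ∀ j, 0 < S.amp p x u h a f j := fun j =>
    lt_of_le_of_ne (hA0 j) (Ne.symm (Finset.prod_ne_zero_iff.1 hpr j (Finset.mem_univ _)))
  rcases hr : S.ref p x u h a with _ | qt
  · exact absurd (by simp [S9Sys.kap0, hr]) hk
  have hkap : S.kap0 p x u h a = s9mu S.anc qt * (s9nu qt)⁻¹ := by simp [S9Sys.kap0, hr]
  have hfr : f ∈ Finset.range (p.F0 + 1) := by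
    unfold s9mFs at hf
    split_ifs at hf
    · exact hf
    · rw [Finset.mem_singleton.1 hf]
      exact Finset.mem_range.2 (Nat.succ_pos _)
  refine ⟨qt, rfl, ?_, ?_, ?_⟩
  · unfold S9Sys.cfgOf
    refine Finset.mem_biUnion.2 ⟨h, hh, Finset.mem_biUnion.2 ⟨a, ha, Finset.mem_biUnion.2 ⟨f, hfr, ?_⟩⟩⟩
    rw [hr]
    exact Finset.mem_singleton.2 rfl
  · unfold S9Sys.tup
    refine Finset.mem_filter.2 ⟨ha, fun j => rfl, fun j => ⟨hA j, rfl⟩, ⟨qt, hr, rfl, rfl⟩, ?_⟩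
    unfold s9mFs at hf
    split_ifs at hf ⊢
    · exact Nat.lt_succ_iff.1 (Finset.mem_range.1 hf)
    · exact Finset.mem_singleton.1 hf
  · have hU : 0 < p.U0 := by
      unfold S8Par.U0
      have : (100 : ℝ) ≤ p.Ds := by exact_mod_cast hP.Ds_ge
      positivity
    have hμ : 0 < s9mu S.anc qt := lt_of_lt_of_le (inv_pos.2 hU) (s9m_ref_mu hr)
    obtain ⟨-, hb2, -, hc2⟩ := s9k_bins S.anc qt hμ
    have hν := s9ma_nu_ge qt
    have hν' : (s9nu qt)⁻¹ ≤ 2 * ((2 : ℝ) ^ s9binC qt)⁻¹ := by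
      rw [inv_le_comm₀ (by linarith) (by positivity), mul_inv, inv_inv]
      linarith
    have hamp : ∏ j, S.amp p x u h a f j ≤ 16 * ∏ i, (s9mCf S p x u h a f qt).sg i := by
      calc ∏ j, S.amp p x u h a f j ≤ ∏ i : Fin 4, (2 * (s9mCf S p x u h a f qt).sg i) :=
            Finset.prod_le_prod (fun j _ => hA0 j) fun j _ => (s9k_binA _ (hA j)).2.le
        _ = 16 * ∏ i, (s9mCf S p x u h a f qt).sg i := by
            rw [Finset.prod_mul_distrib, Finset.prod_const, Finset.card_univ, Fintype.card_fin]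
            norm_num
    have hsg0 : 0 ≤ ∏ i, (s9mCf S p x u h a f qt).sg i := Finset.prod_nonneg fun i _ => by
      unfold S9Cfg.sg
      positivity
    rw [s9m_ker_eq]
    show S.kap0 p x u h a * ((2 : ℝ) ^ f)⁻¹ * ∏ j, S.amp p x u h a f j ≤
      64 * (((2 : ℝ) ^ s9binB S.anc qt)⁻¹ * ((2 : ℝ) ^ s9binC qt)⁻¹ * ((2 : ℝ) ^ f)⁻¹ * ∏ i, (s9mCf S p x u h a f qt).sg i)
    rw [hkap]
    have hb0 : (0 : ℝ) < ((2 : ℝ) ^ s9binB S.anc qt)⁻¹ := by positivity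
    have hc0 : (0 : ℝ) < ((2 : ℝ) ^ s9binC qt)⁻¹ := by positivity
    have hf0 : (0 : ℝ) < ((2 : ℝ) ^ f)⁻¹ := by positivity
    calc s9mu S.anc qt * (s9nu qt)⁻¹ * ((2 : ℝ) ^ f)⁻¹ * ∏ j, S.amp p x u h a f j
        ≤ (2 * ((2 : ℝ) ^ s9binB S.anc qt)⁻¹) * (2 * ((2 : ℝ) ^ s9binC qt)⁻¹) * ((2 : ℝ) ^ f)⁻¹ *
            (16 * ∏ i, (s9mCf S p x u h a f qt).sg i) := by
          apply mul_le_mul (mul_le_mul_of_nonneg_right (mul_le_mul hb2 hν' (by positivity) (by positivity)) hf0.le)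
            hamp (Finset.prod_nonneg fun j _ => hA0 j) (by positivity)
      _ = _ := by ring

/-- **binning**, display (33).  LEAF P-S9-MAIN-A -/
theorem s9m_bin (hV : S.Valid c0 C0 p PC tys) (hP : S9ParOk p d) (u : ℕ × Cell) (hu : u ∈ S.uses) (x : ℝ) (hx : x ∈ u.2.set) :
    S.prin p x u ≤ 64 * ∑ cfg ∈ S.cfgOf p x u, cfg.ker * (∏ i, cfg.sg i) * ((S.tup p x cfg u).card : ℝ) := by
  have hT0 : ∀ h a f, 0 ≤ s9mTm S p x u h a f := fun h a f =>
    mul_nonneg (mul_nonneg (s9ma_kap0_nonneg _ _ _ _) (by positivity))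
      (Finset.prod_nonneg fun j _ => s9m_amp_nonneg hV x u h a f j)
  have h1 : S.prin p x u ≤ ∑ h ∈ p.up, ∑ a ∈ S.labT u h, ∑ f ∈ s9mFs S p, s9mTm S p x u h a f := by
    unfold S9Sys.prin
    rw [Finset.sum_congr rfl fun h _ => Finset.sum_congr rfl fun a _ => s9m_expand hV x u h a]
    have hW : (p.up.card : ℝ)⁻¹ ≤ 1 :=
      inv_le_one_of_one_le₀ (by exact_mod_cast Finset.card_pos.2 hP.up_ne)
    calc _ ≤ 1 * ∑ h ∈ p.up, ∑ a ∈ S.labT u h, ∑ f ∈ s9mFs S p, s9mTm S p x u h a f :=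
          mul_le_mul_of_nonneg_right hW (Finset.sum_nonneg fun h _ => Finset.sum_nonneg fun a _ =>
            Finset.sum_nonneg fun f _ => hT0 h a f)
      _ = _ := one_mul _
  have h2 : ∑ h ∈ p.up, ∑ a ∈ S.labT u h, ∑ f ∈ s9mFs S p, s9mTm S p x u h a f
      = ∑ z ∈ p.up.sigma (fun h => S.labT u h ×ˢ s9mFs S p), s9mTm S p x u z.1 z.2.1 z.2.2 := by
    rw [Finset.sum_sigma]
    exact Finset.sum_congr rfl fun h _ =>
      (Finset.sum_product (S.labT u h) (s9mFs S p) (fun s => s9mTm S p x u h s.1 s.2)).symm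
  have h3 : 64 * ∑ cfg ∈ S.cfgOf p x u, cfg.ker * (∏ i, cfg.sg i) * ((S.tup p x cfg u).card : ℝ)
      = ∑ z ∈ (S.cfgOf p x u).sigma (fun cfg => S.tup p x cfg u), 64 * (z.1.ker * ∏ i, z.1.sg i) := by
    rw [Finset.sum_sigma, Finset.mul_sum]
    refine Finset.sum_congr rfl fun cfg _ => ?_
    simp only []
    rw [Finset.sum_const, nsmul_eq_mul]
    ring
  rw [h3]
  refine h1.trans (h2.le.trans ?_)
  refine s9m_sum_le_of_inj _ _ _ _
    (fun z => ⟨s9mCf S p x u z.1 z.2.1 z.2.2 ((S.ref p x u z.1 z.2.1).getD (0, 0)), z.2.1⟩)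
    (fun z _ => mul_nonneg (by norm_num) (s9m_c_nonneg z.1)) ?_ ?_
  · rintro ⟨h, a, f⟩ hz hpos
    obtain ⟨hh, haf⟩ := Finset.mem_sigma.1 hz
    obtain ⟨ha, hf⟩ := Finset.mem_product.1 haf
    obtain ⟨qt, hr, hc, ht, hle⟩ := s9m_term hV hP x u h hh a ha f hf hpos
    simp only [hr, Option.getD_some]
    exact ⟨Finset.mem_sigma.2 ⟨hc, ht⟩, hle⟩
  · rintro ⟨h, a, f⟩ _ ⟨h', a', f'⟩ _ _ _ he
    simp only [Sigma.mk.injEq] at he
    obtain ⟨he1, he2⟩ := he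
    have ea : a = a' := eq_of_heq he2
    have eh : h = h' := congrArg (fun c : S9Cfg S9E => c.1.1) he1
    have ef : f = f' := congrArg (fun c : S9Cfg S9E => c.2.2.2.2) he1
    subst ea eh ef
    rfl

/-! ### helpers of `s9m_path` (LEAF P-S9-MAIN-B) -/

/-- subadditivity of `t ↦ t^q`, `0 < q ≤ 1`, for finite sums -/
theorem s9m_rpow_sum_le {ι : Type*} (s : Finset ι) (a : ι → ℝ) (ha : ∀ i ∈ s, 0 ≤ a i) {q : ℝ} (hq0 : 0 < q)
    (hq1 : q ≤ 1) : (∑ i ∈ s, a i) ^ q ≤ ∑ i ∈ s, a i ^ q := by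
  induction s using Finset.induction_on with
  | empty => simp [Real.zero_rpow hq0.ne']
  | insert i s hi ih =>
    rw [Finset.sum_insert hi, Finset.sum_insert hi]
    have h1 := Real.rpow_add_le_add_rpow (ha i (Finset.mem_insert_self i s))
      (Finset.sum_nonneg fun j hj => ha j (Finset.mem_insert_of_mem hj)) hq0.le hq1
    exact h1.trans (add_le_add_right (ih fun j hj => ha j (Finset.mem_insert_of_mem hj)) _)

theorem s9m_mu_nonneg (l' : Fin 4) (qt : ℝ × ℝ) : 0 ≤ s9mu l' qt :=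
  le_min zero_le_one (Finset.le_inf' _ _ fun _ _ => abs_nonneg _)

theorem s9m_nu_pos (qt : ℝ × ℝ) : 0 < s9nu qt := lt_of_lt_of_le one_pos (le_max_left _ _)

theorem s9m_kap0_nonneg (x : ℝ) (u : ℕ × Cell) (h : ℕ) (a : Fin 4 → ℕ) : 0 ≤ S.kap0 p x u h a := by
  unfold S9Sys.kap0
  cases S.ref p x u h a with
  | none => exact le_rfl
  | some qt => exact mul_nonneg (s9m_mu_nonneg _ _) (inv_nonneg.2 (s9m_nu_pos qt).le)

theorem s9m_sfac_nonneg (x : ℝ) (u : ℕ × Cell) (h : ℕ) (a : Fin 4 → ℕ) : 0 ≤ S.sfac p x u h a := by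
  unfold S9Sys.sfac
  split_ifs
  · exact Finset.sum_nonneg fun f _ => mul_nonneg (by positivity) (Real.sqrt_nonneg _)
  · exact zero_le_one

theorem s9m_prin_nonneg (hV : S.Valid c0 C0 p PC tys) (x : ℝ) (u : ℕ × Cell) : 0 ≤ S.prin p x u := by
  unfold S9Sys.prin
  refine mul_nonneg (by positivity) (Finset.sum_nonneg fun h _ => Finset.sum_nonneg fun a _ => ?_)
  refine mul_nonneg (mul_nonneg (s9m_kap0_nonneg x u h a) (s9m_sfac_nonneg x u h a))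
    (Finset.prod_nonneg fun j _ => ?_)
  unfold S9Sys.sgv
  split_ifs
  · exact zero_le_one
  · exact hV.sg_nonneg _ _ _ _

theorem s9m_ker_sg_nonneg (cfg : S9Cfg S9E) : 0 ≤ cfg.ker * ∏ i, cfg.sg i := by
  unfold S9Cfg.ker S9Cfg.sg
  positivity

theorem s9m_Nn_nonneg (x : ℝ) (cfg : S9Cfg S9E) (g : ℕ) (s : ℤ) : 0 ≤ S.Nn p x cfg g s :=
  Finset.sum_nonneg fun _ _ => Nat.cast_nonneg _

theorem s9m_Mm_nonneg (x : ℝ) (cfg : S9Cfg S9E) (i : Fin 4) (g : ℕ) : 0 ≤ S.Mm p x cfg i g := by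
  unfold S9Sys.Mm
  split_ifs
  · exact Finset.sum_nonneg fun u _ => by positivity
  · exact Nat.cast_nonneg _

theorem s9m_PL_ge (p : S8Par) (d : ℕ) : 1 ≤ s9PL p d := by
  unfold s9PL
  have h1 : 0 ≤ s9Wd d (4 * p.Bx p.Js) := by
    unfold s9Wd
    refine Real.logb_nonneg (by norm_num) ?_
    have : (0 : ℝ) ≤ ((d + 1 : ℕ) : ℝ) * (s8cCr (d + 1) (4 * p.Bx p.Js) : ℝ) := by positivity
    linarith
  have h2 : (0 : ℝ) ≤ (d : ℝ) := Nat.cast_nonneg d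
  refine one_le_pow₀ ?_
  nlinarith

/-- one cell of the path: binning and subadditivity -/
theorem s9m_cell_pow (hV : S.Valid c0 C0 p PC tys) (hP : S9ParOk p d) (x : ℝ) (I : Cell) (hx : x ∈ I.set) :
    (∑ u ∈ S.uses.filter (fun u => u.2 = I), S.prin p x u) ^ s9pw
      ≤ 64 * ∑ u ∈ S.uses.filter (fun u => u.2 = I), ∑ cfg ∈ S.cfgs p x,
          (cfg.ker * (∏ i, cfg.sg i) * ((S.tup p x cfg u).card : ℝ)) ^ s9pw := by
  obtain ⟨hpw1, hpw2⟩ := s9pw_bounds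
  have hpw0 : 0 < s9pw := by linarith
  have ht0 : ∀ (cfg : S9Cfg S9E) (u : ℕ × Cell), 0 ≤ cfg.ker * (∏ i, cfg.sg i) * ((S.tup p x cfg u).card : ℝ) :=
    fun cfg u => mul_nonneg (s9m_ker_sg_nonneg cfg) (Nat.cast_nonneg _)
  have hmem : ∀ u ∈ S.uses.filter (fun u => u.2 = I), u ∈ S.uses ∧ x ∈ u.2.set := by
    intro u hu
    rw [Finset.mem_filter] at hu
    exact ⟨hu.1, by rw [hu.2]; exact hx⟩
  have h1 : ∑ u ∈ S.uses.filter (fun u => u.2 = I), S.prin p x u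
      ≤ 64 * ∑ u ∈ S.uses.filter (fun u => u.2 = I), ∑ cfg ∈ S.cfgs p x,
          cfg.ker * (∏ i, cfg.sg i) * ((S.tup p x cfg u).card : ℝ) := by
    rw [Finset.mul_sum]
    refine Finset.sum_le_sum fun u hu => ?_
    obtain ⟨hu1, hu2⟩ := hmem u hu
    refine (s9m_bin hV hP u hu1 x hu2).trans (mul_le_mul_of_nonneg_left ?_ (by norm_num))
    refine Finset.sum_le_sum_of_subset_of_nonneg ?_ fun cfg _ _ => ht0 cfg u
    intro cfg hcfg
    unfold S9Sys.cfgs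
    exact Finset.mem_biUnion.2 ⟨u, Finset.mem_filter.2 ⟨hu1, hu2⟩, hcfg⟩
  have h0 : 0 ≤ ∑ u ∈ S.uses.filter (fun u => u.2 = I), S.prin p x u :=
    Finset.sum_nonneg fun u _ => s9m_prin_nonneg hV x u
  have hS0 : 0 ≤ ∑ u ∈ S.uses.filter (fun u => u.2 = I), ∑ cfg ∈ S.cfgs p x,
      cfg.ker * (∏ i, cfg.sg i) * ((S.tup p x cfg u).card : ℝ) :=
    Finset.sum_nonneg fun u _ => Finset.sum_nonneg fun cfg _ => ht0 cfg u
  calc (∑ u ∈ S.uses.filter (fun u => u.2 = I), S.prin p x u) ^ s9pw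
      ≤ (64 * ∑ u ∈ S.uses.filter (fun u => u.2 = I), ∑ cfg ∈ S.cfgs p x,
          cfg.ker * (∏ i, cfg.sg i) * ((S.tup p x cfg u).card : ℝ)) ^ s9pw :=
        Real.rpow_le_rpow h0 h1 hpw0.le
    _ = (64 : ℝ) ^ s9pw * (∑ u ∈ S.uses.filter (fun u => u.2 = I), ∑ cfg ∈ S.cfgs p x,
          cfg.ker * (∏ i, cfg.sg i) * ((S.tup p x cfg u).card : ℝ)) ^ s9pw :=
        Real.mul_rpow (by norm_num) hS0
    _ ≤ 64 * ∑ u ∈ S.uses.filter (fun u => u.2 = I), ∑ cfg ∈ S.cfgs p x,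
          (cfg.ker * (∏ i, cfg.sg i) * ((S.tup p x cfg u).card : ℝ)) ^ s9pw := by
        refine mul_le_mul ?_ ?_ (Real.rpow_nonneg hS0 _) (by norm_num)
        · calc (64 : ℝ) ^ s9pw ≤ (64 : ℝ) ^ (1 : ℝ) :=
                Real.rpow_le_rpow_of_exponent_le (by norm_num) hpw2.le
            _ = 64 := Real.rpow_one _
        · refine (s9m_rpow_sum_le _ _ (fun u _ => Finset.sum_nonneg fun cfg _ => ht0 cfg u) hpw0 hpw2.le).trans ?_
          exact Finset.sum_le_sum fun u _ => s9m_rpow_sum_le _ _ (fun cfg _ => ht0 cfg u) hpw0 hpw2.le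

/-- the sum over the cells of the path and the uses on them is the sum over the uses over `x` -/
theorem s9m_sum_path (hV : S.Valid c0 C0 p PC tys) (x : ℝ) (F : ℕ × Cell → ℝ) :
    ∑ I ∈ S.cells.filter (fun I => x ∈ I.set), ∑ u ∈ S.uses.filter (fun u => u.2 = I), F u
      = ∑ u ∈ S.uses.filter (fun u => x ∈ u.2.set), F u := by
  rw [← Finset.sum_fiberwise_of_maps_to (s := S.uses.filter (fun u => x ∈ u.2.set))
    (t := S.cells.filter (fun I => x ∈ I.set)) (g := Prod.snd) (fun u hu => by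
      rw [Finset.mem_filter] at hu ⊢
      exact ⟨hV.uses_sub u hu.1, hu.2⟩)]
  refine Finset.sum_congr rfl fun I hI => ?_
  refine Finset.sum_congr ?_ fun _ _ => rfl
  ext u
  simp only [Finset.mem_filter]
  constructor
  · rintro ⟨h1, h2⟩
    exact ⟨⟨h1, by rw [h2]; exact (Finset.mem_filter.1 hI).2⟩, h2⟩
  · rintro ⟨⟨h1, _⟩, h2⟩
    exact ⟨h1, h2⟩

/-- reindexing: a use over `x` is determined by its group and its depth -/
theorem s9m_reindex (x : ℝ) (cfg : S9Cfg S9E) {q : ℝ} (hq : 0 ≤ q) :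
    ∑ u ∈ S.uses.filter (fun u => x ∈ u.2.set), (cfg.ker * (∏ i, cfg.sg i) * ((S.tup p x cfg u).card : ℝ)) ^ q
      ≤ ∑ g ∈ (S.uses.filter (fun u => x ∈ u.2.set)).image Prod.fst,
          ∑ s ∈ (S.uses.filter (fun u => x ∈ u.2.set)).image (fun u => u.2.depth),
            (cfg.ker * (∏ i, cfg.sg i) * S.Nn p x cfg g s) ^ q := by
  have hk := s9m_ker_sg_nonneg cfg
  have hinj : Set.InjOn (fun u : ℕ × Cell => (u.1, u.2.depth))
      ((S.uses.filter (fun u => x ∈ u.2.set) : Finset (ℕ × Cell)) : Set (ℕ × Cell)) := by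
    intro u hu u' hu' he
    have hu2 := (Finset.mem_filter.1 (Finset.mem_coe.1 hu)).2
    have hu2' := (Finset.mem_filter.1 (Finset.mem_coe.1 hu')).2
    simp only [Prod.mk.injEq] at he
    have h1 : u.2 ≤ u'.2 := cell_le_of_mem_of_depth hu2 hu2' he.2.ge
    have h2 : u'.2 ≤ u.2 := cell_le_of_mem_of_depth hu2' hu2 he.2.le
    exact Prod.ext he.1 (le_antisymm h1 h2)
  calc ∑ u ∈ S.uses.filter (fun u => x ∈ u.2.set), (cfg.ker * (∏ i, cfg.sg i) * ((S.tup p x cfg u).card : ℝ)) ^ q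
      ≤ ∑ u ∈ S.uses.filter (fun u => x ∈ u.2.set),
          (cfg.ker * (∏ i, cfg.sg i) * S.Nn p x cfg u.1 u.2.depth) ^ q := by
        refine Finset.sum_le_sum fun u hu => ?_
        refine Real.rpow_le_rpow (mul_nonneg hk (Nat.cast_nonneg _)) (mul_le_mul_of_nonneg_left ?_ hk) hq
        unfold S9Sys.Nn
        refine Finset.single_le_sum (f := fun u' : ℕ × Cell => ((S.tup p x cfg u').card : ℝ))
          (fun _ _ => Nat.cast_nonneg _) ?_
        rw [Finset.mem_filter] at hu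
        unfold S9Sys.usesG
        exact Finset.mem_filter.2 ⟨Finset.mem_filter.2 ⟨hu.1, rfl, hu.2⟩, rfl⟩
    _ = ∑ z ∈ (S.uses.filter (fun u => x ∈ u.2.set)).image (fun u : ℕ × Cell => (u.1, u.2.depth)),
          (cfg.ker * (∏ i, cfg.sg i) * S.Nn p x cfg z.1 z.2) ^ q :=
        (Finset.sum_image (f := fun z : ℕ × ℤ => (cfg.ker * (∏ i, cfg.sg i) * S.Nn p x cfg z.1 z.2) ^ q) hinj).symm
    _ ≤ ∑ z ∈ ((S.uses.filter (fun u => x ∈ u.2.set)).image Prod.fst) ×ˢ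
            ((S.uses.filter (fun u => x ∈ u.2.set)).image (fun u => u.2.depth)),
          (cfg.ker * (∏ i, cfg.sg i) * S.Nn p x cfg z.1 z.2) ^ q := by
        refine Finset.sum_le_sum_of_subset_of_nonneg ?_ fun z _ _ =>
          Real.rpow_nonneg (mul_nonneg hk (s9m_Nn_nonneg x cfg z.1 z.2)) _
        intro z hz
        obtain ⟨u, hu, rfl⟩ := Finset.mem_image.1 hz
        exact Finset.mem_product.2 ⟨Finset.mem_image_of_mem _ hu,
          Finset.mem_image_of_mem (fun u : ℕ × Cell => u.2.depth) hu⟩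
    _ = _ := Finset.sum_product _ _ _

/-- **the path sum of the powers of the principal parts.**  LEAF P-S9-MAIN-B -/
theorem s9m_path : ∃ C : ℝ, 1 ≤ C ∧ ∀ (d : ℕ) (S : S9Sys d) (c0 C0 PC : ℝ) (p : S8Par) (tys : Finset (ℕ × ℕ)),
    S.Valid c0 C0 p PC tys → S9ParOk p d → ∀ x : ℝ,
      ∑ I ∈ S.cells.filter (fun I => x ∈ I.set), (∑ u ∈ S.uses.filter (fun u => u.2 = I), S.prin p x u) ^ s9pw
        ≤ C * s9X p d PC tys := by
  obtain ⟨C34, hC34, h34⟩ := s9k_34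
  obtain ⟨Ci, hCi, hmain⟩ := s9i_main (1 - 1 / 4160) 30 (by norm_num) (by norm_num) (by norm_num)
  refine ⟨1024 * Ci * C34 + 1, by nlinarith, ?_⟩
  intro d S c0 C0 PC p tys hV hP x
  have hPC := hV.PC_ge
  have hDs : (1 : ℝ) ≤ (p.Ds : ℝ) := by
    have : 100 ≤ p.Ds := hP.Ds_ge
    exact_mod_cast (by omega : 1 ≤ p.Ds)
  have hPL := s9m_PL_ge p d
  obtain ⟨Gs, hGs⟩ : ∃ Gs, Gs = (S.uses.filter (fun u => x ∈ u.2.set)).image Prod.fst := ⟨_, rfl⟩
  obtain ⟨Sc, hSc⟩ : ∃ Sc, Sc = (S.uses.filter (fun u => x ∈ u.2.set)).image (fun u => u.2.depth) := ⟨_, rfl⟩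
  have hok : ∀ cfg ∈ S.cfgs p x, S9CfgOk p cfg := fun cfg h => s9k_cfgOk hP x cfg h
  have key := hmain S9E ℕ ℤ (S.cfgs p x) Gs Sc (S.Nn p x) (S.Mm p x) (fun _ i => S.sd i = false)
    (C34 * s9PL p d) (4 * PC) (2 * PC) (p.Ds : ℝ) (by nlinarith) (by linarith) (by linarith) hDs
    (fun cfg _ g _ s _ => s9m_Nn_nonneg x cfg g s) (fun cfg _ i g _ => s9m_Mm_nonneg x cfg i g)
    (fun _ i j hi hj => by
      have hi' : S.sd i = true := by simpa using hi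
      have hj' : S.sd j = true := by simpa using hj
      exact Finset.card_le_one.1 hV.sd_le i (by simp [hi']) j (by simp [hj']))
    (fun cfg hc g _ i j hij => (h34 d S c0 C0 PC p tys hV hP x cfg (hok cfg hc) g Sc).1 i j hij)
    (fun cfg hc g _ X hX => (h34 d S c0 C0 PC p tys hV hP x cfg (hok cfg hc) g Sc).2 X hX)
    (fun cfg hc i => (s9k_28 hV hP x cfg hc Gs i).1)
    (fun cfg hc i hi => (s9k_28 hV hP x cfg hc Gs i).2.1 hi)
    (fun cfg hc i => (s9k_28 hV hP x cfg hc Gs i).2.2)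
  have hlog : 0 ≤ 3 + Real.logb 2 (2 * PC) + Real.logb 2 (p.Ds : ℝ) := by
    have h1 : 0 ≤ Real.logb 2 (2 * PC) := Real.logb_nonneg (by norm_num) (by linarith)
    have h2 : 0 ≤ Real.logb 2 (p.Ds : ℝ) := Real.logb_nonneg (by norm_num) hDs
    linarith
  have hX0 : 0 ≤ s9X p d PC tys := by
    unfold s9X
    have : 0 ≤ s9PL p d := by linarith
    positivity
  have hcard : ∀ inst : DecidableEq S9E, ((@Finset.image _ _ inst Prod.fst (S.cfgs p x)).card : ℝ)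
      ≤ (p.up.card : ℝ) * ((tys.card : ℝ) + 1) ^ 4 := by
    intro inst
    have h := s9k_nE hV x
    convert h
  calc ∑ I ∈ S.cells.filter (fun I => x ∈ I.set), (∑ u ∈ S.uses.filter (fun u => u.2 = I), S.prin p x u) ^ s9pw
      ≤ ∑ I ∈ S.cells.filter (fun I => x ∈ I.set), 64 * ∑ u ∈ S.uses.filter (fun u => u.2 = I),
          ∑ cfg ∈ S.cfgs p x, (cfg.ker * (∏ i, cfg.sg i) * ((S.tup p x cfg u).card : ℝ)) ^ s9pw :=
        Finset.sum_le_sum fun I hI => s9m_cell_pow hV hP x I (Finset.mem_filter.1 hI).2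
    _ = 64 * ∑ u ∈ S.uses.filter (fun u => x ∈ u.2.set),
          ∑ cfg ∈ S.cfgs p x, (cfg.ker * (∏ i, cfg.sg i) * ((S.tup p x cfg u).card : ℝ)) ^ s9pw := by
        rw [← Finset.mul_sum, s9m_sum_path hV x]
    _ = 64 * ∑ cfg ∈ S.cfgs p x, ∑ u ∈ S.uses.filter (fun u => x ∈ u.2.set),
          (cfg.ker * (∏ i, cfg.sg i) * ((S.tup p x cfg u).card : ℝ)) ^ s9pw := by
        rw [Finset.sum_comm]
    _ ≤ 64 * ∑ cfg ∈ S.cfgs p x, ∑ g ∈ Gs, ∑ s ∈ Sc, (cfg.ker * (∏ i, cfg.sg i) * S.Nn p x cfg g s) ^ s9pw := by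
        refine mul_le_mul_of_nonneg_left (Finset.sum_le_sum fun cfg _ => ?_) (by norm_num)
        rw [hGs, hSc]
        exact s9m_reindex x cfg (by linarith [s9pw_bounds.1])
    _ ≤ 64 * (Ci * ((p.up.card : ℝ) * ((tys.card : ℝ) + 1) ^ 4) * (C34 * s9PL p d) * (4 * PC) ^ 2 *
          (3 + Real.logb 2 (2 * PC) + Real.logb 2 (p.Ds : ℝ))) := by
        refine mul_le_mul_of_nonneg_left ?_ (by norm_num)
        refine le_trans key ?_
        refine mul_le_mul_of_nonneg_right ?_ hlog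
        refine mul_le_mul_of_nonneg_right ?_ (by positivity)
        refine mul_le_mul_of_nonneg_right ?_ (by nlinarith)
        exact mul_le_mul_of_nonneg_left (hcard _) hCi.le
    _ = 1024 * Ci * C34 * s9X p d PC tys := by
        unfold s9X
        ring
    _ ≤ (1024 * Ci * C34 + 1) * s9X p d PC tys := by nlinarith

/-! ### helpers of `s9_main` (LEAF P-S9-MAIN-C) -/

/-- sums over the uses, cell by cell -/
theorem s9m_sum_cells (hV : S.Valid c0 C0 p PC tys) (F : ℕ × Cell → ℝ) :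
    ∑ I ∈ S.cells, I.len * ∑ u ∈ S.uses.filter (fun u => u.2 = I), F u = ∑ u ∈ S.uses, u.2.len * F u := by
  rw [← Finset.sum_fiberwise_of_maps_to (fun u hu => hV.uses_sub u hu) (fun u => u.2.len * F u)]
  refine Finset.sum_congr rfl fun I _ => ?_
  rw [Finset.mul_sum]
  refine Finset.sum_congr rfl fun u hu => ?_
  rw [(Finset.mem_filter.1 hu).2]

/-- the elementary inequality for the tiny terms -/
theorem s9m_tiny {C1 D n : ℝ} (hC1 : 1 ≤ C1) (hD : 1 ≤ D) (hn : 0 ≤ n) :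
    (C1 * (D ^ 236)⁻¹ * n) ^ s9pw ≤ C1 * (D ^ 200)⁻¹ * (1 + n ^ 2) := by
  obtain ⟨hpw1, hpw2⟩ := s9pw_bounds
  have hpw0 : 0 < s9pw := by linarith
  have hD0 : 0 < D := by linarith
  have hδ0 : 0 < (D ^ 236)⁻¹ := by positivity
  rw [Real.mul_rpow (by positivity) hn, Real.mul_rpow (by linarith) hδ0.le]
  have h1 : C1 ^ s9pw ≤ C1 := by
    calc C1 ^ s9pw ≤ C1 ^ (1 : ℝ) := Real.rpow_le_rpow_of_exponent_le hC1 hpw2.le
      _ = C1 := Real.rpow_one _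
  have h2 : ((D ^ 236)⁻¹) ^ s9pw ≤ (D ^ 200)⁻¹ := by
    have e1 : (D ^ 236)⁻¹ = D ^ (-236 : ℝ) := by
      rw [Real.rpow_neg hD0.le]
      norm_cast
    have e2 : (D ^ 200)⁻¹ = D ^ (-200 : ℝ) := by
      rw [Real.rpow_neg hD0.le]
      norm_cast
    rw [e1, e2, ← Real.rpow_mul hD0.le]
    exact Real.rpow_le_rpow_of_exponent_le hD (by nlinarith)
  have h3 : n ^ s9pw ≤ 1 + n ^ 2 := by
    rcases le_total n 1 with h | h
    · have := Real.rpow_le_one hn h hpw0.le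
      nlinarith [sq_nonneg n]
    · calc n ^ s9pw ≤ n ^ (2 : ℝ) := Real.rpow_le_rpow_of_exponent_le h (by linarith)
        _ = n ^ 2 := by norm_cast
        _ ≤ 1 + n ^ 2 := by linarith
  have h4 : 0 ≤ n ^ s9pw := Real.rpow_nonneg hn _
  have h5 : 0 ≤ ((D ^ 236)⁻¹) ^ s9pw := Real.rpow_nonneg hδ0.le _
  have h6 : 0 ≤ C1 ^ s9pw := Real.rpow_nonneg (by linarith) _
  calc C1 ^ s9pw * ((D ^ 236)⁻¹) ^ s9pw * n ^ s9pw ≤ C1 * (D ^ 200)⁻¹ * (1 + n ^ 2) := by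
        apply mul_le_mul (mul_le_mul h1 h2 h5 (by linarith)) h3 h4 (by positivity)

theorem s9m_X_ge (hV : S.Valid c0 C0 p PC tys) (hP : S9ParOk p d) : 1 + PC ≤ s9X p d PC tys := by
  have hPC := hV.PC_ge
  have h1 : (1 : ℝ) ≤ (p.up.card : ℝ) := by exact_mod_cast Finset.card_pos.2 hP.up_ne
  have h2 : (1 : ℝ) ≤ ((tys.card : ℝ) + 1) ^ 4 := one_le_pow₀ (by linarith [(Nat.cast_nonneg tys.card : (0 : ℝ) ≤ tys.card)])
  have hW : 0 ≤ s9Wd d (4 * p.Bx p.Js) := by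
    unfold s9Wd
    apply Real.logb_nonneg (by norm_num)
    have : (0 : ℝ) ≤ ((d + 1 : ℕ) : ℝ) * (s8cCr (d + 1) (4 * p.Bx p.Js) : ℝ) := by positivity
    linarith
  have h3 : (1 : ℝ) ≤ s9PL p d := by
    unfold s9PL
    apply one_le_pow₀
    have : (0 : ℝ) ≤ (d : ℝ) := Nat.cast_nonneg _
    nlinarith
  have h4 : 0 ≤ Real.logb 2 (2 * PC) := Real.logb_nonneg (by norm_num) (by linarith)
  have h5 : 0 ≤ Real.logb 2 p.Ds := by
    apply Real.logb_nonneg (by norm_num)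
    have : (100 : ℝ) ≤ p.Ds := by exact_mod_cast hP.Ds_ge
    linarith
  unfold s9X
  have h6 : (1 : ℝ) ≤ (p.up.card : ℝ) * ((tys.card : ℝ) + 1) ^ 4 * s9PL p d := by
    calc (1 : ℝ) = 1 * 1 * 1 := by norm_num
      _ ≤ _ := by gcongr
  have h7 : PC ≤ PC ^ 2 := by nlinarith
  calc 1 + PC ≤ 1 * PC ^ 2 * 3 := by nlinarith
    _ ≤ (p.up.card : ℝ) * ((tys.card : ℝ) + 1) ^ 4 * s9PL p d * PC ^ 2 * (3 + Real.logb 2 (2 * PC) + Real.logb 2 p.Ds) := by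
        apply mul_le_mul (mul_le_mul h6 le_rfl (by positivity) (by linarith)) (by linarith) (by norm_num) (by positivity)

/-- the pointwise inequality on one cell -/
theorem s9m_cell_vv {C1 : ℝ} (hC1 : 1 ≤ C1) (hV : S.Valid c0 C0 p PC tys) (hP : S9ParOk p d)
    (hcell : ∀ u ∈ S.uses, ∀ x ∈ u.2.set,
      ‖form u.2 (S.w u.2) (S.arg u)‖ ≤ C1 * S.prin p x u + C1 * ((p.Ds : ℝ) ^ 236)⁻¹ * (1 + nnorm 2 u.2 (S.Sd u)))
    (I : Cell) (x : ℝ) (hx : x ∈ I.set) :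
    (max 0 (S.tot I - ∑ _u ∈ S.uses.filter (fun u => u.2 = I), C1 * ((p.Ds : ℝ) ^ 236)⁻¹)) ^ s9pw
      ≤ C1 * (∑ u ∈ S.uses.filter (fun u => u.2 = I), S.prin p x u) ^ s9pw
        + ∑ u ∈ S.uses.filter (fun u => u.2 = I), C1 * ((p.Ds : ℝ) ^ 200)⁻¹ * (1 + nnorm 2 u.2 (S.Sd u) ^ 2) := by
  obtain ⟨hpw1, hpw2⟩ := s9pw_bounds
  have hpw0 : 0 < s9pw := by linarith
  have hD : (1 : ℝ) ≤ (p.Ds : ℝ) := by
    have : (100 : ℝ) ≤ p.Ds := by exact_mod_cast hP.Ds_ge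
    linarith
  have hD0 : (0 : ℝ) < (p.Ds : ℝ) := by linarith
  have hn0 : ∀ u : ℕ × Cell, 0 ≤ nnorm 2 u.2 (S.Sd u) := fun u => nnorm_nonneg _ _ _
  have hP0 : 0 ≤ ∑ u ∈ S.uses.filter (fun u => u.2 = I), S.prin p x u :=
    Finset.sum_nonneg fun u _ => s9m_prin_nonneg hV x u
  have hT0 : ∀ u ∈ S.uses.filter (fun u => u.2 = I), 0 ≤ C1 * ((p.Ds : ℝ) ^ 236)⁻¹ * nnorm 2 u.2 (S.Sd u) :=
    fun u _ => mul_nonneg (by positivity) (hn0 u)
  have h1 : S.tot I ≤ ∑ u ∈ S.uses.filter (fun u => u.2 = I),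
      (C1 * S.prin p x u + C1 * ((p.Ds : ℝ) ^ 236)⁻¹ * (1 + nnorm 2 u.2 (S.Sd u))) := by
    unfold S9Sys.tot
    refine Finset.sum_le_sum fun u hu => ?_
    obtain ⟨hu1, hu2⟩ := Finset.mem_filter.1 hu
    subst hu2
    exact hcell u hu1 x hx
  have h2 : max 0 (S.tot I - ∑ _u ∈ S.uses.filter (fun u => u.2 = I), C1 * ((p.Ds : ℝ) ^ 236)⁻¹)
      ≤ C1 * (∑ u ∈ S.uses.filter (fun u => u.2 = I), S.prin p x u)
        + ∑ u ∈ S.uses.filter (fun u => u.2 = I), C1 * ((p.Ds : ℝ) ^ 236)⁻¹ * nnorm 2 u.2 (S.Sd u) := by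
    refine max_le (add_nonneg (mul_nonneg (by linarith) hP0) (Finset.sum_nonneg hT0)) ?_
    rw [sub_le_iff_le_add, Finset.mul_sum, ← Finset.sum_add_distrib, ← Finset.sum_add_distrib]
    refine h1.trans (le_of_eq (Finset.sum_congr rfl fun u _ => ?_))
    ring
  calc (max 0 (S.tot I - ∑ _u ∈ S.uses.filter (fun u => u.2 = I), C1 * ((p.Ds : ℝ) ^ 236)⁻¹)) ^ s9pw
      ≤ (C1 * (∑ u ∈ S.uses.filter (fun u => u.2 = I), S.prin p x u)
        + ∑ u ∈ S.uses.filter (fun u => u.2 = I), C1 * ((p.Ds : ℝ) ^ 236)⁻¹ * nnorm 2 u.2 (S.Sd u)) ^ s9pw :=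
        Real.rpow_le_rpow (le_max_left _ _) h2 hpw0.le
    _ ≤ (C1 * (∑ u ∈ S.uses.filter (fun u => u.2 = I), S.prin p x u)) ^ s9pw
        + (∑ u ∈ S.uses.filter (fun u => u.2 = I), C1 * ((p.Ds : ℝ) ^ 236)⁻¹ * nnorm 2 u.2 (S.Sd u)) ^ s9pw :=
        Real.rpow_add_le_add_rpow (mul_nonneg (by linarith) hP0) (Finset.sum_nonneg hT0) hpw0.le hpw2.le
    _ ≤ C1 * (∑ u ∈ S.uses.filter (fun u => u.2 = I), S.prin p x u) ^ s9pw
        + ∑ u ∈ S.uses.filter (fun u => u.2 = I), C1 * ((p.Ds : ℝ) ^ 200)⁻¹ * (1 + nnorm 2 u.2 (S.Sd u) ^ 2) := by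
        refine add_le_add ?_ ?_
        · rw [Real.mul_rpow (by linarith) hP0]
          refine mul_le_mul_of_nonneg_right ?_ (Real.rpow_nonneg hP0 _)
          calc C1 ^ s9pw ≤ C1 ^ (1 : ℝ) := Real.rpow_le_rpow_of_exponent_le hC1 hpw2.le
            _ = C1 := Real.rpow_one _
        · refine (s9m_rpow_sum_le _ _ hT0 hpw0 hpw2.le).trans (Finset.sum_le_sum fun u _ => ?_)
          exact s9m_tiny hC1 hD (hn0 u)

/-- the side square budget summed over the uses -/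
theorem s9m_side_sum (hV : S.Valid c0 C0 p PC tys) :
    ∑ u ∈ S.uses, u.2.len * nnorm 2 u.2 (S.Sd u) ^ 2 ≤ PC * S.root.len := by
  rw [← s9m_sum_cells hV]
  refine cell_chain_bound hV.cells_le _ (by linarith [hV.PC_ge]) fun L hL => ?_
  refine le_trans (le_of_eq ?_) (hV.Sd_cap L hL)
  rw [← Finset.sum_fiberwise_of_maps_to (s := S.uses.filter (fun u => L ≤ u.2)) (t := S.cells.filter (fun I => L ≤ I))
    (g := Prod.snd) (fun u hu => Finset.mem_filter.2 ⟨hV.uses_sub u (Finset.mem_filter.1 hu).1, (Finset.mem_filter.1 hu).2⟩)]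
  refine Finset.sum_congr rfl fun I hI => ?_
  refine Finset.sum_congr ?_ fun _ _ => rfl
  ext u
  simp only [Finset.mem_filter]
  constructor
  · rintro ⟨h1, h2⟩
    exact ⟨⟨h1, h2 ▸ (Finset.mem_filter.1 hI).2⟩, h2⟩
  · rintro ⟨⟨h1, _⟩, h2⟩
    exact ⟨h1, h2⟩

/-- **Prop. 9.3** in abstract form.  LEAF P-S9-MAIN-C -/
theorem s9_main (c0 C0 : ℝ) (hc0 : 0 < c0) (hC0 : 1 ≤ C0) : ∃ C : ℝ, 1 ≤ C ∧
    ∀ (d : ℕ) (S : S9Sys d) (p : S8Par) (PC : ℝ) (tys : Finset (ℕ × ℕ)), S.Valid c0 C0 p PC tys → S9ParOk p d →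
    ∃ uu vv : Cell → ℝ, (∀ I, 0 ≤ uu I) ∧ (∀ I, 0 ≤ vv I) ∧ (∀ I ∈ S.cells, S.tot I ≤ uu I + vv I) ∧
      ∑ I ∈ S.cells, I.len * uu I ≤ C * ((p.Ds : ℝ) ^ 200)⁻¹ * S.root.len ∧
      ∑ I ∈ S.cells, I.len * vv I ^ s9pw ≤ C * s9X p d PC tys * S.root.len := by
  obtain ⟨C1, hC1, hcell⟩ := s9c_cell c0 C0 hc0 hC0
  obtain ⟨Cp, hCp, hpath⟩ := s9m_path
  refine ⟨C1 * Cp + C1, by nlinarith, ?_⟩
  intro d S p PC tys hV hP
  have hD : (100 : ℝ) ≤ (p.Ds : ℝ) := by exact_mod_cast hP.Ds_ge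
  have hD0 : (0 : ℝ) < (p.Ds : ℝ) := by linarith
  have hD1 : (1 : ℝ) ≤ (p.Ds : ℝ) := by linarith
  have hR0 : 0 < S.root.len := cell_len_pos _
  have hPC := hV.PC_ge
  have hX := s9m_X_ge hV hP
  have hn0 : ∀ u : ℕ × Cell, 0 ≤ nnorm 2 u.2 (S.Sd u) := fun u => nnorm_nonneg _ _ _
  have hkey := s9m_cell_vv hC1 hV hP (hcell d S p PC tys hV hP)
  refine ⟨fun I => ∑ _u ∈ S.uses.filter (fun u => u.2 = I), C1 * ((p.Ds : ℝ) ^ 236)⁻¹,
    fun I => max 0 (S.tot I - ∑ _u ∈ S.uses.filter (fun u => u.2 = I), C1 * ((p.Ds : ℝ) ^ 236)⁻¹),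
    fun I => Finset.sum_nonneg fun _ _ => by positivity, fun I => le_max_left _ _, fun I _ => ?_, ?_, ?_⟩
  · have := le_max_right 0 (S.tot I - ∑ _u ∈ S.uses.filter (fun u => u.2 = I), C1 * ((p.Ds : ℝ) ^ 236)⁻¹)
    linarith
  · rw [s9m_sum_cells hV, ← Finset.sum_mul]
    have e1 : (p.Ds : ℝ) * ((p.Ds : ℝ) ^ 236)⁻¹ ≤ ((p.Ds : ℝ) ^ 200)⁻¹ := by
      have : (p.Ds : ℝ) * ((p.Ds : ℝ) ^ 236)⁻¹ = ((p.Ds : ℝ) ^ 235)⁻¹ := by
        rw [pow_succ (p.Ds : ℝ) 235]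
        field_simp
      rw [this]
      exact inv_anti₀ (by positivity) (pow_le_pow_right₀ hD1 (by norm_num))
    calc (∑ u ∈ S.uses, u.2.len) * (C1 * ((p.Ds : ℝ) ^ 236)⁻¹)
        ≤ (p.Ds * S.root.len) * (C1 * ((p.Ds : ℝ) ^ 236)⁻¹) :=
          mul_le_mul_of_nonneg_right hV.use_len (by positivity)
      _ = C1 * ((p.Ds : ℝ) * ((p.Ds : ℝ) ^ 236)⁻¹) * S.root.len := by ring
      _ ≤ C1 * ((p.Ds : ℝ) ^ 200)⁻¹ * S.root.len := by gcongr
      _ ≤ (C1 * Cp + C1) * ((p.Ds : ℝ) ^ 200)⁻¹ * S.root.len := by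
          have : C1 ≤ C1 * Cp + C1 := by nlinarith
          gcongr
  · -- the power sum
    set vv : Cell → ℝ :=
      fun I => max 0 (S.tot I - ∑ _u ∈ S.uses.filter (fun u => u.2 = I), C1 * ((p.Ds : ℝ) ^ 236)⁻¹) with hvv
    set bb : Cell → ℝ :=
      fun I => ∑ u ∈ S.uses.filter (fun u => u.2 = I), C1 * ((p.Ds : ℝ) ^ 200)⁻¹ * (1 + nnorm 2 u.2 (S.Sd u) ^ 2) with hbb
    set v1 : Cell → ℝ := fun I => max 0 (vv I ^ s9pw - bb I) with hv1
    have hA : ∑ I ∈ S.cells, I.len * v1 I ≤ C1 * (Cp * s9X p d PC tys) * S.root.len := by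
      refine cell_path_bound hV.cells_le v1 fun y _ => ?_
      have e : ∑ I ∈ S.cells, I.set.indicator (fun _ => v1 I) y = ∑ I ∈ S.cells.filter (fun I => y ∈ I.set), v1 I := by
        rw [Finset.sum_filter]
        exact Finset.sum_congr rfl fun I _ => by rw [Set.indicator_apply]
      rw [e]
      calc ∑ I ∈ S.cells.filter (fun I => y ∈ I.set), v1 I
          ≤ ∑ I ∈ S.cells.filter (fun I => y ∈ I.set),
              C1 * (∑ u ∈ S.uses.filter (fun u => u.2 = I), S.prin p y u) ^ s9pw := by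
            refine Finset.sum_le_sum fun I hI => ?_
            have hy : y ∈ I.set := (Finset.mem_filter.1 hI).2
            refine max_le (mul_nonneg (by linarith) (Real.rpow_nonneg
              (Finset.sum_nonneg fun u _ => s9m_prin_nonneg hV y u) _)) ?_
            rw [sub_le_iff_le_add]
            exact hkey I y hy
        _ = C1 * ∑ I ∈ S.cells.filter (fun I => y ∈ I.set),
              (∑ u ∈ S.uses.filter (fun u => u.2 = I), S.prin p y u) ^ s9pw := by rw [Finset.mul_sum]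
        _ ≤ C1 * (Cp * s9X p d PC tys) :=
            mul_le_mul_of_nonneg_left (hpath d S c0 C0 PC p tys hV hP y) (by linarith)
    have hB : ∑ I ∈ S.cells, I.len * bb I ≤ C1 * (1 + PC) * S.root.len := by
      rw [s9m_sum_cells hV]
      have e : ∑ u ∈ S.uses, u.2.len * (C1 * ((p.Ds : ℝ) ^ 200)⁻¹ * (1 + nnorm 2 u.2 (S.Sd u) ^ 2))
          = C1 * ((p.Ds : ℝ) ^ 200)⁻¹ * (∑ u ∈ S.uses, u.2.len + ∑ u ∈ S.uses, u.2.len * nnorm 2 u.2 (S.Sd u) ^ 2) := by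
        rw [← Finset.sum_add_distrib, Finset.mul_sum]
        exact Finset.sum_congr rfl fun u _ => by ring
      rw [e]
      have e1 : ((p.Ds : ℝ) ^ 200)⁻¹ * (p.Ds : ℝ) ≤ 1 := by
        have : ((p.Ds : ℝ) ^ 200)⁻¹ * (p.Ds : ℝ) = ((p.Ds : ℝ) ^ 199)⁻¹ := by
          rw [pow_succ (p.Ds : ℝ) 199]
          field_simp
        rw [this]
        exact inv_le_one_of_one_le₀ (one_le_pow₀ hD1)
      have e2 : ((p.Ds : ℝ) ^ 200)⁻¹ ≤ 1 := inv_le_one_of_one_le₀ (one_le_pow₀ hD1)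
      have e3 : (0 : ℝ) ≤ ((p.Ds : ℝ) ^ 200)⁻¹ := by positivity
      calc C1 * ((p.Ds : ℝ) ^ 200)⁻¹ * (∑ u ∈ S.uses, u.2.len + ∑ u ∈ S.uses, u.2.len * nnorm 2 u.2 (S.Sd u) ^ 2)
          ≤ C1 * ((p.Ds : ℝ) ^ 200)⁻¹ * (p.Ds * S.root.len + PC * S.root.len) :=
            mul_le_mul_of_nonneg_left (add_le_add hV.use_len (s9m_side_sum hV)) (by positivity)
        _ = C1 * ((((p.Ds : ℝ) ^ 200)⁻¹ * (p.Ds : ℝ)) + ((p.Ds : ℝ) ^ 200)⁻¹ * PC) * S.root.len := by ring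
        _ ≤ C1 * (1 + 1 * PC) * S.root.len := by gcongr
        _ = C1 * (1 + PC) * S.root.len := by ring
    calc ∑ I ∈ S.cells, I.len * vv I ^ s9pw ≤ ∑ I ∈ S.cells, (I.len * v1 I + I.len * bb I) := by
          refine Finset.sum_le_sum fun I _ => ?_
          rw [← mul_add]
          refine mul_le_mul_of_nonneg_left ?_ (cell_len_pos I).le
          have := le_max_right 0 (vv I ^ s9pw - bb I)
          linarith
      _ = ∑ I ∈ S.cells, I.len * v1 I + ∑ I ∈ S.cells, I.len * bb I := Finset.sum_add_distrib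
      _ ≤ C1 * (Cp * s9X p d PC tys) * S.root.len + C1 * (1 + PC) * S.root.len := add_le_add hA hB
      _ ≤ C1 * (Cp * s9X p d PC tys) * S.root.len + C1 * s9X p d PC tys * S.root.len := by gcongr
      _ = (C1 * Cp + C1) * s9X p d PC tys * S.root.len := by ring

end

end Claimed.Agent.R258
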